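import Mathlib

/-!
# Smoothness of parametric interval integrals (row 216)

* `contDiff_param_integral` : `x ↦ ∫ t in a..b, h x t` is `C^n` if `h` is jointly `C^n`.
* `contDiff_param_primitive` : `(x, s) ↦ ∫ t in 0..s, h x t` is `C^n`.
* version with variable lower limit constant `c`.
-/

set_option autoImplicit false

open MeasureTheory Set Filter Topology
open scoped ContDiff Convolution

namespace Crest.Agent.R216

variable {P : Type*} [NormedAddCommGroup P] [NormedSpace ℝ P]
  {F : Type*} [NormedAddCommGroup F] [NormedSpace ℝ F]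

theorem contDiff_param_setIntegral {n : ℕ∞} {h : P → ℝ → F} {k : Set ℝ} (hk : IsCompact k)
    {f : ℝ → ℝ} (hf : LocallyIntegrable f) (hh : ContDiff ℝ n (Function.uncurry h))
    (hsupp : ∀ t, t ∉ k → f t = 0) :
    ContDiff ℝ n (fun x => ∫ t, f t • h x t) := by
  classical
  -- choose a smooth cut-off equal to one on `k`
  obtain ⟨R, hR, hkR⟩ : ∃ R : ℝ, 0 < R ∧ k ⊆ Metric.closedBall (0:ℝ) R := by
    obtain ⟨R, hR⟩ := hk.isBounded.subset_closedBall (0:ℝ)
    exact ⟨max R 1, lt_of_lt_of_le one_pos (le_max_right _ _),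
      hR.trans (Metric.closedBall_subset_closedBall (le_max_left _ _))⟩
  let ψ : ContDiffBump (0:ℝ) := ⟨R, R + 1, hR, by linarith⟩
  have hψ1 : ∀ t ∈ k, ψ t = 1 := fun t ht => ψ.one_of_mem_closedBall (hkR ht)
  have key : ∀ x, ∫ t, f t • h x t
      = ((f ⋆[ContinuousLinearMap.lsmul ℝ ℝ, volume] (fun s => ψ (-s) • h x (-s))) (0:ℝ)) := by
    intro x
    rw [convolution_def]
    refine integral_congr_ae (Filter.Eventually.of_forall fun t => ?_)
    simp only [ContinuousLinearMap.lsmul_apply, zero_sub, neg_neg]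
    by_cases ht : t ∈ k
    · rw [hψ1 t ht, one_smul]
    · rw [hsupp t ht, zero_smul, zero_smul]
  simp_rw [key]
  rw [← contDiffOn_univ]
  refine contDiffOn_convolution_right_with_param_comp (ContinuousLinearMap.lsmul ℝ ℝ)
    (v := fun _ => (0:ℝ)) contDiffOn_const isOpen_univ
    (k := Metric.closedBall (0:ℝ) (R+1)) (isCompact_closedBall _ _) ?_ hf ?_
  · intro p s _ hs
    have : ψ (-s) = 0 := by
      apply ψ.zero_of_le_dist
      simp only [Metric.mem_closedBall, dist_zero_right, not_le] at hs
      simp only [dist_zero_right, norm_neg]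
      exact hs.le
    simp [this]
  · refine ContDiff.contDiffOn ?_
    have h1 : ContDiff ℝ n (fun q : P × ℝ => ψ (-q.2)) := ψ.contDiff.comp contDiff_snd.neg
    have h2 : ContDiff ℝ n (fun q : P × ℝ => h q.1 (-q.2)) :=
      hh.comp (contDiff_fst.prodMk contDiff_snd.neg)
    exact h1.smul h2

theorem contDiff_param_integral {n : ℕ∞} {h : P → ℝ → F} (a b : ℝ)
    (hh : ContDiff ℝ n (Function.uncurry h)) :
    ContDiff ℝ n (fun x => ∫ t in a..b, h x t) := by
  have base : ∀ a b : ℝ, ContDiff ℝ n (fun x => ∫ t in Ioc a b, h x t) := by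
    intro a b
    have := contDiff_param_setIntegral (n := n) (h := h) (k := Icc a b) isCompact_Icc
      (f := (Ioc a b).indicator (fun _ => (1:ℝ)))
      ((locallyIntegrable_const (1:ℝ)).indicator measurableSet_Ioc) hh
      (by
        intro t ht
        exact Set.indicator_of_notMem (fun h => ht (Ioc_subset_Icc_self h)) _)
    have e : (fun x => ∫ t in Ioc a b, h x t)
        = fun x => ∫ t, (Ioc a b).indicator (fun _ => (1:ℝ)) t • h x t := by
      funext x
      rw [← integral_indicator measurableSet_Ioc]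
      congr 1
      ext t
      by_cases ht : t ∈ Ioc a b
      · simp [ht]
      · simp [ht]
    rw [e]
    exact this
  simp_rw [intervalIntegral]
  exact (base a b).sub (base b a)

theorem contDiff_param_primitive_zero {n : ℕ∞} {h : P → ℝ → F}
    (hh : ContDiff ℝ n (Function.uncurry h)) :
    ContDiff ℝ n (fun x : P × ℝ => ∫ t in (0:ℝ)..x.2, h x.1 t) := by
  have h1 : ∀ x : P × ℝ, ∫ t in (0:ℝ)..x.2, h x.1 t
      = x.2 • ∫ t in (0:ℝ)..1, h x.1 (x.2 * t) := by
    intro x
    rw [intervalIntegral.smul_integral_comp_mul_left]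
    simp
  simp_rw [h1]
  refine contDiff_snd.smul ?_
  refine contDiff_param_integral (P := P × ℝ) (h := fun x t => h x.1 (x.2 * t)) 0 1 ?_
  have : ContDiff ℝ n (fun q : (P × ℝ) × ℝ => (q.1.1, q.1.2 * q.2)) := by fun_prop
  exact hh.comp this

theorem contDiff_param_primitive {n : ℕ∞} {h : P → ℝ → F} (c : ℝ)
    (hh : ContDiff ℝ n (Function.uncurry h)) :
    ContDiff ℝ n (fun x : P × ℝ => ∫ t in c..x.2, h x.1 t) := by
  have hint : ∀ (x : P) (a b : ℝ), IntervalIntegrable (h x) volume a b := by
    intro x a b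
    have : Continuous (h x) := hh.continuous.comp (continuous_const.prodMk continuous_id)
    exact this.intervalIntegrable _ _
  have h1 : ∀ x : P × ℝ, ∫ t in c..x.2, h x.1 t
      = (∫ t in (0:ℝ)..x.2, h x.1 t) - ∫ t in (0:ℝ)..c, h x.1 t := by
    intro x
    rw [intervalIntegral.integral_interval_sub_left (hint _ _ _) (hint _ _ _)]
  simp_rw [h1]
  exact (contDiff_param_primitive_zero hh).sub
    ((contDiff_param_integral 0 c hh).comp contDiff_fst)

omit [NormedSpace ℝ P] in
/-- derivative of the primitive in the last variable -/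
theorem hasDerivAt_param_primitive {h : P → ℝ → F} [CompleteSpace F] (c : ℝ)
    (hh : Continuous (Function.uncurry h)) (x : P) (s : ℝ) :
    HasDerivAt (fun s => ∫ t in c..s, h x t) (h x s) s := by
  have hc : Continuous (h x) := hh.comp (continuous_const.prodMk continuous_id)
  exact intervalIntegral.integral_hasDerivAt_right (hc.intervalIntegrable _ _)
    hc.aestronglyMeasurable.stronglyMeasurableAtFilter hc.continuousAt

end Crest.Agent.R216
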