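import Crest.Agent.R216.EngDefs

/-!
# Row 216, Theorem E: exponent calculus for the weights `W j m l = a^j η^m Λ^l`.
-/

open Set Topology
open scoped ContDiff

namespace Crest.Agent.R216.TE

namespace EFam
variable {𝓔 : EFam}

lemma Lam_pos' (i : 𝓔.I) : 0 < 𝓔.Lam i := lt_of_lt_of_le one_pos (𝓔.one_le i)

lemma eps_pos (i : 𝓔.I) : 0 < 𝓔.eps i := pow_pos (𝓔.η_pos i) _

lemma η_le_one (i : 𝓔.I) : 𝓔.η i ≤ 1 := by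
  have h1 : (1 : ℝ) ≤ 𝓔.Lam i ^ 10 := one_le_pow₀ (𝓔.one_le i)
  have h2 := 𝓔.Lam_η i
  have h3 := 𝓔.η_pos i
  nlinarith

lemma eps_le_one (i : 𝓔.I) : 𝓔.eps i ≤ 1 := pow_le_one₀ (𝓔.η_pos i).le (η_le_one i)

lemma W_pos (j m l : ℕ) (i : 𝓔.I) {x : X2} (hx : x ∈ 𝓔.D i) : 0 < 𝓔.W j m l i x := by
  have h1 := 𝓔.a_pos i x hx
  have h2 := 𝓔.η_pos i
  have h3 := Lam_pos' (𝓔 := 𝓔) i
  simp only [W]
  positivity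

lemma W_nn (j m l : ℕ) : Fam.Nn (𝓔.W j m l) := fun i _ hx => (W_pos j m l i hx).le

/-- `a^j η^m Λ^l ≤ C a^{j'} η^{m'} Λ^{l'}` as soon as `j' ≤ j`, `m' ≤ m`, `l ≤ l' + 10 (m - m')`. -/
lemma W_le {j m l j' m' l' : ℕ} (hj : j' ≤ j) (hm : m' ≤ m) (hl : l + 10 * m' ≤ l' + 10 * m) :
    ∃ C, 0 < C ∧ ∀ i, ∀ x ∈ 𝓔.D i, 𝓔.W j m l i x ≤ C * 𝓔.W j' m' l' i x := by
  obtain ⟨A, hA, ha⟩ := 𝓔.a_le
  refine ⟨A ^ (j - j'), by positivity, fun i x hx => ?_⟩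
  have h1 := 𝓔.a_pos i x hx
  have h2 := 𝓔.η_pos i
  have h3 := Lam_pos' (𝓔 := 𝓔) i
  have h3' := 𝓔.one_le i
  have e1 : 𝓔.a i x ^ j ≤ A ^ (j - j') * 𝓔.a i x ^ j' := by
    have : 𝓔.a i x ^ j = 𝓔.a i x ^ (j - j') * 𝓔.a i x ^ j' := by
      rw [← pow_add]; congr 1; omega
    rw [this]
    exact mul_le_mul_of_nonneg_right (pow_le_pow_left₀ h1.le (ha i x hx) _) (by positivity)
  have e2 : 𝓔.η i ^ m * 𝓔.Lam i ^ l ≤ 𝓔.η i ^ m' * 𝓔.Lam i ^ l' := by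
    have s1 : 𝓔.Lam i ^ l ≤ 𝓔.Lam i ^ (l' + 10 * (m - m')) :=
      pow_le_pow_right₀ h3' (by omega)
    have s2 : 𝓔.Lam i ^ (l' + 10 * (m - m')) = 𝓔.Lam i ^ l' * (𝓔.Lam i ^ 10) ^ (m - m') := by
      rw [pow_add, pow_mul]
    have s3 : 𝓔.η i ^ m = 𝓔.η i ^ m' * 𝓔.η i ^ (m - m') := by
      rw [← pow_add]; congr 1; omega
    have s4 : (𝓔.Lam i ^ 10 * 𝓔.η i) ^ (m - m') ≤ 1 := pow_le_one₀ (by positivity) (𝓔.Lam_η i)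
    calc 𝓔.η i ^ m * 𝓔.Lam i ^ l
        ≤ 𝓔.η i ^ m * 𝓔.Lam i ^ (l' + 10 * (m - m')) :=
          mul_le_mul_of_nonneg_left s1 (by positivity)
      _ = (𝓔.η i ^ m' * 𝓔.Lam i ^ l') * (𝓔.Lam i ^ 10 * 𝓔.η i) ^ (m - m') := by
          rw [s2, s3, mul_pow]; ring
      _ ≤ (𝓔.η i ^ m' * 𝓔.Lam i ^ l') * 1 := mul_le_mul_of_nonneg_left s4 (by positivity)
      _ = _ := mul_one _
  calc 𝓔.W j m l i x = 𝓔.a i x ^ j * (𝓔.η i ^ m * 𝓔.Lam i ^ l) := by simp only [W]; ring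
    _ ≤ (A ^ (j - j') * 𝓔.a i x ^ j') * (𝓔.η i ^ m' * 𝓔.Lam i ^ l') :=
        mul_le_mul e1 e2 (by positivity) (by positivity)
    _ = _ := by simp only [W]; ring

variable {V : Type*} [NormedAddCommGroup V] [NormedSpace ℝ V]

lemma B_le {j m l j' m' l' : ℕ} {u : 𝓔.I → Q → V} (h : 𝓔.toFam.B (𝓔.W j m l) u)
    (hj : j' ≤ j) (hm : m' ≤ m) (hl : l + 10 * m' ≤ l' + 10 * m) :
    𝓔.toFam.B (𝓔.W j' m' l') u := by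
  obtain ⟨C, hC, hw⟩ := W_le (𝓔 := 𝓔) hj hm hl
  exact h.mono hC hw

lemma B_weq {w : 𝓔.I → X2 → ℝ} {j m l : ℕ} {u : 𝓔.I → Q → V} (h : 𝓔.toFam.B w u)
    (hw : ∀ i, ∀ x ∈ 𝓔.D i, w i x = 𝓔.W j m l i x) : 𝓔.toFam.B (𝓔.W j m l) u :=
  h.weight_congr hw

lemma B_mul {j m l j' m' l' : ℕ} {u v : 𝓔.I → Q → ℝ} (h : 𝓔.toFam.B (𝓔.W j m l) u)
    (h' : 𝓔.toFam.B (𝓔.W j' m' l') v) :
    𝓔.toFam.B (𝓔.W (j+j') (m+m') (l+l')) (fun i z => u i z * v i z) :=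
  B_weq (Fam.B.mul (W_nn _ _ _) (W_nn _ _ _) h h') (fun i x _ => by simp only [W]; ring)

lemma B_smul {j m l j' m' l' : ℕ} {u : 𝓔.I → Q → ℝ} {v : 𝓔.I → Q → V}
    (h : 𝓔.toFam.B (𝓔.W j m l) u) (h' : 𝓔.toFam.B (𝓔.W j' m' l') v) :
    𝓔.toFam.B (𝓔.W (j+j') (m+m') (l+l')) (fun i z => u i z • v i z) :=
  B_weq (Fam.B.smul (W_nn _ _ _) (W_nn _ _ _) h h') (fun i x _ => by simp only [W]; ring)

lemma B_inner {j m l j' m' l' : ℕ} {u v : 𝓔.I → Q → E4} (h : 𝓔.toFam.B (𝓔.W j m l) u)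
    (h' : 𝓔.toFam.B (𝓔.W j' m' l') v) :
    𝓔.toFam.B (𝓔.W (j+j') (m+m') (l+l')) (fun i z => inner ℝ (u i z) (v i z)) :=
  B_weq (Fam.B.inner (W_nn _ _ _) (W_nn _ _ _) h h') (fun i x _ => by simp only [W]; ring)

lemma B_pd {j m l : ℕ} {u : 𝓔.I → Q → V} (h : 𝓔.toFam.B (𝓔.W j m l) u) (k : Fin 3) :
    𝓔.toFam.B (𝓔.W j m (l+1)) (fun i => pd k (u i)) :=
  B_weq (Fam.B.pd h k) (fun i x _ => by simp only [W]; ring)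

/-- multiplication by `ε` -/
lemma B_eps {j m l : ℕ} {u : 𝓔.I → Q → V} (h : 𝓔.toFam.B (𝓔.W j m l) u) :
    𝓔.toFam.B (𝓔.W j (m+16) l) (fun i z => 𝓔.eps i • u i z) :=
  B_weq (Fam.B.smul_const 𝓔.eps (W_nn _ _ _) h) (fun i x _ => by
    rw [abs_of_pos (eps_pos i)]; simp only [W, eps]; ring)

/-- division by `ε` -/
lemma B_epsInv {j m l : ℕ} {u : 𝓔.I → Q → V} (h : 𝓔.toFam.B (𝓔.W j (m+16) l) u) :
    𝓔.toFam.B (𝓔.W j m l) (fun i z => (𝓔.eps i)⁻¹ • u i z) :=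
  B_weq (Fam.B.smul_const (fun i => (𝓔.eps i)⁻¹) (W_nn _ _ _) h) (fun i x _ => by
    have h2 := (𝓔.η_pos i).ne'
    rw [abs_of_pos (inv_pos.2 (eps_pos i))]; simp only [W, eps]; field_simp; ring)

/-- multiplication by `a^k` -/
lemma B_apow (k : ℕ) : 𝓔.toFam.B (𝓔.W k 0 0) (fun i z => 𝓔.a i z.1 ^ k) := by
  induction k with
  | zero =>
    have := Fam.B.const (𝓕 := 𝓔.toFam) (V := ℝ) (w := 𝓔.W 0 0 0) (fun _ => (1 : ℝ))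
      ⟨1, one_pos, fun i x _ => by simp [W]⟩ (W_nn _ _ _)
    simpa using this
  | succ k ih =>
    have ha : 𝓔.toFam.B (𝓔.W 1 0 0) (fun i z => 𝓔.a i z.1) :=
      B_weq (u := fun i z => 𝓔.a i z.1) 𝓔.a_B (fun i x _ => by simp [W])
    have := B_mul ih ha
    simpa [pow_succ] using this

/-- division by a quantity comparable to `a^k` -/
lemma B_inv {k : ℕ} {u : 𝓔.I → Q → ℝ} (h : 𝓔.toFam.B (𝓔.W k 0 0) u)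
    (hlow : ∃ c, 0 < c ∧ ∀ i, ∀ z ∈ 𝓔.toFam.dom i, c * 𝓔.a i z.1 ^ k ≤ u i z)
    {j m l : ℕ} {v : 𝓔.I → Q → V} (hv : 𝓔.toFam.B (𝓔.W (j+k) m l) v) :
    𝓔.toFam.B (𝓔.W j m l) (fun i z => (u i z)⁻¹ • v i z) := by
  obtain ⟨c, hc, hlow⟩ := hlow
  have h1 := Fam.B.inv (𝓕 := 𝓔.toFam) (w := 𝓔.W k 0 0) hc (fun i x hx => W_pos _ _ _ i hx)
    (fun i z hz => by simpa [W] using hlow i z hz) h
  refine B_weq (Fam.B.smul (fun i x hx => (inv_pos.2 (W_pos _ _ _ i hx)).le) (W_nn _ _ _) h1 hv)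
    (fun i x hx => ?_)
  have h2 := (𝓔.a_pos i x hx).ne'
  simp only [W]
  field_simp
  ring

/-- division by `a^k` -/
lemma B_div {j m l k : ℕ} {u : 𝓔.I → Q → V} (h : 𝓔.toFam.B (𝓔.W (j+k) m l) u) :
    𝓔.toFam.B (𝓔.W j m l) (fun i z => ((𝓔.a i z.1 ^ k)⁻¹ : ℝ) • u i z) :=
  B_inv (B_apow k) ⟨1, one_pos, fun i z _ => by rw [one_mul]⟩ h

/-! ### convenient versions -/

lemma B_add {j m l : ℕ} {u v : 𝓔.I → Q → V} (h : 𝓔.toFam.B (𝓔.W j m l) u)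
    (h' : 𝓔.toFam.B (𝓔.W j m l) v) : 𝓔.toFam.B (𝓔.W j m l) (fun i z => u i z + v i z) :=
  Fam.B.add h h'

lemma B_sub {j m l : ℕ} {u v : 𝓔.I → Q → V} (h : 𝓔.toFam.B (𝓔.W j m l) u)
    (h' : 𝓔.toFam.B (𝓔.W j m l) v) : 𝓔.toFam.B (𝓔.W j m l) (fun i z => u i z - v i z) :=
  Fam.B.sub (W_nn _ _ _) h h'

lemma B_neg {j m l : ℕ} {u : 𝓔.I → Q → V} (h : 𝓔.toFam.B (𝓔.W j m l) u) :
    𝓔.toFam.B (𝓔.W j m l) (fun i z => - u i z) :=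
  Fam.B.neg (W_nn _ _ _) h

lemma B_csmul {j m l : ℕ} {u : 𝓔.I → Q → V} (c : ℝ) (h : 𝓔.toFam.B (𝓔.W j m l) u) :
    𝓔.toFam.B (𝓔.W j m l) (fun i z => c • u i z) :=
  Fam.B.const_smul c (W_nn _ _ _) h

lemma B_cmul {j m l : ℕ} {u : 𝓔.I → Q → ℝ} (c : ℝ) (h : 𝓔.toFam.B (𝓔.W j m l) u) :
    𝓔.toFam.B (𝓔.W j m l) (fun i z => c * u i z) := by
  simpa [smul_eq_mul] using B_csmul c h

lemma B_zero {j m l : ℕ} : 𝓔.toFam.B (𝓔.W j m l) (fun _ _ => (0 : V)) :=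
  Fam.B.zero (W_nn _ _ _)

/-- a constant -/
lemma B_const (c : V) : 𝓔.toFam.B (𝓔.W 0 0 0) (fun _ _ => c) :=
  Fam.B.const (fun _ => c) ⟨‖c‖ + 1, by positivity, fun i x _ => by simp [W]⟩ (W_nn _ _ _)

lemma B_mulR {j m l j' m' l' : ℕ} {u v : 𝓔.I → Q → ℝ} (h : 𝓔.toFam.B (𝓔.W j m l) u)
    (h' : 𝓔.toFam.B (𝓔.W j' m' l') v) {j'' m'' l'' : ℕ} (hj : j'' ≤ j + j') (hm : m'' ≤ m + m')
    (hl : (l + l') + 10 * m'' ≤ l'' + 10 * (m + m')) :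
    𝓔.toFam.B (𝓔.W j'' m'' l'') (fun i z => u i z * v i z) := B_le (B_mul h h') hj hm hl

lemma B_innerR {j m l j' m' l' : ℕ} {u v : 𝓔.I → Q → E4} (h : 𝓔.toFam.B (𝓔.W j m l) u)
    (h' : 𝓔.toFam.B (𝓔.W j' m' l') v) {j'' m'' l'' : ℕ} (hj : j'' ≤ j + j') (hm : m'' ≤ m + m')
    (hl : (l + l') + 10 * m'' ≤ l'' + 10 * (m + m')) :
    𝓔.toFam.B (𝓔.W j'' m'' l'') (fun i z => inner ℝ (u i z) (v i z)) := B_le (B_inner h h') hj hm hl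

/-- the derivative `A1 = ∂₁ + ε⁻¹ ∂_t` of `ε u`: it is `ε ∂₁ u + ∂_t u`. -/
lemma B_A1 {j m l : ℕ} {u : 𝓔.I → Q → V} (h : 𝓔.toFam.B (𝓔.W j (m+16) l) u) :
    𝓔.toFam.B (𝓔.W j m (l+1)) (𝓔.A1 u) := by
  have h1 := B_le (B_pd h 0) (j' := j) (m' := m) (l' := l+1) le_rfl (by omega) (by omega)
  have h2 := B_epsInv (m := m) (B_pd h 2)
  exact B_add h1 h2

lemma B_A2 {j m l : ℕ} {u : 𝓔.I → Q → V} (h : 𝓔.toFam.B (𝓔.W j m l) u) :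
    𝓔.toFam.B (𝓔.W j m (l+1)) (𝓔.A2 u) := B_pd h 1

end EFam
end Crest.Agent.R216.TE
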