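import Crest.Agent.R216.AlgP
import Crest.Agent.R216.EngExp

/-!
# Row 216, Theorem E: class versions of the linear algebra in `ℝ⁴`
(`gram`, dual frame, projection to `span(B,C)`, rotation in `Π`).
-/

open Set Topology MeasureTheory
open scoped ContDiff

namespace Crest.Agent.R216.TE

section AlgClass
variable {𝓔 : EFam} {A B C : 𝓔.I → Q → E4}

/-- components of a vector valued function -/
lemma B_comp {j m l : ℕ} {u : 𝓔.I → Q → E4} (h : 𝓔.toFam.B (𝓔.W j m l) u) (k : Fin 4) :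
    𝓔.toFam.B (𝓔.W j m l) (fun i z => u i z k) :=
  Fam.B.clm (EuclideanSpace.proj k : E4 →L[ℝ] ℝ) (EFam.W_nn _ _ _) h

/-- a vector valued function whose components are in the class -/
lemma B_of_comp {j m l : ℕ} {u : 𝓔.I → Q → E4}
    (h : ∀ k : Fin 4, 𝓔.toFam.B (𝓔.W j m l) (fun i z => u i z k)) :
    𝓔.toFam.B (𝓔.W j m l) u := by
  have h1 : ∀ k : Fin 4, 𝓔.toFam.B (𝓔.W j m l)
      (fun i z => u i z k • (EuclideanSpace.single k (1:ℝ) : E4)) := fun k =>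
    EFam.B_smul (h k) (EFam.B_const (𝓔 := 𝓔) (EuclideanSpace.single k (1:ℝ) : E4))
  refine (EFam.B_add (EFam.B_add (EFam.B_add (h1 0) (h1 1)) (h1 2)) (h1 3)).congr
    (fun i z _ => ?_)
  ext k
  fin_cases k <;> simp

lemma B_gram (hB : 𝓔.toFam.B (𝓔.W 0 0 0) B) (hC : 𝓔.toFam.B (𝓔.W 0 0 0) C) :
    𝓔.toFam.B (𝓔.W 0 0 0) (fun i z => gram (B i z) (C i z)) := by
  have h1 := EFam.B_mul (EFam.B_inner hB hB) (EFam.B_inner hC hC)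
  have h2 := EFam.B_mul (EFam.B_inner hB hC) (EFam.B_inner hB hC)
  refine (EFam.B_sub h1 h2).congr (fun i z _ => ?_)
  simp only [gram, pow_two]

lemma B_gram_inv {j m l : ℕ} {V : Type*} [NormedAddCommGroup V] [NormedSpace ℝ V]
    {v : 𝓔.I → Q → V} (hB : 𝓔.toFam.B (𝓔.W 0 0 0) B) (hC : 𝓔.toFam.B (𝓔.W 0 0 0) C)
    (hg : ∃ c, 0 < c ∧ ∀ i, ∀ z ∈ 𝓔.toFam.dom i, c ≤ gram (B i z) (C i z))
    (hv : 𝓔.toFam.B (𝓔.W j m l) v) :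
    𝓔.toFam.B (𝓔.W j m l) (fun i z => (gram (B i z) (C i z))⁻¹ • v i z) := by
  obtain ⟨c, hc, hg⟩ := hg
  exact EFam.B_inv (k := 0) (B_gram hB hC)
    ⟨c, hc, fun i z hz => by simpa using hg i z hz⟩ hv

lemma B_xiB (hB : 𝓔.toFam.B (𝓔.W 0 0 0) B) (hC : 𝓔.toFam.B (𝓔.W 0 0 0) C)
    (hg : ∃ c, 0 < c ∧ ∀ i, ∀ z ∈ 𝓔.toFam.dom i, c ≤ gram (B i z) (C i z)) :
    𝓔.toFam.B (𝓔.W 0 0 0) (fun i z => xiB (B i z) (C i z)) ∧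
    𝓔.toFam.B (𝓔.W 0 0 0) (fun i z => xiC (B i z) (C i z)) := by
  have hBC := EFam.B_inner hB hC
  constructor
  · exact B_gram_inv hB hC hg
      (EFam.B_sub (EFam.B_smul (EFam.B_inner hC hC) hB) (EFam.B_smul hBC hC))
  · exact B_gram_inv hB hC hg
      (EFam.B_sub (EFam.B_smul (EFam.B_inner hB hB) hC) (EFam.B_smul hBC hB))

lemma B_cpr (hA : 𝓔.toFam.B (𝓔.W 0 0 0) A) (hB : 𝓔.toFam.B (𝓔.W 0 0 0) B)
    (hC : 𝓔.toFam.B (𝓔.W 0 0 0) C)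
    (hg : ∃ c, 0 < c ∧ ∀ i, ∀ z ∈ 𝓔.toFam.dom i, c ≤ gram (B i z) (C i z)) :
    𝓔.toFam.B (𝓔.W 0 0 0) (fun i z => cpr (A i z) (B i z) (C i z)) := by
  obtain ⟨h1, h2⟩ := B_xiB hB hC hg
  exact EFam.B_add (EFam.B_smul (EFam.B_inner hA hB) h1) (EFam.B_smul (EFam.B_inner hA hC) h2)

lemma B_ppr (hA : 𝓔.toFam.B (𝓔.W 0 0 0) A) (hB : 𝓔.toFam.B (𝓔.W 0 0 0) B)
    (hC : 𝓔.toFam.B (𝓔.W 0 0 0) C)
    (hg : ∃ c, 0 < c ∧ ∀ i, ∀ z ∈ 𝓔.toFam.dom i, c ≤ gram (B i z) (C i z)) :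
    𝓔.toFam.B (𝓔.W 0 0 0) (fun i z => ppr (A i z) (B i z) (C i z)) :=
  EFam.B_sub hA (B_cpr hA hB hC hg)

/-- `cross3` is trilinear: general weights -/
lemma B_cross3 {j m l j' m' l' j'' m'' l'' : ℕ} {u v w : 𝓔.I → Q → E4}
    (hu : 𝓔.toFam.B (𝓔.W j m l) u) (hv : 𝓔.toFam.B (𝓔.W j' m' l') v)
    (hw : 𝓔.toFam.B (𝓔.W j'' m'' l'') w) :
    𝓔.toFam.B (𝓔.W (j+(j'+j'')) (m+(m'+m'')) (l+(l'+l'')))
      (fun i z => cross3 (u i z) (v i z) (w i z)) := by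
  have t : ∀ a b c d e : Fin 4, 𝓔.toFam.B (𝓔.W (j+(j'+j'')) (m+(m'+m'')) (l+(l'+l'')))
      (fun i z => u i z a * (v i z b * w i z c - v i z d * w i z e)) := fun a b c d e =>
    EFam.B_mul (B_comp hu a) (EFam.B_sub (EFam.B_mul (B_comp hv b) (B_comp hw c))
      (EFam.B_mul (B_comp hv d) (B_comp hw e)))
  refine B_of_comp (fun k => ?_)
  fin_cases k
  · exact EFam.B_add (EFam.B_sub (t 1 2 3 3 2) (t 2 1 3 3 1)) (t 3 1 2 2 1)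
  · exact EFam.B_neg (EFam.B_add (EFam.B_sub (t 0 2 3 3 2) (t 2 0 3 3 0)) (t 3 0 2 2 0))
  · exact EFam.B_add (EFam.B_sub (t 0 1 3 3 1) (t 1 0 3 3 0)) (t 3 0 1 1 0)
  · exact EFam.B_neg (EFam.B_add (EFam.B_sub (t 0 1 2 2 1) (t 1 0 2 2 0)) (t 2 0 1 1 0))

/-- general weights for the vector in the plane -/
lemma B_Jrot' {j m l : ℕ} {v : 𝓔.I → Q → E4} (hB : 𝓔.toFam.B (𝓔.W 0 0 0) B)
    (hC : 𝓔.toFam.B (𝓔.W 0 0 0) C) (hv : 𝓔.toFam.B (𝓔.W j m l) v)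
    (hg : ∃ c, 0 < c ∧ ∀ i, ∀ z ∈ 𝓔.toFam.dom i, c ≤ gram (B i z) (C i z)) :
    𝓔.toFam.B (𝓔.W j m l) (fun i z => Jrot (B i z) (C i z) (v i z)) := by
  obtain ⟨c, hc, hg⟩ := hg
  have h1 : 𝓔.toFam.B (𝓔.W 0 0 0) (fun i z => Real.sqrt (gram (B i z) (C i z))) := by
    have := Fam.B.sqrt (𝓕 := 𝓔.toFam) (w := 𝓔.W 0 0 0) hc (fun i x hx => EFam.W_pos _ _ _ i hx)
      (fun i z hz => by simpa [EFam.W] using hg i z hz) (B_gram hB hC)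
    exact EFam.B_weq this (fun i x _ => by simp [EFam.W])
  have h2 : 𝓔.toFam.B (𝓔.W j m l) (fun i z => cross3 (B i z) (C i z) (v i z)) :=
    EFam.B_le (B_cross3 hB hC hv) (by omega) (by omega) (by omega)
  exact EFam.B_inv (k := 0) h1 ⟨Real.sqrt c, Real.sqrt_pos.2 hc, fun i z hz => by
    simpa using Real.sqrt_le_sqrt (hg i z hz)⟩ h2

lemma B_Jrot {v : 𝓔.I → Q → E4} (hB : 𝓔.toFam.B (𝓔.W 0 0 0) B)
    (hC : 𝓔.toFam.B (𝓔.W 0 0 0) C) (hv : 𝓔.toFam.B (𝓔.W 0 0 0) v)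
    (hg : ∃ c, 0 < c ∧ ∀ i, ∀ z ∈ 𝓔.toFam.dom i, c ≤ gram (B i z) (C i z)) :
    𝓔.toFam.B (𝓔.W 0 0 0) (fun i z => Jrot (B i z) (C i z) (v i z)) :=
  B_Jrot' hB hC hv hg

end AlgClass

end Crest.Agent.R216.TE
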