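import Crest.Agent.R216.EngDefs

/-!
# Row 216, Theorem E: pointwise linear algebra in `ℝ⁴` (pointwise part of the Alg interface).
-/

set_option autoImplicit false

open Set Topology MeasureTheory
open scoped ContDiff

namespace Crest.Agent.R216.TE

lemma gram_nonneg (B C : E4) : 0 ≤ gram B C := by
  have := real_inner_mul_inner_self_le B C
  unfold gram
  nlinarith [this]

lemma inner_xiB_B {B C : E4} (h : gram B C ≠ 0) : inner ℝ (xiB B C) B = (1:ℝ) := by
  unfold xiB
  rw [real_inner_smul_left, inner_sub_left, real_inner_smul_left, real_inner_smul_left,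
    real_inner_comm B C]
  have : inner ℝ C C * inner ℝ B B - inner ℝ B C * inner ℝ B C = gram B C := by
    unfold gram; ring
  rw [this, inv_mul_cancel₀ h]

lemma inner_xiB_C (B C : E4) : inner ℝ (xiB B C) C = (0:ℝ) := by
  unfold xiB
  rw [real_inner_smul_left, inner_sub_left, real_inner_smul_left, real_inner_smul_left]
  ring

lemma inner_xiC_B (B C : E4) : inner ℝ (xiC B C) B = (0:ℝ) := by
  unfold xiC
  rw [real_inner_smul_left, inner_sub_left, real_inner_smul_left, real_inner_smul_left,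
    real_inner_comm B C]
  ring

lemma inner_xiC_C {B C : E4} (h : gram B C ≠ 0) : inner ℝ (xiC B C) C = (1:ℝ) := by
  unfold xiC
  rw [real_inner_smul_left, inner_sub_left, real_inner_smul_left, real_inner_smul_left]
  have : inner ℝ B B * inner ℝ C C - inner ℝ B C * inner ℝ B C = gram B C := by
    unfold gram; ring
  rw [this, inv_mul_cancel₀ h]

lemma inner_xiB (B C : E4) (h : gram B C ≠ 0) :
    inner ℝ (xiB B C) B = (1:ℝ) ∧ inner ℝ (xiB B C) C = (0:ℝ) :=
  ⟨inner_xiB_B h, inner_xiB_C B C⟩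

lemma inner_xiC (B C : E4) (h : gram B C ≠ 0) :
    inner ℝ (xiC B C) B = (0:ℝ) ∧ inner ℝ (xiC B C) C = (1:ℝ) :=
  ⟨inner_xiC_B B C, inner_xiC_C h⟩

lemma gram_pos_iff (B C : E4) : 0 < gram B C ↔ LinearIndependent ℝ ![B, C] := by
  constructor
  · intro h
    rw [LinearIndependent.pair_iff]
    intro s t hst
    have h1 := congrArg (fun z => inner ℝ (xiB B C) z) hst
    have h2 := congrArg (fun z => inner ℝ (xiC B C) z) hst
    simp only [inner_add_right, real_inner_smul_right, inner_zero_right, inner_xiB_B h.ne',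
      inner_xiB_C, inner_xiC_B, inner_xiC_C h.ne'] at h1 h2
    constructor <;> linarith
  · intro h
    refine lt_of_le_of_ne (gram_nonneg B C) (fun h0 => ?_)
    rw [LinearIndependent.pair_iff] at h
    -- `v = ⟪C,C⟫ B - ⟪B,C⟫ C` has norm² `⟪C,C⟫ gram = 0`
    have hv : inner ℝ (inner ℝ C C • B - inner ℝ B C • C)
        (inner ℝ C C • B - inner ℝ B C • C) = (0:ℝ) := by
      have : inner ℝ (inner ℝ C C • B - inner ℝ B C • C)
          (inner ℝ C C • B - inner ℝ B C • C) = inner ℝ C C * gram B C := by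
        rw [inner_sub_left, inner_sub_right, inner_sub_right]
        simp only [real_inner_smul_left, real_inner_smul_right, real_inner_comm B C]
        unfold gram; ring
      rw [this, ← h0, mul_zero]
    have hv' : inner ℝ C C • B - inner ℝ B C • C = 0 := inner_self_eq_zero.1 hv
    have h2 := h (inner ℝ C C) (-(inner ℝ B C)) (by rw [← hv', neg_smul]; abel)
    have hC : C = 0 := inner_self_eq_zero.1 h2.1
    have := h 0 1 (by rw [hC]; simp)
    exact one_ne_zero this.2

lemma inner_xiB_of_orth {B C v : E4} (hB : inner ℝ v B = (0:ℝ)) (hC : inner ℝ v C = (0:ℝ)) :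
    inner ℝ v (xiB B C) = (0:ℝ) := by
  unfold xiB
  rw [real_inner_smul_right, inner_sub_right, real_inner_smul_right, real_inner_smul_right,
    hB, hC]
  ring

lemma inner_xiC_of_orth {B C v : E4} (hB : inner ℝ v B = (0:ℝ)) (hC : inner ℝ v C = (0:ℝ)) :
    inner ℝ v (xiC B C) = (0:ℝ) := by
  unfold xiC
  rw [real_inner_smul_right, inner_sub_right, real_inner_smul_right, real_inner_smul_right,
    hB, hC]
  ring

lemma inner_cpr_B (A : E4) {B C : E4} (h : gram B C ≠ 0) :
    inner ℝ (cpr A B C) B = (inner ℝ A B : ℝ) := by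
  unfold cpr
  rw [inner_add_left, real_inner_smul_left, real_inner_smul_left, inner_xiB_B h, inner_xiC_B]
  ring

lemma inner_cpr_C (A : E4) {B C : E4} (h : gram B C ≠ 0) :
    inner ℝ (cpr A B C) C = (inner ℝ A C : ℝ) := by
  unfold cpr
  rw [inner_add_left, real_inner_smul_left, real_inner_smul_left, inner_xiB_C, inner_xiC_C h]
  ring

lemma inner_cpr_of_orth (A : E4) {B C v : E4} (hB : inner ℝ v B = (0:ℝ))
    (hC : inner ℝ v C = (0:ℝ)) : inner ℝ v (cpr A B C) = (0:ℝ) := by
  unfold cpr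
  rw [inner_add_right, real_inner_smul_right, real_inner_smul_right, inner_xiB_of_orth hB hC,
    inner_xiC_of_orth hB hC]
  ring

lemma ppr_perp (A B C : E4) (h : gram B C ≠ 0) :
    inner ℝ (ppr A B C) B = (0:ℝ) ∧ inner ℝ (ppr A B C) C = (0:ℝ) := by
  unfold ppr
  rw [inner_sub_left, inner_sub_left, inner_cpr_B A h, inner_cpr_C A h]
  simp

/-- `b1, b2` is an orthonormal frame of `{B, C}ᗮ` and `B, C` are independent. -/
structure Fr (B C b1 b2 : E4) : Prop where
  gr : gram B C ≠ 0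
  n1 : inner ℝ b1 b1 = (1:ℝ)
  n2 : inner ℝ b2 b2 = (1:ℝ)
  n12 : inner ℝ b1 b2 = (0:ℝ)
  o1B : inner ℝ b1 B = (0:ℝ)
  o1C : inner ℝ b1 C = (0:ℝ)
  o2B : inner ℝ b2 B = (0:ℝ)
  o2C : inner ℝ b2 C = (0:ℝ)

section
variable {B C b1 b2 : E4}

lemma Fr.linearIndependent (F : Fr B C b1 b2) : LinearIndependent ℝ ![B, C, b1, b2] := by
  rw [Fintype.linearIndependent_iff]
  intro g hg
  simp only [Fin.sum_univ_four, Matrix.cons_val_zero, Matrix.cons_val_one, Matrix.cons_val] at hg
  have hA := congrArg (fun z => inner ℝ (xiB B C) z) hg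
  have hB := congrArg (fun z => inner ℝ (xiC B C) z) hg
  have hb := congrArg (fun z => inner ℝ b1 z) hg
  have ht := congrArg (fun z => inner ℝ b2 z) hg
  simp only [inner_add_right, real_inner_smul_right, inner_zero_right] at hA hB hb ht
  rw [inner_xiB_B F.gr, inner_xiB_C, real_inner_comm b1 (xiB B C), inner_xiB_of_orth F.o1B F.o1C,
    real_inner_comm b2 (xiB B C), inner_xiB_of_orth F.o2B F.o2C] at hA
  rw [inner_xiC_B, inner_xiC_C F.gr, real_inner_comm b1 (xiC B C), inner_xiC_of_orth F.o1B F.o1C,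
    real_inner_comm b2 (xiC B C), inner_xiC_of_orth F.o2B F.o2C] at hB
  rw [F.o1B, F.o1C, F.n1, F.n12] at hb
  rw [F.o2B, F.o2C, F.n2, real_inner_comm b1 b2, F.n12] at ht
  intro i
  fin_cases i <;> simp <;> linarith

/-- every vector in the basis `B, C, b1, b2` -/
lemma Fr.decomp (F : Fr B C b1 b2) (v : E4) :
    v = (inner ℝ v B : ℝ) • xiB B C + (inner ℝ v C : ℝ) • xiC B C + (inner ℝ v b1 : ℝ) • b1
      + (inner ℝ v b2 : ℝ) • b2 := by
  set d : E4 := v - ((inner ℝ v B : ℝ) • xiB B C + (inner ℝ v C : ℝ) • xiC B C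
    + (inner ℝ v b1 : ℝ) • b1 + (inner ℝ v b2 : ℝ) • b2) with hd
  have hli := F.linearIndependent
  have hspan : Submodule.span ℝ (Set.range ![B, C, b1, b2]) = ⊤ :=
    hli.span_eq_top_of_card_eq_finrank' (by simp)
  have h1 : inner ℝ d B = (0:ℝ) := by
    rw [hd, inner_sub_left, inner_add_left, inner_add_left, inner_add_left, real_inner_smul_left,
      real_inner_smul_left, real_inner_smul_left, real_inner_smul_left, inner_xiB_B F.gr,
      inner_xiC_B, F.o1B, F.o2B]
    ring
  have h2 : inner ℝ d C = (0:ℝ) := by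
    rw [hd, inner_sub_left, inner_add_left, inner_add_left, inner_add_left, real_inner_smul_left,
      real_inner_smul_left, real_inner_smul_left, real_inner_smul_left, inner_xiB_C,
      inner_xiC_C F.gr, F.o1C, F.o2C]
    ring
  have h3 : inner ℝ d b1 = (0:ℝ) := by
    rw [hd, inner_sub_left, inner_add_left, inner_add_left, inner_add_left, real_inner_smul_left,
      real_inner_smul_left, real_inner_smul_left, real_inner_smul_left,
      real_inner_comm b1 (xiB B C), inner_xiB_of_orth F.o1B F.o1C, real_inner_comm b1 (xiC B C),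
      inner_xiC_of_orth F.o1B F.o1C, F.n1, real_inner_comm b1 b2, F.n12]
    ring
  have h4 : inner ℝ d b2 = (0:ℝ) := by
    rw [hd, inner_sub_left, inner_add_left, inner_add_left, inner_add_left, real_inner_smul_left,
      real_inner_smul_left, real_inner_smul_left, real_inner_smul_left,
      real_inner_comm b2 (xiB B C), inner_xiB_of_orth F.o2B F.o2C, real_inner_comm b2 (xiC B C),
      inner_xiC_of_orth F.o2B F.o2C, F.n2, F.n12]
    ring
  have hall : ∀ y ∈ Submodule.span ℝ (Set.range ![B, C, b1, b2]), inner ℝ d y = (0:ℝ) := by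
    intro y hy
    induction hy using Submodule.span_induction with
    | mem y hy =>
      obtain ⟨i, rfl⟩ := hy
      fin_cases i <;> simp [h1, h2, h3, h4]
    | zero => simp
    | add y z _ _ hy hz => rw [inner_add_right, hy, hz, add_zero]
    | smul a y _ hy => rw [real_inner_smul_right, hy, mul_zero]
  have hd0 : inner ℝ d d = (0:ℝ) := hall d (by rw [hspan]; trivial)
  have : d = 0 := inner_self_eq_zero.1 hd0
  exact sub_eq_zero.1 this

lemma Fr.decomp_c (F : Fr B C b1 b2) (A : E4) :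
    A = cpr A B C + (inner ℝ A b1 : ℝ) • b1 + (inner ℝ A b2 : ℝ) • b2 := F.decomp A

/-- a vector of `{B,C}ᗮ` in the frame -/
lemma Fr.decomp_p (F : Fr B C b1 b2) {v : E4} (hB : inner ℝ v B = (0:ℝ))
    (hC : inner ℝ v C = (0:ℝ)) :
    v = (inner ℝ v b1 : ℝ) • b1 + (inner ℝ v b2 : ℝ) • b2 := by
  have := F.decomp v
  rw [hB, hC, zero_smul, zero_smul, zero_add, zero_add] at this
  exact this

/-- Pythagoras in the frame -/
lemma Fr.normsq (F : Fr B C b1 b2) (A : E4) :
    inner ℝ A A = (inner ℝ (cpr A B C) (cpr A B C) : ℝ) + (inner ℝ A b1 : ℝ) ^ 2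
      + (inner ℝ A b2 : ℝ) ^ 2 := by
  have h1 : inner ℝ b1 (cpr A B C) = (0:ℝ) := inner_cpr_of_orth A F.o1B F.o1C
  have h2 : inner ℝ b2 (cpr A B C) = (0:ℝ) := inner_cpr_of_orth A F.o2B F.o2C
  have e := F.decomp_c A
  set c := cpr A B C
  set x : ℝ := inner ℝ A b1
  set y : ℝ := inner ℝ A b2
  rw [e]
  simp only [inner_add_left, inner_add_right, real_inner_smul_left, real_inner_smul_right, h1, h2,
    real_inner_comm b1 c, real_inner_comm b2 c, F.n1, F.n2, F.n12, real_inner_comm b1 b2]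
  ring

end

/-- same for an arbitrary orthonormal frame of `Π` -/
lemma frame_expand' (B C b b' v : E4) (h : 0 < gram B C) (hb : ‖b‖ = 1) (hb' : ‖b'‖ = 1)
    (hbb : inner ℝ b b' = (0:ℝ)) (hbB : inner ℝ b B = (0:ℝ)) (hbC : inner ℝ b C = (0:ℝ))
    (hbB' : inner ℝ b' B = (0:ℝ)) (hbC' : inner ℝ b' C = (0:ℝ))
    (hvB : inner ℝ v B = (0:ℝ)) (hvC : inner ℝ v C = (0:ℝ)) :
    v = inner ℝ v b • b + inner ℝ v b' • b' :=
  Fr.decomp_p ⟨h.ne', by rw [real_inner_self_eq_norm_sq, hb, one_pow],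
    by rw [real_inner_self_eq_norm_sq, hb', one_pow], hbb, hbB, hbC, hbB', hbC'⟩ hvB hvC

/-! ### the triple product -/

lemma inner_E4 (x y : E4) :
    inner ℝ x y = x 0 * y 0 + x 1 * y 1 + x 2 * y 2 + x 3 * y 3 := by
  simp [PiLp.inner_apply, Fin.sum_univ_four]
  ring

lemma inner_cross3_1 (u v w : E4) : inner ℝ (cross3 u v w) u = (0:ℝ) := by
  rw [inner_E4]; simp [cross3]; ring

lemma inner_cross3_2 (u v w : E4) : inner ℝ (cross3 u v w) v = (0:ℝ) := by
  rw [inner_E4]; simp [cross3]; ring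

lemma inner_cross3_3 (u v w : E4) : inner ℝ (cross3 u v w) w = (0:ℝ) := by
  rw [inner_E4]; simp [cross3]; ring

lemma inner_cross3_self (u v w : E4) :
    inner ℝ (cross3 u v w) (cross3 u v w) =
      inner ℝ u u * (inner ℝ v v * inner ℝ w w - inner ℝ v w ^ 2)
        - inner ℝ u v * (inner ℝ u v * inner ℝ w w - inner ℝ v w * inner ℝ u w)
        + inner ℝ u w * (inner ℝ u v * inner ℝ v w - inner ℝ v v * inner ℝ u w) := by
  simp only [inner_E4]; simp [cross3]; ring

/-- `Jrot` is an isometry of `Π` rotating by 90 degrees -/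
lemma Jrot_perp (B C v : E4) : inner ℝ (Jrot B C v) B = (0:ℝ) ∧ inner ℝ (Jrot B C v) C = (0:ℝ) ∧
    inner ℝ (Jrot B C v) v = (0:ℝ) := by
  unfold Jrot
  refine ⟨?_, ?_, ?_⟩
  · rw [real_inner_smul_left, inner_cross3_1, mul_zero]
  · rw [real_inner_smul_left, inner_cross3_2, mul_zero]
  · rw [real_inner_smul_left, inner_cross3_3, mul_zero]

lemma norm_Jrot (B C v : E4) (h : 0 < gram B C) (hB : inner ℝ v B = (0:ℝ))
    (hC : inner ℝ v C = (0:ℝ)) : ‖Jrot B C v‖ = ‖v‖ := by
  have hs : Real.sqrt (gram B C) ^ 2 = gram B C := Real.sq_sqrt h.le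
  have hs0 : Real.sqrt (gram B C) ≠ 0 := (Real.sqrt_pos.2 h).ne'
  have h1 : ‖Jrot B C v‖ ^ 2 = ‖v‖ ^ 2 := by
    rw [← real_inner_self_eq_norm_sq, ← real_inner_self_eq_norm_sq]
    unfold Jrot
    rw [real_inner_smul_left, real_inner_smul_right, inner_cross3_self, real_inner_comm v B,
      real_inner_comm v C, hB, hC]
    have : inner ℝ B B * (inner ℝ C C * inner ℝ v v - (0:ℝ) ^ 2)
        - inner ℝ B C * (inner ℝ B C * inner ℝ v v - 0 * 0)
        + 0 * (inner ℝ B C * 0 - inner ℝ C C * 0)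
        = Real.sqrt (gram B C) ^ 2 * inner ℝ v v := by
      rw [hs]; unfold gram; ring
    rw [this]
    field_simp
  exact (pow_left_inj₀ (norm_nonneg _) (norm_nonneg _) two_ne_zero).1 h1

/-- `b, Jrot b` is an orthonormal basis of `Π` -/
lemma frame_expand (B C b v : E4) (h : 0 < gram B C) (hb : ‖b‖ = 1)
    (hbB : inner ℝ b B = (0:ℝ)) (hbC : inner ℝ b C = (0:ℝ))
    (hvB : inner ℝ v B = (0:ℝ)) (hvC : inner ℝ v C = (0:ℝ)) :
    v = inner ℝ v b • b + inner ℝ v (Jrot B C b) • Jrot B C b := by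
  obtain ⟨j1, j2, j3⟩ := Jrot_perp B C b
  refine frame_expand' B C b (Jrot B C b) v h hb ?_ ?_ hbB hbC j1 j2 hvB hvC
  · rw [norm_Jrot B C b h hbB hbC, hb]
  · rw [real_inner_comm]; exact j3

end Crest.Agent.R216.TE
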