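import Crest.Agent.R216.Skel

/-!
Row 216 (S0335), module BASE: pointwise facts (sphere version).
* radial projection `nrm`,
* second derivative of a composition,
* second fundamental form of a sphere-valued immersion,
* `(P2)` from a positive semidefinite second fundamental form inside the sphere.
-/

set_option autoImplicit false

noncomputable section

open scoped Manifold ContDiff Topology
open Set Module

namespace Crest.Agent.R216.Base

open Crest.Agent.R216

/-! ### radial projection -/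

/-- radial projection to the unit sphere -/
def nrm (y : P4) : P4 := ‖y‖⁻¹ • y

lemma contDiffAt_nrm {y : P4} (hy : y ≠ 0) : ContDiffAt ℝ ∞ nrm y :=
  ((contDiffAt_norm ℝ hy).inv (norm_ne_zero_iff.2 hy)).smul contDiffAt_id

lemma norm_nrm {y : P4} (hy : y ≠ 0) : ‖nrm y‖ = 1 := by
  rw [nrm, norm_smul, norm_inv, norm_norm, inv_mul_cancel₀ (norm_ne_zero_iff.2 hy)]

lemma nrm_of_unit {y : P4} (hy : ‖y‖ = 1) : nrm y = y := by simp [nrm, hy]

lemma fderiv_nrm {y : P4} (hy : y ≠ 0) (v : P4) :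
    fderiv ℝ nrm y v = ‖y‖⁻¹ • (v - (inner ℝ y v / ‖y‖ ^ 2) • y) := by
  have hny : ‖y‖ ≠ 0 := norm_ne_zero_iff.2 hy
  have h1 : HasFDerivAt (fun y : P4 => ‖y‖) (fderiv ℝ (fun y : P4 => ‖y‖) y) y :=
    ((contDiffAt_norm ℝ hy (n := 1)).differentiableAt (by norm_num)).hasFDerivAt
  have h1v : fderiv ℝ (fun y : P4 => ‖y‖) y v = inner ℝ y v / ‖y‖ := by
    have h2 : HasFDerivAt (fun y : P4 => ‖y‖ ^ 2) (2 • (innerSL ℝ y)) y := by
      simpa using (HasStrictFDerivAt.hasFDerivAt (hasStrictFDerivAt_norm_sq y))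
    have h3 : HasFDerivAt (fun y : P4 => ‖y‖ ^ 2)
        ((2 * ‖y‖) • fderiv ℝ (fun y : P4 => ‖y‖) y) y := by
      have := h1.pow 2
      simpa using this
    have h4 := congrArg (fun L : P4 →L[ℝ] ℝ => L v) (h2.unique h3)
    simp only [nsmul_eq_mul, smul_apply, smul_eq_mul] at h4
    have h5 : (2 : ℝ) * inner ℝ y v = 2 * ‖y‖ * fderiv ℝ (fun y : P4 => ‖y‖) y v := by
      simpa using h4
    field_simp
    linarith
  have h2 : HasFDerivAt (fun y : P4 => ‖y‖⁻¹)
      (-(‖y‖ ^ 2)⁻¹ • fderiv ℝ (fun y : P4 => ‖y‖) y) y :=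
    (hasDerivAt_inv hny).comp_hasFDerivAt y h1
  have h3 := h2.smul (hasFDerivAt_id y)
  have h4 : fderiv ℝ nrm y = _ := h3.fderiv
  rw [h4]
  simp only [add_apply, smul_apply, id,
    ContinuousLinearMap.smulRight_apply, h1v, ContinuousLinearMap.id_apply, smul_eq_mul]
  rw [smul_sub, smul_smul, sub_eq_add_neg, ← neg_smul]
  congr 2
  field_simp

lemma fderiv_nrm_of_unit {y : P4} (hy : ‖y‖ = 1) (v : P4) :
    fderiv ℝ nrm y v = v - inner ℝ y v • y := by
  have h0 : y ≠ 0 := by intro h; simp [h] at hy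
  rw [fderiv_nrm h0, hy]; simp

/-! ### second derivative of a composition -/

section comp
variable {E F G : Type*} [NormedAddCommGroup E] [NormedSpace ℝ E] [NormedAddCommGroup F]
  [NormedSpace ℝ F] [NormedAddCommGroup G] [NormedSpace ℝ G]

lemma snd_comp {g : F → G} {f : E → F} {x : E}
    (hg : ContDiffAt ℝ 2 g (f x)) (hf : ContDiffAt ℝ 2 f x) (v w : E) :
    fderiv ℝ (fderiv ℝ (g ∘ f)) x v w
      = fderiv ℝ (fderiv ℝ g) (f x) (fderiv ℝ f x v) (fderiv ℝ f x w)
        + fderiv ℝ g (f x) (fderiv ℝ (fderiv ℝ f) x v w) := by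
  have hgev : ∀ᶠ y in 𝓝 x, ContDiffAt ℝ 2 g (f y) :=
    hf.continuousAt.eventually (hg.eventually (by simp))
  have hfev : ∀ᶠ y in 𝓝 x, ContDiffAt ℝ 2 f y := hf.eventually (by simp)
  have h1 : fderiv ℝ (g ∘ f) =ᶠ[𝓝 x] fun y => (fderiv ℝ g (f y)).comp (fderiv ℝ f y) := by
    filter_upwards [hgev, hfev] with y h1 h2
    exact fderiv_comp y (h1.differentiableAt (by norm_num)) (h2.differentiableAt (by norm_num))
  have hdg : DifferentiableAt ℝ (fderiv ℝ g) (f x) :=
    (hg.fderiv_right (m := 1) (by norm_num)).differentiableAt (by norm_num)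
  have hdf : DifferentiableAt ℝ (fderiv ℝ f) x :=
    (hf.fderiv_right (m := 1) (by norm_num)).differentiableAt (by norm_num)
  have hfx : DifferentiableAt ℝ f x := hf.differentiableAt (by norm_num)
  have h2 : HasFDerivAt (fun y => fderiv ℝ g (f y))
      ((fderiv ℝ (fderiv ℝ g) (f x)).comp (fderiv ℝ f x)) x :=
    hdg.hasFDerivAt.comp x hfx.hasFDerivAt
  have h3 := h2.clm_comp hdf.hasFDerivAt
  rw [h1.fderiv_eq, h3.fderiv]
  simp
  abel

end comp

/-! ### orthogonal projection -/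

lemma orthP_inner {K : Submodule ℝ P4} {v n : P4} (hn : n ∈ Kᗮ) :
    inner ℝ (orthP K v) n = (inner ℝ v n : ℝ) := by
  have h := sub_orthP_mem K v
  have h2 : inner ℝ (v - orthP K v) n = (0 : ℝ) := (Submodule.mem_orthogonal K n).1 hn _ h
  rw [inner_sub_left] at h2
  linarith

/-! ### sphere-valued immersions -/

section sphere
variable {f : P2 → P4} {y : P2}

lemma inner_fderiv_of_unit (hf : DifferentiableAt ℝ f y) (h1 : ∀ᶠ z in 𝓝 y, ‖f z‖ = 1) (v : P2) :
    inner ℝ (f y) (fderiv ℝ f y v) = (0 : ℝ) := by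
  have h2 : (fun z => (inner ℝ (f z) (f z) : ℝ)) =ᶠ[𝓝 y] fun _ => (1 : ℝ) := by
    filter_upwards [h1] with z hz
    rw [real_inner_self_eq_norm_sq, hz]; norm_num
  have h3 := h2.fderiv_eq (𝕜 := ℝ)
  have h4 : fderiv ℝ (fun z => (inner ℝ (f z) (f z) : ℝ)) y v
      = inner ℝ (f y) (fderiv ℝ f y v) + inner ℝ (fderiv ℝ f y v) (f y) :=
    fderiv_inner_apply ℝ hf hf v
  rw [h3] at h4
  simp only [fderiv_fun_const, Pi.zero_apply, zero_apply] at h4
  rw [real_inner_comm (f y)] at h4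
  linarith

lemma inner_snd_of_unit (hf : ContDiffAt ℝ 2 f y) (h1 : ∀ᶠ z in 𝓝 y, ‖f z‖ = 1) (v w : P2) :
    inner ℝ (f y) (d2 f y v w) = -(inner ℝ (fderiv ℝ f y v) (fderiv ℝ f y w) : ℝ) := by
  have hd : ∀ᶠ z in 𝓝 y, DifferentiableAt ℝ f z := by
    filter_upwards [hf.eventually (by simp)] with z hz
    exact hz.differentiableAt (by norm_num)
  have h2 : (fun z => (inner ℝ (f z) (fderiv ℝ f z w) : ℝ)) =ᶠ[𝓝 y] fun _ => (0 : ℝ) := by
    filter_upwards [hd, h1.eventually_nhds] with z hz hz1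
    exact inner_fderiv_of_unit hz hz1 w
  have h3 := h2.fderiv_eq (𝕜 := ℝ)
  have hdf : DifferentiableAt ℝ (fderiv ℝ f) y :=
    (hf.fderiv_right (m := 1) (by norm_num)).differentiableAt (by norm_num)
  have hdw : HasFDerivAt (fun z => fderiv ℝ f z w) ((fderiv ℝ (fderiv ℝ f) y).flip w) y :=
    hdf.hasFDerivAt.clm_apply (hasFDerivAt_const w y) |>.congr_fderiv (by ext; simp)
  have h4 : fderiv ℝ (fun z => (inner ℝ (f z) (fderiv ℝ f z w) : ℝ)) y v
      = inner ℝ (f y) (fderiv ℝ (fun z => fderiv ℝ f z w) y v)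
        + inner ℝ (fderiv ℝ f y v) (fderiv ℝ f y w) :=
    fderiv_inner_apply ℝ (hf.differentiableAt (by norm_num)) hdw.differentiableAt v
  rw [h3, hdw.fderiv] at h4
  simp only [fderiv_fun_const, Pi.zero_apply, zero_apply,
    ContinuousLinearMap.flip_apply] at h4
  show (inner ℝ (f y) (fderiv ℝ (fderiv ℝ f) y v w) : ℝ) = _
  linarith

lemma unit_mem_orthogonal (hf : DifferentiableAt ℝ f y) (h1 : ∀ᶠ z in 𝓝 y, ‖f z‖ = 1) :
    f y ∈ (tanSp f y)ᗮ := by
  rw [Submodule.mem_orthogonal]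
  rintro _ ⟨v, rfl⟩
  rw [real_inner_comm]
  exact inner_fderiv_of_unit hf h1 v

/-- the radial component of the second fundamental form of a sphere-valued map -/
lemma inner_sff_of_unit (hf : ContDiffAt ℝ 2 f y) (h1 : ∀ᶠ z in 𝓝 y, ‖f z‖ = 1) (v w : P2) :
    inner ℝ (sff f y v w) (f y) = -(inner ℝ (fderiv ℝ f y v) (fderiv ℝ f y w) : ℝ) := by
  have h := unit_mem_orthogonal (hf.differentiableAt (by norm_num)) h1
  show (inner ℝ (orthP (tanSp f y) (d2 f y v w)) (f y) : ℝ) = _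
  rw [orthP_inner h, real_inner_comm, inner_snd_of_unit hf h1]

lemma sff_pos_of_unit (hf : ContDiffAt ℝ 2 f y) (h1 : ∀ᶠ z in 𝓝 y, ‖f z‖ = 1)
    (hinj : Function.Injective (fderiv ℝ f y)) {v : P2} (hv : v ≠ 0) :
    0 < inner ℝ (sff f y v v) (-(f y)) := by
  rw [inner_neg_right, inner_sff_of_unit hf h1, neg_neg, real_inner_self_eq_norm_sq]
  have : fderiv ℝ f y v ≠ 0 := fun h => hv (hinj (by rw [h, map_zero]))
  positivity

end sphere

/-! ### `(P2)` -/

section P2
variable {f : P2 → P4} {y : P2}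

lemma d2_symm (hf : ContDiffAt ℝ 2 f y) (v w : P2) : d2 f y v w = d2 f y w v :=
  (hf.isSymmSndFDerivAt (by simp)).eq v w

/-- a vector orthogonal to the tangent plane, to `f y` and to `N` vanishes -/
lemma eq_zero_of_orth (hinj : Function.Injective (fderiv ℝ f y)) (h1 : ‖f y‖ = 1)
    (h1d : ∀ v, inner ℝ (f y) (fderiv ℝ f y v) = (0 : ℝ)) {N : P4} (hN : ‖N‖ = 1)
    (hNf : inner ℝ N (f y) = (0 : ℝ)) (hNd : ∀ v, inner ℝ N (fderiv ℝ f y v) = (0 : ℝ))
    {u : P4} (hu1 : u ∈ (tanSp f y)ᗮ) (hu2 : inner ℝ u (f y) = (0 : ℝ))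
    (hu3 : inner ℝ u N = (0 : ℝ)) : u = 0 := by
  set A := tanSp f y with hA
  set B := Submodule.span ℝ (Set.range ![f y, N]) with hB
  have hon : Orthonormal ℝ ![f y, N] := by
    rw [orthonormal_iff_ite]
    intro i j
    fin_cases i <;> fin_cases j
    · simp [h1]
    · simpa [real_inner_comm] using hNf
    · simpa using hNf
    · simp [hN]
  have hfA : finrank ℝ A = 2 := by
    have := LinearMap.finrank_range_of_inj
      (f := ((fderiv ℝ f y : P2 →L[ℝ] P4) : P2 →ₗ[ℝ] P4)) hinj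
    rw [hA, tanSp, this]; simp
  have hfB : finrank ℝ B = 2 := by
    rw [hB, finrank_span_eq_card hon.linearIndependent]; simp
  have hAB : A ⟂ B := by
    rw [Submodule.isOrtho_iff_inner_eq]
    rintro _ ⟨v, rfl⟩ b hb
    refine Submodule.span_induction ?_ ?_ ?_ ?_ hb
    · rintro _ ⟨i, rfl⟩
      fin_cases i
      · show inner ℝ (fderiv ℝ f y v) (f y) = (0 : ℝ)
        rw [real_inner_comm]; exact h1d v
      · show inner ℝ (fderiv ℝ f y v) N = (0 : ℝ)
        rw [real_inner_comm]; exact hNd v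
    · simp
    · intro a b _ _ ha hb; rw [inner_add_right, ha, hb, add_zero]
    · intro c a _ ha; rw [inner_smul_right, ha, mul_zero]
  have hsup : A ⊔ B = ⊤ := by
    apply Submodule.eq_top_of_finrank_eq
    have h := Submodule.finrank_sup_add_finrank_inf_eq A B
    rw [hAB.disjoint.eq_bot, finrank_bot, hfA, hfB] at h
    rw [add_zero] at h
    rw [h]; simp
  have hu : u ∈ (A ⊔ B)ᗮ := by
    rw [Submodule.mem_orthogonal']
    intro z hz
    obtain ⟨a, ha, b, hb, rfl⟩ := Submodule.mem_sup.1 hz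
    rw [inner_add_right]
    have e1 : inner ℝ u a = (0 : ℝ) := (Submodule.mem_orthogonal' A u).1 hu1 a ha
    have e2 : inner ℝ u b = (0 : ℝ) := by
      refine Submodule.span_induction ?_ ?_ ?_ ?_ hb
      · rintro _ ⟨i, rfl⟩
        fin_cases i
        · exact hu2
        · exact hu3
      · simp
      · intro a b _ _ ha hb; rw [inner_add_right, ha, hb, add_zero]
      · intro c a _ ha; rw [inner_smul_right, ha, mul_zero]
    rw [e1, e2, add_zero]
  rw [hsup, Submodule.top_orthogonal_eq_bot] at hu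
  simpa using hu

/-- the second fundamental form of a sphere-valued immersion in the frame `f y, N` -/
lemma sff_eq (hf : ContDiffAt ℝ 2 f y) (h1 : ∀ᶠ z in 𝓝 y, ‖f z‖ = 1)
    (hinj : Function.Injective (fderiv ℝ f y)) {N : P4} (hN : ‖N‖ = 1)
    (hNf : inner ℝ N (f y) = (0 : ℝ)) (hNd : ∀ v, inner ℝ N (fderiv ℝ f y v) = (0 : ℝ))
    (v w : P2) :
    sff f y v w = (-(inner ℝ (fderiv ℝ f y v) (fderiv ℝ f y w) : ℝ)) • f y
      + (inner ℝ (d2 f y v w) N : ℝ) • N := by
  have hd := hf.differentiableAt (by norm_num)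
  have hfm := unit_mem_orthogonal hd h1
  have hNm : N ∈ (tanSp f y)ᗮ := by
    rw [Submodule.mem_orthogonal']
    rintro _ ⟨v, rfl⟩
    exact hNd v
  have hsm : sff f y v w ∈ (tanSp f y)ᗮ := orthP_mem _ _
  have h1y : ‖f y‖ = 1 := h1.self_of_nhds
  have hffy : (inner ℝ (f y) (f y) : ℝ) = 1 := by rw [real_inner_self_eq_norm_sq, h1y]; norm_num
  have hNN : (inner ℝ N N : ℝ) = 1 := by rw [real_inner_self_eq_norm_sq, hN]; norm_num
  have hfN : (inner ℝ (f y) N : ℝ) = 0 := by rw [real_inner_comm]; exact hNf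
  have hs1 := inner_sff_of_unit hf h1 v w
  have hs2 : (inner ℝ (sff f y v w) N : ℝ) = inner ℝ (d2 f y v w) N := orthP_inner hNm
  have := eq_zero_of_orth (u := sff f y v w - ((-(inner ℝ (fderiv ℝ f y v) (fderiv ℝ f y w) : ℝ)) • f y
      + (inner ℝ (d2 f y v w) N : ℝ) • N)) hinj h1y
      (fun v => inner_fderiv_of_unit hd h1 v) hN hNf hNd
      (Submodule.sub_mem _ hsm (Submodule.add_mem _ (Submodule.smul_mem _ _ hfm)
        (Submodule.smul_mem _ _ hNm)))
      (by
        rw [inner_sub_left, inner_add_left, inner_smul_left, inner_smul_left, hs1, hffy, hNf]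
        simp)
      (by
        rw [inner_sub_left, inner_add_left, inner_smul_left, inner_smul_left, hs2, hNN, hfN]
        simp)
  exact sub_eq_zero.1 this

/-- Cauchy-Schwarz for a positive semidefinite symmetric form -/
lemma cs_psd (I : P2 → P2 → ℝ) (hadd : ∀ a b c, I (a + b) c = I a c + I b c)
    (hsmul : ∀ (t : ℝ) a c, I (t • a) c = t * I a c) (hsymm : ∀ a b, I a b = I b a)
    (hpsd : ∀ a, 0 ≤ I a a) (v w : P2) : I v w ^ 2 ≤ I v v * I w w := by
  have hq : ∀ t : ℝ, 0 ≤ I w w * (t * t) + (2 * I v w) * t + I v v := by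
    intro t
    have h := hpsd (v + t • w)
    rw [hadd, hsmul, hsymm v (v + t • w), hsymm w (v + t • w), hadd, hadd, hsmul, hsmul,
      hsymm w v] at h
    nlinarith
  have h := discrim_le_zero hq
  rw [discrim] at h
  nlinarith

theorem P2_of_psd (hf : ContDiffAt ℝ 2 f y) (h1 : ∀ᶠ z in 𝓝 y, ‖f z‖ = 1)
    (hinj : Function.Injective (fderiv ℝ f y)) {N : P4} (hN : ‖N‖ = 1)
    (hNf : inner ℝ N (f y) = (0 : ℝ)) (hNd : ∀ v, inner ℝ N (fderiv ℝ f y v) = (0 : ℝ))
    (hpsd : ∀ v, 0 ≤ (inner ℝ (d2 f y v v) N : ℝ)) {v w : P2} (hv : v ≠ 0) (hw : w ≠ 0) :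
    P2at f y w v := by
  have h1y : ‖f y‖ = 1 := h1.self_of_nhds
  have hffy : (inner ℝ (f y) (f y) : ℝ) = 1 := by rw [real_inner_self_eq_norm_sq, h1y]; norm_num
  have hNN : (inner ℝ N N : ℝ) = 1 := by rw [real_inner_self_eq_norm_sq, hN]; norm_num
  have hfN : (inner ℝ (f y) N : ℝ) = 0 := by rw [real_inner_comm]; exact hNf
  have hin : ∀ a b c d : P2, (inner ℝ (sff f y a b) (sff f y c d) : ℝ)
      = inner ℝ (fderiv ℝ f y a) (fderiv ℝ f y b) * inner ℝ (fderiv ℝ f y c) (fderiv ℝ f y d)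
        + inner ℝ (d2 f y a b) N * inner ℝ (d2 f y c d) N := by
    intro a b c d
    rw [sff_eq hf h1 hinj hN hNf hNd a b, sff_eq hf h1 hinj hN hNf hNd c d]
    simp only [inner_add_left, inner_add_right, inner_smul_left, inner_smul_right, hffy, hNN, hfN,
      hNf]
    simp
    ring
  have hcs : (inner ℝ (d2 f y v w) N : ℝ) ^ 2 ≤ inner ℝ (d2 f y v v) N * inner ℝ (d2 f y w w) N := by
    refine cs_psd (fun a b => (inner ℝ (d2 f y a b) N : ℝ)) ?_ ?_ ?_ hpsd v w
    · intro a b c; simp [d2, inner_add_left]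
    · intro t a c; simp [d2, inner_smul_left]
    · intro a b; simp only [d2_symm hf a b]
  show ‖sff f y v w‖ ^ 2 * ‖sff f y w w‖ ^ 2 - (inner ℝ (sff f y v w) (sff f y w w)) ^ 2 <
    inner ℝ (sff f y v v) (sff f y w w) * ‖sff f y w w‖ ^ 2
  rw [← real_inner_self_eq_norm_sq, ← real_inner_self_eq_norm_sq, hin, hin, hin, hin]
  set gvv : ℝ := inner ℝ (fderiv ℝ f y v) (fderiv ℝ f y v) with hgvv
  set gvw : ℝ := inner ℝ (fderiv ℝ f y v) (fderiv ℝ f y w) with hgvw
  set gww : ℝ := inner ℝ (fderiv ℝ f y w) (fderiv ℝ f y w) with hgww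
  set Ivv : ℝ := inner ℝ (d2 f y v v) N with hIvv
  set Ivw : ℝ := inner ℝ (d2 f y v w) N with hIvw
  set Iww : ℝ := inner ℝ (d2 f y w w) N with hIww
  have hDv : fderiv ℝ f y v ≠ 0 := fun h => hv (hinj (by rw [h, map_zero]))
  have hDw : fderiv ℝ f y w ≠ 0 := fun h => hw (hinj (by rw [h, map_zero]))
  have hgwp : 0 < gww := real_inner_self_pos.2 hDw
  have hgvp : 0 < gvv := real_inner_self_pos.2 hDv
  have hcs2 : gvw ^ 2 ≤ gvv * gww := by
    have := real_inner_mul_inner_self_le (fderiv ℝ f y v) (fderiv ℝ f y w)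
    rw [sq]; exact this
  -- all in terms of the numbers
  have hIwp : 0 ≤ Iww := hpsd w
  by_cases hpar : gvw ^ 2 = gvv * gww
  · -- parallel case
    have h3 : ‖(inner ℝ (fderiv ℝ f y v) (fderiv ℝ f y w) : ℝ)‖
        = ‖fderiv ℝ f y v‖ * ‖fderiv ℝ f y w‖ := by
      have e : (‖(inner ℝ (fderiv ℝ f y v) (fderiv ℝ f y w) : ℝ)‖) ^ 2
          = (‖fderiv ℝ f y v‖ * ‖fderiv ℝ f y w‖) ^ 2 := by
        rw [mul_pow, ← real_inner_self_eq_norm_sq (fderiv ℝ f y v),
          ← real_inner_self_eq_norm_sq (fderiv ℝ f y w), Real.norm_eq_abs, sq_abs]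
        exact hpar
      exact (sq_eq_sq₀ (norm_nonneg _) (by positivity)).1 e
    rw [norm_inner_eq_norm_iff hDv hDw] at h3
    obtain ⟨r, hr, hrw⟩ := h3
    have hwv : w = r • v := hinj (by rw [hrw, map_smul])
    have e1 : gvw = r * gvv := by rw [hgvw, hrw, inner_smul_right]
    have e2 : gww = r * r * gvv := by
      rw [hgww, hrw, inner_smul_right, inner_smul_left, ← hgvv]; simp; ring
    have e3 : Ivw = r * Ivv := by
      rw [hIvw, hwv]; simp [d2, inner_smul_left, hIvv]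
    have e4 : Iww = r * r * Ivv := by
      rw [hIww, hwv]; simp [d2, inner_smul_left, hIvv]; ring
    have hIv : 0 ≤ Ivv := hpsd v
    rw [e1, e2, e3, e4, ← sub_pos]
    have e5 : (gvv * (r * r * gvv) + Ivv * (r * r * Ivv)) * (r * r * gvv * (r * r * gvv)
        + r * r * Ivv * (r * r * Ivv)) -
      ((r * gvv * (r * gvv) + r * Ivv * (r * Ivv)) * (r * r * gvv * (r * r * gvv)
        + r * r * Ivv * (r * r * Ivv)) - (r * gvv * (r * r * gvv) + r * Ivv * (r * r * Ivv)) ^ 2)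
      = r ^ 6 * (gvv * gvv + Ivv * Ivv) ^ 2 := by ring
    rw [e5]
    positivity
  · have hlt : 0 < gvv * gww - gvw ^ 2 := by
      rcases lt_or_eq_of_le hcs2 with h | h
      · linarith
      · exact absurd h hpar
    have hn : 0 < gww * gww + Iww * Iww := by positivity
    have h5 : 0 < (gvv * gww - gvw ^ 2) * (gww * gww + Iww * Iww) := mul_pos hlt hn
    have h6 : 0 ≤ (Ivv * Iww - Ivw ^ 2) * (gww * gww + Iww * Iww) :=
      mul_nonneg (by linarith) hn.le
    nlinarith [sq_nonneg (gvw * gww + Ivw * Iww)]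

end P2

end Crest.Agent.R216.Base
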