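import Crest.Agent.R216.BaseA0
import Crest.Agent.R216.BaseS

/-!
Row 216 (S0335), module BASE, part A: the paraboloid `Phi ∘ a` of a planar immersion `a`,
its unit normal, positivity, `(P2)` at flat points. (helper326)
-/

set_option autoImplicit false

noncomputable section

open scoped Manifold ContDiff Topology
open Set

namespace Crest.Agent.R216.Base

/-- second derivative of `Phi` -/
lemma fderiv2_Phi (x h k : E3) : fderiv ℝ (fderiv ℝ Phi) x h k = (inner ℝ h k : ℝ) • e4 := by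
  have e : fderiv ℝ Phi = fun x => TT x := by ext1 x; exact (hasFDerivAt_Phi x).fderiv
  have h1 : HasFDerivAt (fun x : E3 => TT x)
      (((ContinuousLinearMap.smulRightL ℝ E3 E4).flip e4).comp (innerSL ℝ)) x := by
    have h2 : HasFDerivAt (fun x : E3 => (innerSL ℝ x).smulRight e4)
        (((ContinuousLinearMap.smulRightL ℝ E3 E4).flip e4).comp (innerSL ℝ)) x :=
      (((ContinuousLinearMap.smulRightL ℝ E3 E4).flip e4).comp (innerSL ℝ)).hasFDerivAt
    have h3 := h2.const_add J3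
    exact h3
  rw [e, h1.fderiv]
  simp

section planar
variable {a : E2 → E3} {y : E2}

lemma fderiv_Phi_comp (ha : DifferentiableAt ℝ a y) (v : E2) :
    fderiv ℝ (Phi ∘ a) y v = TT (a y) (fderiv ℝ a y v) := by
  have h := ((hasFDerivAt_Phi (a y)).comp y ha.hasFDerivAt).fderiv
  rw [h]; rfl

lemma fderiv2_Phi_comp (ha : ContDiffAt ℝ 2 a y) (v w : E2) :
    fderiv ℝ (fderiv ℝ (Phi ∘ a)) y v w = TT (a y) (fderiv ℝ (fderiv ℝ a) y v w)
      + (inner ℝ (fderiv ℝ a y v) (fderiv ℝ a y w) : ℝ) • e4 := by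
  have h := snd_comp (contDiff_Phi.contDiffAt.of_le ENat.LEInfty.out : ContDiffAt ℝ 2 Phi (a y)) ha v w
  rw [h, fderiv2_Phi, (hasFDerivAt_Phi (a y)).fderiv, add_comm]

/-- the unit normal of the paraboloid -/
def nu (x : E3) : E4 := (Real.sqrt (1 + ‖x‖ ^ 2))⁻¹ • (e4 - J3 x)

lemma contDiff_nu : ContDiff ℝ ∞ nu := by
  unfold nu
  have h1 : ContDiff ℝ ∞ (fun x : E3 => Real.sqrt (1 + ‖x‖ ^ 2)) :=
    (contDiff_const.add (contDiff_norm_sq ℝ)).sqrt (fun x => by positivity)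
  exact (h1.inv (fun x => by positivity)).smul (contDiff_const.sub J3.contDiff)

lemma norm_nu (x : E3) : ‖nu x‖ = 1 := by
  have h0 : (0 : ℝ) < 1 + ‖x‖ ^ 2 := by positivity
  have h1 : ‖e4 - J3 x‖ ^ 2 = 1 + ‖x‖ ^ 2 := by
    rw [← real_inner_self_eq_norm_sq, inner_sub_left, inner_sub_right, inner_sub_right,
      inner_e4, inner_J3, inner_J3_e4, inner_e4_J3, real_inner_self_eq_norm_sq]
    ring
  have h2 : ‖e4 - J3 x‖ = Real.sqrt (1 + ‖x‖ ^ 2) := by
    rw [← h1, Real.sqrt_sq (norm_nonneg _)]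
  rw [nu, norm_smul, norm_inv, Real.norm_of_nonneg (Real.sqrt_nonneg _), h2]
  exact inv_mul_cancel₀ (Real.sqrt_pos.2 h0).ne'

lemma inner_nu_TT (x h : E3) : inner ℝ (nu x) (TT x h) = (0 : ℝ) := by
  rw [nu, inner_smul_left, TT_apply, inner_sub_left, inner_add_right, inner_add_right,
    inner_smul_right, inner_smul_right, inner_e4_J3, inner_e4, inner_J3, inner_J3_e4]
  ring

lemma inner_e4_nu (x : E3) : 0 < (inner ℝ e4 (nu x) : ℝ) := by
  rw [nu, inner_smul_right, inner_sub_right, inner_e4, inner_e4_J3]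
  have : 0 < Real.sqrt (1 + ‖x‖ ^ 2) := Real.sqrt_pos.2 (by positivity)
  simp
  positivity

lemma nu_mem_orth (ha : DifferentiableAt ℝ a y) : nu (a y) ∈ (tanSp (Phi ∘ a) y)ᗮ := by
  rw [Submodule.mem_orthogonal']
  rintro _ ⟨v, rfl⟩
  show (inner ℝ (nu (a y)) (fderiv ℝ (Phi ∘ a) y v) : ℝ) = 0
  rw [fderiv_Phi_comp ha]
  exact inner_nu_TT _ _

/-- positivity of the second fundamental form in the direction `nu` -/
lemma sff_Phi_pos (ha : ContDiffAt ℝ 2 a y) (hinj : Function.Injective (fderiv ℝ a y)) {v : E2}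
    (hv : v ≠ 0) : 0 < (inner ℝ (sff (Phi ∘ a) y v v) (nu (a y)) : ℝ) := by
  have hd := ha.differentiableAt (by norm_num)
  show 0 < (inner ℝ (orthP (tanSp (Phi ∘ a) y)
    (fderiv ℝ (fderiv ℝ (Phi ∘ a)) y v v)) (nu (a y)) : ℝ)
  rw [orthP_inner (nu_mem_orth hd), fderiv2_Phi_comp ha, inner_add_left, inner_smul_left,
    real_inner_comm, inner_nu_TT, zero_add]
  have h1 : fderiv ℝ a y v ≠ 0 := fun h => hv (hinj (by rw [h, map_zero]))
  have h2 : 0 < (inner ℝ (fderiv ℝ a y v) (fderiv ℝ a y v) : ℝ) := real_inner_self_pos.2 h1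
  simpa using mul_pos h2 (inner_e4_nu (a y))

/-- at a flat point all values of the second fundamental form are multiples of one vector -/
lemma sff_flat (ha : ContDiffAt ℝ 2 a y)
    (hflat : ∀ v w : E2, ∃ z : E2, fderiv ℝ (fderiv ℝ a) y v w = fderiv ℝ a y z) (v w : E2) :
    sff (Phi ∘ a) y v w = (inner ℝ (fderiv ℝ a y v) (fderiv ℝ a y w) : ℝ) •
      orthP (tanSp (Phi ∘ a) y) e4 := by
  have hd := ha.differentiableAt (by norm_num)
  obtain ⟨z, hz⟩ := hflat v w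
  show orthP (tanSp (Phi ∘ a) y) (fderiv ℝ (fderiv ℝ (Phi ∘ a)) y v w) = _
  rw [fderiv2_Phi_comp ha, hz, map_add, map_smul, orthP_of_mem, zero_add]
  exact ⟨z, fderiv_Phi_comp hd z⟩

/-- `(P2)` at a flat point -/
theorem P2at_flat (ha : ContDiffAt ℝ 2 a y) (hinj : Function.Injective (fderiv ℝ a y))
    (hflat : ∀ v w : E2, ∃ z : E2, fderiv ℝ (fderiv ℝ a) y v w = fderiv ℝ a y z)
    {v w : E2} (hv : v ≠ 0) (hw : w ≠ 0) : P2at (Phi ∘ a) y w v := by
  have hd := ha.differentiableAt (by norm_num)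
  set z0 := orthP (tanSp (Phi ∘ a) y) e4 with hz0
  have hz : z0 ≠ 0 := by
    intro h
    have h1 : (inner ℝ z0 (nu (a y)) : ℝ) = inner ℝ e4 (nu (a y)) := orthP_inner (nu_mem_orth hd)
    rw [h, inner_zero_left] at h1
    have h2 := inner_e4_nu (a y)
    linarith
  have hz1 : 0 < (inner ℝ z0 z0 : ℝ) := real_inner_self_pos.2 hz
  have h1 : fderiv ℝ a y v ≠ 0 := fun h => hv (hinj (by rw [h, map_zero]))
  have h2 : fderiv ℝ a y w ≠ 0 := fun h => hw (hinj (by rw [h, map_zero]))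
  have h3 : 0 < (inner ℝ (fderiv ℝ a y v) (fderiv ℝ a y v) : ℝ) := real_inner_self_pos.2 h1
  have h4 : 0 < (inner ℝ (fderiv ℝ a y w) (fderiv ℝ a y w) : ℝ) := real_inner_self_pos.2 h2
  show ‖sff (Phi ∘ a) y v w‖ ^ 2 * ‖sff (Phi ∘ a) y w w‖ ^ 2
      - (inner ℝ (sff (Phi ∘ a) y v w) (sff (Phi ∘ a) y w w)) ^ 2 <
    inner ℝ (sff (Phi ∘ a) y v v) (sff (Phi ∘ a) y w w) * ‖sff (Phi ∘ a) y w w‖ ^ 2
  rw [sff_flat ha hflat v w, sff_flat ha hflat w w, sff_flat ha hflat v v, ← hz0,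
    ← real_inner_self_eq_norm_sq, ← real_inner_self_eq_norm_sq]
  simp only [inner_smul_left, inner_smul_right, conj_trivial]
  set A : ℝ := inner ℝ (fderiv ℝ a y v) (fderiv ℝ a y w)
  set B : ℝ := inner ℝ (fderiv ℝ a y v) (fderiv ℝ a y v)
  set C : ℝ := inner ℝ (fderiv ℝ a y w) (fderiv ℝ a y w)
  set Z : ℝ := inner ℝ z0 z0
  have e1 : A * (A * Z) * (C * (C * Z)) - (A * (C * Z)) ^ 2 = 0 := by ring
  have e2 : 0 < B * (C * Z) * (C * (C * Z)) := by positivity
  linarith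

end planar

end Crest.Agent.R216.Base
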