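import Crest.Agent.R216.GlobDefs

/-!
Row 216 (S0335), module GLOB: coordinate representations of maps `M → ℝ⁴`, change of charts, glue.
-/

set_option autoImplicit false
set_option linter.unusedSectionVars false

noncomputable section

open scoped Manifold ContDiff Topology
open Set

namespace Crest.Agent.R216

variable {M : Type*} [TopologicalSpace M] [ChartedSpace P2 M]

/-- coordinate representation of a map `M → X` -/
def rep {X : Type*} (F : M → X) (ψ : OpenPartialHomeomorph M P2) : P2 → X := F ∘ ψ.symm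

/-- transition map from `χ`-coordinates to `ψ`-coordinates -/
def trans (χ ψ : OpenPartialHomeomorph M P2) : P2 → P2 := ψ ∘ χ.symm

section charts

variable [IsManifold (𝓡 2) ∞ M]

lemma rep_contDiffOn {E : Type*} [NormedAddCommGroup E] [NormedSpace ℝ E] {F : M → E}
    (hF : ContMDiff (𝓡 2) 𝓘(ℝ, E) ∞ F)
    {ψ : OpenPartialHomeomorph M P2} (hψ : ψ ∈ IsManifold.maximalAtlas (𝓡 2) ∞ M) :
    ContDiffOn ℝ ∞ (rep F ψ) ψ.target := by
  have h1 := contMDiffOn_symm_of_mem_maximalAtlas hψ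
  exact contMDiffOn_iff_contDiffOn.1 (hF.comp_contMDiffOn h1)

lemma trans_contDiffOn {χ ψ : OpenPartialHomeomorph M P2}
    (hχ : χ ∈ IsManifold.maximalAtlas (𝓡 2) ∞ M) (hψ : ψ ∈ IsManifold.maximalAtlas (𝓡 2) ∞ M) :
    ContDiffOn ℝ ∞ (trans χ ψ) (χ.target ∩ χ.symm ⁻¹' ψ.source) := by
  have h1 : ContMDiffOn (𝓡 2) (𝓡 2) ∞ χ.symm (χ.target ∩ χ.symm ⁻¹' ψ.source) :=
    (contMDiffOn_symm_of_mem_maximalAtlas hχ).mono inter_subset_left
  have h2 := contMDiffOn_of_mem_maximalAtlas hψ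
  exact contMDiffOn_iff_contDiffOn.1 (h2.comp h1 (fun x hx => hx.2))

lemma isOpen_transDom (χ ψ : OpenPartialHomeomorph M P2) :
    IsOpen (χ.target ∩ χ.symm ⁻¹' ψ.source) :=
  χ.isOpen_inter_preimage_symm ψ.open_source

lemma trans_contDiffAt {χ ψ : OpenPartialHomeomorph M P2}
    (hχ : χ ∈ IsManifold.maximalAtlas (𝓡 2) ∞ M) (hψ : ψ ∈ IsManifold.maximalAtlas (𝓡 2) ∞ M)
    {x : P2} (hx : x ∈ χ.target) (hx' : χ.symm x ∈ ψ.source) :
    ContDiffAt ℝ ∞ (trans χ ψ) x :=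
  (trans_contDiffOn hχ hψ).contDiffAt ((isOpen_transDom χ ψ).mem_nhds ⟨hx, hx'⟩)

lemma trans_trans {χ ψ : OpenPartialHomeomorph M P2} {x : P2} (hx : x ∈ χ.target)
    (hx' : χ.symm x ∈ ψ.source) : ∀ᶠ y in 𝓝 x, trans ψ χ (trans χ ψ y) = y := by
  filter_upwards [(isOpen_transDom χ ψ).mem_nhds ⟨hx, hx'⟩] with y hy
  simp only [trans, Function.comp_apply]
  rw [ψ.left_inv hy.2, χ.right_inv hy.1]

lemma fderiv_trans_comp {χ ψ : OpenPartialHomeomorph M P2}
    (hχ : χ ∈ IsManifold.maximalAtlas (𝓡 2) ∞ M) (hψ : ψ ∈ IsManifold.maximalAtlas (𝓡 2) ∞ M)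
    {x : P2} (hx : x ∈ χ.target) (hx' : χ.symm x ∈ ψ.source) (v : P2) :
    fderiv ℝ (trans ψ χ) (trans χ ψ x) (fderiv ℝ (trans χ ψ) x v) = v := by
  have h1 : (fun y => trans ψ χ (trans χ ψ y)) =ᶠ[𝓝 x] id := trans_trans hx hx'
  have h2 := h1.fderiv_eq (𝕜 := ℝ)
  have hy : trans χ ψ x ∈ ψ.target := ψ.map_source hx'
  have hy' : ψ.symm (trans χ ψ x) ∈ χ.source := by
    simp only [trans, Function.comp_apply]
    rw [ψ.left_inv hx']
    exact χ.map_target hx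
  have h3 : DifferentiableAt ℝ (trans ψ χ) (trans χ ψ x) :=
    (trans_contDiffAt hψ hχ hy hy').differentiableAt (by simp)
  have h4 : DifferentiableAt ℝ (trans χ ψ) x :=
    (trans_contDiffAt hχ hψ hx hx').differentiableAt (by simp)
  have h5 : fderiv ℝ (fun y => trans ψ χ (trans χ ψ y)) x
      = (fderiv ℝ (trans ψ χ) (trans χ ψ x)).comp (fderiv ℝ (trans χ ψ) x) :=
    fderiv_comp x h3 h4
  rw [h5] at h2
  have := congrArg (fun L : P2 →L[ℝ] P2 => L v) h2
  simpa using this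

lemma fderiv_trans_surjective {χ ψ : OpenPartialHomeomorph M P2}
    (hχ : χ ∈ IsManifold.maximalAtlas (𝓡 2) ∞ M) (hψ : ψ ∈ IsManifold.maximalAtlas (𝓡 2) ∞ M)
    {x : P2} (hx : x ∈ χ.target) (hx' : χ.symm x ∈ ψ.source) :
    Function.Surjective (fderiv ℝ (trans χ ψ) x) := by
  have hy : trans χ ψ x ∈ ψ.target := ψ.map_source hx'
  have hy' : ψ.symm (trans χ ψ x) ∈ χ.source := by
    simp only [trans, Function.comp_apply]
    rw [ψ.left_inv hx']
    exact χ.map_target hx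
  have hxx : trans ψ χ (trans χ ψ x) = x := (trans_trans hx hx').self_of_nhds
  intro w
  refine ⟨fderiv ℝ (trans ψ χ) (trans χ ψ x) w, ?_⟩
  have := fderiv_trans_comp hψ hχ hy hy' w
  rwa [hxx] at this

lemma fderiv_trans_injective {χ ψ : OpenPartialHomeomorph M P2}
    (hχ : χ ∈ IsManifold.maximalAtlas (𝓡 2) ∞ M) (hψ : ψ ∈ IsManifold.maximalAtlas (𝓡 2) ∞ M)
    {x : P2} (hx : x ∈ χ.target) (hx' : χ.symm x ∈ ψ.source) :
    Function.Injective (fderiv ℝ (trans χ ψ) x) := by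
  intro v w h
  have h1 := fderiv_trans_comp hχ hψ hx hx' v
  have h2 := fderiv_trans_comp hχ hψ hx hx' w
  rw [← h1, ← h2, h]

lemma rep_trans {X : Type*} (F : M → X) {χ ψ : OpenPartialHomeomorph M P2}
    {x : P2} (hx : x ∈ χ.target) (hx' : χ.symm x ∈ ψ.source) :
    rep F χ =ᶠ[𝓝 x] rep F ψ ∘ trans χ ψ := by
  filter_upwards [(isOpen_transDom χ ψ).mem_nhds ⟨hx, hx'⟩] with y hy
  simp only [trans, rep, Function.comp_apply]
  rw [ψ.left_inv hy.2]

/-- the second fundamental form is independent of the chart -/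
theorem hN_trans {F : M → P4} (hF : ContMDiff (𝓡 2) 𝓘(ℝ, P4) ∞ F)
    {χ ψ : OpenPartialHomeomorph M P2}
    (hχ : χ ∈ IsManifold.maximalAtlas (𝓡 2) ∞ M) (hψ : ψ ∈ IsManifold.maximalAtlas (𝓡 2) ∞ M)
    {x : P2} (hx : x ∈ χ.target) (hx' : χ.symm x ∈ ψ.source) (v w : P2) :
    hN (rep F χ) x v w
      = hN (rep F ψ) (trans χ ψ x) (fderiv ℝ (trans χ ψ) x v) (fderiv ℝ (trans χ ψ) x w) := by
  rw [hN_congr (rep_trans F hx hx')]
  have hy : trans χ ψ x ∈ ψ.target := ψ.map_source hx'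
  exact hN_comp (((rep_contDiffOn hF hψ).contDiffAt (ψ.open_target.mem_nhds hy)).of_le ENat.LEInfty.out)
    ((trans_contDiffAt hχ hψ hx hx').of_le ENat.LEInfty.out) (fderiv_trans_surjective hχ hψ hx hx') v w

theorem met_trans {F : M → P4} (hF : ContMDiff (𝓡 2) 𝓘(ℝ, P4) ∞ F)
    {χ ψ : OpenPartialHomeomorph M P2}
    (hχ : χ ∈ IsManifold.maximalAtlas (𝓡 2) ∞ M) (hψ : ψ ∈ IsManifold.maximalAtlas (𝓡 2) ∞ M)
    {x : P2} (hx : x ∈ χ.target) (hx' : χ.symm x ∈ ψ.source) (v w : P2) :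
    met (rep F χ) x v w
      = met (rep F ψ) (trans χ ψ x) (fderiv ℝ (trans χ ψ) x v) (fderiv ℝ (trans χ ψ) x w) := by
  rw [met_congr (rep_trans F hx hx')]
  have hy : trans χ ψ x ∈ ψ.target := ψ.map_source hx'
  exact met_comp (((rep_contDiffOn hF hψ).contDiffAt (ψ.open_target.mem_nhds hy)).differentiableAt
    (by simp)) ((trans_contDiffAt hχ hψ hx hx').differentiableAt (by simp)) v w

/-- derivative of `F` in terms of a chart -/
theorem mfderiv_eq {E : Type*} [NormedAddCommGroup E] [NormedSpace ℝ E] {F : M → E}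
    (hF : ContMDiff (𝓡 2) 𝓘(ℝ, E) ∞ F)
    {ψ : OpenPartialHomeomorph M P2} (hψ : ψ ∈ IsManifold.maximalAtlas (𝓡 2) ∞ M)
    {p : M} (hp : p ∈ ψ.source) (v : TangentSpace (𝓡 2) p) :
    mfderiv (𝓡 2) 𝓘(ℝ, E) F p v
      = fderiv ℝ (rep F ψ) (ψ p) (mfderiv (𝓡 2) (𝓡 2) ψ p v) := by
  have h1 : F =ᶠ[𝓝 p] rep F ψ ∘ ψ := by
    filter_upwards [ψ.open_source.mem_nhds hp] with q hq
    simp [rep, ψ.left_inv hq]
  have h2 : MDifferentiableAt (𝓡 2) (𝓡 2) ψ p :=
    (contMDiffAt_of_mem_maximalAtlas hψ hp).mdifferentiableAt (by simp)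
  have h3 : DifferentiableAt ℝ (rep F ψ) (ψ p) :=
    ((rep_contDiffOn hF hψ).contDiffAt (ψ.open_target.mem_nhds (ψ.map_source hp))).differentiableAt
      (by simp)
  rw [h1.mfderiv_eq, mfderiv_comp p h3.mdifferentiableAt h2]
  simp only [mfderiv_eq_fderiv]
  rfl

/-- glue of a planar modification into the manifold -/
def glue {X : Type*} (F : M → X) (ψ : OpenPartialHomeomorph M P2) (F' : P2 → X) : M → X := by
  classical
  exact fun p => if p ∈ ψ.source then F' (ψ p) else F p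

lemma glue_of_mem {X : Type*} (F : M → X) (ψ : OpenPartialHomeomorph M P2) (F' : P2 → X)
    {p : M} (hp : p ∈ ψ.source) : glue F ψ F' p = F' (ψ p) := by
  simp [glue, hp]

lemma glue_of_notMem {X : Type*} (F : M → X) (ψ : OpenPartialHomeomorph M P2) (F' : P2 → X)
    {p : M} (hp : p ∉ ψ.source) : glue F ψ F' p = F p := by
  simp [glue, hp]

/-- the modified map coincides with the old one off `ψ⁻¹ K` -/
lemma glue_eq {X : Type*} {F : M → X} {ψ : OpenPartialHomeomorph M P2} {F' : P2 → X}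
    {K : Set P2} (hF' : ∀ x ∈ ψ.target, x ∉ K → F' x = rep F ψ x)
    {p : M} (hp : p ∉ ψ.symm '' K) : glue F ψ F' p = F p := by
  by_cases h : p ∈ ψ.source
  · rw [glue_of_mem F ψ F' h, hF' _ (ψ.map_source h)]
    · simp [rep, ψ.left_inv h]
    · intro hK
      exact hp ⟨ψ p, hK, ψ.left_inv h⟩
  · exact glue_of_notMem F ψ F' h

lemma rep_glue {X : Type*} (F : M → X) (ψ : OpenPartialHomeomorph M P2) (F' : P2 → X)
    {x : P2} (hx : x ∈ ψ.target) : rep (glue F ψ F') ψ x = F' x := by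
  simp only [rep, Function.comp_apply]
  rw [glue_of_mem F ψ F' (ψ.map_target hx), ψ.right_inv hx]

lemma isClosed_symm_image [T2Space M] {ψ : OpenPartialHomeomorph M P2} {K : Set P2}
    (hK : IsCompact K) (hKt : K ⊆ ψ.target) : IsClosed (ψ.symm '' K) :=
  (hK.image_of_continuousOn (ψ.continuousOn_symm.mono hKt)).isClosed

/-- smoothness of the glued map -/
theorem glue_contMDiff [T2Space M] {E : Type*} [NormedAddCommGroup E] [NormedSpace ℝ E] {F : M → E}
    (hF : ContMDiff (𝓡 2) 𝓘(ℝ, E) ∞ F)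
    {ψ : OpenPartialHomeomorph M P2} (hψ : ψ ∈ IsManifold.maximalAtlas (𝓡 2) ∞ M)
    {F' : P2 → E} (hF' : ContDiffOn ℝ ∞ F' ψ.target) {K : Set P2}
    (hK : IsCompact K) (hKt : K ⊆ ψ.target) (hEq : ∀ x ∈ ψ.target, x ∉ K → F' x = rep F ψ x) :
    ContMDiff (𝓡 2) 𝓘(ℝ, E) ∞ (glue F ψ F') := by
  intro p
  by_cases hp : p ∈ ψ.source
  · have h1 : glue F ψ F' =ᶠ[𝓝 p] F' ∘ ψ := by
      filter_upwards [ψ.open_source.mem_nhds hp] with q hq
      exact glue_of_mem F ψ F' hq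
    refine ContMDiffAt.congr_of_eventuallyEq ?_ h1
    have h2 : ContMDiffAt 𝓘(ℝ, P2) 𝓘(ℝ, E) ∞ F' (ψ p) :=
      (hF'.contDiffAt (ψ.open_target.mem_nhds (ψ.map_source hp))).contMDiffAt
    exact h2.comp p (contMDiffAt_of_mem_maximalAtlas hψ hp)
  · have h1 : glue F ψ F' =ᶠ[𝓝 p] F := by
      have hcl := isClosed_symm_image hK hKt
      have : p ∉ ψ.symm '' K := by
        rintro ⟨x, hx, rfl⟩
        exact hp (ψ.map_target (hKt hx))
      filter_upwards [hcl.isOpen_compl.mem_nhds this] with q hq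
      exact glue_eq hEq hq
    exact (hF p).congr_of_eventuallyEq h1

end charts

end Crest.Agent.R216
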