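import Crest.Agent.R216.Skel
import Crest.Agent.R216.GlobChart

/-!
# Row 216 (S0335), part (6): calculus of the coefficients of 2-tensors in charts (helper125)

* `TBil h`: the tensor `h` is bilinear at every point;
* `coef_trans`: change of charts (every `Tens`);
* `coef_pull`: the coefficients of `pull F` are those of the planar map `rep F ψ`;
* `coef_gT_contDiffOn`, `coef_pull_contDiffOn`: smoothness;
* `coef_prim`: the primitive metric of a stage in a chart.
-/

set_option autoImplicit false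
set_option linter.unusedSectionVars false

open scoped Manifold ContDiff Topology
open Set

noncomputable section
namespace Crest.Agent.R216.DC

variable {M : Type*} [TopologicalSpace M] [ChartedSpace E2 M]

/-- the tensor of a smooth metric -/
def gT [IsManifold (𝓡 2) ∞ M]
    (g : Bundle.ContMDiffRiemannianMetric (𝓡 2) ∞ E2 (TangentSpace (𝓡 2) : M → Type)) : Tens M :=
  fun p v w => g.inner p v w

/-- bilinear tensors -/
structure TBil (h : Tens M) : Prop where
  add_left : ∀ (p : M) (v v' w : TangentSpace (𝓡 2) p), h p (v + v') w = h p v w + h p v' w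
  smul_left : ∀ (p : M) (a : ℝ) (v w : TangentSpace (𝓡 2) p), h p (a • v) w = a * h p v w
  add_right : ∀ (p : M) (v w w' : TangentSpace (𝓡 2) p), h p v (w + w') = h p v w + h p v w'
  smul_right : ∀ (p : M) (a : ℝ) (v w : TangentSpace (𝓡 2) p), h p v (a • w) = a * h p v w

/-- symmetric tensors -/
def TSym (h : Tens M) : Prop := ∀ (p : M) (v w : TangentSpace (𝓡 2) p), h p v w = h p w v

theorem tBil_pull (F : M → E4) : TBil (pull F) where
  add_left p v v' w := by
    simp only [pull, map_add]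
    exact inner_add_left (𝕜 := ℝ) (E := E4) _ _ _
  smul_left p a v w := by
    simp only [pull, map_smul]
    exact real_inner_smul_left (F := E4) _ _ _
  add_right p v w w' := by
    simp only [pull, map_add]
    exact inner_add_right (𝕜 := ℝ) (E := E4) _ _ _
  smul_right p a v w := by
    simp only [pull, map_smul]
    exact real_inner_smul_right (F := E4) _ _ _

theorem tSym_pull (F : M → E4) : TSym (pull F) := fun _ _ _ => real_inner_comm _ _

section metric
variable [IsManifold (𝓡 2) ∞ M]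
  (g : Bundle.ContMDiffRiemannianMetric (𝓡 2) ∞ E2 (TangentSpace (𝓡 2) : M → Type))

theorem tBil_gT : TBil (gT g) where
  add_left p v v' w := by
    have := congrArg (fun L : TangentSpace (𝓡 2) p →L[ℝ] ℝ => L w) ((g.inner p).map_add v v')
    exact this
  smul_left p a v w := by
    have := congrArg (fun L : TangentSpace (𝓡 2) p →L[ℝ] ℝ => L w) ((g.inner p).map_smul a v)
    exact this
  add_right p v w w' := (g.inner p v).map_add w w'
  smul_right p a v w := (g.inner p v).map_smul a w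

theorem tSym_gT : TSym (gT g) := fun p v w => g.symm p v w

end metric

theorem TBil.prim (S : Stage M) (β : E2 → ℝ) : TBil (S.prim β) := by
  have hadd : ∀ (p : M) (v v' : TangentSpace (𝓡 2) p), S.dphi p (v + v') = S.dphi p v + S.dphi p v' := by
    intro p v v'
    unfold Stage.dphi
    rw [map_add]
    exact (EuclideanSpace.proj (0 : Fin 2) : E2 →L[ℝ] ℝ).map_add _ _
  have hsmul : ∀ (p : M) (a : ℝ) (v : TangentSpace (𝓡 2) p), S.dphi p (a • v) = a * S.dphi p v := by
    intro p a v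
    unfold Stage.dphi
    rw [map_smul]
    exact (EuclideanSpace.proj (0 : Fin 2) : E2 →L[ℝ] ℝ).map_smul _ _
  constructor
  · intro p v v' w; simp only [Stage.prim, hadd]; ring
  · intro p a v w; simp only [Stage.prim, hsmul]; ring
  · intro p v w w'; simp only [Stage.prim, hadd]; ring
  · intro p a v w; simp only [Stage.prim, hsmul]; ring

theorem TSym.prim (S : Stage M) (β : E2 → ℝ) : TSym (S.prim β) := by
  intro p v w; simp only [Stage.prim]; ring

theorem TBil.Gk {J : ℕ} (S : Fin J → Stage M) (β : Fin J → E2 → ℝ) {h : Tens M} (hh : TBil h)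
    (k : ℕ) : TBil (Gk S β h k) := by
  have e : ∀ (j : Fin J), TBil ((S j).prim (β j)) := fun j => TBil.prim _ _
  constructor
  · intro p v v' w
    simp only [R216.Gk, hh.add_left]
    rw [add_add_add_comm, ← Finset.sum_add_distrib]
    congr 1
    apply Finset.sum_congr rfl
    intro j _
    split_ifs
    · exact (e j).add_left p v v' w
    · simp
  · intro p a v w
    simp only [R216.Gk, hh.smul_left]
    rw [mul_add, Finset.mul_sum]
    congr 1
    apply Finset.sum_congr rfl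
    intro j _
    split_ifs
    · exact (e j).smul_left p a v w
    · simp
  · intro p v w w'
    simp only [R216.Gk, hh.add_right]
    rw [add_add_add_comm, ← Finset.sum_add_distrib]
    congr 1
    apply Finset.sum_congr rfl
    intro j _
    split_ifs
    · exact (e j).add_right p v w w'
    · simp
  · intro p a v w
    simp only [R216.Gk, hh.smul_right]
    rw [mul_add, Finset.mul_sum]
    congr 1
    apply Finset.sum_congr rfl
    intro j _
    split_ifs
    · exact (e j).smul_right p a v w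
    · simp

/-! ### bilinearity of `coef` -/

section coef_bil

variable {h : Tens M} (hb : TBil h) (ψ : OpenPartialHomeomorph M E2)
include hb

theorem coef_add_left (v v' w y : E2) :
    coef h ψ (v + v') w y = coef h ψ v w y + coef h ψ v' w y := by
  unfold coef
  rw [← hb.add_left]
  congr 1
  exact (mfderiv 𝓘(ℝ, E2) (𝓡 2) ψ.symm y).map_add v v'

theorem coef_smul_left (a : ℝ) (v w y : E2) :
    coef h ψ (a • v) w y = a * coef h ψ v w y := by
  unfold coef
  rw [← hb.smul_left]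
  congr 1
  exact (mfderiv 𝓘(ℝ, E2) (𝓡 2) ψ.symm y).map_smul a v

theorem coef_add_right (v w w' y : E2) :
    coef h ψ v (w + w') y = coef h ψ v w y + coef h ψ v w' y := by
  unfold coef
  rw [← hb.add_right]
  congr 1
  exact (mfderiv 𝓘(ℝ, E2) (𝓡 2) ψ.symm y).map_add w w'

theorem coef_smul_right (a : ℝ) (v w y : E2) :
    coef h ψ v (a • w) y = a * coef h ψ v w y := by
  unfold coef
  rw [← hb.smul_right]
  congr 1
  exact (mfderiv 𝓘(ℝ, E2) (𝓡 2) ψ.symm y).map_smul a w

end coef_bil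

/-- a vector of the plane in the standard basis -/
theorem vec_eq (v : E2) : v = v 0 • bv 0 + v 1 • bv 1 := by
  ext i
  fin_cases i <;> simp [bv]

theorem coef_expand {h : Tens M} (hb : TBil h) (ψ : OpenPartialHomeomorph M E2) (v w y : E2) :
    coef h ψ v w y = v 0 * w 0 * coef h ψ (bv 0) (bv 0) y + v 0 * w 1 * coef h ψ (bv 0) (bv 1) y +
      v 1 * w 0 * coef h ψ (bv 1) (bv 0) y + v 1 * w 1 * coef h ψ (bv 1) (bv 1) y := by
  conv_lhs => rw [vec_eq v, vec_eq w]
  simp only [coef_add_left hb, coef_add_right hb, coef_smul_left hb, coef_smul_right hb]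
  ring

theorem coef_expand' {h : Tens M} (hb : TBil h) (ψ : OpenPartialHomeomorph M E2) (v w y : E2) :
    coef h ψ v w y = ∑ i : Fin 2, ∑ j : Fin 2, v i * w j * coef h ψ (bv i) (bv j) y := by
  rw [coef_expand hb]
  simp only [Fin.sum_univ_two]
  ring

theorem coef_symm {h : Tens M} (hs : TSym h) (ψ : OpenPartialHomeomorph M E2) (v w y : E2) :
    coef h ψ v w y = coef h ψ w v y := hs _ _ _

/-- the coefficients of `Gk` -/
theorem coef_Gk {J : ℕ} (S : Fin J → Stage M) (β : Fin J → E2 → ℝ) (h : Tens M) (k : ℕ)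
    (ψ : OpenPartialHomeomorph M E2) (v w y : E2) :
    coef (Gk S β h k) ψ v w y = coef h ψ v w y +
      ∑ j : Fin J, if j.1 < k then coef ((S j).prim (β j)) ψ v w y else 0 := rfl

section charts

variable [IsManifold (𝓡 2) ∞ M]

theorem mdifferentiableAt_symm {ψ : OpenPartialHomeomorph M E2}
    (hψ : ψ ∈ IsManifold.maximalAtlas (𝓡 2) ∞ M) {y : E2} (hy : y ∈ ψ.target) :
    MDifferentiableAt 𝓘(ℝ, E2) (𝓡 2) ψ.symm y :=
  ((contMDiffOn_symm_of_mem_maximalAtlas hψ).contMDiffAt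
    (ψ.open_target.mem_nhds hy)).mdifferentiableAt (by simp)

theorem mdifferentiableAt_chart {ψ : OpenPartialHomeomorph M E2}
    (hψ : ψ ∈ IsManifold.maximalAtlas (𝓡 2) ∞ M) {p : M} (hp : p ∈ ψ.source) :
    MDifferentiableAt (𝓡 2) 𝓘(ℝ, E2) ψ p :=
  ((contMDiffOn_of_mem_maximalAtlas hψ).contMDiffAt
    (ψ.open_source.mem_nhds hp)).mdifferentiableAt (by simp)

/-- chain rule for the inverse charts -/
theorem mfderiv_symm_trans {χ ψ : OpenPartialHomeomorph M E2}
    (hχ : χ ∈ IsManifold.maximalAtlas (𝓡 2) ∞ M) (hψ : ψ ∈ IsManifold.maximalAtlas (𝓡 2) ∞ M)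
    {x : E2} (hx : x ∈ χ.target) (hx' : χ.symm x ∈ ψ.source) (v : E2) :
    (mfderiv 𝓘(ℝ, E2) (𝓡 2) χ.symm x v : E2)
      = mfderiv 𝓘(ℝ, E2) (𝓡 2) ψ.symm (trans χ ψ x) (fderiv ℝ (trans χ ψ) x v) := by
  have h1 : χ.symm =ᶠ[𝓝 x] ψ.symm ∘ trans χ ψ := by
    filter_upwards [(isOpen_transDom χ ψ).mem_nhds ⟨hx, hx'⟩] with y hy
    simp only [trans, Function.comp_apply]
    rw [ψ.left_inv hy.2]
  have hy : trans χ ψ x ∈ ψ.target := ψ.map_source hx'
  have h2 : MDifferentiableAt 𝓘(ℝ, E2) 𝓘(ℝ, E2) (trans χ ψ) x :=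
    ((trans_contDiffAt hχ hψ hx hx').differentiableAt (by simp)).mdifferentiableAt
  rw [h1.mfderiv_eq, mfderiv_comp x (mdifferentiableAt_symm hψ hy) h2, mfderiv_eq_fderiv]
  rfl

/-- congruence for tensors -/
theorem tens_congr (h : Tens M) {p q : M} (hpq : p = q) {v w v' w' : E2} (hv : v = v')
    (hw : w = w') : h p v w = h q v' w' := by
  subst hpq; subst hv; subst hw; rfl

/-- **change of charts** for the coefficients of any tensor -/
theorem coef_trans (h : Tens M) {χ ψ : OpenPartialHomeomorph M E2}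
    (hχ : χ ∈ IsManifold.maximalAtlas (𝓡 2) ∞ M) (hψ : ψ ∈ IsManifold.maximalAtlas (𝓡 2) ∞ M)
    {x : E2} (hx : x ∈ χ.target) (hx' : χ.symm x ∈ ψ.source) (v w : E2) :
    coef h χ v w x = coef h ψ (fderiv ℝ (trans χ ψ) x v) (fderiv ℝ (trans χ ψ) x w)
      (trans χ ψ x) := by
  unfold coef
  refine tens_congr h ?_ (mfderiv_symm_trans hχ hψ hx hx' v) (mfderiv_symm_trans hχ hψ hx hx' w)
  simp only [trans, Function.comp_apply]
  rw [ψ.left_inv hx']

/-- the derivative of `F` along the coordinate fields -/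
theorem mfderiv_comp_symm {E : Type*} [NormedAddCommGroup E] [NormedSpace ℝ E] {F : M → E}
    (hF : ContMDiff (𝓡 2) 𝓘(ℝ, E) ∞ F) {ψ : OpenPartialHomeomorph M E2}
    (hψ : ψ ∈ IsManifold.maximalAtlas (𝓡 2) ∞ M) {y : E2} (hy : y ∈ ψ.target) (v : E2) :
    mfderiv (𝓡 2) 𝓘(ℝ, E) F (ψ.symm y) (mfderiv 𝓘(ℝ, E2) (𝓡 2) ψ.symm y v)
      = fderiv ℝ (rep F ψ) y v := by
  have h1 : MDifferentiableAt (𝓡 2) 𝓘(ℝ, E) F (ψ.symm y) :=
    (hF (ψ.symm y)).mdifferentiableAt (by simp)
  have h2 := mfderiv_comp y h1 (mdifferentiableAt_symm hψ hy)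
  have h3 : mfderiv 𝓘(ℝ, E2) 𝓘(ℝ, E) (F ∘ ψ.symm) y = fderiv ℝ (F ∘ ψ.symm) y :=
    mfderiv_eq_fderiv
  rw [h3] at h2
  unfold rep
  rw [h2]
  rfl

/-- the coefficients of a pulled back metric -/
theorem coef_pull {F : M → E4} (hF : ContMDiff (𝓡 2) 𝓘(ℝ, E4) ∞ F)
    {ψ : OpenPartialHomeomorph M E2} (hψ : ψ ∈ IsManifold.maximalAtlas (𝓡 2) ∞ M) {y : E2}
    (hy : y ∈ ψ.target) (v w : E2) :
    coef (pull F) ψ v w y = met (rep F ψ) y v w := by
  unfold coef pull met d1
  rw [mfderiv_comp_symm hF hψ hy, mfderiv_comp_symm hF hψ hy]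

theorem coef_pull_contDiffOn {F : M → E4} (hF : ContMDiff (𝓡 2) 𝓘(ℝ, E4) ∞ F)
    {ψ : OpenPartialHomeomorph M E2} (hψ : ψ ∈ IsManifold.maximalAtlas (𝓡 2) ∞ M) (v w : E2) :
    ContDiffOn ℝ ∞ (coef (pull F) ψ v w) ψ.target := by
  have h1 : ContDiffOn ℝ ∞ (fun y => met (rep F ψ) y v w) ψ.target := by
    have h2 : ContDiffOn ℝ ∞ (fderiv ℝ (rep F ψ)) ψ.target :=
      (rep_contDiffOn hF hψ).fderiv_of_isOpen ψ.open_target (by simp)
    exact (h2.clm_apply contDiffOn_const).inner ℝ (h2.clm_apply contDiffOn_const)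
  exact h1.congr (fun y hy => coef_pull hF hψ hy v w)

/-- the coordinate vector fields are smooth -/
theorem coordField_contMDiffOn {ψ : OpenPartialHomeomorph M E2}
    (hψ : ψ ∈ IsManifold.maximalAtlas (𝓡 2) ∞ M) (v : E2) :
    ContMDiffOn 𝓘(ℝ, E2) (𝓡 2).tangent ∞
      (fun y => (⟨ψ.symm y, mfderiv 𝓘(ℝ, E2) (𝓡 2) ψ.symm y v⟩ : TangentBundle (𝓡 2) M))
      ψ.target := by
  have h1 := (contMDiffOn_symm_of_mem_maximalAtlas hψ).contMDiffOn_tangentMapWithin
    (m := ∞) (by simp) ψ.open_target.uniqueMDiffOn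
  have h2 : ContMDiffOn 𝓘(ℝ, E2) 𝓘(ℝ, E2).tangent ∞
      (fun y => (⟨y, v⟩ : TangentBundle 𝓘(ℝ, E2) E2)) ψ.target := by
    have := (contMDiffOn_vectorSpace_iff_contDiffOn (E := E2) (V := fun _ => v) (n := ∞)
      (s := ψ.target) (𝕜 := ℝ)).2 contDiffOn_const
    exact this
  have h3 := h1.comp h2 (fun y hy => hy)
  refine h3.congr (fun y hy => ?_)
  simp only [Function.comp_apply, tangentMapWithin]
  rw [mfderivWithin_of_isOpen ψ.open_target hy]

/-- smoothness of the metric coefficients -/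
theorem coef_gT_contDiffOn
    (g : Bundle.ContMDiffRiemannianMetric (𝓡 2) ∞ E2 (TangentSpace (𝓡 2) : M → Type))
    {ψ : OpenPartialHomeomorph M E2} (hψ : ψ ∈ IsManifold.maximalAtlas (𝓡 2) ∞ M) (v w : E2) :
    ContDiffOn ℝ ∞ (coef (gT g) ψ v w) ψ.target := by
  have h1 := (coordField_contMDiffOn hψ v)
  have h2 := (coordField_contMDiffOn hψ w)
  rw [← contMDiffOn_iff_contDiffOn]
  intro y hy
  have hb : ContMDiffWithinAt 𝓘(ℝ, E2) (𝓡 2) ∞ ψ.symm ψ.target y :=
    contMDiffOn_symm_of_mem_maximalAtlas hψ y hy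
  have h3 : ContMDiffWithinAt 𝓘(ℝ, E2) ((𝓡 2).prod 𝓘(ℝ)) ∞
      (fun m => Bundle.TotalSpace.mk' ℝ (E := Bundle.Trivial M ℝ) (ψ.symm m)
        (g.inner (ψ.symm m) (mfderiv 𝓘(ℝ, E2) (𝓡 2) ψ.symm m v)
          (mfderiv 𝓘(ℝ, E2) (𝓡 2) ψ.symm m w))) ψ.target y := by
    apply ContMDiffWithinAt.clm_bundle_apply₂ (F₁ := E2) (F₂ := E2)
    · exact ContMDiffAt.comp_contMDiffWithinAt y g.contMDiff.contMDiffAt hb
    · exact h1 y hy
    · exact h2 y hy
  simp only [Bundle.contMDiffWithinAt_totalSpace] at h3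
  exact h3.2

/-- differential of the phase of a stage in a chart -/
theorem dphi_coord (S : Stage M) {χ : OpenPartialHomeomorph M E2}
    (hχ : χ ∈ IsManifold.maximalAtlas (𝓡 2) ∞ M) {x : E2} (hx : x ∈ χ.target)
    (hx' : χ.symm x ∈ S.ψ.source) (v : E2) :
    S.dphi (χ.symm x) (mfderiv 𝓘(ℝ, E2) (𝓡 2) χ.symm x v) = (fderiv ℝ (trans χ S.ψ) x v) 0 := by
  have h2 := mfderiv_comp x (mdifferentiableAt_chart S.hψ hx') (mdifferentiableAt_symm hχ hx)
  have h3 : mfderiv 𝓘(ℝ, E2) 𝓘(ℝ, E2) (S.ψ ∘ χ.symm) x = fderiv ℝ (S.ψ ∘ χ.symm) x :=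
    mfderiv_eq_fderiv
  rw [h3] at h2
  unfold Stage.dphi trans
  rw [h2]
  rfl

/-- the primitive metric of a stage in a chart -/
theorem coef_prim (S : Stage M) (β : E2 → ℝ) {χ : OpenPartialHomeomorph M E2}
    (hχ : χ ∈ IsManifold.maximalAtlas (𝓡 2) ∞ M) {x : E2} (hx : x ∈ χ.target)
    (hx' : χ.symm x ∈ S.ψ.source) (v w : E2) :
    coef (S.prim β) χ v w x = S.ampP β (trans χ S.ψ x) ^ 2 * (fderiv ℝ (trans χ S.ψ) x v) 0 *
      (fderiv ℝ (trans χ S.ψ) x w) 0 := by
  unfold coef Stage.prim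
  rw [dphi_coord S hχ hx hx', dphi_coord S hχ hx hx']
  unfold Stage.amp
  rw [if_pos hx']
  rfl

theorem coef_prim_of_notMem (S : Stage M) (β : E2 → ℝ) {χ : OpenPartialHomeomorph M E2}
    {x : E2} (hx' : χ.symm x ∉ S.ψ.source) (v w : E2) :
    coef (S.prim β) χ v w x = 0 := by
  unfold coef Stage.prim Stage.amp
  rw [if_neg hx']
  ring

/-- the primitive metric vanishes outside the support -/
theorem amp_of_notMem (S : Stage M) (β : E2 → ℝ) {p : M} (hp : p ∉ S.V) : S.amp β p = 0 := by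
  unfold Stage.amp
  split_ifs with h
  · unfold Stage.ampP
    rw [expNegInvGlue.zero_of_nonpos, zero_mul]
    by_contra hc
    exact hp ⟨S.ψ p, not_le.1 hc, S.ψ.left_inv h⟩
  · rfl

/-- the primitive metric in the chart of the stage -/
theorem coef_prim_self (S : Stage M) (β : E2 → ℝ) {y : E2} (hy : y ∈ S.ψ.target) (v w : E2) :
    coef (S.prim β) S.ψ v w y = S.ampP β y ^ 2 * v 0 * w 0 := by
  have hx' : S.ψ.symm y ∈ S.ψ.source := S.ψ.map_target hy
  rw [coef_prim S β S.hψ hy hx']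
  have h1 : trans S.ψ S.ψ =ᶠ[𝓝 y] id := by
    filter_upwards [S.ψ.open_target.mem_nhds hy] with z hz
    simp only [trans, Function.comp_apply, id]
    exact S.ψ.right_inv hz
  rw [h1.fderiv_eq, h1.self_of_nhds]
  simp

end charts

end Crest.Agent.R216.DC
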