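import Crest.Agent.R216.GlobChart

/-!
Row 216 (S0335), module GLOB: the planar step lemma (statement) in the form used by the
final induction.
-/

set_option autoImplicit false

noncomputable section

open scoped Manifold ContDiff Topology
open Set MeasureTheory

namespace Crest.Agent.R216

/-- geodesic-curvature coefficient of the level line `x 0 = const`:
`f_22 = (Γ / (|f_1|²|f_2|² - (f_1·f_2)²)) f_1 + (…) f_2 + h_22`; `Γ` is intrinsic. -/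
def gamN (f : P2 → P4) (x : P2) : ℝ :=
  inner ℝ (d2 f x e2 e2) (d1 f x e1) * inner ℝ (d1 f x e2) (d1 f x e2)
    - inner ℝ (d2 f x e2 e2) (d1 f x e2) * inner ℝ (d1 f x e1) (d1 f x e2)

/-- (P1): the curvature vector `h(v,v)` is not a nonpositive multiple of `n` -/
def Q1 (h : P2 → P2 → P4) (n : P4) (v : P2) : Prop := ∀ c : ℝ, 0 ≤ c → h v v ≠ -(c • n)

/-- (P2) for the directions `v` (later stage) and `w` (earlier stage);
`⟨h_vv,h_ww⟩ |h_ww|² > |h_vw|² |h_ww|² - ⟨h_vw,h_ww⟩²`, i.e.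
`K area(v,w)² + ⟨h_vw, h_ww/|h_ww|⟩² > 0` -/
def Q2 (h : P2 → P2 → P4) (v w : P2) : Prop :=
  inner ℝ (h v w) (h v w) * inner ℝ (h w w) (h w w) - inner ℝ (h v w) (h w w) ^ 2
    < inner ℝ (h v v) (h w w) * inner ℝ (h w w) (h w w)

/-- (P3): `0` is not in the convex hull of `n, h_vv, h_ww` -/
def Q3 (h : P2 → P2 → P4) (n : P4) (v w : P2) : Prop :=
  ∃ z : P4, 0 < inner ℝ z n ∧ 0 < inner ℝ z (h v v) ∧ 0 < inner ℝ z (h w w)

/-- a unit normal field along `f` on `D` -/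
structure IsUNormal (f ν : P2 → P4) (D : Set P2) : Prop where
  unit : ∀ x ∈ D, ‖ν x‖ = 1
  orth : ∀ x ∈ D, ∀ v, inner ℝ (ν x) (d1 f x v) = 0

/-- planar amplitude -/
def amp (u b : P2 → ℝ) (x : P2) : ℝ := expNegInvGlue (u x) * b x

/-- hypotheses on the support function `u` and the factor `b` of the amplitude -/
structure IsAmp (u b : P2 → ℝ) : Prop where
  hu : ContDiff ℝ ∞ u
  hb : ContDiff ℝ ∞ b
  pos : ∀ x, 0 < b x
  cpt : IsCompact (closure {x : P2 | 0 < u x})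
  star : ∀ s : ℝ, 0 ≤ s → ∀ x : P2, s < u x → ∀ t ∈ Icc (0 : ℝ) 1, s < u (x 0 • e1 + (t * x 1) • e2)

/-- PLANAR STEP LEMMA (statement). -/
def PlanarStep : Prop :=
  ∀ (D : Set P2) (f ν : P2 → P4) (u b : P2 → ℝ),
    IsOpen D → ContDiffOn ℝ ∞ f D → ContDiffOn ℝ ∞ ν D →
    (∀ x ∈ D, Function.Injective (fderiv ℝ f x)) → IsUNormal f ν D →
    IsAmp u b → closure {x : P2 | 0 < u x} ⊆ D →
    -- level lines have nonvanishing geodesic curvature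
    (∀ x ∈ closure {x : P2 | 0 < u x}, gamN f x ≠ 0) →
    -- (P1) for the present stage
    (∀ x ∈ frontier {x : P2 | 0 < u x}, Q1 (hN f x) (ν x) e2) →
    -- later stages
    ∀ (ι : Type) (_ : Fintype ι) (G : ι → Set P2) (v : ι → P2 → P2),
    (∀ j, IsCompact (G j)) → (∀ j, G j ⊆ closure {x : P2 | 0 < u x}) →
    (∀ j, ∀ s : ℝ, volume {t : ℝ | s • e1 + t • e2 ∈ G j} = 0) →
    (∀ j, ContinuousOn (v j) (G j)) → (∀ j, ∀ x ∈ G j, v j x ≠ 0) →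
    (∀ j, ∀ x ∈ G j, Q1 (hN f x) (ν x) (v j x)) →
    (∀ j, ∀ x ∈ G j ∩ frontier {x : P2 | 0 < u x}, Q2 (hN f x) (v j x) e2) →
    (∀ j, ∀ x ∈ G j ∩ frontier {x : P2 | 0 < u x}, Q3 (hN f x) (ν x) (v j x) e2) →
    -- crossing points of later stages in the open support, with their two directions
    ∀ (T : Finset (P2 × P2 × P2)), (∀ q ∈ T, 0 < u q.1 ∧ q.2.1 0 ≠ 0 ∧ q.2.2 0 ≠ 0) →
    ∃ F νF : P2 → P4,
      ContDiffOn ℝ ∞ F D ∧ ContDiffOn ℝ ∞ νF D ∧ IsUNormal F νF D ∧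
      (∀ x ∈ D, ¬ 0 < u x → F x = f x ∧ fderiv ℝ F x = fderiv ℝ f x ∧
        fderiv ℝ (fderiv ℝ F) x = fderiv ℝ (fderiv ℝ f) x ∧ νF x = ν x) ∧
      (∀ x ∈ D, ∀ v w : P2, met F x v w = met f x v w + amp u b x ^ 2 * (v 0 * w 0)) ∧
      (∀ j, ∀ x ∈ G j, Q1 (hN F x) (νF x) (v j x)) ∧
      (∀ q ∈ T, Q2 (hN F q.1) q.2.1 q.2.2 ∧ Q3 (hN F q.1) (νF q.1) q.2.1 q.2.2)

end Crest.Agent.R216
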