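import Crest.Agent.R216.Skel
import Crest.Agent.R216.GlobPSL

/-!
Row 216 (S0335), module GLOB: `PlanarStep ⇒ StepStatement M`.
-/

set_option autoImplicit false
set_option linter.unusedSectionVars false

noncomputable section

open scoped Manifold ContDiff Topology
open Set MeasureTheory

namespace Crest.Agent.R216

variable {M : Type*} [TopologicalSpace M] [ChartedSpace E2 M] [IsManifold (𝓡 2) ∞ M]

section charts2

lemma mdiff_of_max {ψ : OpenPartialHomeomorph M E2}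
    (hψ : ψ ∈ IsManifold.maximalAtlas (𝓡 2) ∞ M) : ψ.MDifferentiable (𝓡 2) (𝓡 2) :=
  ⟨(contMDiffOn_of_mem_maximalAtlas hψ).mdifferentiableOn (by simp),
    (contMDiffOn_symm_of_mem_maximalAtlas hψ).mdifferentiableOn (by simp)⟩

/-- `dψ (dψ⁻¹ v) = v` -/
lemma dchart_symm {ψ : OpenPartialHomeomorph M E2}
    (hψ : ψ ∈ IsManifold.maximalAtlas (𝓡 2) ∞ M) {x : E2} (hx : x ∈ ψ.target)
    (v : TangentSpace (𝓡 2) x) :
    mfderiv (𝓡 2) (𝓡 2) ψ (ψ.symm x) (mfderiv (𝓡 2) (𝓡 2) ψ.symm x v) = v := by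
  have h := (mdiff_of_max hψ).comp_symm_deriv hx
  exact congrArg (fun L => L v) h

/-- `dψ⁻¹ (dψ v) = v` -/
lemma dsymm_chart {ψ : OpenPartialHomeomorph M E2}
    (hψ : ψ ∈ IsManifold.maximalAtlas (𝓡 2) ∞ M) {p : M} (hp : p ∈ ψ.source)
    (v : TangentSpace (𝓡 2) p) :
    mfderiv (𝓡 2) (𝓡 2) ψ.symm (ψ p) (mfderiv (𝓡 2) (𝓡 2) ψ p v) = v := by
  have h := (mdiff_of_max hψ).symm_comp_deriv hp
  exact congrArg (fun L => L v) h

/-- `dF (dψ⁻¹ v) = D(F ∘ ψ⁻¹) v` -/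
lemma mfderiv_symm {E : Type*} [NormedAddCommGroup E] [NormedSpace ℝ E] {F : M → E}
    (hF : ContMDiff (𝓡 2) 𝓘(ℝ, E) ∞ F)
    {ψ : OpenPartialHomeomorph M E2} (hψ : ψ ∈ IsManifold.maximalAtlas (𝓡 2) ∞ M)
    {x : E2} (hx : x ∈ ψ.target) (v : TangentSpace (𝓡 2) x) :
    mfderiv (𝓡 2) 𝓘(ℝ, E) F (ψ.symm x) (mfderiv (𝓡 2) (𝓡 2) ψ.symm x v)
      = fderiv ℝ (rep F ψ) x v := by
  have h1 : MDifferentiableAt (𝓡 2) 𝓘(ℝ, E) F (ψ.symm x) :=
    (hF (ψ.symm x)).mdifferentiableAt (by simp)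
  have h2 : MDifferentiableAt (𝓡 2) (𝓡 2) ψ.symm x :=
    (mdiff_of_max hψ).mdifferentiableAt_symm hx
  have h3 := mfderiv_comp x h1 h2
  have h4 : fderiv ℝ (rep F ψ) x = mfderiv (𝓡 2) 𝓘(ℝ, E) (F ∘ ψ.symm) x := by
    rw [← mfderiv_eq_fderiv]; rfl
  rw [h4, h3]
  rfl

/-- second fundamental forms in two charts at a point -/
lemma hN_chart {F : M → P4} (hF : ContMDiff (𝓡 2) 𝓘(ℝ, P4) ∞ F)
    {χ ψ : OpenPartialHomeomorph M P2}
    (hχ : χ ∈ IsManifold.maximalAtlas (𝓡 2) ∞ M) (hψ : ψ ∈ IsManifold.maximalAtlas (𝓡 2) ∞ M)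
    {p : M} (hp : p ∈ χ.source) (hp' : p ∈ ψ.source) (v w : P2) :
    hN (rep F χ) (χ p) v w = hN (rep F ψ) (ψ p) (fderiv ℝ (trans χ ψ) (χ p) v)
      (fderiv ℝ (trans χ ψ) (χ p) w) := by
  have h1 : χ.symm (χ p) ∈ ψ.source := by rwa [χ.left_inv hp]
  have h := hN_trans hF hχ hψ (χ.map_source hp) h1 v w
  have h2 : trans χ ψ (χ p) = ψ p := by simp [trans, χ.left_inv hp]
  rwa [h2] at h

/-- cocycle identity for the derivatives of the transition maps -/
lemma fderiv_trans_trans {a b c : OpenPartialHomeomorph M P2}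
    (ha : a ∈ IsManifold.maximalAtlas (𝓡 2) ∞ M) (hb : b ∈ IsManifold.maximalAtlas (𝓡 2) ∞ M)
    (hc : c ∈ IsManifold.maximalAtlas (𝓡 2) ∞ M)
    {p : M} (pa : p ∈ a.source) (pb : p ∈ b.source) (pc : p ∈ c.source) (v : P2) :
    fderiv ℝ (trans b c) (b p) (fderiv ℝ (trans a b) (a p) v) = fderiv ℝ (trans a c) (a p) v := by
  have hab : a.symm (a p) ∈ b.source := by rwa [a.left_inv pa]
  have hac : a.symm (a p) ∈ c.source := by rwa [a.left_inv pa]
  have hbc : b.symm (b p) ∈ c.source := by rwa [b.left_inv pb]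
  have h0 : trans a b (a p) = b p := by simp [trans, a.left_inv pa]
  have h1 : DifferentiableAt ℝ (trans a b) (a p) :=
    (trans_contDiffAt ha hb (a.map_source pa) hab).differentiableAt (by simp)
  have h2 : DifferentiableAt ℝ (trans b c) (trans a b (a p)) := by
    rw [h0]
    exact (trans_contDiffAt hb hc (b.map_source pb) hbc).differentiableAt (by simp)
  have h3 : trans a c =ᶠ[𝓝 (a p)] trans b c ∘ trans a b := by
    filter_upwards [(isOpen_transDom a b).mem_nhds ⟨a.map_source pa, hab⟩] with y hy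
    simp only [trans, Function.comp_apply]
    rw [b.left_inv hy.2]
  rw [h3.fderiv_eq, fderiv_comp _ h2 h1, h0]
  rfl

end charts2

section prep

/-- `Gk (k+1) = Gk k + prim k` -/
lemma Gk_succ {J : ℕ} (S : Fin J → Stage M) (β : Fin J → E2 → ℝ) (h : Tens M) (k : Fin J)
    (p : M) (v w : TangentSpace (𝓡 2) p) :
    Gk S β h (k.1 + 1) p v w = Gk S β h k.1 p v w + (S k).prim (β k) p v w := by
  unfold Gk
  rw [add_assoc]
  congr 1
  have h1 : ∀ j : Fin J, (if j.1 < k.1 + 1 then (S j).prim (β j) p v w else 0)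
      = (if j.1 < k.1 then (S j).prim (β j) p v w else 0)
        + (if j = k then (S j).prim (β j) p v w else 0) := by
    intro j
    by_cases hj : j = k
    · subst hj; simp
    · have : j.1 ≠ k.1 := fun h => hj (Fin.ext h)
      by_cases h2 : j.1 < k.1
      · have : j.1 < k.1 + 1 := by omega
        simp [*]
      · have : ¬ j.1 < k.1 + 1 := by omega
        simp [*]
  rw [Finset.sum_congr rfl (fun j _ => h1 j), Finset.sum_add_distrib]
  simp

lemma Q2_iff {f : E2 → E4} {y w v : E2} : P2at f y w v ↔ Q2 (hN f y) v w := by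
  unfold P2at Q2
  simp only [real_inner_self_eq_norm_sq]

lemma Q3_iff {f : E2 → E4} {y w v : E2} {n : E4} : P3at f y w v n ↔ Q3 (hN f y) n v w := by
  unfold P3at Q3
  constructor
  · rintro ⟨z, h1, h2, h3⟩; exact ⟨z, h1, h3, h2⟩
  · rintro ⟨z, h1, h2, h3⟩; exact ⟨z, h1, h3, h2⟩

lemma Stage.C_sub (S : Stage M) : S.C ⊆ S.ψ.target :=
  fun _ hx => S.sub (frontier_subset_closure hx)

lemma Stage.isOpen_U (S : Stage M) : IsOpen S.U :=
  isOpen_lt continuous_const S.hu.continuous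

lemma Stage.notMem_U_of_C {S : Stage M} {x : E2} (hx : x ∈ S.C) : ¬ 0 < S.u x := by
  intro h
  have : x ∈ interior S.U := by rw [S.isOpen_U.interior_eq]; exact h
  exact hx.2 this

lemma Stage.circ_sub (S : Stage M) : S.circ ⊆ S.ψ.source := by
  rintro _ ⟨x, hx, rfl⟩
  exact S.ψ.map_target (S.C_sub hx)

lemma Stage.V_sub (S : Stage M) : S.V ⊆ S.ψ.source := by
  rintro _ ⟨x, hx, rfl⟩
  exact S.ψ.map_target (S.sub (subset_closure hx))

lemma Stage.mem_V_iff {S : Stage M} {p : M} (hp : p ∈ S.ψ.source) : p ∈ S.V ↔ 0 < S.u (S.ψ p) := by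
  constructor
  · rintro ⟨x, hx, rfl⟩
    rw [S.ψ.right_inv (S.sub (subset_closure hx))]
    exact hx
  · intro h
    exact ⟨S.ψ p, h, S.ψ.left_inv hp⟩

lemma Stage.mem_circ_iff {S : Stage M} {p : M} (hp : p ∈ S.ψ.source) :
    p ∈ S.circ ↔ S.ψ p ∈ S.C := by
  constructor
  · rintro ⟨x, hx, rfl⟩
    rw [S.ψ.right_inv (S.C_sub hx)]
    exact hx
  · intro h
    exact ⟨S.ψ p, h, S.ψ.left_inv hp⟩

lemma Stage.isCompact_C (S : Stage M) : IsCompact S.C :=
  S.cpt.of_isClosed_subset isClosed_frontier frontier_subset_closure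

lemma Stage.isCompact_circ (S : Stage M) : IsCompact S.circ :=
  S.isCompact_C.image_of_continuousOn (S.ψ.continuousOn_symm.mono S.C_sub)

/-- relation between the two descriptions of the transversality of level directions -/
lemma dphi_lev {A B : Stage M} {p : M} (ha : p ∈ A.ψ.source) (hb : p ∈ B.ψ.source) :
    A.dphi p (B.lev p) = (A.levIn B p) 0 := by
  have hq : B.ψ.symm (B.ψ p) = p := B.ψ.left_inv hb
  have key : ∀ q : M, q = B.ψ.symm (B.ψ p) → q ∈ A.ψ.source →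
      (mfderiv (𝓡 2) (𝓡 2) A.ψ q : E2 →L[ℝ] E2)
        ((mfderiv (𝓡 2) (𝓡 2) B.ψ.symm (B.ψ p) : E2 →L[ℝ] E2) (bv 1)) = A.levIn B p := by
    rintro q rfl hq'
    have h1 : MDifferentiableAt (𝓡 2) (𝓡 2) A.ψ (B.ψ.symm (B.ψ p)) :=
      (mdiff_of_max A.hψ).mdifferentiableAt hq'
    have h2 : MDifferentiableAt (𝓡 2) (𝓡 2) B.ψ.symm (B.ψ p) :=
      (mdiff_of_max B.hψ).mdifferentiableAt_symm (B.ψ.map_source hb)
    have h3 := mfderiv_comp (B.ψ p) h1 h2
    have h4 : fderiv ℝ (A.ψ ∘ B.ψ.symm) (B.ψ p) = mfderiv (𝓡 2) (𝓡 2) (A.ψ ∘ B.ψ.symm) (B.ψ p) := by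
      rw [← mfderiv_eq_fderiv]
    unfold Stage.levIn
    rw [h4, h3]
    rfl
  have := key p hq.symm ha
  unfold Stage.dphi Stage.lev
  exact congrArg (fun z : E2 => z 0) this

variable {F : M → E4}

lemma unormal_rep {f ν : M → E4} (hf : ContMDiff (𝓡 2) 𝓘(ℝ, E4) ∞ f)
    (hu : ∀ p, ‖ν p‖ = 1)
    (hn : ∀ p v, inner ℝ (ν p) (mfderiv (𝓡 2) 𝓘(ℝ, E4) f p v : E4) = 0)
    {ψ : OpenPartialHomeomorph M E2} (hψ : ψ ∈ IsManifold.maximalAtlas (𝓡 2) ∞ M) :
    IsUNormal (rep f ψ) (rep ν ψ) ψ.target := by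
  refine ⟨fun x _ => hu _, fun x hx v => ?_⟩
  have h1 := mfderiv_symm hf hψ hx v
  have h2 := hn (ψ.symm x) (mfderiv (𝓡 2) (𝓡 2) ψ.symm x v)
  rw [h1] at h2
  exact h2

lemma imm_rep {f : M → E4} (hf : ContMDiff (𝓡 2) 𝓘(ℝ, E4) ∞ f)
    (hpos : ∀ p v, v ≠ 0 → 0 < pull f p v v)
    {ψ : OpenPartialHomeomorph M E2} (hψ : ψ ∈ IsManifold.maximalAtlas (𝓡 2) ∞ M)
    {x : E2} (hx : x ∈ ψ.target) : Function.Injective (fderiv ℝ (rep f ψ) x) := by
  rw [injective_iff_map_eq_zero]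
  intro v hv
  by_contra hne
  have h1 := mfderiv_symm hf hψ hx v
  have h2 : (mfderiv (𝓡 2) (𝓡 2) ψ.symm x v : TangentSpace (𝓡 2) (ψ.symm x)) ≠ 0 := by
    intro h0
    apply hne
    have h5 := dchart_symm hψ hx v
    have h6 : mfderiv (𝓡 2) (𝓡 2) ψ (ψ.symm x) (mfderiv (𝓡 2) (𝓡 2) ψ.symm x v) = 0 := by
      rw [h0]; exact map_zero _
    rw [h6] at h5
    exact h5.symm
  have h3 := hpos _ _ h2
  unfold pull at h3
  rw [h1, hv] at h3
  simp at h3

end prep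

section main

/-- **Transfer**: the planar step lemma implies the step on `M`. -/
theorem step_of_planar [T2Space M] (H : PlanarStep) : StepStatement M := by
  intro J S β h k hGP hβ hβpos f ν I hpos hgam
  classical
  set K0 := S k with hK0
  set ψ := K0.ψ with hψdef
  have hψ : ψ ∈ IsManifold.maximalAtlas (𝓡 2) ∞ M := K0.hψ
  have hU : IsUNormal (rep f ψ) (rep ν ψ) ψ.target := unormal_rep I.smf I.unit I.normal hψ
  -- data of the later stages
  let ι : Type := {j : Fin J // k < j ∧ (S j).circ ≠ K0.circ}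
  let G : ι → Set E2 := fun j => closure K0.U ∩ ψ '' ((S j.1).circ ∩ ψ.source)
  let v : ι → E2 → E2 := fun j x => K0.levIn (S j.1) (ψ.symm x)
  have hGmem : ∀ (j : ι) (x : E2), x ∈ G j → ψ.symm x ∈ (S j.1).circ ∧ ψ.symm x ∈ ψ.source
      ∧ x ∈ ψ.target ∧ ψ (ψ.symm x) = x := by
    rintro j x ⟨_, p, ⟨hp1, hp2⟩, rfl⟩
    have : ψ.symm (ψ p) = p := ψ.left_inv hp2
    rw [this]
    exact ⟨hp1, hp2, ψ.map_source hp2, rfl⟩
  have hGcpt : ∀ j, IsCompact (G j) := by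
    intro j
    have h1 : IsCompact (ψ.symm '' closure K0.U) :=
      K0.cpt.image_of_continuousOn (ψ.continuousOn_symm.mono K0.sub)
    have h2 : IsCompact (ψ.symm '' closure K0.U ∩ (S j.1).circ) :=
      h1.inter_right (S j.1).isCompact_circ.isClosed
    have h3 : G j = ψ '' (ψ.symm '' closure K0.U ∩ (S j.1).circ) := by
      apply Subset.antisymm
      · intro x hx
        obtain ⟨h4, h5, h6, h7⟩ := hGmem j x hx
        exact ⟨ψ.symm x, ⟨⟨x, hx.1, rfl⟩, h4⟩, h7⟩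
      · rintro _ ⟨_, ⟨⟨x, hx, rfl⟩, hc⟩, rfl⟩
        have hxt : x ∈ ψ.target := K0.sub hx
        refine ⟨by rwa [ψ.right_inv hxt], ψ.symm x, ⟨hc, ψ.map_target hxt⟩, rfl⟩
    rw [h3]
    refine h2.image_of_continuousOn (ψ.continuousOn.mono ?_)
    rintro _ ⟨⟨x, hx, rfl⟩, -⟩
    exact ψ.map_target (K0.sub hx)
  have hvcont : ∀ j, ContinuousOn (v j) (G j) := by
    intro j
    have h1 : ContinuousOn (fun y => fderiv ℝ (trans (S j.1).ψ ψ) y (bv 1))
        ((S j.1).ψ.target ∩ (S j.1).ψ.symm ⁻¹' ψ.source) :=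
      (((trans_contDiffOn (S j.1).hψ hψ).continuousOn_fderiv_of_isOpen
        (isOpen_transDom _ _) (by simp)).clm_apply continuousOn_const)
    have h2 : ContinuousOn (trans ψ (S j.1).ψ) (G j) := by
      refine (trans_contDiffOn hψ (S j.1).hψ).continuousOn.mono ?_
      intro x hx
      obtain ⟨h4, h5, h6, h7⟩ := hGmem j x hx
      exact ⟨h6, (S j.1).circ_sub h4⟩
    refine (h1.comp h2 ?_).congr ?_
    · intro x hx
      obtain ⟨h4, h5, h6, h7⟩ := hGmem j x hx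
      have h8 := (S j.1).circ_sub h4
      refine ⟨(S j.1).ψ.map_source h8, ?_⟩
      simp only [trans, Function.comp_apply, mem_preimage]
      rw [(S j.1).ψ.left_inv h8]
      exact h5
    · intro x hx
      rfl
  have hv0 : ∀ j, ∀ x ∈ G j, v j x ≠ 0 := by
    intro j x hx h0
    obtain ⟨h4, h5, h6, h7⟩ := hGmem j x hx
    have h8 := (S j.1).circ_sub h4
    have h9 : (S j.1).ψ.symm ((S j.1).ψ (ψ.symm x)) ∈ ψ.source := by
      rwa [(S j.1).ψ.left_inv h8]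
    have h10 := fderiv_trans_injective (S j.1).hψ hψ ((S j.1).ψ.map_source h8) h9
    have h11 : fderiv ℝ (trans (S j.1).ψ ψ) ((S j.1).ψ (ψ.symm x)) (bv 1)
        = fderiv ℝ (trans (S j.1).ψ ψ) ((S j.1).ψ (ψ.symm x)) 0 := by
      rw [map_zero]; exact h0
    have h12 := congrArg (fun z : E2 => z 1) (h10 h11)
    simp [bv] at h12
  -- (P1) on `G j`
  have hP1 : ∀ j, ∀ x ∈ G j, Q1 (hN (rep f ψ) x) (rep ν ψ x) (v j x) := by
    intro j x hx
    obtain ⟨h4, h5, h6, h7⟩ := hGmem j x hx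
    have h8 := (S j.1).circ_sub h4
    have h9 := I.P1 j.1 j.2.1.le ((S j.1).ψ (ψ.symm x)) (((S j.1).mem_circ_iff h8).1 h4)
    have h10 := hN_chart I.smf (S j.1).hψ hψ h8 h5 (bv 1) (bv 1)
    rw [h7] at h10
    intro c hc
    have h11 := h9 c hc
    rw [(S j.1).ψ.left_inv h8] at h11
    intro h12
    exact h11 (h10.trans h12)
  have hP2 : ∀ j, ∀ x ∈ G j ∩ frontier {x : P2 | 0 < K0.u x}, Q2 (hN (rep f ψ) x) (v j x) e2 := by
    rintro j x ⟨hx, hxC⟩
    obtain ⟨h4, h5, h6, h7⟩ := hGmem j x hx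
    have h8 : ψ.symm x ∈ K0.circ := ⟨x, hxC, rfl⟩
    have h9 := I.P2 k j.1 le_rfl j.2.1 (Ne.symm j.2.2) (ψ.symm x) ⟨h8, h4⟩
    rw [Q2_iff] at h9
    have h10 : (S k).ψ (ψ.symm x) = x := h7
    rw [h10] at h9
    exact h9
  have hP3 : ∀ j, ∀ x ∈ G j ∩ frontier {x : P2 | 0 < K0.u x},
      Q3 (hN (rep f ψ) x) (rep ν ψ x) (v j x) e2 := by
    rintro j x ⟨hx, hxC⟩
    obtain ⟨h4, h5, h6, h7⟩ := hGmem j x hx
    have h8 : ψ.symm x ∈ K0.circ := ⟨x, hxC, rfl⟩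
    have h9 := I.P3 k j.1 le_rfl j.2.1 (Ne.symm j.2.2) (ψ.symm x) ⟨h8, h4⟩
    rw [Q3_iff] at h9
    have h10 : (S k).ψ (ψ.symm x) = x := h7
    rw [h10] at h9
    exact h9
  -- crossing points in the support
  let Tset : Set (P2 × P2 × P2) := {q | ∃ j l : Fin J, k < j ∧ j < l ∧ (S j).circ ≠ (S l).circ ∧
    ∃ p ∈ (S j).circ ∩ (S l).circ, p ∈ K0.V ∧
      q = (ψ p, K0.levIn (S l) p, K0.levIn (S j) p)}
  have hTfin : Tset.Finite := by
    have h1 : Tset ⊆ ⋃ (j : Fin J) (l : Fin J),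
        {q | (S j).circ ≠ (S l).circ ∧ ∃ p ∈ (S j).circ ∩ (S l).circ,
          q = (ψ p, K0.levIn (S l) p, K0.levIn (S j) p)} := by
      rintro q ⟨j, l, -, -, h2, p, hp, -, rfl⟩
      simp only [mem_iUnion]
      exact ⟨j, l, h2, p, hp, rfl⟩
    refine Set.Finite.subset (Set.finite_iUnion fun j => Set.finite_iUnion fun l => ?_) h1
    by_cases h2 : (S j).circ = (S l).circ
    · convert Set.finite_empty
      ext q
      simp [h2]
    · have h3 := (hGP.fin j l).resolve_left h2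
      refine Set.Finite.subset (h3.image fun p => (ψ p, K0.levIn (S l) p, K0.levIn (S j) p)) ?_
      rintro q ⟨-, p, hp, rfl⟩
      exact ⟨p, hp, rfl⟩
  have hT : ∀ q ∈ hTfin.toFinset, 0 < K0.u q.1 ∧ q.2.1 0 ≠ 0 ∧ q.2.2 0 ≠ 0 := by
    intro q hq
    rw [Set.Finite.mem_toFinset] at hq
    obtain ⟨j, l, hkj, hjl, hne, p, hp, hpV, rfl⟩ := hq
    have hps : p ∈ K0.ψ.source := K0.V_sub hpV
    refine ⟨(K0.mem_V_iff hps).1 hpV, ?_, ?_⟩
    · have := hGP.trans k l j (hkj.trans hjl) hkj (Ne.symm hne) p hp.2 hp.1 hpV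
      rwa [dphi_lev hps ((S l).circ_sub hp.2)] at this
    · have := hGP.trans k j l hkj (hkj.trans hjl) hne p hp.1 hp.2 hpV
      rwa [dphi_lev hps ((S j).circ_sub hp.1)] at this
  have hAmp : IsAmp K0.u (β k) :=
    ⟨K0.hu, hβ k, hβpos k, K0.cpt, fun s hs x hx t ht => K0.star s hs x hx t ht.1 ht.2⟩
  obtain ⟨F0, ν0, hF0, hν0, hUN, hjet, hmet, hQ1, hQT⟩ :=
    H ψ.target (rep f ψ) (rep ν ψ) K0.u (β k) ψ.open_target (rep_contDiffOn I.smf hψ)
      (rep_contDiffOn I.smν hψ) (fun x hx => imm_rep I.smf hpos hψ hx) hU hAmp K0.sub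
      (fun x hx => hgam x hx) (fun x hx => I.P1 k le_rfl x hx) ι inferInstance G v hGcpt
      (fun j => inter_subset_left) (fun j s => hGP.thin k j.1 j.2.1 s) hvcont hv0 hP1 hP2 hP3
      hTfin.toFinset hT
  have hEqF : ∀ x ∈ ψ.target, x ∉ closure {x | 0 < K0.u x} → F0 x = rep f ψ x := fun x hx hxK =>
    (hjet x hx (fun h => hxK (subset_closure h))).1
  have hEqν : ∀ x ∈ ψ.target, x ∉ closure {x | 0 < K0.u x} → ν0 x = rep ν ψ x := fun x hx hxK =>
    (hjet x hx (fun h => hxK (subset_closure h))).2.2.2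
  have smf' : ContMDiff (𝓡 2) 𝓘(ℝ, E4) ∞ (glue f ψ F0) :=
    glue_contMDiff I.smf hψ hF0 K0.cpt K0.sub hEqF
  have smν' : ContMDiff (𝓡 2) 𝓘(ℝ, E4) ∞ (glue ν ψ ν0) :=
    glue_contMDiff I.smν hψ hν0 K0.cpt K0.sub hEqν
  have hclosed : IsClosed (ψ.symm '' closure {x | 0 < K0.u x}) := isClosed_symm_image K0.cpt K0.sub
  -- local equality off `ψ⁻¹ (closure U)`
  have hloc : ∀ p, p ∉ ψ.source → glue f ψ F0 =ᶠ[𝓝 p] f := by
    intro p hp
    have : p ∉ ψ.symm '' closure {x | 0 < K0.u x} := by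
      rintro ⟨x, hx, rfl⟩
      exact hp (ψ.map_target (K0.sub hx))
    filter_upwards [hclosed.isOpen_compl.mem_nhds this] with q hq
    exact glue_eq hEqF hq
  have hνout : ∀ p, p ∉ ψ.source → glue ν ψ ν0 p = ν p := fun p hp => glue_of_notMem ν ψ ν0 hp
  have hrepF : ∀ x ∈ ψ.target, rep (glue f ψ F0) ψ =ᶠ[𝓝 x] F0 := by
    intro x hx
    filter_upwards [ψ.open_target.mem_nhds hx] with y hy
    exact rep_glue f ψ F0 hy
  -- derivative of the new map
  have hd_in : ∀ p ∈ ψ.source, ∀ w : TangentSpace (𝓡 2) p,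
      mfderiv (𝓡 2) 𝓘(ℝ, E4) (glue f ψ F0) p w
        = fderiv ℝ F0 (ψ p) (mfderiv (𝓡 2) (𝓡 2) ψ p w) := by
    intro p hp w
    have h1 := mfderiv_eq smf' hψ hp w
    rw [h1]
    exact congrArg (fun L : E2 →L[ℝ] E4 => L (mfderiv (𝓡 2) (𝓡 2) ψ p w))
      (hrepF _ (ψ.map_source hp)).fderiv_eq
  have hd_out : ∀ p, p ∉ ψ.source → ∀ w : TangentSpace (𝓡 2) p,
      mfderiv (𝓡 2) 𝓘(ℝ, E4) (glue f ψ F0) p w = mfderiv (𝓡 2) 𝓘(ℝ, E4) f p w := by
    intro p hp w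
    rw [(hloc p hp).mfderiv_eq]
    rfl
  -- second fundamental form of the new map, inside the chart
  have hN_in : ∀ (χ : OpenPartialHomeomorph M E2), χ ∈ IsManifold.maximalAtlas (𝓡 2) ∞ M →
      ∀ p, p ∈ χ.source → p ∈ ψ.source → ∀ a b : E2,
      hN (rep (glue f ψ F0) χ) (χ p) a b = hN F0 (ψ p) (fderiv ℝ (trans χ ψ) (χ p) a)
        (fderiv ℝ (trans χ ψ) (χ p) b) := by
    intro χ hχ p hpχ hpψ a b
    rw [hN_chart smf' hχ hψ hpχ hpψ]
    exact hN_congr (hrepF _ (ψ.map_source hpψ)) _ _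
  -- nothing changes off `V`
  have hkeep : ∀ (χ : OpenPartialHomeomorph M E2), χ ∈ IsManifold.maximalAtlas (𝓡 2) ∞ M →
      ∀ p, p ∈ χ.source → p ∉ K0.V → (∀ a b : E2,
      hN (rep (glue f ψ F0) χ) (χ p) a b = hN (rep f χ) (χ p) a b) ∧ glue ν ψ ν0 p = ν p := by
    intro χ hχ p hpχ hpV
    by_cases hpψ : p ∈ ψ.source
    · have h0 : ¬ 0 < K0.u (ψ p) := fun h => hpV ((K0.mem_V_iff hpψ).2 h)
      obtain ⟨j1, j2, j3, j4⟩ := hjet (ψ p) (ψ.map_source hpψ) h0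
      constructor
      · intro a b
        rw [hN_in χ hχ p hpχ hpψ, hN_chart I.smf hχ hψ hpχ hpψ]
        simp only [hN, tanSp, d2, j2, j3]
      · rw [glue_of_mem ν ψ ν0 hpψ, j4]
        simp [rep, ψ.left_inv hpψ]
    · constructor
      · intro a b
        have h1 : rep (glue f ψ F0) χ =ᶠ[𝓝 (χ p)] rep f χ := by
          have h2 : ContinuousAt χ.symm (χ p) := χ.continuousAt_symm (χ.map_source hpχ)
          have h3 : glue f ψ F0 =ᶠ[𝓝 (χ.symm (χ p))] f := by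
            rw [χ.left_inv hpχ]; exact hloc p hpψ
          exact h2.eventually h3
        exact hN_congr h1 a b
      · exact hνout p hpψ
  refine ⟨glue f ψ F0, glue ν ψ ν0, smf', smν', ?_, ?_, ?_, ?_, ?_, ?_⟩
  · -- unit
    intro p
    by_cases hp : p ∈ ψ.source
    · rw [glue_of_mem ν ψ ν0 hp]; exact hUN.unit _ (ψ.map_source hp)
    · rw [hνout p hp]; exact I.unit p
  · -- normal
    intro p w
    by_cases hp : p ∈ ψ.source
    · rw [glue_of_mem ν ψ ν0 hp, hd_in p hp]; exact hUN.orth _ (ψ.map_source hp) _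
    · rw [hνout p hp, hd_out p hp]; exact I.normal p w
  · -- metric
    intro p a b
    rw [Gk_succ, ← I.met p a b]
    by_cases hp : p ∈ ψ.source
    · have h1 := hmet (ψ p) (ψ.map_source hp) (mfderiv (𝓡 2) (𝓡 2) ψ p a) (mfderiv (𝓡 2) (𝓡 2) ψ p b)
      unfold pull
      rw [hd_in p hp, hd_in p hp, mfderiv_eq I.smf hψ hp, mfderiv_eq I.smf hψ hp]
      unfold met d1 at h1
      rw [h1]
      congr 1
      unfold Stage.prim Stage.amp Stage.dphi Stage.ampP Crest.Agent.R216.amp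
      rw [if_pos hp]
      exact (mul_assoc _ _ _).symm
    · unfold pull
      rw [hd_out p hp, hd_out p hp]
      unfold Stage.prim Stage.amp
      rw [if_neg hp]
      simp
  · -- (P1)
    intro j hj y hy
    have hkj : k < j := Fin.lt_def.2 (Nat.lt_of_succ_le hj)
    have hyt : y ∈ (S j).ψ.target := (S j).C_sub hy
    have hps : (S j).ψ.symm y ∈ (S j).ψ.source := (S j).ψ.map_target hyt
    have hpc : (S j).ψ.symm y ∈ (S j).circ := ⟨y, hy, rfl⟩
    have hyy : (S j).ψ ((S j).ψ.symm y) = y := (S j).ψ.right_inv hyt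
    by_cases hV : (S j).ψ.symm y ∈ K0.V
    · have hpψ : (S j).ψ.symm y ∈ ψ.source := K0.V_sub hV
      have hne : (S j).circ ≠ K0.circ := by
        intro he
        have h1 : (S j).ψ.symm y ∈ K0.circ := he ▸ hpc
        exact Stage.notMem_U_of_C ((K0.mem_circ_iff hpψ).1 h1) ((K0.mem_V_iff hpψ).1 hV)
      let j' : ι := ⟨j, hkj, hne⟩
      have hx : ψ ((S j).ψ.symm y) ∈ G j' :=
        ⟨subset_closure ((K0.mem_V_iff hpψ).1 hV), (S j).ψ.symm y, ⟨hpc, hpψ⟩, rfl⟩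
      have h1 := hQ1 j' _ hx
      intro c hc
      have h2 := h1 c hc
      have h3 := hN_in (S j).ψ (S j).hψ _ hps hpψ (bv 1) (bv 1)
      rw [hyy] at h3
      rw [glue_of_mem ν ψ ν0 hpψ]
      intro h4
      apply h2
      have h5 : v j' (ψ ((S j).ψ.symm y)) = fderiv ℝ (trans (S j).ψ ψ) y (bv 1) := by
        show K0.levIn (S j) (ψ.symm (ψ ((S j).ψ.symm y))) = _
        rw [ψ.left_inv hpψ]
        unfold Stage.levIn
        rw [hyy]
        rfl
      rw [h5]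
      exact h3.symm.trans h4
    · obtain ⟨h1, h2⟩ := hkeep (S j).ψ (S j).hψ _ hps hV
      rw [hyy] at h1
      intro c hc
      rw [h2]
      intro h3
      exact I.P1 j (by omega) y hy c hc ((h1 _ _).symm.trans h3)
  · -- (P2)
    intro j l hj hjl hne p hp
    have hkj : k < j := Fin.lt_def.2 (Nat.lt_of_succ_le hj)
    have hps : p ∈ (S j).ψ.source := (S j).circ_sub hp.1
    have hpl : p ∈ (S l).ψ.source := (S l).circ_sub hp.2
    rw [Q2_iff]
    by_cases hV : p ∈ K0.V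
    · have hpψ : p ∈ ψ.source := K0.V_sub hV
      have hq : (ψ p, K0.levIn (S l) p, K0.levIn (S j) p) ∈ hTfin.toFinset := by
        rw [Set.Finite.mem_toFinset]
        exact ⟨j, l, hkj, hjl, hne, p, hp, hV, rfl⟩
      have h1 := (hQT _ hq).1
      have h3 := hN_in (S j).ψ (S j).hψ p hps hpψ
      have h4 : fderiv ℝ (trans (S j).ψ ψ) ((S j).ψ p) ((S j).levIn (S l) p) = K0.levIn (S l) p :=
        fderiv_trans_trans (S l).hψ (S j).hψ hψ hpl hps hpψ (bv 1)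
      have h5 : fderiv ℝ (trans (S j).ψ ψ) ((S j).ψ p) (bv 1) = K0.levIn (S j) p := rfl
      show Q2 (hN (rep (glue f ψ F0) (S j).ψ) ((S j).ψ p)) _ _
      unfold Q2 at h1 ⊢
      simp only [h3, h4, h5]
      exact h1
    · obtain ⟨h1, h2⟩ := hkeep (S j).ψ (S j).hψ p hps hV
      have h3 := I.P2 j l (by omega) hjl hne p hp
      rw [Q2_iff] at h3
      show Q2 (hN (rep (glue f ψ F0) (S j).ψ) ((S j).ψ p)) _ _
      unfold Q2 at h3 ⊢
      simp only [h1]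
      exact h3
  · -- (P3)
    intro j l hj hjl hne p hp
    have hkj : k < j := Fin.lt_def.2 (Nat.lt_of_succ_le hj)
    have hps : p ∈ (S j).ψ.source := (S j).circ_sub hp.1
    have hpl : p ∈ (S l).ψ.source := (S l).circ_sub hp.2
    rw [Q3_iff]
    by_cases hV : p ∈ K0.V
    · have hpψ : p ∈ ψ.source := K0.V_sub hV
      have hq : (ψ p, K0.levIn (S l) p, K0.levIn (S j) p) ∈ hTfin.toFinset := by
        rw [Set.Finite.mem_toFinset]
        exact ⟨j, l, hkj, hjl, hne, p, hp, hV, rfl⟩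
      have h1 := (hQT _ hq).2
      have h3 := hN_in (S j).ψ (S j).hψ p hps hpψ
      have h4 : fderiv ℝ (trans (S j).ψ ψ) ((S j).ψ p) ((S j).levIn (S l) p) = K0.levIn (S l) p :=
        fderiv_trans_trans (S l).hψ (S j).hψ hψ hpl hps hpψ (bv 1)
      have h5 : fderiv ℝ (trans (S j).ψ ψ) ((S j).ψ p) (bv 1) = K0.levIn (S j) p := rfl
      show Q3 (hN (rep (glue f ψ F0) (S j).ψ) ((S j).ψ p)) _ _ _
      rw [glue_of_mem ν ψ ν0 hpψ]
      unfold Q3 at h1 ⊢
      simp only [h3, h4, h5]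
      exact h1
    · obtain ⟨h1, h2⟩ := hkeep (S j).ψ (S j).hψ p hps hV
      have h3 := I.P3 j l (by omega) hjl hne p hp
      rw [Q3_iff] at h3
      show Q3 (hN (rep (glue f ψ F0) (S j).ψ) ((S j).ψ p)) _ _ _
      rw [h2]
      unfold Q3 at h3 ⊢
      simp only [h1]
      exact h3

end main

end Crest.Agent.R216
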