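import Crest.Agent.R216.Skel
import Crest.Agent.R216.GlobChart
import Crest.Agent.R216.GlobStep

/-!
Row 216: coordinate functions of the given metric are smooth; coordinate functions of pulled back
metrics (helper744).
-/

set_option autoImplicit false
open scoped Manifold ContDiff Topology Bundle
open Set Bundle

noncomputable section
namespace Crest.Agent.R216

variable {M : Type*} [TopologicalSpace M] [ChartedSpace E2 M] [IsManifold (𝓡 2) ∞ M]

/-- the coordinate vector field of a chart is smooth -/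
lemma contMDiffOn_coordVec {ψ : OpenPartialHomeomorph M E2}
    (hψ : ψ ∈ IsManifold.maximalAtlas (𝓡 2) ∞ M) (v : E2) :
    ContMDiffOn 𝓘(ℝ, E2) ((𝓡 2).prod 𝓘(ℝ, E2)) ∞
      (fun y : E2 => (TotalSpace.mk' E2 (ψ.symm y)
        (mfderiv 𝓘(ℝ, E2) (𝓡 2) ψ.symm y v) : TotalSpace E2 (TangentSpace (𝓡 2) : M → Type)))
      ψ.target := by
  have h1 : ContMDiffOn (𝓡 2) (𝓡 2) ∞ ψ.symm ψ.target := contMDiffOn_symm_of_mem_maximalAtlas hψ
  have h1' : ContMDiffOn 𝓘(ℝ, E2) (𝓡 2) ∞ ψ.symm ψ.target := h1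
  have huniq : UniqueMDiffOn 𝓘(ℝ, E2) ψ.target := ψ.open_target.uniqueMDiffOn
  have : IsManifold (𝓡 2) 1 M := IsManifold.of_le (m := 1) (n := ∞) (by norm_cast)
  have h2 := h1'.contMDiffOn_tangentMapWithin (m := ∞) (by norm_cast) huniq
  have h3 : ContMDiff 𝓘(ℝ, E2) (𝓘(ℝ, E2).prod 𝓘(ℝ, E2)) ∞
      (fun y : E2 => (⟨y, v⟩ : TangentBundle 𝓘(ℝ, E2) E2)) := by
    intro y
    rw [contMDiffAt_totalSpace]
    constructor
    · exact contMDiffAt_id
    · simp only [trivializationAt_model_space_apply]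
      exact contMDiffAt_const
  have h4 := h2.comp h3.contMDiffOn (s := ψ.target) (fun y hy => by simpa using hy)
  refine h4.congr fun y hy => ?_
  simp only [Function.comp_apply, tangentMapWithin]
  rw [mfderivWithin_of_isOpen ψ.open_target hy]

/-- coordinate functions of the given metric are smooth -/
theorem coef_contDiffOn (g : Bundle.ContMDiffRiemannianMetric (𝓡 2) ∞ E2
      (TangentSpace (𝓡 2) : M → Type)) {ψ : OpenPartialHomeomorph M E2}
    (hψ : ψ ∈ IsManifold.maximalAtlas (𝓡 2) ∞ M) (v w : E2) :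
    ContDiffOn ℝ ∞ (coef (fun p v w => g.inner p v w) ψ v w) ψ.target := by
  rw [← contMDiffOn_iff_contDiffOn]
  intro y hy
  have hv := (contMDiffOn_coordVec hψ v) y hy
  have hw := (contMDiffOn_coordVec hψ w) y hy
  have hb : ContMDiffWithinAt 𝓘(ℝ, E2) (𝓡 2) ∞ ψ.symm ψ.target y := by
    simp only [contMDiffWithinAt_totalSpace] at hv
    exact hv.1
  have : ContMDiffWithinAt 𝓘(ℝ, E2) ((𝓡 2).prod 𝓘(ℝ)) ∞
      (fun m ↦ TotalSpace.mk' ℝ (E := Bundle.Trivial M ℝ) (ψ.symm m)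
        (g.inner (ψ.symm m) (mfderiv 𝓘(ℝ, E2) (𝓡 2) ψ.symm m v)
          (mfderiv 𝓘(ℝ, E2) (𝓡 2) ψ.symm m w))) ψ.target y := by
    apply ContMDiffWithinAt.clm_bundle_apply₂ (F₁ := E2) (F₂ := E2)
    · exact ContMDiffAt.comp_contMDiffWithinAt y g.contMDiff.contMDiffAt hb
    · exact hv
    · exact hw
  simp only [contMDiffWithinAt_totalSpace] at this
  exact this.2

/-- coordinate functions of a pulled back metric -/
theorem coef_pull {F : M → E4} (hF : ContMDiff (𝓡 2) 𝓘(ℝ, E4) ∞ F)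
    {ψ : OpenPartialHomeomorph M E2} (hψ : ψ ∈ IsManifold.maximalAtlas (𝓡 2) ∞ M)
    {y : E2} (hy : y ∈ ψ.target) (v w : E2) :
    coef (pull F) ψ v w y = inner ℝ (fderiv ℝ (F ∘ ψ.symm) y v) (fderiv ℝ (F ∘ ψ.symm) y w) := by
  have h1 := mfderiv_symm hF hψ hy v
  have h2 := mfderiv_symm hF hψ hy w
  simp only [coef, pull]
  exact congrArg₂ (fun a b : E4 => inner ℝ a b) h1 h2

/-- coordinate functions of pulled back metrics are smooth -/
theorem coef_pull_contDiffOn {F : M → E4} (hF : ContMDiff (𝓡 2) 𝓘(ℝ, E4) ∞ F)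
    {ψ : OpenPartialHomeomorph M E2} (hψ : ψ ∈ IsManifold.maximalAtlas (𝓡 2) ∞ M) (v w : E2) :
    ContDiffOn ℝ ∞ (coef (pull F) ψ v w) ψ.target := by
  have h0 : ContDiffOn ℝ ∞ (rep F ψ) ψ.target := rep_contDiffOn hF hψ
  have h1 : ContDiffOn ℝ ∞ (fderiv ℝ (rep F ψ)) ψ.target :=
    h0.fderiv_of_isOpen ψ.open_target (by simp)
  have h2 : ContDiffOn ℝ ∞ (fun y => inner ℝ (fderiv ℝ (rep F ψ) y v)
      (fderiv ℝ (rep F ψ) y w)) ψ.target :=
    (h1.clm_apply contDiffOn_const).inner ℝ (h1.clm_apply contDiffOn_const)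
  exact h2.congr fun y hy => coef_pull hF hψ hy v w

/-- value of a 2-tensor on tangent vectors through its coordinate functions -/
theorem tens_eq_coef (h : Tens M) {ψ : OpenPartialHomeomorph M E2}
    (hψ : ψ ∈ IsManifold.maximalAtlas (𝓡 2) ∞ M) {p : M} (hp : p ∈ ψ.source)
    (v w : TangentSpace (𝓡 2) p) :
    h p v w = coef h ψ (mfderiv (𝓡 2) (𝓡 2) ψ p v) (mfderiv (𝓡 2) (𝓡 2) ψ p w) (ψ p) := by
  have h1 := dsymm_chart hψ hp v
  have h2 := dsymm_chart hψ hp w
  have h3 : ψ.symm (ψ p) = p := ψ.left_inv hp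
  have key : ∀ (q : M) (hq : q = p) (a b : E2)
      (ha : (a : TangentSpace (𝓡 2) q) = (hq ▸ v : TangentSpace (𝓡 2) q))
      (hb : (b : TangentSpace (𝓡 2) q) = (hq ▸ w : TangentSpace (𝓡 2) q)), h p v w = h q a b := by
    intro q hq a b ha hb
    subst hq
    rw [ha, hb]
  refine key _ h3 _ _ ?_ ?_
  · refine h1.trans ?_
    have : ∀ (q : M) (hq : q = p), (v : E2) = ((hq ▸ v : TangentSpace (𝓡 2) q) : E2) := by
      intro q hq; subst hq; rfl
    exact this _ h3
  · refine h2.trans ?_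
    have : ∀ (q : M) (hq : q = p), (w : E2) = ((hq ▸ w : TangentSpace (𝓡 2) q) : E2) := by
      intro q hq; subst hq; rfl
    exact this _ h3

end Crest.Agent.R216
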