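import Crest.Agent.R216.Skel
import Crest.Agent.R216.GlobChart

/-!
Row 216 (S0335): final assembly from the three statements of `Skel.lean`.
-/

set_option autoImplicit false
open scoped Manifold ContDiff Topology
open Set

noncomputable section
namespace Crest.Agent.R216

variable {M : Type*} [TopologicalSpace M] [ChartedSpace E2 M]

lemma Stage.C_subset (S : Stage M) : S.C ⊆ S.ψ.target :=
  (frontier_subset_closure).trans S.sub

lemma Stage.circ_mem (S : Stage M) {p : M} (hp : p ∈ S.circ) :
    p ∈ S.ψ.source ∧ S.ψ p ∈ S.C := by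
  obtain ⟨y, hy, rfl⟩ := hp
  have hy' := S.C_subset hy
  exact ⟨S.ψ.map_target hy', by rw [S.ψ.right_inv hy']; exact hy⟩

/-- every compact surface has a finite atlas with compact pieces -/
lemma exists_finAtlas (M : Type*) [TopologicalSpace M] [ChartedSpace E2 M]
    [IsManifold (𝓡 2) ∞ M] [CompactSpace M] : Nonempty (FinAtlas M) := by
  classical
  -- for each point choose a closed ball in the chart
  have h : ∀ p : M, ∃ r : ℝ, 0 < r ∧ Metric.closedBall (chartAt E2 p p) r ⊆ (chartAt E2 p).target := by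
    intro p
    have h1 : (chartAt E2 p).target ∈ 𝓝 (chartAt E2 p p) :=
      (chartAt E2 p).open_target.mem_nhds (mem_chart_target E2 p)
    exact Metric.nhds_basis_closedBall.mem_iff.1 h1
  choose r hr hsub using h
  let O : M → Set M := fun p => (chartAt E2 p).source ∩ (chartAt E2 p) ⁻¹' Metric.ball (chartAt E2 p p) (r p)
  have hO : ∀ p, IsOpen (O p) := fun p =>
    (chartAt E2 p).isOpen_inter_preimage Metric.isOpen_ball
  have hmem : ∀ p, p ∈ O p := fun p => ⟨mem_chart_source E2 p, Metric.mem_ball_self (hr p)⟩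
  obtain ⟨t, ht⟩ := isCompact_univ.elim_finite_subcover O hO
    (fun p _ => mem_iUnion.2 ⟨p, hmem p⟩)
  refine ⟨{
    n := t.card
    χ := fun i => chartAt E2 (t.equivFin.symm i : M)
    hχ := fun i => IsManifold.chart_mem_maximalAtlas _
    K := fun i => Metric.closedBall (chartAt E2 (t.equivFin.symm i : M) (t.equivFin.symm i : M))
      (r (t.equivFin.symm i : M))
    cpt := fun i => isCompact_closedBall _ _
    sub := fun i => hsub _
    cover := ?_ }⟩
  intro p
  obtain ⟨q, hq⟩ := mem_iUnion.1 (ht (mem_univ p))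
  obtain ⟨hqt, hpq⟩ := mem_iUnion.1 hq
  refine ⟨t.equivFin ⟨q, hqt⟩, ?_, ?_⟩
  · simpa using hpq.1
  · have : (chartAt E2 q) p ∈ Metric.ball (chartAt E2 q q) (r q) := hpq.2
    have h2 := Metric.ball_subset_interior_closedBall this
    simpa using h2

lemma Stage.levIn_ne_zero [IsManifold (𝓡 2) ∞ M] (S T : Stage M) {p : M} (h1 : p ∈ S.ψ.source)
    (h2 : p ∈ T.ψ.source) : S.levIn T p ≠ 0 := by
  intro h
  have hinj := fderiv_trans_injective T.hψ S.hψ (x := T.ψ p) (T.ψ.map_source h2)
    (by rw [T.ψ.left_inv h2]; exact h1)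
  have h3 : fderiv ℝ (trans T.ψ S.ψ) (T.ψ p) (bv 1) = fderiv ℝ (trans T.ψ S.ψ) (T.ψ p) 0 := by
    rw [map_zero]; exact h
  have h4 := hinj h3
  have h5 : (bv 1 : E2) 1 = 0 := by rw [h4]; rfl
  simp [bv] at h5

lemma bv_one_ne_zero : bv 1 ≠ 0 := by
  intro h
  have h5 : (bv 1 : E2) 1 = 0 := by rw [h]; rfl
  simp [bv] at h5

/-- **Assembly**: the three parts imply the theorem. -/
theorem main_of_parts (M : Type*) [TopologicalSpace M] [T2Space M] [CompactSpace M]
    [ChartedSpace E2 M] [IsManifold (𝓡 2) ∞ M]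
    (hD : DecompStatement M) (hB : BaseStatement M) (hS : StepStatement M)
    (g : Bundle.ContMDiffRiemannianMetric (𝓡 2) ∞ E2 (TangentSpace (𝓡 2) : M → Type)) :
    ∃ F : M → E4, ContMDiff (𝓡 2) 𝓘(ℝ, E4) ∞ F ∧
      ∀ (p : M) (v w : TangentSpace (𝓡 2) p),
        @inner ℝ E4 _ (mfderiv (𝓡 2) 𝓘(ℝ, E4) F p v) (mfderiv (𝓡 2) 𝓘(ℝ, E4) F p w)
          = g.inner p v w := by
  obtain ⟨A⟩ := exists_finAtlas M
  obtain ⟨fs, hfs, hfs', hbase⟩ := hB g A
  obtain ⟨η, J, S, hη, hgp, hdec⟩ := hD g A fs hfs hfs'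
  classical
  -- the finite set of crossing points
  let X : Set M := ⋃ j : Fin J, ⋃ k : Fin J,
    if (S j).circ = (S k).circ then ∅ else (S j).circ ∩ (S k).circ
  have hX : X.Finite := by
    refine Set.finite_iUnion fun j => Set.finite_iUnion fun k => ?_
    by_cases h : (S j).circ = (S k).circ
    · simp [h]
    · simp only [h, if_false]
      rcases hgp.fin j k with h' | h'
      · exact absurd h' h
      · exact h'
  obtain ⟨f0, ν0, hf0, hν0, hf0pos, hunit, hnorm, hclass, hpos, hP2⟩ := hbase η X hη hX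
  obtain ⟨β, hβ, hβpos, hsum, hgam⟩ := hdec f0 hf0 hclass
  -- positivity of the base metric and of all intermediate metrics
  have hG : ∀ k (p : M) (v : TangentSpace (𝓡 2) p), v ≠ 0 → 0 < Gk S β (pull f0) k p v v := by
    intro k p v hv
    have h1 : 0 < pull f0 p v v := hf0pos p v hv
    have h2 : 0 ≤ ∑ j : Fin J, if j.1 < k then (S j).prim (β j) p v v else 0 := by
      refine Finset.sum_nonneg fun j _ => ?_
      split_ifs
      · have : (S j).prim (β j) p v v = ((S j).amp (β j) p * (S j).dphi p v) ^ 2 := by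
          simp only [Stage.prim]; ring
        rw [this]; positivity
      · exact le_rfl
    have : Gk S β (pull f0) k p v v = pull f0 p v v +
      ∑ j : Fin J, if j.1 < k then (S j).prim (β j) p v v else 0 := rfl
    rw [this]; linarith
  -- induction
  have hind : ∀ k : ℕ, k ≤ J → ∃ f ν : M → E4, Inv S β (pull f0) k f ν := by
    intro k
    induction k with
    | zero =>
      intro _
      refine ⟨f0, ν0, ?_⟩
      constructor
      · exact hf0
      · exact hν0
      · exact hunit
      · exact hnorm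
      · intro p v w
        simp [Gk]
      · intro j _ y hy c hc h
        have hyt := (S j).C_subset hy
        have h1 := hpos (S j).ψ (S j).hψ y hyt (bv 1) bv_one_ne_zero
        rw [h, inner_neg_left, inner_smul_left] at h1
        have h2 : inner ℝ (ν0 ((S j).ψ.symm y)) (ν0 ((S j).ψ.symm y)) = 1 := by
          rw [real_inner_self_eq_norm_sq, hunit]; norm_num
        rw [h2] at h1
        simp at h1
        linarith
      · intro j l _ hjl hne p hp
        obtain ⟨hpj, hpj'⟩ := (S j).circ_mem hp.1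
        obtain ⟨hpl, hpl'⟩ := (S l).circ_mem hp.2
        have hpX : p ∈ X := by
          refine mem_iUnion.2 ⟨j, mem_iUnion.2 ⟨l, ?_⟩⟩
          simp only [hne, if_false]; exact hp
        rcases hP2 (S j).ψ (S j).hψ p hpX hpj ((S j).levIn (S l) p) (bv 1) bv_one_ne_zero with h | h
        · exact h
        · exact absurd h ((S j).levIn_ne_zero (S l) hpj hpl)
      · intro j l _ hjl hne p hp
        obtain ⟨hpj, hpj'⟩ := (S j).circ_mem hp.1
        obtain ⟨hpl, hpl'⟩ := (S l).circ_mem hp.2
        have hleft : (S j).ψ.symm ((S j).ψ p) = p := (S j).ψ.left_inv hpj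
        have h1 := hpos (S j).ψ (S j).hψ ((S j).ψ p) ((S j).ψ.map_source hpj) (bv 1) bv_one_ne_zero
        have h2 := hpos (S j).ψ (S j).hψ ((S j).ψ p) ((S j).ψ.map_source hpj)
          ((S j).levIn (S l) p) ((S j).levIn_ne_zero (S l) hpj hpl)
        rw [hleft] at h1 h2
        refine ⟨ν0 p, ?_, ?_, ?_⟩
        · rw [real_inner_self_eq_norm_sq, hunit]; norm_num
        · rw [real_inner_comm]; exact h1
        · rw [real_inner_comm]; exact h2
    | succ k ih =>
      intro hk
      obtain ⟨f, ν, hinv⟩ := ih (by omega)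
      have hkJ : k < J := by omega
      exact hS S β (pull f0) ⟨k, hkJ⟩ hgp hβ hβpos f ν hinv
        (fun p v hv => by rw [hinv.met]; exact hG k p v hv)
        (hgam ⟨k, hkJ⟩ f hinv.smf hinv.met)
  obtain ⟨f, ν, hinv⟩ := hind J le_rfl
  refine ⟨f, hinv.smf, fun p v w => ?_⟩
  have := hinv.met p v w
  rw [hsum p v w] at this
  exact this

end Crest.Agent.R216
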