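import Crest.Agent.R216.BaseA
import Crest.Agent.R216.GlobCoef
import Crest.Agent.R216.DC3C
import Crest.Agent.R216.Main

/-!
Row 216 (S0335), module BASE, part C: short paraboloid lift and assembly of `BaseStatement`
from an immersion into `ℝ³` and from the flattening lemma. (helper326)
-/

set_option autoImplicit false

noncomputable section

open scoped Manifold ContDiff Topology
open Set

namespace Crest.Agent.R216.Base

variable {M : Type*} [TopologicalSpace M] [ChartedSpace E2 M] [IsManifold (𝓡 2) ∞ M]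

/-- The flattening lemma (`BaseFlat.lean`, helper904). -/
def FlatStatement (M : Type*) [TopologicalSpace M] [ChartedSpace E2 M]
    [IsManifold (𝓡 2) ∞ M] : Prop :=
  ∀ (A : FinAtlas M) (j : M → E3), ContMDiff (𝓡 2) 𝓘(ℝ, E3) ∞ j →
    (∀ (p : M) (v : TangentSpace (𝓡 2) p), v ≠ 0 → 0 < pull (Phi ∘ j) p v v) →
    ∀ (X : Set M), X.Finite → ∀ η : ℝ, 0 < η →
    ∃ jp : M → E3, ContMDiff (𝓡 2) 𝓘(ℝ, E3) ∞ jp ∧
      (∀ (p : M) (v : TangentSpace (𝓡 2) p), v ≠ 0 → 0 < pull (Phi ∘ jp) p v v) ∧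
      InClass A (pull (Phi ∘ j)) η (pull (Phi ∘ jp)) ∧
      ∀ ψ ∈ IsManifold.maximalAtlas (𝓡 2) ∞ M, ∀ p ∈ X, p ∈ ψ.source → ∀ v w : E2, ∃ z : E2,
        fderiv ℝ (fderiv ℝ (jp ∘ ψ.symm)) (ψ p) v w = fderiv ℝ (jp ∘ ψ.symm) (ψ p) z

/-! ### positivity of the given metric in charts -/

lemma dsymm_ne_zero {ψ : OpenPartialHomeomorph M E2}
    (hψ : ψ ∈ IsManifold.maximalAtlas (𝓡 2) ∞ M) {y : E2} (hy : y ∈ ψ.target) {v : E2}
    (hv : v ≠ 0) :
    (mfderiv 𝓘(ℝ, E2) (𝓡 2) ψ.symm y v : TangentSpace (𝓡 2) (ψ.symm y)) ≠ 0 := by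
  intro h
  have h1 := dchart_symm hψ hy v
  rw [show mfderiv (𝓡 2) (𝓡 2) ψ.symm y v = 0 from h, map_zero] at h1
  exact hv h1.symm

lemma dchart_ne_zero {ψ : OpenPartialHomeomorph M E2}
    (hψ : ψ ∈ IsManifold.maximalAtlas (𝓡 2) ∞ M) {p : M} (hp : p ∈ ψ.source)
    {v : TangentSpace (𝓡 2) p} (hv : v ≠ 0) :
    (mfderiv (𝓡 2) (𝓡 2) ψ p v : E2) ≠ 0 := by
  intro h
  have h1 := dsymm_chart hψ hp v
  rw [show mfderiv (𝓡 2) (𝓡 2) ψ p v = 0 from h, map_zero] at h1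
  exact hv h1.symm

/-- lower bound for a metric in a chart on a compact set -/
lemma coef_lower (g : Bundle.ContMDiffRiemannianMetric (𝓡 2) ∞ E2
      (TangentSpace (𝓡 2) : M → Type)) {ψ : OpenPartialHomeomorph M E2}
    (hψ : ψ ∈ IsManifold.maximalAtlas (𝓡 2) ∞ M) {K : Set E2} (hK : IsCompact K)
    (hKt : K ⊆ ψ.target) :
    ∃ m : ℝ, 0 < m ∧ ∀ y ∈ K, ∀ v : E2, m * ‖v‖ ^ 2 ≤ coef (DC.gT g) ψ v v y := by
  rcases K.eq_empty_or_nonempty with rfl | hne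
  · exact ⟨1, one_pos, fun y hy => absurd hy (by simp)⟩
  have hbil := DC.tBil_gT g
  have hcont : ContinuousOn (fun q : E2 × E2 => coef (DC.gT g) ψ q.2 q.2 q.1)
      (K ×ˢ Metric.sphere (0 : E2) 1) := by
    have h0 : ∀ i j : Fin 2, ContinuousOn (fun q : E2 × E2 => coef (DC.gT g) ψ (bv i) (bv j) q.1)
        (K ×ˢ Metric.sphere (0 : E2) 1) := fun i j =>
      ((coef_contDiffOn g hψ (bv i) (bv j)).continuousOn.mono hKt).comp continuousOn_fst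
        (fun q hq => hq.1)
    have h1 : ∀ i : Fin 2, ContinuousOn (fun q : E2 × E2 => q.2 i)
        (K ×ˢ Metric.sphere (0 : E2) 1) := fun i =>
      ((EuclideanSpace.proj (𝕜 := ℝ) i).continuous.comp continuous_snd).continuousOn
    have h2 : ContinuousOn (fun q : E2 × E2 => ∑ i : Fin 2, ∑ j : Fin 2, q.2 i * q.2 j *
        coef (DC.gT g) ψ (bv i) (bv j) q.1) (K ×ˢ Metric.sphere (0 : E2) 1) :=
      continuousOn_finsetSum _ fun i _ => continuousOn_finsetSum _ fun j _ =>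
        ((h1 i).mul (h1 j)).mul (h0 i j)
    exact h2.congr fun q _ => DC.coef_expand' hbil ψ q.2 q.2 q.1
  have hcomp : IsCompact (K ×ˢ Metric.sphere (0 : E2) 1) := hK.prod (isCompact_sphere _ _)
  have hsph : (Metric.sphere (0 : E2) 1).Nonempty := NormedSpace.sphere_nonempty.2 zero_le_one
  obtain ⟨q, hq, hmin⟩ := hcomp.exists_isMinOn (hne.prod hsph) hcont
  have hqpos : 0 < coef (DC.gT g) ψ q.2 q.2 q.1 := by
    have hq2 : q.2 ≠ 0 := by
      intro h; have := hq.2; rw [h] at this; simp at this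
    exact g.pos _ _ (dsymm_ne_zero hψ (hKt hq.1) hq2)
  refine ⟨_, hqpos, fun y hy v => ?_⟩
  by_cases hv : v = 0
  · subst hv
    have : coef (DC.gT g) ψ 0 0 y = 0 := by
      have := DC.coef_smul_left hbil ψ 0 (0 : E2) 0 y
      simpa using this
    rw [this]; simp
  · have hn : 0 < ‖v‖ := norm_pos_iff.2 hv
    have h1 : (y, ‖v‖⁻¹ • v) ∈ K ×ˢ Metric.sphere (0 : E2) 1 := by
      refine ⟨hy, ?_⟩
      simp [norm_smul, hn.ne']
    have h2 := hmin h1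
    simp only [mem_ofPred_eq] at h2
    rw [DC.coef_smul_left hbil, DC.coef_smul_right hbil] at h2
    have h3 : coef (DC.gT g) ψ v v y = ‖v‖ ^ 2 * (‖v‖⁻¹ * (‖v‖⁻¹ * coef (DC.gT g) ψ v v y)) := by
      field_simp
    rw [h3, mul_comm]
    exact mul_le_mul_of_nonneg_left h2 (by positivity)

variable [CompactSpace M]

/-- the differential of a smooth map is bounded with respect to `g` -/
lemma exists_metric_bound (g : Bundle.ContMDiffRiemannianMetric (𝓡 2) ∞ E2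
      (TangentSpace (𝓡 2) : M → Type)) {j : M → E3} (hj : ContMDiff (𝓡 2) 𝓘(ℝ, E3) ∞ j) :
    ∃ C : ℝ, 0 < C ∧ ∀ (p : M) (v : TangentSpace (𝓡 2) p),
      @norm E3 _ (mfderiv (𝓡 2) 𝓘(ℝ, E3) j p v) ^ 2 ≤ C * g.inner p v v := by
  obtain ⟨A⟩ := exists_finAtlas M
  have hloc : ∀ c : Fin A.n, ∃ C : ℝ, 0 < C ∧ ∀ y ∈ A.K c, ∀ u : E2,
      ‖fderiv ℝ (rep j (A.χ c)) y u‖ ^ 2 ≤ C * coef (DC.gT g) (A.χ c) u u y := by
    intro c
    obtain ⟨m, hm, hlow⟩ := coef_lower g (A.hχ c) (A.cpt c) (A.sub c)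
    have h1 : ContinuousOn (fderiv ℝ (rep j (A.χ c))) (A.K c) :=
      (((rep_contDiffOn hj (A.hχ c)).fderiv_of_isOpen (A.χ c).open_target
        (m := ∞) (by simp)).continuousOn).mono (A.sub c)
    obtain ⟨B, hB⟩ := (A.cpt c).exists_bound_of_continuousOn h1
    refine ⟨(B ^ 2 + 1) / m, by positivity, fun y hy u => ?_⟩
    have h2 : ‖fderiv ℝ (rep j (A.χ c)) y u‖ ≤ B * ‖u‖ :=
      ((fderiv ℝ (rep j (A.χ c)) y).le_opNorm u).trans
        (mul_le_mul_of_nonneg_right (hB y hy) (norm_nonneg _))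
    have h3 := hlow y hy u
    calc ‖fderiv ℝ (rep j (A.χ c)) y u‖ ^ 2 ≤ (B * ‖u‖) ^ 2 :=
          pow_le_pow_left₀ (norm_nonneg _) h2 2
      _ ≤ (B ^ 2 + 1) / m * (m * ‖u‖ ^ 2) := by
          have e : (B ^ 2 + 1) / m * (m * ‖u‖ ^ 2) = (B ^ 2 + 1) * ‖u‖ ^ 2 := by field_simp
          rw [e, mul_pow]
          nlinarith [sq_nonneg ‖u‖]
      _ ≤ _ := mul_le_mul_of_nonneg_left h3 (by positivity)
  choose C hC hCb using hloc
  refine ⟨1 + ∑ c, C c, by have := Finset.sum_nonneg (fun c (_ : c ∈ Finset.univ) => (hC c).le); linarith, ?_⟩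
  intro p v
  obtain ⟨c, hc, hci⟩ := A.cover p
  have h1 := mfderiv_eq hj (A.hχ c) hc v
  have h2 := tens_eq_coef (DC.gT g) (A.hχ c) hc v v
  have h3 := hCb c _ (interior_subset hci) (mfderiv (𝓡 2) (𝓡 2) (A.χ c) p v)
  have h4 : 0 ≤ DC.gT g p v v := by
    by_cases hv : v = 0
    · subst hv; simp [DC.gT]
    · exact (g.pos p v hv).le
  rw [h1]
  refine h3.trans ?_
  rw [← h2]
  have h5 : C c ≤ 1 + ∑ c, C c := by
    have := Finset.single_le_sum (fun c _ => (hC c).le) (Finset.mem_univ c)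
    linarith
  exact mul_le_mul_of_nonneg_right h5 h4

omit [CompactSpace M] [IsManifold (𝓡 2) ∞ M] in
lemma mfderiv_Phi_comp {j : M → E3} (hj : ContMDiff (𝓡 2) 𝓘(ℝ, E3) ∞ j) (p : M)
    (v : TangentSpace (𝓡 2) p) :
    mfderiv (𝓡 2) 𝓘(ℝ, E4) (Phi ∘ j) p v = TT (j p) (mfderiv (𝓡 2) 𝓘(ℝ, E3) j p v) := by
  have h1 : MDifferentiableAt 𝓘(ℝ, E3) 𝓘(ℝ, E4) Phi (j p) :=
    (hasFDerivAt_Phi (j p)).differentiableAt.mdifferentiableAt
  have h2 : MDifferentiableAt (𝓡 2) 𝓘(ℝ, E3) j p := (hj p).mdifferentiableAt (by simp)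
  rw [mfderiv_comp p h1 h2, mfderiv_eq_fderiv, (hasFDerivAt_Phi (j p)).fderiv]
  rfl

omit [CompactSpace M] in
lemma pull_Phi {j : M → E3} (hj : ContMDiff (𝓡 2) 𝓘(ℝ, E3) ∞ j) (p : M)
    (v : TangentSpace (𝓡 2) p) :
    pull (Phi ∘ j) p v v = @inner ℝ E3 _ (mfderiv (𝓡 2) 𝓘(ℝ, E3) j p v)
        (mfderiv (𝓡 2) 𝓘(ℝ, E3) j p v)
      + @inner ℝ E3 _ (j p) (mfderiv (𝓡 2) 𝓘(ℝ, E3) j p v)
        * @inner ℝ E3 _ (j p) (mfderiv (𝓡 2) 𝓘(ℝ, E3) j p v) := by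
  rw [pull, mfderiv_Phi_comp hj]
  exact inner_TT _ _ _

omit [CompactSpace M] [IsManifold (𝓡 2) ∞ M] in
lemma mfderiv_const_smul' {j : M → E3} (hj : ContMDiff (𝓡 2) 𝓘(ℝ, E3) ∞ j) (l : ℝ) (p : M)
    (v : TangentSpace (𝓡 2) p) :
    mfderiv (𝓡 2) 𝓘(ℝ, E3) (fun x => l • j x) p v
      = (l • (mfderiv (𝓡 2) 𝓘(ℝ, E3) j p v : E3) : E3) := by
  have h1 : MDifferentiableAt 𝓘(ℝ, E3) 𝓘(ℝ, E3) (fun y : E3 => l • y) (j p) :=
    (differentiableAt_id.const_smul l).mdifferentiableAt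
  have h2 : MDifferentiableAt (𝓡 2) 𝓘(ℝ, E3) j p := (hj p).mdifferentiableAt (by simp)
  have h3 : mfderiv (𝓡 2) 𝓘(ℝ, E3) ((fun y : E3 => l • y) ∘ j) p
      = (mfderiv 𝓘(ℝ, E3) 𝓘(ℝ, E3) (fun y : E3 => l • y) (j p)).comp
        (mfderiv (𝓡 2) 𝓘(ℝ, E3) j p) := mfderiv_comp p h1 h2
  show mfderiv (𝓡 2) 𝓘(ℝ, E3) ((fun y : E3 => l • y) ∘ j) p v = _
  have h4 : fderiv ℝ (fun y : E3 => l • y) (j p) = l • ContinuousLinearMap.id ℝ E3 :=
    ((hasFDerivAt_id (j p)).const_smul l).fderiv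
  rw [h3, mfderiv_eq_fderiv, h4]
  rfl

/-- a short paraboloid lift of an immersion into `ℝ³` -/
lemma exists_short (g : Bundle.ContMDiffRiemannianMetric (𝓡 2) ∞ E2
      (TangentSpace (𝓡 2) : M → Type)) {j : M → E3} (hj : ContMDiff (𝓡 2) 𝓘(ℝ, E3) ∞ j)
    (hinj : ∀ p, Function.Injective (mfderiv (𝓡 2) 𝓘(ℝ, E3) j p)) :
    ∃ j' : M → E3, ContMDiff (𝓡 2) 𝓘(ℝ, E3) ∞ j' ∧
      ∀ (p : M) (v : TangentSpace (𝓡 2) p), v ≠ 0 →
        0 < pull (Phi ∘ j') p v v ∧ pull (Phi ∘ j') p v v < g.inner p v v := by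
  obtain ⟨C, hC, hCb⟩ := exists_metric_bound g hj
  obtain ⟨R, hR⟩ := isCompact_univ.exists_bound_of_continuousOn hj.continuous.continuousOn
  set D : ℝ := (1 + R ^ 2) * C with hD
  have hDpos : 0 < D := by positivity
  set l : ℝ := (1 + 2 * D)⁻¹ with hl
  have hlpos : 0 < l := by positivity
  have hl1 : l ≤ 1 := inv_le_one_of_one_le₀ (by linarith)
  have hlD : l * D < 1 := by
    rw [hl, inv_mul_lt_iff₀ (by positivity)]; linarith
  have hj' : ContMDiff (𝓡 2) 𝓘(ℝ, E3) ∞ (fun x => l • j x) := by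
    have := (contDiff_id.const_smul l : ContDiff ℝ ∞ (fun y : E3 => l • y)).contMDiff.comp hj
    exact this
  refine ⟨fun x => l • j x, hj', fun p v hv => ?_⟩
  set w : E3 := (mfderiv (𝓡 2) 𝓘(ℝ, E3) j p v : E3) with hw
  have hw0 : w ≠ 0 := by
    intro h
    exact hv (hinj p (by rw [map_zero]; exact h))
  have h1 : pull (Phi ∘ fun x => l • j x) p v v
      = l ^ 2 * inner ℝ w w + l ^ 4 * (inner ℝ (j p) w) ^ 2 := by
    rw [pull_Phi hj', mfderiv_const_smul' hj]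
    show (inner ℝ (l • w) (l • w) : ℝ) + inner ℝ (l • j p) (l • w) * inner ℝ (l • j p) (l • w) = _
    simp only [inner_smul_left, inner_smul_right, conj_trivial]
    ring
  have h2 : 0 < (inner ℝ w w : ℝ) := real_inner_self_pos.2 hw0
  have h3 : (inner ℝ (j p) w : ℝ) ^ 2 ≤ R ^ 2 * inner ℝ w w := by
    have h4 := real_inner_mul_inner_self_le (j p) w
    have h5 : (inner ℝ (j p) (j p) : ℝ) ≤ R ^ 2 := by
      rw [real_inner_self_eq_norm_sq]
      exact pow_le_pow_left₀ (norm_nonneg _) (hR p (mem_univ p)) 2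
    nlinarith [mul_le_mul_of_nonneg_right h5 h2.le]
  have h6 : (inner ℝ w w : ℝ) ≤ C * g.inner p v v := by
    rw [real_inner_self_eq_norm_sq]; exact hCb p v
  have hg : 0 < g.inner p v v := g.pos p v hv
  rw [h1]
  constructor
  · have : 0 ≤ l ^ 4 * (inner ℝ (j p) w : ℝ) ^ 2 := by positivity
    have : 0 < l ^ 2 * (inner ℝ w w : ℝ) := by positivity
    linarith
  · have hl2 : l ^ 2 ≤ l := by nlinarith
    have hl4 : l ^ 4 ≤ l := by
      have : l ^ 4 = l ^ 2 * l ^ 2 := by ring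
      rw [this]; nlinarith [mul_le_mul hl2 hl2 (by positivity) hlpos.le]
    calc l ^ 2 * (inner ℝ w w : ℝ) + l ^ 4 * (inner ℝ (j p) w) ^ 2
        ≤ l * inner ℝ w w + l * (R ^ 2 * inner ℝ w w) :=
          add_le_add (mul_le_mul_of_nonneg_right hl2 h2.le)
            (mul_le_mul hl4 h3 (by positivity) hlpos.le)
      _ = l * ((1 + R ^ 2) * inner ℝ w w) := by ring
      _ ≤ l * ((1 + R ^ 2) * (C * g.inner p v v)) := by gcongr
      _ = (l * D) * g.inner p v v := by rw [hD]; ring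
      _ < 1 * g.inner p v v := mul_lt_mul_of_pos_right hlD hg
      _ = _ := one_mul _

omit [CompactSpace M] in
/-- injectivity in charts from positivity of the pulled back metric -/
lemma injective_fderiv_chart {j : M → E3} (hj : ContMDiff (𝓡 2) 𝓘(ℝ, E3) ∞ j)
    (hpos : ∀ (p : M) (v : TangentSpace (𝓡 2) p), v ≠ 0 → 0 < pull (Phi ∘ j) p v v)
    {ψ : OpenPartialHomeomorph M E2} (hψ : ψ ∈ IsManifold.maximalAtlas (𝓡 2) ∞ M) {y : E2}
    (hy : y ∈ ψ.target) : Function.Injective (fderiv ℝ (j ∘ ψ.symm) y) := by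
  rw [injective_iff_map_eq_zero]
  intro v hv
  by_contra hne
  have h1 := hpos (ψ.symm y) _ (dsymm_ne_zero hψ hy hne)
  rw [pull_Phi hj] at h1
  have h2 : mfderiv (𝓡 2) 𝓘(ℝ, E3) j (ψ.symm y)
      (mfderiv 𝓘(ℝ, E2) (𝓡 2) ψ.symm y v : TangentSpace (𝓡 2) (ψ.symm y)) = (0 : E3) :=
    (mfderiv_symm hj hψ hy v).trans hv
  rw [h2] at h1
  simp at h1

/-- **BASE**: an immersion into `ℝ³` and the flattening lemma give `BaseStatement`. -/
theorem base_of_immersion_of_flat (hflat : FlatStatement M)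
    {j : M → E3} (hj : ContMDiff (𝓡 2) 𝓘(ℝ, E3) ∞ j)
    (hinj : ∀ p, Function.Injective (mfderiv (𝓡 2) 𝓘(ℝ, E3) j p)) : BaseStatement M := by
  intro g A
  obtain ⟨j', hj', hshort⟩ := exists_short g hj hinj
  have hsm : ∀ {a : M → E3}, ContMDiff (𝓡 2) 𝓘(ℝ, E3) ∞ a →
      ContMDiff (𝓡 2) 𝓘(ℝ, E4) ∞ (Phi ∘ a) := fun ha => contDiff_Phi.contMDiff.comp ha
  refine ⟨Phi ∘ j', hsm hj', hshort, fun η X hη hX => ?_⟩
  obtain ⟨jp, hjp, hpos, hclass, hfl⟩ := hflat A j' hj' (fun p v hv => (hshort p v hv).1) X hX η hη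
  have hrep : ∀ ψ ∈ IsManifold.maximalAtlas (𝓡 2) ∞ M, ∀ y ∈ ψ.target,
      ContDiffAt ℝ 2 (jp ∘ ψ.symm) y := fun ψ hψ y hy =>
    ((rep_contDiffOn hjp hψ).contDiffAt (ψ.open_target.mem_nhds hy)).of_le ENat.LEInfty.out
  refine ⟨Phi ∘ jp, fun p => nu (jp p), hsm hjp, contDiff_nu.contMDiff.comp hjp, hpos,
    fun p => norm_nu _, ?_, hclass, ?_, ?_⟩
  · intro p v
    rw [mfderiv_Phi_comp hjp]
    exact inner_nu_TT _ _
  · intro ψ hψ y hy v hv
    exact sff_Phi_pos (hrep ψ hψ y hy) (injective_fderiv_chart hjp hpos hψ hy) hv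
  · intro ψ hψ p hp hpψ v w hw
    by_cases hv : v = 0
    · exact Or.inr hv
    · left
      have hy := ψ.map_source hpψ
      exact P2at_flat (hrep ψ hψ _ hy) (injective_fderiv_chart hjp hpos hψ hy)
        (hfl ψ hψ p hp hpψ) hv hw

end Crest.Agent.R216.Base
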