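import Crest.Agent.R216.BaseS

/-!
Row 216 (S0335), module BASE, part B: planar estimates for the bumps.
-/

set_option autoImplicit false

noncomputable section

open scoped Manifold ContDiff Topology
open Set Filter

namespace Crest.Agent.R216.Base

open Crest.Agent.R216

/-! ### the profile -/

theorem exists_bound1 {G : Type*} [NormedAddCommGroup G] {g : P2 → G} (hc : Continuous g)
    (hs : HasCompactSupport g) : ∃ C : ℝ, 0 ≤ C ∧ ∀ z, ‖g z‖ ≤ C := by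
  obtain ⟨C, hC⟩ := hc.bounded_above_of_compact_support hs
  exact ⟨C, (norm_nonneg _).trans (hC 0), hC⟩

lemma exists_bound3 {Θ : P2 → ℝ} (hsm : ContDiff ℝ ∞ Θ) (hsup : HasCompactSupport Θ) :
    ∃ C : ℝ, 0 < C ∧ ∀ z, |Θ z| ≤ C ∧ ‖fderiv ℝ Θ z‖ ≤ C ∧ ‖fderiv ℝ (fderiv ℝ Θ) z‖ ≤ C := by
  have h1 : HasCompactSupport (fderiv ℝ Θ) := hsup.fderiv (𝕜 := ℝ)
  have h2 : HasCompactSupport (fderiv ℝ (fderiv ℝ Θ)) := h1.fderiv (𝕜 := ℝ)
  have s1 : ContDiff ℝ ∞ (fderiv ℝ Θ) := hsm.fderiv_right (by simp)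
  have s2 : ContDiff ℝ ∞ (fderiv ℝ (fderiv ℝ Θ)) := s1.fderiv_right (by simp)
  obtain ⟨C0, hC0', hC0⟩ := exists_bound1 hsm.continuous hsup
  obtain ⟨C1, hC1', hC1⟩ := exists_bound1 s1.continuous h1
  obtain ⟨C2, hC2', hC2⟩ := exists_bound1 s2.continuous h2
  refine ⟨C0 + C1 + C2 + 1, by positivity, fun z => ⟨?_, ?_, ?_⟩⟩
  · exact (hC0 z).trans (by linarith)
  · exact (hC1 z).trans (by linarith)
  · exact (hC2 z).trans (by linarith)

/-- smooth, supported in the unit ball, `= ‖z‖²` near `0`, bounded with two derivatives -/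
lemma exists_profile : ∃ Θ : P2 → ℝ, ContDiff ℝ ∞ Θ ∧ (∀ z, 1 ≤ ‖z‖ → Θ z = 0) ∧
    (∀ᶠ z in 𝓝 (0 : P2), Θ z = ‖z‖ ^ 2) ∧
    ∃ C : ℝ, 0 < C ∧ ∀ z, |Θ z| ≤ C ∧ ‖fderiv ℝ Θ z‖ ≤ C ∧ ‖fderiv ℝ (fderiv ℝ Θ) z‖ ≤ C := by
  obtain ⟨φ, hφ⟩ : ∃ φ : ContDiffBump (0 : P2), φ.rOut = 1 := ⟨⟨1 / 2, 1, by norm_num, by norm_num⟩, rfl⟩
  have hsm : ContDiff ℝ ∞ (fun z : P2 => φ z * ‖z‖ ^ 2) := φ.contDiff.mul (contDiff_norm_sq ℝ)
  have hsup : HasCompactSupport (fun z : P2 => φ z * ‖z‖ ^ 2) := φ.hasCompactSupport.mul_right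
  refine ⟨_, hsm, ?_, ?_, exists_bound3 hsm hsup⟩
  · intro z hz
    have : φ z = 0 := φ.zero_of_le_dist (by rw [hφ]; simpa using hz)
    simp only [this, zero_mul]
  · filter_upwards [φ.eventuallyEq_one] with z hz
    rw [hz]; simp

/-! ### scaled bumps -/

/-- scaled bump `μ r² Θ((y - a)/r)` -/
def sbump (Θ : P2 → ℝ) (μ : ℝ) (a : P2) (r : ℝ) (y : P2) : ℝ := μ * r ^ 2 * Θ (r⁻¹ • (y - a))

section sbump
variable {Θ : P2 → ℝ} (hΘ : ContDiff ℝ ∞ Θ) {μ : ℝ} {a : P2} {r : ℝ}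
include hΘ

lemma contDiff_sbump : ContDiff ℝ ∞ (sbump Θ μ a r) :=
  contDiff_const.mul (hΘ.comp ((contDiff_id.sub contDiff_const).const_smul r⁻¹))

omit hΘ in
lemma hasFDerivAt_affine (y : P2) :
    HasFDerivAt (fun y : P2 => r⁻¹ • (y - a)) (r⁻¹ • ContinuousLinearMap.id ℝ P2) y :=
  ((hasFDerivAt_id y).sub_const a).const_smul r⁻¹

lemma fderiv_sbump (hr : r ≠ 0) (y : P2) :
    fderiv ℝ (sbump Θ μ a r) y = (μ * r) • fderiv ℝ Θ (r⁻¹ • (y - a)) := by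
  have h1 : HasFDerivAt (fun y => Θ (r⁻¹ • (y - a)))
      ((fderiv ℝ Θ (r⁻¹ • (y - a))).comp (r⁻¹ • ContinuousLinearMap.id ℝ P2)) y :=
    ((hΘ.differentiable (by simp)) _).hasFDerivAt.comp y (hasFDerivAt_affine y)
  have h2 := (h1.const_mul (μ * r ^ 2)).fderiv
  show fderiv ℝ (fun y => μ * r ^ 2 * Θ (r⁻¹ • (y - a))) y = _
  rw [h2]
  ext v
  simp
  field_simp

lemma fderiv2_sbump (hr : r ≠ 0) (y : P2) :
    fderiv ℝ (fderiv ℝ (sbump Θ μ a r)) y = μ • fderiv ℝ (fderiv ℝ Θ) (r⁻¹ • (y - a)) := by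
  have e : fderiv ℝ (sbump Θ μ a r) = fun y => (μ * r) • fderiv ℝ Θ (r⁻¹ • (y - a)) := by
    ext1 y; exact fderiv_sbump hΘ hr y
  have s1 : ContDiff ℝ ∞ (fderiv ℝ Θ) := hΘ.fderiv_right (by simp)
  have h1 : HasFDerivAt (fun y => fderiv ℝ Θ (r⁻¹ • (y - a)))
      ((fderiv ℝ (fderiv ℝ Θ) (r⁻¹ • (y - a))).comp (r⁻¹ • ContinuousLinearMap.id ℝ P2)) y :=
    ((s1.differentiable (by simp)) _).hasFDerivAt.comp y (hasFDerivAt_affine y)
  have h2 : fderiv ℝ (fun y => (μ * r) • fderiv ℝ Θ (r⁻¹ • (y - a))) y = _ :=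
    (h1.const_smul (μ * r)).fderiv
  rw [e]
  rw [h2]
  ext v w
  simp
  field_simp

end sbump

/-! ### the limit lemma -/

/-- the family of perturbed maps -/
def pert (F : P2 → P4) (N : P4) (s : P2 → ℝ) (y : P2) : P4 := nrm (F y + s y • N)

lemma contDiffAt_pert {F : P2 → P4} {N : P4} {s : P2 → ℝ} {y : P2} {n : ℕ∞}
    (hF : ContDiffAt ℝ n F y) (hs : ContDiffAt ℝ n s y) (h0 : F y + s y • N ≠ 0) :
    ContDiffAt ℝ n (pert F N s) y :=
  ((contDiffAt_nrm h0).of_le (by exact_mod_cast le_top)).comp y (hF.add (hs.smul contDiffAt_const))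

lemma pert_of_zero {F : P2 → P4} {N : P4} {s : P2 → ℝ} {y : P2} (h1 : ‖F y‖ = 1) (h0 : s y = 0) :
    pert F N s y = F y := by
  rw [pert, h0, zero_smul, add_zero, nrm_of_unit h1]

lemma fderiv_inner_fam {F : P2 → P4} {N : P4} {s : P2 → ℝ} {y : P2}
    (hF : DifferentiableAt ℝ F y) (hs : DifferentiableAt ℝ s y) (v : P2) :
    fderiv ℝ (fun z => F z + s z • N) y v = fderiv ℝ F y v + (fderiv ℝ s y v) • N := by
  have h1 : HasFDerivAt (fun z => F z + s z • N)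
      (fderiv ℝ F y + (fderiv ℝ s y).smulRight N) y :=
    hF.hasFDerivAt.add (hs.hasFDerivAt.smul_const N)
  rw [h1.fderiv]; simp

lemma fderiv2_inner_fam {F : P2 → P4} {N : P4} {s : P2 → ℝ} {y : P2}
    (hF : ContDiffAt ℝ 2 F y) (hs : ContDiffAt ℝ 2 s y) (v w : P2) :
    fderiv ℝ (fderiv ℝ (fun z => F z + s z • N)) y v w
      = fderiv ℝ (fderiv ℝ F) y v w + (fderiv ℝ (fderiv ℝ s) y v w) • N := by
  have hFe : ∀ᶠ z in 𝓝 y, DifferentiableAt ℝ F z := by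
    filter_upwards [hF.eventually (by simp)] with z hz
    exact hz.differentiableAt (by norm_num)
  have hse : ∀ᶠ z in 𝓝 y, DifferentiableAt ℝ s z := by
    filter_upwards [hs.eventually (by simp)] with z hz
    exact hz.differentiableAt (by norm_num)
  have h1 : fderiv ℝ (fun z => F z + s z • N) =ᶠ[𝓝 y]
      fun z => fderiv ℝ F z + (fderiv ℝ s z).smulRight N := by
    filter_upwards [hFe, hse] with z h1 h2
    exact (h1.hasFDerivAt.add (h2.hasFDerivAt.smul_const N)).fderiv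
  have hdF : HasFDerivAt (fderiv ℝ F) (fderiv ℝ (fderiv ℝ F) y) y :=
    ((hF.fderiv_right (m := 1) (by norm_num)).differentiableAt (by norm_num)).hasFDerivAt
  have hds : HasFDerivAt (fderiv ℝ s) (fderiv ℝ (fderiv ℝ s) y) y :=
    ((hs.fderiv_right (m := 1) (by norm_num)).differentiableAt (by norm_num)).hasFDerivAt
  have h2 : HasFDerivAt (fun z => (fderiv ℝ s z).smulRight N)
      (((ContinuousLinearMap.smulRightL ℝ P2 P4).flip N).comp (fderiv ℝ (fderiv ℝ s) y)) y :=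
    ((ContinuousLinearMap.smulRightL ℝ P2 P4).flip N).hasFDerivAt.comp y hds
  have h3 : fderiv ℝ (fun z => fderiv ℝ F z + (fderiv ℝ s z).smulRight N) y = _ :=
    (hdF.add h2).fderiv
  rw [h1.fderiv_eq, h3]
  simp

lemma fderiv_pert {F : P2 → P4} {N : P4} {s : P2 → ℝ} {y : P2}
    (hF : DifferentiableAt ℝ F y) (hs : DifferentiableAt ℝ s y) (h0 : F y + s y • N ≠ 0) (v : P2) :
    fderiv ℝ (pert F N s) y v
      = fderiv ℝ nrm (F y + s y • N) (fderiv ℝ F y v + (fderiv ℝ s y v) • N) := by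
  have h1 : DifferentiableAt ℝ (fun z => F z + s z • N) y := hF.add (hs.smul_const N)
  have h2 : DifferentiableAt ℝ nrm (F y + s y • N) := (contDiffAt_nrm h0).differentiableAt (by simp)
  have h3 : fderiv ℝ (nrm ∘ fun z => F z + s z • N) y
      = (fderiv ℝ nrm (F y + s y • N)).comp (fderiv ℝ (fun z => F z + s z • N) y) :=
    fderiv_comp y h2 h1
  show fderiv ℝ (nrm ∘ fun z => F z + s z • N) y v = _
  rw [h3, ContinuousLinearMap.comp_apply, fderiv_inner_fam hF hs]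

lemma fderiv2_pert {F : P2 → P4} {N : P4} {s : P2 → ℝ} {y : P2}
    (hF : ContDiffAt ℝ 2 F y) (hs : ContDiffAt ℝ 2 s y) (h0 : F y + s y • N ≠ 0) (v w : P2) :
    d2 (pert F N s) y v w
      = fderiv ℝ (fderiv ℝ nrm) (F y + s y • N) (fderiv ℝ F y v + (fderiv ℝ s y v) • N)
          (fderiv ℝ F y w + (fderiv ℝ s y w) • N)
        + fderiv ℝ nrm (F y + s y • N) (d2 F y v w + (fderiv ℝ (fderiv ℝ s) y v w) • N) := by
  have h1 : ContDiffAt ℝ 2 (fun z => F z + s z • N) y := hF.add (hs.smul contDiffAt_const)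
  have h2 : ContDiffAt ℝ 2 nrm ((fun z => F z + s z • N) y) :=
    (contDiffAt_nrm h0).of_le ENat.LEInfty.out
  have := snd_comp (f := fun z => F z + s z • N) h2 h1 v w
  show fderiv ℝ (fderiv ℝ (nrm ∘ fun z => F z + s z • N)) y v w = _
  rw [this, fderiv_inner_fam (hF.differentiableAt (by norm_num)) (hs.differentiableAt (by norm_num)),
    fderiv_inner_fam (hF.differentiableAt (by norm_num)) (hs.differentiableAt (by norm_num)),
    fderiv2_inner_fam hF hs]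
  rfl

/-- derivative of a coefficient of the first fundamental form -/
lemma fderiv_met {f : P2 → P4} {y : P2} (hf : ContDiffAt ℝ 2 f y) (u v w : P2) :
    fderiv ℝ (fun z => met f z v w) y u
      = inner ℝ (d2 f y u v) (d1 f y w) + inner ℝ (d1 f y v) (d2 f y u w) := by
  have hdf : DifferentiableAt ℝ (fderiv ℝ f) y :=
    (hf.fderiv_right (m := 1) (by norm_num)).differentiableAt (by norm_num)
  have hdv : ∀ v, HasFDerivAt (fun z => fderiv ℝ f z v) ((fderiv ℝ (fderiv ℝ f) y).flip v) y :=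
    fun v => hdf.hasFDerivAt.clm_apply (hasFDerivAt_const v y) |>.congr_fderiv (by ext; simp)
  have h4 : fderiv ℝ (fun z => (inner ℝ (fderiv ℝ f z v) (fderiv ℝ f z w) : ℝ)) y u
      = inner ℝ (fderiv ℝ f y v) (fderiv ℝ (fun z => fderiv ℝ f z w) y u)
        + inner ℝ (fderiv ℝ (fun z => fderiv ℝ f z v) y u) (fderiv ℝ f y w) :=
    fderiv_inner_apply ℝ (hdv v).differentiableAt (hdv w).differentiableAt u
  show fderiv ℝ (fun z => (inner ℝ (fderiv ℝ f z v) (fderiv ℝ f z w) : ℝ)) y u = _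
  rw [h4, (hdv v).fderiv, (hdv w).fderiv]
  simp only [ContinuousLinearMap.flip_apply]
  rw [add_comm]
  rfl

end Crest.Agent.R216.Base
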