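import Crest.Agent.R216.BaseA0

/-!
# Row 216: BASE MAP, `C¹`-small families (helper904)
-/

set_option autoImplicit false
open scoped Manifold ContDiff Topology
open Set

noncomputable section
namespace Crest.Agent.R216
namespace Base

section smallness
variable {V V' Z : Type*} [NormedAddCommGroup V] [NormedSpace ℝ V]
  [NormedAddCommGroup V'] [NormedSpace ℝ V'] [NormedAddCommGroup Z] [NormedSpace ℝ Z]

/-- `u κ → 0` in `C¹(K)` -/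
def Sm (K : Set E2) (u : ℝ → E2 → V) : Prop :=
  (∀ κ, 0 < κ → ∀ y ∈ K, DifferentiableAt ℝ (u κ) y) ∧
  ∀ ε > 0, ∃ κ0 > 0, ∀ κ, 0 < κ → κ < κ0 → ∀ y ∈ K, ‖u κ y‖ ≤ ε ∧ ‖fderiv ℝ (u κ) y‖ ≤ ε

/-- `u κ → 0` in `C⁰(K)` with bounded first derivatives -/
def Bd (K : Set E2) (u : ℝ → E2 → V) : Prop :=
  (∀ κ, 0 < κ → ∀ y ∈ K, DifferentiableAt ℝ (u κ) y) ∧
  (∀ ε > 0, ∃ κ0 > 0, ∀ κ, 0 < κ → κ < κ0 → ∀ y ∈ K, ‖u κ y‖ ≤ ε) ∧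
  ∃ C > 0, ∃ κ0 > 0, ∀ κ, 0 < κ → κ < κ0 → ∀ y ∈ K, ‖fderiv ℝ (u κ) y‖ ≤ C

/-- a fixed `C¹` function, bounded on `K` -/
def Fx (K : Set E2) (a : E2 → V) : Prop :=
  (∀ y ∈ K, DifferentiableAt ℝ a y) ∧ ∃ C > 0, ∀ y ∈ K, ‖a y‖ ≤ C ∧ ‖fderiv ℝ a y‖ ≤ C

variable {K : Set E2}

lemma Fx.of_contDiffOn {W : Set E2} (hW : IsOpen W) (hK : IsCompact K) (hKW : K ⊆ W) {a : E2 → V}
    {n : ℕ∞ω} (hn : n ≠ 0) (ha : ContDiffOn ℝ n a W) : Fx K a := by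
  have h1n : (1 : ℕ∞ω) ≤ n := ENat.one_le_iff_ne_zero_withTop.mpr hn
  have hd : ContinuousOn (fderiv ℝ a) W := ha.continuousOn_fderiv_of_isOpen hW h1n
  obtain ⟨C1, hC1⟩ := hK.exists_bound_of_continuousOn (ha.continuousOn.mono hKW)
  obtain ⟨C2, hC2⟩ := hK.exists_bound_of_continuousOn (hd.mono hKW)
  refine ⟨fun y hy => (ha.contDiffAt (hW.mem_nhds (hKW hy))).differentiableAt hn,
    |C1| + |C2| + 1, by positivity, fun y hy => ⟨?_, ?_⟩⟩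
  · have := hC1 y hy
    have h2 := le_abs_self C1
    have h3 := abs_nonneg C2
    linarith
  · have := hC2 y hy
    have h2 := le_abs_self C2
    have h3 := abs_nonneg C1
    linarith

lemma Sm.bd {u : ℝ → E2 → V} (h : Sm K u) : Bd K u := by
  refine ⟨h.1, fun ε hε => ?_, ?_⟩
  · obtain ⟨κ0, h0, h1⟩ := h.2 ε hε
    exact ⟨κ0, h0, fun κ hκ hκ' y hy => (h1 κ hκ hκ' y hy).1⟩
  · obtain ⟨κ0, h0, h1⟩ := h.2 1 one_pos
    exact ⟨1, one_pos, κ0, h0, fun κ hκ hκ' y hy => (h1 κ hκ hκ' y hy).2⟩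

lemma Sm.add {u v : ℝ → E2 → V} (hu : Sm K u) (hv : Sm K v) :
    Sm K (fun κ y => u κ y + v κ y) := by
  refine ⟨fun κ hκ y hy => (hu.1 κ hκ y hy).add (hv.1 κ hκ y hy), fun ε hε => ?_⟩
  obtain ⟨κ1, h1, h1'⟩ := hu.2 (ε / 2) (half_pos hε)
  obtain ⟨κ2, h2, h2'⟩ := hv.2 (ε / 2) (half_pos hε)
  refine ⟨min κ1 κ2, lt_min h1 h2, fun κ hκ hκ' y hy => ?_⟩
  obtain ⟨a1, a2⟩ := h1' κ hκ (hκ'.trans_le (min_le_left _ _)) y hy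
  obtain ⟨b1, b2⟩ := h2' κ hκ (hκ'.trans_le (min_le_right _ _)) y hy
  constructor
  · exact (norm_add_le _ _).trans (by linarith)
  · rw [fderiv_fun_add (hu.1 κ hκ y hy) (hv.1 κ hκ y hy)]
    exact (norm_add_le _ _).trans (by linarith)

lemma Bd.add {u v : ℝ → E2 → V} (hu : Bd K u) (hv : Bd K v) :
    Bd K (fun κ y => u κ y + v κ y) := by
  refine ⟨fun κ hκ y hy => (hu.1 κ hκ y hy).add (hv.1 κ hκ y hy), fun ε hε => ?_, ?_⟩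
  · obtain ⟨κ1, h1, h1'⟩ := hu.2.1 (ε / 2) (half_pos hε)
    obtain ⟨κ2, h2, h2'⟩ := hv.2.1 (ε / 2) (half_pos hε)
    refine ⟨min κ1 κ2, lt_min h1 h2, fun κ hκ hκ' y hy => ?_⟩
    have a1 := h1' κ hκ (hκ'.trans_le (min_le_left _ _)) y hy
    have b1 := h2' κ hκ (hκ'.trans_le (min_le_right _ _)) y hy
    exact (norm_add_le _ _).trans (by linarith)
  · obtain ⟨C1, hC1, κ1, h1, h1'⟩ := hu.2.2
    obtain ⟨C2, hC2, κ2, h2, h2'⟩ := hv.2.2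
    refine ⟨C1 + C2, by positivity, min κ1 κ2, lt_min h1 h2, fun κ hκ hκ' y hy => ?_⟩
    have a1 := h1' κ hκ (hκ'.trans_le (min_le_left _ _)) y hy
    have b1 := h2' κ hκ (hκ'.trans_le (min_le_right _ _)) y hy
    rw [fderiv_fun_add (hu.1 κ hκ y hy) (hv.1 κ hκ y hy)]
    exact (norm_add_le _ _).trans (by linarith)

/-- derivative bound for bilinear expressions -/
lemma bil_fderiv_le (B : V →L[ℝ] V' →L[ℝ] Z) {u : E2 → V} {v : E2 → V'} {y : E2}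
    (hu : DifferentiableAt ℝ u y) (hv : DifferentiableAt ℝ v y) :
    ‖fderiv ℝ (fun z => B (u z) (v z)) y‖
      ≤ ‖B‖ * (‖u y‖ * ‖fderiv ℝ v y‖ + ‖fderiv ℝ u y‖ * ‖v y‖) := by
  have h := (B.hasFDerivAt_of_bilinear hu.hasFDerivAt hv.hasFDerivAt).fderiv
  rw [h]
  refine (norm_add_le _ _).trans ?_
  have h1 : ‖B.precompR E2 (u y) (fderiv ℝ v y)‖ ≤ ‖B‖ * ‖u y‖ * ‖fderiv ℝ v y‖ := by
    refine (ContinuousLinearMap.le_opNorm₂ _ _ _).trans ?_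
    gcongr
    exact ContinuousLinearMap.norm_precompR_le _ _
  have h2 : ‖B.precompL E2 (fderiv ℝ u y) (v y)‖ ≤ ‖B‖ * ‖fderiv ℝ u y‖ * ‖v y‖ := by
    refine (ContinuousLinearMap.le_opNorm₂ _ _ _).trans ?_
    gcongr
    exact ContinuousLinearMap.norm_precompL_le _ _
  calc _ ≤ ‖B‖ * ‖u y‖ * ‖fderiv ℝ v y‖ + ‖B‖ * ‖fderiv ℝ u y‖ * ‖v y‖ := add_le_add h1 h2
    _ = _ := by ring

lemma bil_diff (B : V →L[ℝ] V' →L[ℝ] Z) {u : E2 → V} {v : E2 → V'} {y : E2}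
    (hu : DifferentiableAt ℝ u y) (hv : DifferentiableAt ℝ v y) :
    DifferentiableAt ℝ (fun z => B (u z) (v z)) y :=
  (B.hasFDerivAt_of_bilinear hu.hasFDerivAt hv.hasFDerivAt).differentiableAt

lemma bil_norm_le (B : V →L[ℝ] V' →L[ℝ] Z) (a : V) (b : V') : ‖B a b‖ ≤ ‖B‖ * (‖a‖ * ‖b‖) := by
  have := B.le_opNorm₂ a b
  linarith [this, mul_assoc ‖B‖ ‖a‖ ‖b‖]

lemma Sm.bil_fx (B : V →L[ℝ] V' →L[ℝ] Z) {u : ℝ → E2 → V} {a : E2 → V'} (hu : Sm K u)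
    (ha : Fx K a) : Sm K (fun κ y => B (u κ y) (a y)) := by
  refine ⟨fun κ hκ y hy => bil_diff B (hu.1 κ hκ y hy) (ha.1 y hy), fun ε hε => ?_⟩
  obtain ⟨C, hC, hC'⟩ := ha.2
  obtain ⟨κ0, h0, h1⟩ := hu.2 (ε / (2 * (‖B‖ + 1) * C)) (by positivity)
  refine ⟨κ0, h0, fun κ hκ hκ' y hy => ?_⟩
  obtain ⟨a1, a2⟩ := h1 κ hκ hκ' y hy
  obtain ⟨b1, b2⟩ := hC' y hy
  set δ := ε / (2 * (‖B‖ + 1) * C) with hδ
  have hδ0 : 0 < δ := by positivity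
  have key : (‖B‖ + 1) * (δ * C + δ * C) = ε := by rw [hδ]; field_simp; ring
  have hB := norm_nonneg B
  constructor
  · refine (bil_norm_le B _ _).trans ?_
    have : ‖u κ y‖ * ‖a y‖ ≤ δ * C := by gcongr
    nlinarith [mul_nonneg hδ0.le hC.le, mul_nonneg (norm_nonneg (u κ y)) (norm_nonneg (a y))]
  · refine (bil_fderiv_le B (hu.1 κ hκ y hy) (ha.1 y hy)).trans ?_
    have h3 : ‖u κ y‖ * ‖fderiv ℝ a y‖ ≤ δ * C := by gcongr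
    have h4 : ‖fderiv ℝ (u κ) y‖ * ‖a y‖ ≤ δ * C := by gcongr
    have h5 : 0 ≤ ‖u κ y‖ * ‖fderiv ℝ a y‖ + ‖fderiv ℝ (u κ) y‖ * ‖a y‖ := by positivity
    nlinarith

lemma Bd.bil_fx (B : V →L[ℝ] V' →L[ℝ] Z) {u : ℝ → E2 → V} {a : E2 → V'} (hu : Bd K u)
    (ha : Fx K a) : Bd K (fun κ y => B (u κ y) (a y)) := by
  obtain ⟨C, hC, hC'⟩ := ha.2
  have hB := norm_nonneg B
  refine ⟨fun κ hκ y hy => bil_diff B (hu.1 κ hκ y hy) (ha.1 y hy), fun ε hε => ?_, ?_⟩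
  · obtain ⟨κ0, h0, h1⟩ := hu.2.1 (ε / ((‖B‖ + 1) * C)) (by positivity)
    refine ⟨κ0, h0, fun κ hκ hκ' y hy => ?_⟩
    have a1 := h1 κ hκ hκ' y hy
    obtain ⟨b1, b2⟩ := hC' y hy
    set δ := ε / ((‖B‖ + 1) * C) with hδ
    have hδ0 : 0 < δ := by positivity
    have key : (‖B‖ + 1) * (δ * C) = ε := by rw [hδ]; field_simp
    refine (bil_norm_le B _ _).trans ?_
    have : ‖u κ y‖ * ‖a y‖ ≤ δ * C := by gcongr
    nlinarith [mul_nonneg hδ0.le hC.le, mul_nonneg (norm_nonneg (u κ y)) (norm_nonneg (a y))]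
  · obtain ⟨C1, hC1, κ1, h1, h1'⟩ := hu.2.2
    obtain ⟨κ2, h2, h2'⟩ := hu.2.1 1 one_pos
    refine ⟨(‖B‖ + 1) * (1 * C + C1 * C), by positivity, min κ1 κ2, lt_min h1 h2,
      fun κ hκ hκ' y hy => ?_⟩
    have a1 := h1' κ hκ (hκ'.trans_le (min_le_left _ _)) y hy
    have a2 := h2' κ hκ (hκ'.trans_le (min_le_right _ _)) y hy
    obtain ⟨b1, b2⟩ := hC' y hy
    refine (bil_fderiv_le B (hu.1 κ hκ y hy) (ha.1 y hy)).trans ?_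
    have h3 : ‖u κ y‖ * ‖fderiv ℝ a y‖ ≤ 1 * C := by gcongr
    have h4 : ‖fderiv ℝ (u κ) y‖ * ‖a y‖ ≤ C1 * C := by gcongr
    have h5 : 0 ≤ ‖u κ y‖ * ‖fderiv ℝ a y‖ + ‖fderiv ℝ (u κ) y‖ * ‖a y‖ := by positivity
    nlinarith

lemma Bd.bil (B : V →L[ℝ] V' →L[ℝ] Z) {u : ℝ → E2 → V} {v : ℝ → E2 → V'} (hu : Bd K u)
    (hv : Bd K v) : Sm K (fun κ y => B (u κ y) (v κ y)) := by
  have hB := norm_nonneg B
  refine ⟨fun κ hκ y hy => bil_diff B (hu.1 κ hκ y hy) (hv.1 κ hκ y hy), fun ε hε => ?_⟩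
  obtain ⟨C1, hC1, κ1, h1, h1'⟩ := hu.2.2
  obtain ⟨C2, hC2, κ2, h2, h2'⟩ := hv.2.2
  set C := C1 + C2 + 1 with hC
  have hCp : 0 < C := by positivity
  set δ := min 1 (ε / (2 * (‖B‖ + 1) * C)) with hδ
  have hδ0 : 0 < δ := lt_min one_pos (by positivity)
  have hδ1 : δ ≤ 1 := min_le_left _ _
  have key : (‖B‖ + 1) * (δ * C + δ * C) ≤ ε := by
    have h3 : δ ≤ ε / (2 * (‖B‖ + 1) * C) := min_le_right _ _
    have h4 : (‖B‖ + 1) * (δ * C + δ * C) = δ * (2 * (‖B‖ + 1) * C) := by ring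
    rw [h4]
    rwa [le_div_iff₀ (by positivity)] at h3
  obtain ⟨κ3, h3, h3'⟩ := hu.2.1 δ hδ0
  obtain ⟨κ4, h4, h4'⟩ := hv.2.1 δ hδ0
  refine ⟨min (min κ1 κ2) (min κ3 κ4), lt_min (lt_min h1 h2) (lt_min h3 h4),
    fun κ hκ hκ' y hy => ?_⟩
  have l1 := hκ'.trans_le ((min_le_left _ _).trans (min_le_left _ _))
  have l2 := hκ'.trans_le ((min_le_left _ _).trans (min_le_right _ _))
  have l3 := hκ'.trans_le ((min_le_right _ _).trans (min_le_left _ _))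
  have l4 := hκ'.trans_le ((min_le_right _ _).trans (min_le_right _ _))
  have a1 := h1' κ hκ l1 y hy
  have a2 := h2' κ hκ l2 y hy
  have a3 := h3' κ hκ l3 y hy
  have a4 := h4' κ hκ l4 y hy
  have hC1' : C1 ≤ C := by rw [hC]; linarith
  have hC2' : C2 ≤ C := by rw [hC]; linarith
  have hC3 : 1 ≤ C := by rw [hC]; linarith
  constructor
  · refine (bil_norm_le B _ _).trans ?_
    have h5 : ‖u κ y‖ * ‖v κ y‖ ≤ δ * C :=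
      mul_le_mul a3 (a4.trans (hδ1.trans hC3)) (norm_nonneg _) hδ0.le
    have h6 : 0 ≤ ‖u κ y‖ * ‖v κ y‖ := by positivity
    nlinarith
  · refine (bil_fderiv_le B (hu.1 κ hκ y hy) (hv.1 κ hκ y hy)).trans ?_
    have h3 : ‖u κ y‖ * ‖fderiv ℝ (v κ) y‖ ≤ δ * C :=
      mul_le_mul a3 (a2.trans hC2') (norm_nonneg _) hδ0.le
    have h4 : ‖fderiv ℝ (u κ) y‖ * ‖v κ y‖ ≤ δ * C := by
      rw [mul_comm]
      exact mul_le_mul a4 (a1.trans hC1') (norm_nonneg _) hδ0.le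
    have h5 : 0 ≤ ‖u κ y‖ * ‖fderiv ℝ (v κ) y‖ + ‖fderiv ℝ (u κ) y‖ * ‖v κ y‖ := by positivity
    nlinarith

/-- the support of `u κ` shrinks to the zero set of `a` -/
lemma Bd.bil_supp (B : V →L[ℝ] V' →L[ℝ] Z) {u : ℝ → E2 → V} {a : E2 → V'} (hu : Bd K u)
    (ha : Fx K a)
    (hs : ∀ ε > 0, ∃ κ0 > 0, ∀ κ, 0 < κ → κ < κ0 → ∀ y ∈ K,
      (u κ y ≠ 0 ∨ fderiv ℝ (u κ) y ≠ 0) → ‖a y‖ ≤ ε) :
    Sm K (fun κ y => B (u κ y) (a y)) := by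
  have hB := norm_nonneg B
  refine ⟨fun κ hκ y hy => bil_diff B (hu.1 κ hκ y hy) (ha.1 y hy), fun ε hε => ?_⟩
  obtain ⟨C, hC, hC'⟩ := ha.2
  obtain ⟨C1, hC1, κ1, h1, h1'⟩ := hu.2.2
  set δ := ε / (2 * (‖B‖ + 1) * (C + C1)) with hδ
  have hδ0 : 0 < δ := by positivity
  have key : (‖B‖ + 1) * (δ * (C + C1) + δ * (C + C1)) = ε := by rw [hδ]; field_simp; ring
  obtain ⟨κ2, h2, h2'⟩ := hu.2.1 δ hδ0
  obtain ⟨κ3, h3, h3'⟩ := hs δ hδ0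
  refine ⟨min κ1 (min κ2 κ3), lt_min h1 (lt_min h2 h3), fun κ hκ hκ' y hy => ?_⟩
  have l1 := hκ'.trans_le (min_le_left _ _)
  have l2 := hκ'.trans_le ((min_le_right _ _).trans (min_le_left _ _))
  have l3 := hκ'.trans_le ((min_le_right _ _).trans (min_le_right _ _))
  have a1 := h1' κ hκ l1 y hy
  have a2 := h2' κ hκ l2 y hy
  obtain ⟨b1, b2⟩ := hC' y hy
  have e1 : ‖u κ y‖ * ‖a y‖ ≤ δ * (C + C1) :=
    mul_le_mul a2 (by linarith) (norm_nonneg _) hδ0.le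
  have e2 : ‖u κ y‖ * ‖fderiv ℝ a y‖ ≤ δ * (C + C1) :=
    mul_le_mul a2 (by linarith) (norm_nonneg _) hδ0.le
  have e3 : ‖fderiv ℝ (u κ) y‖ * ‖a y‖ ≤ δ * (C + C1) := by
    by_cases h0 : fderiv ℝ (u κ) y = 0
    · rw [h0]; simp; positivity
    · have := h3' κ hκ l3 y hy (Or.inr h0)
      rw [mul_comm]
      exact mul_le_mul this (by linarith) (norm_nonneg _) hδ0.le
  have p1 : 0 ≤ ‖u κ y‖ * ‖a y‖ := by positivity
  have p2 : 0 ≤ ‖u κ y‖ * ‖fderiv ℝ a y‖ := by positivity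
  have p3 : 0 ≤ ‖fderiv ℝ (u κ) y‖ * ‖a y‖ := by positivity
  constructor
  · refine (bil_norm_le B _ _).trans ?_
    nlinarith
  · refine (bil_fderiv_le B (hu.1 κ hκ y hy) (ha.1 y hy)).trans ?_
    nlinarith

lemma Sm.congr {W : Set E2} (hW : IsOpen W) (hKW : K ⊆ W) {u v : ℝ → E2 → V} (hu : Sm K u)
    (h : ∀ κ, 0 < κ → ∀ y ∈ W, v κ y = u κ y) : Sm K v := by
  have hev : ∀ κ, 0 < κ → ∀ y ∈ K, v κ =ᶠ[𝓝 y] u κ := fun κ hκ y hy => by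
    filter_upwards [hW.mem_nhds (hKW hy)] with z hz
    exact h κ hκ z hz
  refine ⟨fun κ hκ y hy => (hu.1 κ hκ y hy).congr_of_eventuallyEq (hev κ hκ y hy), fun ε hε => ?_⟩
  obtain ⟨κ0, h0, h1⟩ := hu.2 ε hε
  refine ⟨κ0, h0, fun κ hκ hκ' y hy => ?_⟩
  rw [(hev κ hκ y hy).fderiv_eq, h κ hκ y (hKW hy)]
  exact h1 κ hκ hκ' y hy

end smallness

end Base
end Crest.Agent.R216
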