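import Crest.Agent.R216.BaseC

/-!
# Row 216: BASE MAP, planar `C¹`-closeness of the metrics (helper904)
-/

set_option autoImplicit false
open scoped Manifold ContDiff Topology
open Set

noncomputable section
namespace Crest.Agent.R216
namespace Base

variable {m : ℕ}

/-- the bump `y ↦ κ² θ ((i y - z₀)/κ)` -/
def phiF (θ : EuclideanSpace ℝ (Fin m) → ℝ) (z0 : EuclideanSpace ℝ (Fin m)) (κ : ℝ)
    (z : EuclideanSpace ℝ (Fin m)) : ℝ := κ ^ 2 * θ (κ⁻¹ • (z - z0))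

section phi
variable {θ : EuclideanSpace ℝ (Fin m) → ℝ} {z0 : EuclideanSpace ℝ (Fin m)}

lemma phiF_contDiff (hθ : ContDiff ℝ ∞ θ) (κ : ℝ) : ContDiff ℝ ∞ (phiF θ z0 κ) := by
  unfold phiF
  have h1 : ContDiff ℝ ∞ (fun z : EuclideanSpace ℝ (Fin m) => κ⁻¹ • (z - z0)) :=
    (contDiff_id.sub contDiff_const).const_smul κ⁻¹
  exact contDiff_const.mul (hθ.comp h1)

lemma fderiv_phiF (hθ : ContDiff ℝ ∞ θ) {κ : ℝ} (hκ : 0 < κ) (z : EuclideanSpace ℝ (Fin m)) :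
    fderiv ℝ (phiF θ z0 κ) z = κ • fderiv ℝ θ (κ⁻¹ • (z - z0)) := by
  have h1 : HasFDerivAt (fun w : EuclideanSpace ℝ (Fin m) => κ⁻¹ • (w - z0))
      (κ⁻¹ • ContinuousLinearMap.id ℝ _) z :=
    ((hasFDerivAt_id z).sub_const z0).const_smul κ⁻¹
  have h2 : HasFDerivAt θ (fderiv ℝ θ (κ⁻¹ • (z - z0))) (κ⁻¹ • (z - z0)) :=
    (hθ.differentiable (by simp) _).hasFDerivAt
  have h3 := (h2.comp z h1).const_mul (κ ^ 2)
  have h4 : HasFDerivAt (phiF θ z0 κ)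
      (κ ^ 2 • (fderiv ℝ θ (κ⁻¹ • (z - z0))).comp (κ⁻¹ • ContinuousLinearMap.id ℝ _)) z := h3
  rw [h4.fderiv]
  ext v
  simp only [FunLike.coe_smul, Pi.smul_apply, ContinuousLinearMap.comp_apply,
    ContinuousLinearMap.id_apply, map_smul, smul_eq_mul]
  field_simp

lemma fderiv2_phiF (hθ : ContDiff ℝ ∞ θ) {κ : ℝ} (hκ : 0 < κ) (z : EuclideanSpace ℝ (Fin m)) :
    fderiv ℝ (fderiv ℝ (phiF θ z0 κ)) z = fderiv ℝ (fderiv ℝ θ) (κ⁻¹ • (z - z0)) := by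
  have h0 : fderiv ℝ (phiF θ z0 κ) = fun z => κ • fderiv ℝ θ (κ⁻¹ • (z - z0)) := by
    funext z; exact fderiv_phiF hθ hκ z
  rw [h0]
  have h1 : HasFDerivAt (fun w : EuclideanSpace ℝ (Fin m) => κ⁻¹ • (w - z0))
      (κ⁻¹ • ContinuousLinearMap.id ℝ _) z :=
    ((hasFDerivAt_id z).sub_const z0).const_smul κ⁻¹
  have hd : ContDiff ℝ ∞ (fderiv ℝ θ) := hθ.fderiv_right (m := ∞) (by simp)
  have h2 : HasFDerivAt (fderiv ℝ θ) (fderiv ℝ (fderiv ℝ θ) (κ⁻¹ • (z - z0))) (κ⁻¹ • (z - z0)) :=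
    (hd.differentiable (by simp) _).hasFDerivAt
  have h3 := (h2.comp z h1).const_smul κ
  have h4 : HasFDerivAt (fun z => κ • fderiv ℝ θ (κ⁻¹ • (z - z0)))
      (κ • (fderiv ℝ (fderiv ℝ θ) (κ⁻¹ • (z - z0))).comp (κ⁻¹ • ContinuousLinearMap.id ℝ _)) z := h3
  rw [h4.fderiv]
  ext v w
  simp only [FunLike.coe_smul, Pi.smul_apply, ContinuousLinearMap.comp_apply,
    ContinuousLinearMap.id_apply, map_smul, smul_eq_mul]
  field_simp

lemma bdd_of_supp {X V : Type*} [TopologicalSpace X] [NormedAddCommGroup V] {f : X → V}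
    (hf : Continuous f) (hc : HasCompactSupport f) : ∃ C : ℝ, ∀ x, ‖f x‖ ≤ C :=
  hf.bounded_above_of_compact_support hc

/-- bounds of a compactly supported function -/
lemma exists_bounds (hθ : ContDiff ℝ ∞ θ) (hc : HasCompactSupport θ) :
    ∃ C > 0, ∃ R > 0, (∀ z, ‖θ z‖ ≤ C ∧ ‖fderiv ℝ θ z‖ ≤ C ∧ ‖fderiv ℝ (fderiv ℝ θ) z‖ ≤ C) ∧
      tsupport θ ⊆ Metric.closedBall 0 R := by
  have hd : ContDiff ℝ ∞ (fderiv ℝ θ) := hθ.fderiv_right (m := ∞) (by simp)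
  have hdd : ContDiff ℝ ∞ (fderiv ℝ (fderiv ℝ θ)) := hd.fderiv_right (m := ∞) (by simp)
  have c1 : HasCompactSupport (fderiv ℝ θ) := hc.fderiv ℝ
  have c2 : HasCompactSupport (fderiv ℝ (fderiv ℝ θ)) := c1.fderiv ℝ
  obtain ⟨C0, h0⟩ := bdd_of_supp hθ.continuous hc
  obtain ⟨C1, h1⟩ := bdd_of_supp hd.continuous c1
  obtain ⟨C2, h2⟩ := bdd_of_supp hdd.continuous c2
  obtain ⟨R, hR⟩ := hc.isCompact.isBounded.subset_closedBall (0 : EuclideanSpace ℝ (Fin m))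
  have e0 := abs_nonneg C0
  have e1 := abs_nonneg C1
  have e2 := abs_nonneg C2
  refine ⟨|C0| + |C1| + |C2| + 1, by positivity, |R| + 1, by positivity, fun z => ⟨?_, ?_, ?_⟩, ?_⟩
  · have := h0 z; have := le_abs_self C0; linarith
  · have := h1 z; have := le_abs_self C1; linarith
  · have := h2 z; have := le_abs_self C2; linarith
  · exact hR.trans (Metric.closedBall_subset_closedBall (by linarith [le_abs_self R]))

end phi

section planar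

variable {K W : Set E2} {i : E2 → EuclideanSpace ℝ (Fin m)}
  {θ : EuclideanSpace ℝ (Fin m) → ℝ} {z0 : EuclideanSpace ℝ (Fin m)}

/-- `φ κ y = κ² θ((i y - z0)/κ)` is `C¹`-small -/
lemma sm_phi (hW : IsOpen W) (hK : IsCompact K) (hKW : K ⊆ W) (hi : ContDiffOn ℝ ∞ i W)
    (hθ : ContDiff ℝ ∞ θ) (hc : HasCompactSupport θ) :
    Sm K (fun κ y => phiF θ z0 κ (i y)) := by
  obtain ⟨C, hC, R, hR, hb, -⟩ := exists_bounds hθ hc
  have hfx : Fx K i := Fx.of_contDiffOn hW hK hKW (n := ∞) (by simp) hi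
  obtain ⟨D, hD, hD'⟩ := hfx.2
  have hdiff : ∀ κ, 0 < κ → ∀ y ∈ K, HasFDerivAt (fun y => phiF θ z0 κ (i y))
      ((fderiv ℝ (phiF θ z0 κ) (i y)).comp (fderiv ℝ i y)) y := fun κ hκ y hy =>
    (((phiF_contDiff hθ κ).differentiable (by simp) _).hasFDerivAt).comp y
      (hfx.1 y hy).hasFDerivAt
  refine ⟨fun κ hκ y hy => (hdiff κ hκ y hy).differentiableAt, fun ε hε => ?_⟩
  refine ⟨min 1 (ε / (C * (D + 1))), lt_min one_pos (by positivity), fun κ hκ hκ' y hy => ?_⟩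
  have hκ1 : κ ≤ 1 := hκ'.le.trans (min_le_left _ _)
  have hκ2 : κ * (C * (D + 1)) ≤ ε := by
    have := hκ'.le.trans (min_le_right _ _)
    rwa [le_div_iff₀ (by positivity)] at this
  obtain ⟨b1, b2, b3⟩ := hb (κ⁻¹ • (i y - z0))
  obtain ⟨d1, d2⟩ := hD' y hy
  constructor
  · simp only [phiF, norm_mul, norm_pow, Real.norm_of_nonneg hκ.le]
    calc κ ^ 2 * ‖θ (κ⁻¹ • (i y - z0))‖ ≤ κ * (C * (D + 1)) := by
          have : κ ^ 2 ≤ κ := by nlinarith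
          have h2 : ‖θ (κ⁻¹ • (i y - z0))‖ ≤ C * (D + 1) := b1.trans (by nlinarith)
          exact mul_le_mul this h2 (norm_nonneg _) hκ.le
      _ ≤ ε := hκ2
  · rw [(hdiff κ hκ y hy).fderiv, fderiv_phiF hθ hκ]
    refine (ContinuousLinearMap.opNorm_comp_le _ _).trans ?_
    rw [norm_smul, Real.norm_of_nonneg hκ.le]
    calc κ * ‖fderiv ℝ θ (κ⁻¹ • (i y - z0))‖ * ‖fderiv ℝ i y‖ ≤ κ * C * D := by gcongr
      _ ≤ κ * (C * (D + 1)) := by nlinarith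
      _ ≤ ε := hκ2

/-- the derivative of `φ κ` in a fixed direction -/
lemma bd_phi_v (hW : IsOpen W) (hK : IsCompact K) (hKW : K ⊆ W) (hi : ContDiffOn ℝ ∞ i W)
    (hθ : ContDiff ℝ ∞ θ) (hc : HasCompactSupport θ) (v : E2) :
    Bd K (fun κ y => fderiv ℝ (fun y => phiF θ z0 κ (i y)) y v) := by
  obtain ⟨C, hC, R, hR, hb, -⟩ := exists_bounds hθ hc
  have hfx : Fx K i := Fx.of_contDiffOn hW hK hKW (n := ∞) (by simp) hi
  obtain ⟨D, hD, hD'⟩ := hfx.2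
  have hdi : ContDiffOn ℝ ∞ (fun y => fderiv ℝ i y v) W :=
    ((hi.fderiv_of_isOpen hW (m := ∞) (by simp)).clm_apply contDiffOn_const)
  have hfxv : Fx K (fun y => fderiv ℝ i y v) := Fx.of_contDiffOn hW hK hKW (n := ∞) (by simp) hdi
  obtain ⟨D2, hD2, hD2'⟩ := hfxv.2
  -- formula for the directional derivative near K
  have hform : ∀ κ, 0 < κ → ∀ y ∈ W, fderiv ℝ (fun y => phiF θ z0 κ (i y)) y v
      = fderiv ℝ (phiF θ z0 κ) (i y) (fderiv ℝ i y v) := fun κ hκ y hy => by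
    have h1 : DifferentiableAt ℝ i y := (hi.contDiffAt (hW.mem_nhds hy)).differentiableAt (by simp)
    have := (((phiF_contDiff (z0 := z0) hθ κ).differentiable (by simp) (i y)).hasFDerivAt).comp y
      h1.hasFDerivAt
    have h2 : HasFDerivAt (fun y => phiF θ z0 κ (i y))
      ((fderiv ℝ (phiF θ z0 κ) (i y)).comp (fderiv ℝ i y)) y := this
    rw [h2.fderiv]; rfl
  have hev : ∀ κ, 0 < κ → ∀ y ∈ K, (fun y => fderiv ℝ (fun y => phiF θ z0 κ (i y)) y v)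
      =ᶠ[𝓝 y] fun y => fderiv ℝ (phiF θ z0 κ) (i y) (fderiv ℝ i y v) := fun κ hκ y hy => by
    filter_upwards [hW.mem_nhds (hKW hy)] with z hz
    exact hform κ hκ z hz
  have hdiff : ∀ κ, 0 < κ → ∀ y ∈ K,
      HasFDerivAt (fun y => fderiv ℝ (phiF θ z0 κ) (i y) (fderiv ℝ i y v))
      ((fderiv ℝ (phiF θ z0 κ) (i y)).comp (fderiv ℝ (fun y => fderiv ℝ i y v) y)
        + (((fderiv ℝ (fderiv ℝ (phiF θ z0 κ)) (i y)).comp (fderiv ℝ i y))).flip
          (fderiv ℝ i y v)) y := fun κ hκ y hy => by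
    have h1 : HasFDerivAt (fun y => fderiv ℝ (phiF θ z0 κ) (i y))
        ((fderiv ℝ (fderiv ℝ (phiF θ z0 κ)) (i y)).comp (fderiv ℝ i y)) y := by
      have hd : ContDiff ℝ ∞ (fderiv ℝ (phiF θ z0 κ)) :=
        (phiF_contDiff hθ κ).fderiv_right (m := ∞) (by simp)
      exact ((hd.differentiable (by simp) _).hasFDerivAt).comp y (hfx.1 y hy).hasFDerivAt
    exact h1.clm_apply (hfxv.1 y hy).hasFDerivAt
  have hval : ∀ κ, 0 < κ → ∀ y ∈ K, ‖fderiv ℝ (fun y => phiF θ z0 κ (i y)) y v‖ ≤ κ * (C * D2) := by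
    intro κ hκ y hy
    rw [hform κ hκ y (hKW hy), fderiv_phiF hθ hκ]
    obtain ⟨b1, b2, b3⟩ := hb (κ⁻¹ • (i y - z0))
    obtain ⟨e1, e2⟩ := hD2' y hy
    refine (ContinuousLinearMap.le_opNorm _ _).trans ?_
    rw [norm_smul, Real.norm_of_nonneg hκ.le]
    calc κ * ‖fderiv ℝ θ (κ⁻¹ • (i y - z0))‖ * ‖fderiv ℝ i y v‖ ≤ κ * C * D2 := by gcongr
      _ = _ := by ring
  refine ⟨fun κ hκ y hy => ((hdiff κ hκ y hy).differentiableAt).congr_of_eventuallyEq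
    (hev κ hκ y hy), fun ε hε => ?_, ?_⟩
  · refine ⟨ε / (C * D2), by positivity, fun κ hκ hκ' y hy => (hval κ hκ y hy).trans ?_⟩
    have := hκ'.le
    rwa [le_div_iff₀ (by positivity)] at this
  · refine ⟨C * D2 + C * D * D2, by positivity, 1, one_pos, fun κ hκ hκ' y hy => ?_⟩
    rw [(hev κ hκ y hy).fderiv_eq, (hdiff κ hκ y hy).fderiv]
    obtain ⟨b1, b2, b3⟩ := hb (κ⁻¹ • (i y - z0))
    obtain ⟨e1, e2⟩ := hD2' y hy
    obtain ⟨f1, f2⟩ := hD' y hy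
    refine (norm_add_le _ _).trans (add_le_add ?_ ?_)
    · refine (ContinuousLinearMap.opNorm_comp_le _ _).trans ?_
      rw [fderiv_phiF hθ hκ, norm_smul, Real.norm_of_nonneg hκ.le]
      calc κ * ‖fderiv ℝ θ (κ⁻¹ • (i y - z0))‖ * ‖fderiv ℝ (fun y => fderiv ℝ i y v) y‖
          ≤ 1 * C * D2 := by gcongr
        _ = _ := by ring
    · refine (ContinuousLinearMap.le_opNorm _ _).trans ?_
      rw [ContinuousLinearMap.opNorm_flip]
      have h1 : ‖(fderiv ℝ (fderiv ℝ (phiF θ z0 κ)) (i y)).comp (fderiv ℝ i y)‖ ≤ C * D := by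
        refine (ContinuousLinearMap.opNorm_comp_le _ _).trans ?_
        rw [fderiv2_phiF hθ hκ]
        gcongr
      gcongr

/-- off the `κR`-ball the bump vanishes together with its derivatives -/
lemma phi_zero_off (hR : ∃ R, tsupport θ ⊆ Metric.closedBall 0 R) :
    ∃ R > 0, tsupport θ ⊆ Metric.closedBall 0 R ∧ ∀ κ, 0 < κ → ∀ z : EuclideanSpace ℝ (Fin m),
      κ * R < ‖z - z0‖ → phiF θ z0 κ z = 0 := by
  obtain ⟨R, hR⟩ := hR
  have hR' : tsupport θ ⊆ Metric.closedBall 0 (|R| + 1) :=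
    hR.trans (Metric.closedBall_subset_closedBall (by linarith [le_abs_self R]))
  refine ⟨|R| + 1, by positivity, hR', fun κ hκ z hz => ?_⟩
  have h1 : θ (κ⁻¹ • (z - z0)) = 0 := by
    by_contra h
    have h2 : κ⁻¹ • (z - z0) ∈ Metric.closedBall (0 : EuclideanSpace ℝ (Fin m)) (|R| + 1) :=
      hR' (subset_tsupport θ h)
    rw [mem_closedBall_zero_iff, norm_smul, norm_inv, Real.norm_of_nonneg hκ.le,
      inv_mul_le_iff₀ hκ] at h2
    linarith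
  simp [phiF, h1]

/-- compactness: a continuous function that vanishes on `{i = z0}` is small near that set -/
lemma small_near {V : Type*} [NormedAddCommGroup V] (hK : IsCompact K)
    (hi : ContinuousOn i K) {a : E2 → V} (ha : ContinuousOn a K)
    (h0 : ∀ y ∈ K, i y = z0 → a y = 0) (ε : ℝ) (hε : 0 < ε) :
    ∃ δ > 0, ∀ y ∈ K, ‖i y - z0‖ ≤ δ → ‖a y‖ ≤ ε := by
  by_contra hcon
  push Not at hcon
  have h1 : ∀ n : ℕ, ∃ y ∈ K, ‖i y - z0‖ ≤ 1 / (n + 1 : ℝ) ∧ ε < ‖a y‖ := fun n =>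
    hcon (1 / (n + 1 : ℝ)) (by positivity)
  choose y hy hy1 hy2 using h1
  obtain ⟨y0, hy0, φ, hφ, hlim⟩ := hK.tendsto_subseq hy
  have hW : Filter.Tendsto (y ∘ φ) Filter.atTop (𝓝[K] y0) :=
    tendsto_nhdsWithin_iff.2 ⟨hlim, Filter.Eventually.of_forall fun n => hy _⟩
  have h2 : Filter.Tendsto (fun n => ‖i (y (φ n)) - z0‖) Filter.atTop (𝓝 ‖i y0 - z0‖) :=
    (((hi y0 hy0).tendsto.comp hW).sub_const z0).norm
  have h3 : Filter.Tendsto (fun n => ‖a (y (φ n))‖) Filter.atTop (𝓝 ‖a y0‖) :=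
    ((ha y0 hy0).tendsto.comp hW).norm
  have h4 : ‖i y0 - z0‖ ≤ 0 := by
    have h5 : Filter.Tendsto (fun n : ℕ => 1 / ((φ n : ℕ) + 1 : ℝ)) Filter.atTop (𝓝 0) :=
      tendsto_one_div_add_atTop_nhds_zero_nat.comp hφ.tendsto_atTop
    exact le_of_tendsto_of_tendsto h2 h5 (Filter.Eventually.of_forall fun n => hy1 _)
  have h5 : i y0 = z0 := by
    have := norm_le_zero_iff.1 h4
    exact sub_eq_zero.1 this
  have h6 : ε ≤ ‖a y0‖ := ge_of_tendsto h3 (Filter.Eventually.of_forall fun n => (hy2 _).le)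
  rw [h0 y0 hy0 h5, norm_zero] at h6
  linarith

end planar

end Base
end Crest.Agent.R216
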