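import Crest.Agent.R216.Skel
import Crest.Agent.R216.GlobChart

/-!
# Row 216: BASE MAP, definitions (helper744)
-/

set_option autoImplicit false
open scoped Manifold ContDiff Topology
open Set

noncomputable section
namespace Crest.Agent.R216
namespace Base

/-- inverse stereographic projection `ℝ³ → S³ ⊂ ℝ⁴` -/
def Sig (x : E3) : E4 :=
  !₂[2 * x 0 / (1 + ‖x‖ ^ 2), 2 * x 1 / (1 + ‖x‖ ^ 2), 2 * x 2 / (1 + ‖x‖ ^ 2),
    (‖x‖ ^ 2 - 1) / (1 + ‖x‖ ^ 2)]

/-- conformal factor -/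
def om (x : E3) : ℝ := 2 / (1 + ‖x‖ ^ 2)

variable {M : Type*} [TopologicalSpace M] [ChartedSpace E2 M]

/-- pulled back metric of a map to `ℝ³` in a chart -/
def coef3 (G : M → E3) (ψ : OpenPartialHomeomorph M E2) (v w y : E2) : ℝ :=
  inner ℝ (fderiv ℝ (G ∘ ψ.symm) y v) (fderiv ℝ (G ∘ ψ.symm) y w)

end Base
end Crest.Agent.R216
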