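import Crest.Agent.R216.BaseD

/-!
# Row 216: BASE MAP, planar `C¹`-closeness of the metric coefficients (helper904)
-/

set_option autoImplicit false
open scoped Manifold ContDiff Topology
open Set

noncomputable section
namespace Crest.Agent.R216
namespace Base

variable {m : ℕ}

/-- inner product of `ℝ⁴` as a bilinear map -/
def iB : E4 →L[ℝ] E4 →L[ℝ] ℝ :=
  (isBoundedBilinearMap_inner (𝕜 := ℝ) (E := E4)).toContinuousLinearMap

lemma iB_apply (u v : E4) : iB u v = inner ℝ u v := rfl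

section
variable {K W : Set E2} {i : E2 → EuclideanSpace ℝ (Fin m)}
  {θ : EuclideanSpace ℝ (Fin m) → ℝ} {z0 : EuclideanSpace ℝ (Fin m)}

lemma contDiffOn_TT {W : Set E2} {a b : E2 → E3} (ha : ContDiffOn ℝ ∞ a W)
    (hb : ContDiffOn ℝ ∞ b W) : ContDiffOn ℝ ∞ (fun y => TT (a y) (b y)) W := by
  have : (fun y => TT (a y) (b y)) = fun y => J3 (b y) + (inner ℝ (a y) (b y) : ℝ) • e4 := by
    funext y; exact TT_apply _ _
  rw [this]
  exact (J3.contDiff.comp_contDiffOn hb).add ((ha.inner ℝ hb).smul contDiffOn_const)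

/-- derivative of the modified map -/
lemma fderiv_mod (hW : IsOpen W) (hi : ContDiffOn ℝ ∞ i W) (hθ : ContDiff ℝ ∞ θ)
    {a : E2 → E3} (ha : ContDiffOn ℝ ∞ a W) (N : E3) (κ : ℝ) {y : E2} (hy : y ∈ W) (v : E2) :
    fderiv ℝ (fun y => Phi (a y + phiF θ z0 κ (i y) • N)) y v
      = TT (a y) (fderiv ℝ a y v) + (fderiv ℝ (fun y => phiF θ z0 κ (i y)) y v • TT (a y) N
        + (phiF θ z0 κ (i y) • ((inner ℝ N (fderiv ℝ a y v) : ℝ) • e4)
          + (phiF θ z0 κ (i y) * fderiv ℝ (fun y => phiF θ z0 κ (i y)) y v)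
            • ((inner ℝ N N : ℝ) • e4))) := by
  have ha1 : HasFDerivAt a (fderiv ℝ a y) y :=
    ((ha.contDiffAt (hW.mem_nhds hy)).differentiableAt (by simp)).hasFDerivAt
  have hi1 : DifferentiableAt ℝ i y := (hi.contDiffAt (hW.mem_nhds hy)).differentiableAt (by simp)
  have hφ : HasFDerivAt (fun y => phiF θ z0 κ (i y))
      (fderiv ℝ (fun y => phiF θ z0 κ (i y)) y) y := by
    have h1 : DifferentiableAt ℝ (phiF θ z0 κ) (i y) :=
      (phiF_contDiff hθ κ).differentiable (by simp) _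
    exact (h1.comp y hi1).hasFDerivAt
  have h2 := ha1.add (hφ.smul_const N)
  have h3 := (hasFDerivAt_Phi (a y + phiF θ z0 κ (i y) • N)).comp y h2
  have h4 : HasFDerivAt (fun y => Phi (a y + phiF θ z0 κ (i y) • N))
      ((TT (a y + phiF θ z0 κ (i y) • N)).comp (fderiv ℝ a y +
        (fderiv ℝ (fun y => phiF θ z0 κ (i y)) y).smulRight N)) y := h3
  rw [h4.fderiv]
  simp only [ContinuousLinearMap.comp_apply, add_apply,
    ContinuousLinearMap.smulRight_apply, TT_apply, map_add, map_smul, inner_add_left,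
    inner_smul_left]
  simp only [conj_trivial]
  module

lemma fderiv_Phi_compW (hW : IsOpen W) {a : E2 → E3} (ha : ContDiffOn ℝ ∞ a W) {y : E2}
    (hy : y ∈ W) (v : E2) :
    fderiv ℝ (fun y => Phi (a y)) y v = TT (a y) (fderiv ℝ a y v) := by
  have ha1 : HasFDerivAt a (fderiv ℝ a y) y :=
    ((ha.contDiffAt (hW.mem_nhds hy)).differentiableAt (by simp)).hasFDerivAt
  have h3 := (hasFDerivAt_Phi (a y)).comp y ha1
  have h4 : HasFDerivAt (fun y => Phi (a y)) ((TT (a y)).comp (fderiv ℝ a y)) y := h3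
  rw [h4.fderiv]; rfl

/-- the term `φ_v ⟨n, F_w⟩` -/
lemma sm_main (hW : IsOpen W) (hK : IsCompact K) (hKW : K ⊆ W) (hi : ContDiffOn ℝ ∞ i W)
    (hθ : ContDiff ℝ ∞ θ) (hc : HasCompactSupport θ) {q : E2 → ℝ} (hq : ContDiffOn ℝ ∞ q W)
    (h0 : ∀ y ∈ K, i y = z0 → q y = 0) (v : E2) :
    Sm K (fun κ y => fderiv ℝ (fun y => phiF θ z0 κ (i y)) y v * q y) := by
  have hfq : Fx K q := Fx.of_contDiffOn hW hK hKW (n := ∞) (by simp) hq
  have h := Bd.bil_supp (ContinuousLinearMap.mul ℝ ℝ)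
    (bd_phi_v (z0 := z0) hW hK hKW hi hθ hc v) hfq ?_
  · exact h
  intro ε hε
  obtain ⟨C, hC, R, hR, hb, hsupp⟩ := exists_bounds hθ hc
  obtain ⟨R', hR', -, hoff⟩ := phi_zero_off (z0 := z0) (θ := θ) ⟨R, hsupp⟩
  obtain ⟨δ, hδ, hsm⟩ := small_near (z0 := z0) hK (hi.continuousOn.mono hKW)
    (hq.continuousOn.mono hKW) h0 ε hε
  refine ⟨δ / R', by positivity, fun κ hκ hκ' y hy hne => ?_⟩
  by_cases hcase : κ * R' < ‖i y - z0‖
  · exfalso
    -- `φ` vanishes near `y`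
    have hic : ContinuousAt i y := (hi.continuousOn.continuousAt (hW.mem_nhds (hKW hy)))
    have hev : ∀ᶠ z in 𝓝 y, κ * R' < ‖i z - z0‖ :=
      ((hic.sub continuousAt_const).norm).eventually (lt_mem_nhds hcase)
    have hev0 : (fun y => phiF θ z0 κ (i y)) =ᶠ[𝓝 y] fun _ => (0 : ℝ) := by
      filter_upwards [hev] with z hz
      exact hoff κ hκ _ hz
    have hev1 : (fun y => fderiv ℝ (fun y => phiF θ z0 κ (i y)) y v) =ᶠ[𝓝 y] fun _ => (0 : ℝ) := by
      filter_upwards [hev0.fderiv (𝕜 := ℝ)] with z hz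
      rw [hz]; simp
    rcases hne with hne | hne
    · exact hne hev1.self_of_nhds
    · apply hne
      rw [hev1.fderiv_eq]; simp
  · apply hsm y hy
    push Not at hcase
    refine hcase.trans ?_
    have := hκ'.le
    rwa [le_div_iff₀ hR'] at this

/-- **the metric coefficients of the modified map are `C¹`-close** -/
theorem sm_coef (hW : IsOpen W) (hK : IsCompact K) (hKW : K ⊆ W) (hi : ContDiffOn ℝ ∞ i W)
    (hθ : ContDiff ℝ ∞ θ) (hc : HasCompactSupport θ) {a : E2 → E3} (ha : ContDiffOn ℝ ∞ a W)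
    (N : E3)
    (hN : ∀ y ∈ K, i y = z0 → ∀ v, inner ℝ (TT (a y) N) (TT (a y) (fderiv ℝ a y v)) = 0)
    (v w : E2) :
    Sm K (fun κ y => inner ℝ (fderiv ℝ (fun y => Phi (a y + phiF θ z0 κ (i y) • N)) y v)
        (fderiv ℝ (fun y => Phi (a y + phiF θ z0 κ (i y) • N)) y w)
      - inner ℝ (fderiv ℝ (fun y => Phi (a y)) y v) (fderiv ℝ (fun y => Phi (a y)) y w)) := by
  have hda : ∀ u : E2, ContDiffOn ℝ ∞ (fun y => fderiv ℝ a y u) W := fun u =>
    (ha.fderiv_of_isOpen hW (m := ∞) (by simp)).clm_apply contDiffOn_const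
  have hn : ContDiffOn ℝ ∞ (fun y => TT (a y) N) W := contDiffOn_TT ha contDiffOn_const
  have hF : ∀ u : E2, ContDiffOn ℝ ∞ (fun y => TT (a y) (fderiv ℝ a y u)) W := fun u =>
    contDiffOn_TT ha (hda u)
  have fxn : Fx K (fun y => TT (a y) N) := Fx.of_contDiffOn hW hK hKW (n := ∞) (by simp) hn
  have fxF : ∀ u : E2, Fx K (fun y => TT (a y) (fderiv ℝ a y u)) := fun u =>
    Fx.of_contDiffOn hW hK hKW (n := ∞) (by simp) (hF u)
  have fxA : ∀ u : E2, Fx K (fun y => (inner ℝ N (fderiv ℝ a y u) : ℝ) • e4) := fun u =>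
    Fx.of_contDiffOn hW hK hKW (n := ∞) (by simp)
      ((contDiffOn_const.inner ℝ (hda u)).smul contDiffOn_const)
  have fxc : Fx K (fun _ : E2 => (inner ℝ N N : ℝ) • e4) :=
    Fx.of_contDiffOn hW hK hKW (n := ∞) (by simp) contDiffOn_const
  have sφ := sm_phi (z0 := z0) hW hK hKW hi hθ hc
  have bφ := fun u : E2 => bd_phi_v (z0 := z0) hW hK hKW hi hθ hc u
  -- the small part `G`
  have sG : ∀ u : E2, Sm K (fun κ y => phiF θ z0 κ (i y) • ((inner ℝ N (fderiv ℝ a y u) : ℝ) • e4)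
          + (phiF θ z0 κ (i y) * fderiv ℝ (fun y => phiF θ z0 κ (i y)) y u)
            • ((inner ℝ N N : ℝ) • e4)) := fun u => by
    have h1 := Sm.bil_fx (ContinuousLinearMap.lsmul ℝ ℝ) sφ (fxA u)
    have h2 := Bd.bil (ContinuousLinearMap.mul ℝ ℝ) sφ.bd (bφ u)
    have h3 := Sm.bil_fx (ContinuousLinearMap.lsmul ℝ ℝ) h2 fxc
    exact h1.add h3
  have bH : ∀ u : E2, Bd K (fun κ y => fderiv ℝ (fun y => phiF θ z0 κ (i y)) y u • TT (a y) N
        + (phiF θ z0 κ (i y) • ((inner ℝ N (fderiv ℝ a y u) : ℝ) • e4)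
          + (phiF θ z0 κ (i y) * fderiv ℝ (fun y => phiF θ z0 κ (i y)) y u)
            • ((inner ℝ N N : ℝ) • e4))) := fun u => by
    have h1 := Bd.bil_fx (ContinuousLinearMap.lsmul ℝ ℝ) (bφ u) fxn
    exact h1.add (sG u).bd
  have hq : ∀ u : E2, ContDiffOn ℝ ∞
      (fun y => (inner ℝ (TT (a y) N) (TT (a y) (fderiv ℝ a y u)) : ℝ)) W := fun u =>
    hn.inner ℝ (hF u)
  have sM : ∀ u u' : E2, Sm K (fun κ y => fderiv ℝ (fun y => phiF θ z0 κ (i y)) y u *
      (inner ℝ (TT (a y) N) (TT (a y) (fderiv ℝ a y u')) : ℝ)) := fun u u' =>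
    sm_main hW hK hKW hi hθ hc (hq u') (fun y hy h => hN y hy h u') u
  have sGF : ∀ u u' : E2, Sm K (fun κ y => iB
      (phiF θ z0 κ (i y) • ((inner ℝ N (fderiv ℝ a y u) : ℝ) • e4)
          + (phiF θ z0 κ (i y) * fderiv ℝ (fun y => phiF θ z0 κ (i y)) y u)
            • ((inner ℝ N N : ℝ) • e4)) (TT (a y) (fderiv ℝ a y u'))) := fun u u' =>
    Sm.bil_fx iB (sG u) (fxF u')
  have sHH := Bd.bil iB (bH v) (bH w)
  have hall := ((sM v w).add (sGF v w)).add (((sM w v).add (sGF w v)).add sHH)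
  refine Sm.congr hW hKW hall fun κ hκ y hy => ?_
  rw [fderiv_mod hW hi hθ ha N κ hy v, fderiv_mod hW hi hθ ha N κ hy w,
    fderiv_Phi_compW hW ha hy v, fderiv_Phi_compW hW ha hy w]
  simp only [iB_apply]
  set Fv := TT (a y) (fderiv ℝ a y v)
  set Fw := TT (a y) (fderiv ℝ a y w)
  set n := TT (a y) N
  set Gv := (phiF θ z0 κ (i y) • ((inner ℝ N (fderiv ℝ a y v) : ℝ) • e4)
          + (phiF θ z0 κ (i y) * fderiv ℝ (fun y => phiF θ z0 κ (i y)) y v)
            • ((inner ℝ N N : ℝ) • e4))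
  set Gw := (phiF θ z0 κ (i y) • ((inner ℝ N (fderiv ℝ a y w) : ℝ) • e4)
          + (phiF θ z0 κ (i y) * fderiv ℝ (fun y => phiF θ z0 κ (i y)) y w)
            • ((inner ℝ N N : ℝ) • e4))
  set pv := fderiv ℝ (fun y => phiF θ z0 κ (i y)) y v
  set pw := fderiv ℝ (fun y => phiF θ z0 κ (i y)) y w
  simp only [inner_add_left, inner_add_right, inner_smul_left, inner_smul_right, conj_trivial]
  rw [real_inner_comm n Fv, real_inner_comm Gw Fv]
  ring

end

end Base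
end Crest.Agent.R216
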