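import Crest.Agent.R216.BaseE

/-!
# Row 216: BASE MAP, flattening at one point, planar part (helper904)
-/

set_option autoImplicit false
open scoped Manifold ContDiff Topology
open Set

noncomputable section
namespace Crest.Agent.R216
namespace Base

variable {m : ℕ}

/-! ## linear algebra -/

/-- the bilinear form `⟨TT x h, TT x k⟩` of `E3`, as a functional in `h` -/
def ell (x k : E3) : E3 →L[ℝ] ℝ := (innerSL ℝ (TT x k)).comp (TT x)

lemma ell_apply (x k h : E3) : ell x k h = inner ℝ (TT x k) (TT x h) := rfl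

lemma plane_decomp (v : E2) : v = v 0 • bv 0 + v 1 • bv 1 := by
  ext i; fin_cases i <;> simp [bv]

lemma exists_normal {a' : E2 →L[ℝ] E3} (ha : Function.Injective a') (x : E3) :
    ∃ N : E3, N ≠ 0 ∧ (∀ v, inner ℝ (TT x N) (TT x (a' v)) = 0) ∧
      ∀ h : E3, inner ℝ (TT x h) (TT x N) = 0 → ∃ z, a' z = h := by
  classical
  let T : E3 →ₗ[ℝ] (Fin 2 → ℝ) :=
    LinearMap.pi fun i => (ell x (a' (bv i)) : E3 →ₗ[ℝ] ℝ)
  have hfin : Module.finrank ℝ (Fin 2 → ℝ) < Module.finrank ℝ E3 := by simp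
  have hker : LinearMap.ker T ≠ ⊥ := LinearMap.ker_ne_bot_of_finrank_lt hfin
  obtain ⟨N, hN, hN0⟩ := Submodule.exists_mem_ne_zero_of_ne_bot hker
  have hT : ∀ i, inner ℝ (TT x (a' (bv i))) (TT x N) = 0 := fun i => by
    have := congrFun (LinearMap.mem_ker.1 hN) i
    exact this
  have horth : ∀ v, inner ℝ (TT x N) (TT x (a' v)) = 0 := fun v => by
    rw [plane_decomp v]
    simp only [map_add, map_smul, inner_add_right, inner_smul_right]
    rw [real_inner_comm, hT 0, real_inner_comm, hT 1]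
    simp
  refine ⟨N, hN0, horth, fun h hh => ?_⟩
  -- dimension count
  have hlN : ell x N N ≠ 0 := by
    rw [ell_apply]
    intro h0
    exact hN0 (TT_injective x (by rw [inner_self_eq_zero.1 h0, map_zero]))
  have hsurj : Function.Surjective (ell x N : E3 →ₗ[ℝ] ℝ) := by
    intro c
    exact ⟨(c / ell x N N) • N, by
      simp only [ContinuousLinearMap.coe_coe, map_smul, smul_eq_mul]
      field_simp⟩
  have hr := LinearMap.finrank_range_add_finrank_ker (ell x N : E3 →ₗ[ℝ] ℝ)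
  have hr' : Module.finrank ℝ (LinearMap.range (ell x N : E3 →ₗ[ℝ] ℝ)) = 1 := by
    rw [LinearMap.range_eq_top.2 hsurj]; simp
  have hk : Module.finrank ℝ (LinearMap.ker (ell x N : E3 →ₗ[ℝ] ℝ)) = 2 := by
    have h3 : Module.finrank ℝ E3 = 3 := by simp
    omega
  have hra : Module.finrank ℝ (LinearMap.range (a' : E2 →ₗ[ℝ] E3)) = 2 := by
    rw [LinearMap.finrank_range_of_inj (f := (a' : E2 →ₗ[ℝ] E3)) ha]; simp
  have hle : LinearMap.range (a' : E2 →ₗ[ℝ] E3) ≤ LinearMap.ker (ell x N : E3 →ₗ[ℝ] ℝ) := by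
    rintro _ ⟨v, rfl⟩
    exact horth v
  have heq := Submodule.eq_of_le_of_finrank_eq hle (by rw [hra, hk])
  have hmem : h ∈ LinearMap.ker (ell x N : E3 →ₗ[ℝ] ℝ) := by
    rw [LinearMap.mem_ker]
    show inner ℝ (TT x N) (TT x h) = 0
    rw [real_inner_comm]; exact hh
  rw [← heq] at hmem
  exact hmem

lemma exists_leftInv {E F : Type*} [NormedAddCommGroup E] [NormedSpace ℝ E] [FiniteDimensional ℝ E]
    [NormedAddCommGroup F] [NormedSpace ℝ F] [FiniteDimensional ℝ F] {f : E →L[ℝ] F}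
    (hf : Function.Injective f) : ∃ L : F →L[ℝ] E, ∀ v, L (f v) = v := by
  obtain ⟨g, hg⟩ := LinearMap.exists_leftInverse_of_injective (f : E →ₗ[ℝ] F)
    (LinearMap.ker_eq_bot.2 hf)
  refine ⟨LinearMap.toContinuousLinearMap g, fun v => ?_⟩
  exact congrArg (fun T => T v) hg

/-- a compactly supported function with prescribed Hessian at the origin -/
lemma exists_theta (L : EuclideanSpace ℝ (Fin m) →L[ℝ] E2) (b : E2 →L[ℝ] E2 →L[ℝ] ℝ)
    (hb : ∀ u v, b u v = b v u) :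
    ∃ θ : EuclideanSpace ℝ (Fin m) → ℝ, ContDiff ℝ ∞ θ ∧ HasCompactSupport θ ∧
      fderiv ℝ θ 0 = 0 ∧ ∀ u v, fderiv ℝ (fderiv ℝ θ) 0 u v = - b (L u) (L v) := by
  let ρ : ContDiffBump (0 : EuclideanSpace ℝ (Fin m)) := default
  let B : EuclideanSpace ℝ (Fin m) →L[ℝ] EuclideanSpace ℝ (Fin m) →L[ℝ] ℝ :=
    (ContinuousLinearMap.compL ℝ _ _ _).flip L |>.comp (b.comp L)
  have hB : ∀ u v, B u v = b (L u) (L v) := fun u v => rfl
  let q : EuclideanSpace ℝ (Fin m) → ℝ := fun z => (-(1 / 2 : ℝ)) * B z z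
  have hq : ContDiff ℝ ∞ q := contDiff_const.mul
    ((B.contDiff).clm_apply contDiff_id)
  have hdq : ∀ z, HasFDerivAt q (-(B z)) z := fun z => by
    have h1 : HasFDerivAt (fun z => B z z) ((B z).comp (ContinuousLinearMap.id ℝ _) + B.flip z) z := by
      have := (B.hasFDerivAt (x := z)).clm_apply (hasFDerivAt_id z)
      exact this
    have h2 := h1.const_mul (-(1 / 2 : ℝ))
    refine h2.congr_fderiv ?_
    ext v
    simp only [FunLike.coe_smul, Pi.smul_apply, add_apply, ContinuousLinearMap.comp_apply,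
      ContinuousLinearMap.id_apply, ContinuousLinearMap.flip_apply, neg_apply, smul_eq_mul]
    rw [hB, hB, hb (L v) (L z)]
    ring
  have hfq : fderiv ℝ q = fun z => -(B z) := by
    funext z; exact (hdq z).fderiv
  have hdd : ∀ z, HasFDerivAt (fderiv ℝ q) (-B) z := fun z => by
    rw [hfq]
    exact (B.hasFDerivAt (x := z)).neg
  refine ⟨fun z => q z * ρ z, hq.mul ρ.contDiff, ρ.hasCompactSupport.mul_left, ?_, fun u v => ?_⟩
  · have hev : (fun z => q z * ρ z) =ᶠ[𝓝 0] q := by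
      filter_upwards [ρ.eventuallyEq_one] with z hz
      rw [hz]; simp
    rw [hev.fderiv_eq, (hdq 0).fderiv]; simp
  · have hev : (fun z => q z * ρ z) =ᶠ[𝓝 0] q := by
      filter_upwards [ρ.eventuallyEq_one] with z hz
      rw [hz]; simp
    have hev1 : fderiv ℝ (fun z => q z * ρ z) =ᶠ[𝓝 0] fderiv ℝ q := hev.fderiv
    rw [hev1.fderiv_eq, (hdd 0).fderiv]
    simp only [neg_apply, hB]

/-! ## flatness -/

/-- all second derivatives are tangential -/
def FlatAt (a : E2 → E3) (y : E2) : Prop :=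
  ∀ v w : E2, ∃ z : E2, fderiv ℝ (fderiv ℝ a) y v w = fderiv ℝ a y z

lemma FlatAt.congr {a b : E2 → E3} {y : E2} (h : FlatAt a y) (hab : b =ᶠ[𝓝 y] a) : FlatAt b y := by
  intro v w
  obtain ⟨z, hz⟩ := h v w
  refine ⟨z, ?_⟩
  rw [hab.fderiv_eq, hab.fderiv.fderiv_eq, hz]

lemma d2_comp_gen {E F G : Type*} [NormedAddCommGroup E] [NormedSpace ℝ E]
    [NormedAddCommGroup F] [NormedSpace ℝ F] [NormedAddCommGroup G] [NormedSpace ℝ G]
    {f : F → G} {τ : E → F} {x : E}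
    (hf : ContDiffAt ℝ 2 f (τ x)) (hτ : ContDiffAt ℝ 2 τ x) (v w : E) :
    fderiv ℝ (fderiv ℝ (f ∘ τ)) x v w
      = fderiv ℝ (fderiv ℝ f) (τ x) (fderiv ℝ τ x v) (fderiv ℝ τ x w)
      + fderiv ℝ f (τ x) (fderiv ℝ (fderiv ℝ τ) x v w) := by
  have hfev : ∀ᶠ y in 𝓝 x, ContDiffAt ℝ 2 f (τ y) :=
    hτ.continuousAt.eventually (hf.eventually (by simp))
  have hτev : ∀ᶠ y in 𝓝 x, ContDiffAt ℝ 2 τ y := hτ.eventually (by simp)
  have h1 : fderiv ℝ (f ∘ τ) =ᶠ[𝓝 x] fun y => (fderiv ℝ f (τ y)).comp (fderiv ℝ τ y) := by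
    filter_upwards [hfev, hτev] with y h1 h2
    exact fderiv_comp y (h1.differentiableAt (by norm_num)) (h2.differentiableAt (by norm_num))
  have hdf : DifferentiableAt ℝ (fderiv ℝ f) (τ x) :=
    (hf.fderiv_right (m := 1) (by norm_num)).differentiableAt (by norm_num)
  have hdτ : DifferentiableAt ℝ (fderiv ℝ τ) x :=
    (hτ.fderiv_right (m := 1) (by norm_num)).differentiableAt (by norm_num)
  have hτx : DifferentiableAt ℝ τ x := hτ.differentiableAt (by norm_num)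
  have h2 : HasFDerivAt (fun y => fderiv ℝ f (τ y))
      ((fderiv ℝ (fderiv ℝ f) (τ x)).comp (fderiv ℝ τ x)) x :=
    hdf.hasFDerivAt.comp x hτx.hasFDerivAt
  have h3 := h2.clm_comp hdτ.hasFDerivAt
  rw [h1.fderiv_eq, h3.fderiv]
  simp
  abel

lemma FlatAt.comp {a : E2 → E3} {τ : E2 → E2} {x : E2} (h : FlatAt a (τ x))
    (ha : ContDiffAt ℝ 2 a (τ x)) (hτ : ContDiffAt ℝ 2 τ x)
    (hinv : Function.Surjective (fderiv ℝ τ x)) : FlatAt (a ∘ τ) x := by
  intro v w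
  rw [d2_comp_gen ha hτ, fderiv_comp x (ha.differentiableAt (by norm_num))
    (hτ.differentiableAt (by norm_num))]
  obtain ⟨z, hz⟩ := h (fderiv ℝ τ x v) (fderiv ℝ τ x w)
  obtain ⟨u, hu⟩ := hinv (z + fderiv ℝ (fderiv ℝ τ) x v w)
  refine ⟨u, ?_⟩
  rw [ContinuousLinearMap.comp_apply, hu, hz, map_add]

/-- planar flattening: there is `θ` such that all the maps `a + φ_κ N` are flat at `y0` -/
theorem exists_flat_planar {W : Set E2} (hW : IsOpen W) {i : E2 → EuclideanSpace ℝ (Fin m)}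
    (hi : ContDiffOn ℝ ∞ i W) {a : E2 → E3} (ha : ContDiffOn ℝ ∞ a W) {y0 : E2} (hy0 : y0 ∈ W)
    (hinj : Function.Injective (fderiv ℝ i y0)) {N : E3} (hN0 : N ≠ 0)
    (hN : ∀ h : E3, inner ℝ (TT (a y0) h) (TT (a y0) N) = 0 → ∃ z, fderiv ℝ a y0 z = h) :
    ∃ θ : EuclideanSpace ℝ (Fin m) → ℝ, ContDiff ℝ ∞ θ ∧ HasCompactSupport θ ∧
      ∀ κ, 0 < κ → FlatAt (fun y => a y + phiF θ (i y0) κ (i y) • N) y0 := by
  obtain ⟨L, hL⟩ := exists_leftInv hinj
  have haC : ContDiffAt ℝ ∞ a y0 := ha.contDiffAt (hW.mem_nhds hy0)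
  have hiC : ContDiffAt ℝ ∞ i y0 := hi.contDiffAt (hW.mem_nhds hy0)
  set x := a y0
  have hNN : inner ℝ (TT x N) (TT x N) ≠ 0 := fun h0 =>
    hN0 (TT_injective x (by rw [inner_self_eq_zero.1 h0, map_zero]))
  -- the symmetric bilinear form
  let b : E2 →L[ℝ] E2 →L[ℝ] ℝ :=
    (ContinuousLinearMap.compL ℝ E2 E3 ℝ
      ((inner ℝ (TT x N) (TT x N) : ℝ)⁻¹ • ell x N)).comp (fderiv ℝ (fderiv ℝ a) y0)
  have hbv : ∀ v w, b v w = (inner ℝ (TT x N) (TT x N) : ℝ)⁻¹ *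
      inner ℝ (TT x N) (TT x (fderiv ℝ (fderiv ℝ a) y0 v w)) := fun v w => rfl
  have hsymm : ∀ v w, fderiv ℝ (fderiv ℝ a) y0 v w = fderiv ℝ (fderiv ℝ a) y0 w v := by
    have h1 : IsSymmSndFDerivAt ℝ a y0 := by
      apply haC.isSymmSndFDerivAt
      simp only [minSmoothness_of_isRCLikeNormedField]
      exact ENat.LEInfty.out
    intro v w
    exact h1 v w
  obtain ⟨θ, hθ, hc, hθ0, hθ2⟩ := exists_theta L b (fun u v => by rw [hbv, hbv, hsymm])
  refine ⟨θ, hθ, hc, fun κ hκ v w => ?_⟩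
  have hφC : ContDiff ℝ ∞ (phiF θ (i y0) κ) := phiF_contDiff hθ κ
  have hφi : ContDiffAt ℝ ∞ (phiF θ (i y0) κ ∘ i) y0 := hφC.contDiffAt.comp y0 hiC
  have h00 : κ⁻¹ • (i y0 - i y0) = 0 := by simp
  have e1 : fderiv ℝ (phiF θ (i y0) κ) (i y0) = 0 := by
    rw [fderiv_phiF hθ hκ, h00, hθ0, smul_zero]
  have e2 : fderiv ℝ (phiF θ (i y0) κ ∘ i) y0 = 0 := by
    rw [fderiv_comp y0 (hφC.differentiable (by simp) _) (hiC.differentiableAt (by simp)), e1]
    simp
  have e3 : ∀ v w, fderiv ℝ (fderiv ℝ (phiF θ (i y0) κ ∘ i)) y0 v w = - b v w := fun v w => by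
    rw [d2_comp_gen (hφC.contDiffAt.of_le ENat.LEInfty.out) (hiC.of_le ENat.LEInfty.out), e1,
      fderiv2_phiF hθ hκ, h00, hθ2, hL, hL]
    simp
  -- derivatives of the sum
  have hev : fderiv ℝ (fun y => a y + phiF θ (i y0) κ (i y) • N) =ᶠ[𝓝 y0]
      fun y => fderiv ℝ a y + (fderiv ℝ (phiF θ (i y0) κ ∘ i) y).smulRight N := by
    filter_upwards [hW.mem_nhds hy0] with y hy
    have h1 : HasFDerivAt a (fderiv ℝ a y) y :=
      ((ha.contDiffAt (hW.mem_nhds hy)).differentiableAt (by simp)).hasFDerivAt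
    have h2 : HasFDerivAt (phiF θ (i y0) κ ∘ i) (fderiv ℝ (phiF θ (i y0) κ ∘ i) y) y :=
      ((hφC.differentiable (by simp) _).comp y
        ((hi.contDiffAt (hW.mem_nhds hy)).differentiableAt (by simp))).hasFDerivAt
    exact (h1.add (h2.smul_const N)).fderiv
  have d1 : fderiv ℝ (fun y => a y + phiF θ (i y0) κ (i y) • N) y0 = fderiv ℝ a y0 := by
    rw [hev.self_of_nhds]
    simp only [e2]
    ext v; simp
  have d2 : fderiv ℝ (fderiv ℝ (fun y => a y + phiF θ (i y0) κ (i y) • N)) y0 v w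
      = fderiv ℝ (fderiv ℝ a) y0 v w - b v w • N := by
    rw [hev.fderiv_eq]
    have k1 : HasFDerivAt (fderiv ℝ a) (fderiv ℝ (fderiv ℝ a) y0) y0 :=
      ((haC.fderiv_right (m := ∞) (by simp)).differentiableAt (by simp)).hasFDerivAt
    have k2 : HasFDerivAt (fderiv ℝ (phiF θ (i y0) κ ∘ i))
        (fderiv ℝ (fderiv ℝ (phiF θ (i y0) κ ∘ i)) y0) y0 :=
      ((hφi.fderiv_right (m := ∞) (by simp)).differentiableAt (by simp)).hasFDerivAt
    have k3 : HasFDerivAt (fun y => (fderiv ℝ (phiF θ (i y0) κ ∘ i) y).smulRight N)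
        (((ContinuousLinearMap.smulRightL ℝ E2 E3).flip N).comp
          (fderiv ℝ (fderiv ℝ (phiF θ (i y0) κ ∘ i)) y0)) y0 :=
      (((ContinuousLinearMap.smulRightL ℝ E2 E3).flip N).hasFDerivAt).comp y0 k2
    have k4 : HasFDerivAt (fun y => fderiv ℝ a y + (fderiv ℝ (phiF θ (i y0) κ ∘ i) y).smulRight N)
        (fderiv ℝ (fderiv ℝ a) y0 + ((ContinuousLinearMap.smulRightL ℝ E2 E3).flip N).comp
          (fderiv ℝ (fderiv ℝ (phiF θ (i y0) κ ∘ i)) y0)) y0 := k1.add k3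
    rw [k4.fderiv]
    simp only [add_apply, ContinuousLinearMap.comp_apply, ContinuousLinearMap.flip_apply,
      ContinuousLinearMap.smulRightL_apply_apply, ContinuousLinearMap.smulRight_apply, e3]
    module
  have horth : inner ℝ (TT x (fderiv ℝ (fderiv ℝ a) y0 v w - b v w • N)) (TT x N) = 0 := by
    rw [map_sub, map_smul, inner_sub_left, inner_smul_left, hbv, conj_trivial]
    rw [real_inner_comm (TT x N) (TT x (fderiv ℝ (fderiv ℝ a) y0 v w))]
    field_simp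
    ring
  obtain ⟨z, hz⟩ := hN _ horth
  exact ⟨z, by rw [d2, d1, hz]⟩

end Base
end Crest.Agent.R216
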