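import Crest.Agent.R216.EvenFixed

/-! Row 216 (D), module D2: parity lemma for compact 1-manifolds (owner: helper359). -/

set_option autoImplicit false
open Set

namespace Crest.Agent.R216.D

/-- A continuous involution of a compact 1-manifold with finitely many fixed points
has an even number of them. -/
theorem even_fixed {W : Type*} [TopologicalSpace W] [CompactSpace W] [T2Space W]
    (hloc : ∀ w : W, ∃ c : ℝ → W, Topology.IsOpenEmbedding c ∧ w ∈ Set.range c)
    (σ : W → W) (hσ : Continuous σ) (hinv : Function.Involutive σ)
    (hfin : {w | σ w = w}.Finite) : Even {w | σ w = w}.ncard :=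
  Crest.Agent.R216.even_fixed hloc σ hσ hinv hfin

end Crest.Agent.R216.D
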