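import Crest.Agent.R216.D3Curve

/-!
Row 216, part (D), D3 (helper30): local structure of the double point curve in `E × E`,
near a transversal double pair and near a nondegenerate cross-cap.
-/

namespace Crest.Agent.R216.D3

open Set Filter Topology Metric

/-! ### Submersions -/

section submersion

variable {E F : Type*} [NormedAddCommGroup E] [NormedSpace ℝ E] [FiniteDimensional ℝ E]
  [NormedAddCommGroup F] [NormedSpace ℝ F] [FiniteDimensional ℝ F]

/-- the level set of a submersion with one-dimensional kernel is a curve -/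
theorem LC_of_submersion {f : E → F} {f' : E →L[ℝ] F} {p : E} (hf : HasStrictFDerivAt f f' p)
    (hsurj : f'.range = ⊤) (hdim : Module.finrank ℝ f'.ker = 1) : LC {q | f q = f p} p := by
  have : CompleteSpace E := FiniteDimensional.complete ℝ E
  have : CompleteSpace F := FiniteDimensional.complete ℝ F
  let φ := hf.implicitToOpenPartialHomeomorph f f' hsurj
  have hp : p ∈ φ.source := hf.mem_implicitToOpenPartialHomeomorph_source hsurj
  have hself : φ p = (f p, 0) := hf.implicitToOpenPartialHomeomorph_self hsurj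
  have hfst : ∀ x, (φ x).1 = f x := hf.implicitToOpenPartialHomeomorph_fst hsurj
  let κ : f'.ker ≃L[ℝ] ℝ := ContinuousLinearEquiv.ofFinrankEq (by rw [hdim]; simp)
  refine LC.of_chart φ hp (T := {z | z.1 = f p}) ?_ ?_
  · refine Eventually.of_forall fun q => ?_
    simp only [mem_ofPred_eq, hfst]
  · rw [hself]
    refine ⟨fun t => (f p, κ.symm t), fun z => κ z.2, by simp, ?_, ?_, ?_, ?_⟩
    · exact Eventually.of_forall fun t => by fun_prop
    · exact Eventually.of_forall fun t => by fun_prop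
    · exact Eventually.of_forall fun t => by simp
    · refine Eventually.of_forall fun z hz => ?_
      simp only [mem_ofPred_eq] at hz
      ext <;> simp [hz]

end submersion

/-! ### Averages over a segment -/

section avg

variable {X F : Type*} [NormedAddCommGroup X] [NormedSpace ℝ X]
  [NormedAddCommGroup F] [NormedSpace ℝ F] [CompleteSpace F]

/-- symmetric average -/
noncomputable def avg (Φ : ℝ × X → F) (q : ℝ × X) : F :=
  (1 / 2 : ℝ) • ∫ s in (-1 : ℝ)..1, Φ (s * q.1, q.2)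

theorem avg_hasStrictFDerivAt {Φ : ℝ × X → F} {Φ' : ℝ × X →L[ℝ] F} {x0 : X}
    (h : HasStrictFDerivAt Φ Φ' ((0 : ℝ), x0)) :
    HasStrictFDerivAt (avg Φ)
      (Φ'.comp ((ContinuousLinearMap.inr ℝ ℝ X).comp (ContinuousLinearMap.snd ℝ ℝ X))) (0, x0) := by
  rw [hasStrictFDerivAt_iff_isLittleO, Asymptotics.isLittleO_iff]
  intro c hc
  have hcnn : (0 : ℝ) < c := hc
  obtain ⟨s, hs, hap⟩ := h.approximates_deriv_on_nhds (c := c.toNNReal)
    (Or.inr (by simpa using hcnn))
  obtain ⟨δ, hδ, hball⟩ := Metric.mem_nhds_iff.1 hs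
  have hcont : ContinuousOn Φ (ball ((0 : ℝ), x0) δ) := (hap.mono_set hball).continuousOn
  -- scaling maps the ball into itself
  have hscale : ∀ q ∈ ball ((0 : ℝ), x0) δ, ∀ t ∈ Icc (-1 : ℝ) 1,
      (t * q.1, q.2) ∈ ball ((0 : ℝ), x0) δ := by
    intro q hq t ht
    rw [mem_ball, Prod.dist_eq, max_lt_iff] at hq ⊢
    refine ⟨?_, hq.2⟩
    rw [Real.dist_eq, sub_zero] at hq ⊢
    simp only [abs_mul] at hq ⊢
    have h1 : |t| ≤ 1 := abs_le.2 ht
    calc |t| * |q.1| ≤ 1 * |q.1| := by gcongr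
      _ < δ := by rw [one_mul]; exact hq.1
  have hint : ∀ q ∈ ball ((0 : ℝ), x0) δ,
      IntervalIntegrable (fun s => Φ (s * q.1, q.2)) MeasureTheory.volume (-1) 1 := by
    intro q hq
    apply ContinuousOn.intervalIntegrable
    rw [uIcc_of_le (by norm_num)]
    exact hcont.comp (by fun_prop) (fun t ht => hscale q hq t ht)
  have hnhds : ball ((0 : ℝ), x0) δ ×ˢ ball ((0 : ℝ), x0) δ ∈ 𝓝 (((0 : ℝ), x0), ((0 : ℝ), x0)) := by
    rw [nhds_prod_eq]
    exact prod_mem_prod (ball_mem_nhds _ hδ) (ball_mem_nhds _ hδ)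
  filter_upwards [hnhds] with p hp
  obtain ⟨hp1, hp2⟩ := hp
  set d : ℝ × X := p.1 - p.2 with hd
  have hlin : ∫ s in (-1 : ℝ)..1, Φ' (s * d.1, d.2) = (2 : ℝ) • Φ' (0, d.2) := by
    have h1 : ∀ s : ℝ, Φ' (s * d.1, d.2) = s • Φ' (d.1, 0) + Φ' (0, d.2) := by
      intro s
      rw [← map_smul, ← map_add]
      simp
    simp_rw [h1]
    rw [intervalIntegral.integral_add (by apply Continuous.intervalIntegrable; fun_prop)
      (by apply Continuous.intervalIntegrable; fun_prop),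
      intervalIntegral.integral_smul_const]
    simp
    norm_num
  have hkey : avg Φ p.1 - avg Φ p.2 - (Φ'.comp ((ContinuousLinearMap.inr ℝ ℝ X).comp
      (ContinuousLinearMap.snd ℝ ℝ X))) (p.1 - p.2)
      = (1 / 2 : ℝ) • ∫ s in (-1 : ℝ)..1,
        (Φ (s * p.1.1, p.1.2) - Φ (s * p.2.1, p.2.2) - Φ' (s * d.1, d.2)) := by
    rw [intervalIntegral.integral_sub ((hint _ hp1).sub (hint _ hp2))
      (by apply Continuous.intervalIntegrable; fun_prop),
      intervalIntegral.integral_sub (hint _ hp1) (hint _ hp2), hlin]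
    simp only [avg, ContinuousLinearMap.comp_apply, ContinuousLinearMap.inr_apply,
      ContinuousLinearMap.coe_snd', smul_sub, smul_smul]
    norm_num [hd]
  rw [hkey, norm_smul]
  have hbound : ‖∫ s in (-1 : ℝ)..1,
        (Φ (s * p.1.1, p.1.2) - Φ (s * p.2.1, p.2.2) - Φ' (s * d.1, d.2))‖
      ≤ (c * ‖d‖) * |(1 : ℝ) - (-1)| := by
    apply intervalIntegral.norm_integral_le_of_norm_le_const
    intro s hs
    rw [uIoc_of_le (by norm_num)] at hs
    have hs' : s ∈ Icc (-1 : ℝ) 1 := ⟨hs.1.le, hs.2⟩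
    have h1 := hap.mono_set hball _ (hscale _ hp1 s hs') _ (hscale _ hp2 s hs')
    have h2 : ((s * p.1.1, p.1.2) : ℝ × X) - (s * p.2.1, p.2.2) = (s * d.1, d.2) := by
      simp [hd, mul_sub]
    rw [h2] at h1
    refine h1.trans ?_
    rw [Real.coe_toNNReal c hc.le]
    gcongr
    rw [Prod.norm_def, Prod.norm_def]
    apply max_le_max _ le_rfl
    rw [norm_mul, Real.norm_eq_abs]
    have h1 : |s| ≤ 1 := abs_le.2 hs'
    calc |s| * ‖d.1‖ ≤ 1 * ‖d.1‖ := by gcongr
      _ = ‖d.1‖ := one_mul _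
  calc ‖(1 / 2 : ℝ)‖ * _ ≤ ‖(1 / 2 : ℝ)‖ * ((c * ‖d‖) * |(1 : ℝ) - (-1)|) := by gcongr
    _ = c * ‖d‖ := by norm_num; ring

end avg

/-! ### Cross-caps -/

section crosscap

variable {E F : Type*} [NormedAddCommGroup E] [NormedSpace ℝ E] [FiniteDimensional ℝ E]
  [NormedAddCommGroup F] [NormedSpace ℝ F] [FiniteDimensional ℝ F]

/-- the double point set of `g` completed by the singular points on the diagonal -/
def dbl (g : E → F) : Set (E × E) :=
  {q | (q.1 ≠ q.2 ∧ g q.1 = g q.2) ∨ (q.1 = q.2 ∧ ¬ Function.Injective (fderiv ℝ g q.1))}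

variable {g : E → F} {z v u : E}

/-- the integrand of the blown-up difference quotient -/
noncomputable def blowI (g : E → F) (v u : E) (q : ℝ × (E × ℝ)) : F :=
  fderiv ℝ g (q.2.1 + q.1 • (v + q.2.2 • u)) (v + q.2.2 • u)

omit [FiniteDimensional ℝ E] [FiniteDimensional ℝ F] in
theorem blowI_hasStrictFDerivAt (hg : ContDiffAt ℝ 2 g z) :
    ∃ Φ' : ℝ × (E × ℝ) →L[ℝ] F, HasStrictFDerivAt (blowI g v u) Φ' ((0 : ℝ), (z, (0 : ℝ))) ∧
      ∀ m η, Φ' (0, (m, η)) = fderiv ℝ (fderiv ℝ g) z m v + η • fderiv ℝ g z u := by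
  have h1 : HasStrictFDerivAt (fderiv ℝ g) (fderiv ℝ (fderiv ℝ g) z) z :=
    (hg.fderiv_right (m := 1) (by norm_num)).hasStrictFDerivAt (by norm_num)
  -- the inner maps
  have hw : HasStrictFDerivAt (fun q : ℝ × (E × ℝ) => v + q.2.2 • u)
      (((ContinuousLinearMap.snd ℝ E ℝ).comp (ContinuousLinearMap.snd ℝ ℝ (E × ℝ))).smulRight u)
      ((0 : ℝ), (z, (0 : ℝ))) := by
    have h2 : HasStrictFDerivAt (fun q : ℝ × (E × ℝ) => q.2.2)
      ((ContinuousLinearMap.snd ℝ E ℝ).comp (ContinuousLinearMap.snd ℝ ℝ (E × ℝ)))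
      ((0 : ℝ), (z, (0 : ℝ))) :=
      ((ContinuousLinearMap.snd ℝ E ℝ).comp
        (ContinuousLinearMap.snd ℝ ℝ (E × ℝ))).hasStrictFDerivAt
    exact (h2.smul_const u).const_add v
  have hm : HasStrictFDerivAt (fun q : ℝ × (E × ℝ) => q.2.1)
      ((ContinuousLinearMap.fst ℝ E ℝ).comp (ContinuousLinearMap.snd ℝ ℝ (E × ℝ)))
      ((0 : ℝ), (z, (0 : ℝ))) :=
      ((ContinuousLinearMap.fst ℝ E ℝ).comp
        (ContinuousLinearMap.snd ℝ ℝ (E × ℝ))).hasStrictFDerivAt
  have hr : HasStrictFDerivAt (fun q : ℝ × (E × ℝ) => q.1)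
      (ContinuousLinearMap.fst ℝ ℝ (E × ℝ)) ((0 : ℝ), (z, (0 : ℝ))) :=
      (ContinuousLinearMap.fst ℝ ℝ (E × ℝ)).hasStrictFDerivAt
  have hx := hm.add (hr.smul hw)
  have h1' : HasStrictFDerivAt (fderiv ℝ g) (fderiv ℝ (fderiv ℝ g) z)
      (((fun q : ℝ × (E × ℝ) => q.2.1) + ((fun q : ℝ × (E × ℝ) => q.1) • fun q : ℝ × (E × ℝ) =>
        v + q.2.2 • u)) ((0 : ℝ), (z, (0 : ℝ)))) := by
    simpa using h1
  have hc := h1'.comp ((0 : ℝ), (z, (0 : ℝ))) hx
  have hfin := hc.clm_apply hw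
  refine ⟨_, hfin, ?_⟩
  intro m η
  simp
  exact add_comm _ _

omit [FiniteDimensional ℝ E] in
/-- the blown-up difference quotient, multiplied by `2ρ` -/
theorem two_mul_avg_blowI {q : ℝ × (E × ℝ)}
    (hd : ∀ s ∈ Icc (-1 : ℝ) 1, DifferentiableAt ℝ g (q.2.1 + (s * q.1) • (v + q.2.2 • u)))
    (hcont : ContinuousOn (fun s : ℝ => blowI g v u (s * q.1, q.2)) (Icc (-1 : ℝ) 1)) :
    (2 * q.1) • avg (blowI g v u) q
      = g (q.2.1 + q.1 • (v + q.2.2 • u)) - g (q.2.1 - q.1 • (v + q.2.2 • u)) := by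
  have hcs : CompleteSpace F := FiniteDimensional.complete ℝ F
  have h1 : ∫ s in (-1 : ℝ)..1, q.1 • blowI g v u (s * q.1, q.2)
      = g (q.2.1 + ((1 : ℝ) * q.1) • (v + q.2.2 • u))
        - g (q.2.1 + ((-1 : ℝ) * q.1) • (v + q.2.2 • u)) := by
    apply intervalIntegral.integral_eq_sub_of_hasDerivAt
      (f := fun s : ℝ => g (q.2.1 + (s * q.1) • (v + q.2.2 • u)))
    · intro s hs
      rw [uIcc_of_le (by norm_num)] at hs
      have h2 : HasDerivAt (fun s : ℝ => q.2.1 + (s * q.1) • (v + q.2.2 • u))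
          (q.1 • (v + q.2.2 • u)) s := by
        have h3 : HasDerivAt (fun s : ℝ => s * q.1) q.1 s := by
          simpa using (hasDerivAt_id s).mul_const q.1
        exact (h3.smul_const _).const_add _
      have h4 := (hd s hs).hasFDerivAt.comp_hasDerivAt s h2
      have h5 : q.1 • blowI g v u (s * q.1, q.2)
          = fderiv ℝ g (q.2.1 + (s * q.1) • (v + q.2.2 • u)) (q.1 • (v + q.2.2 • u)) := by
        rw [map_smul]; rfl
      rw [h5]
      exact h4
    · apply ContinuousOn.intervalIntegrable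
      rw [uIcc_of_le (by norm_num)]
      exact continuousOn_const.smul hcont
  rw [intervalIntegral.integral_smul] at h1
  rw [avg, smul_smul, show 2 * q.1 * (1 / 2) = q.1 by ring, h1]
  rw [one_mul, neg_one_mul, neg_smul, ← sub_eq_add_neg]

/-- **Local structure near a nondegenerate cross-cap.** -/
theorem LC_crosscap_aux (hg : ContDiffAt ℝ 2 g z) (a b : E →L[ℝ] ℝ) (hav : a v = 1) (hau : a u = 0)
    (hdec : ∀ x, x = a x • v + b x • u)
    (hker : fderiv ℝ g z v = 0)
    (hL : Function.Bijective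
      (fun p : E × ℝ => fderiv ℝ (fderiv ℝ g) z p.1 v + p.2 • fderiv ℝ g z u)) :
    ∃ (e : ℝ → E × E) (τ : E × E → ℝ), e 0 = (z, z) ∧ (∀ᶠ t in 𝓝 (0 : ℝ), ContinuousAt e t) ∧
      (∀ᶠ q in 𝓝 (z, z), ContinuousAt τ q) ∧ (∀ᶠ t in 𝓝 (0 : ℝ), e t ∈ dbl g ∧ τ (e t) = t) ∧
      (∀ᶠ q in 𝓝 (z, z), q ∈ dbl g → e (τ q) = q) ∧ ∀ q, q.1 = q.2 → τ q = 0 := by
  have hcs : CompleteSpace F := FiniteDimensional.complete ℝ F
  have hcE : CompleteSpace E := FiniteDimensional.complete ℝ E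
  obtain ⟨Φ', hΦ', hΦ'v⟩ := blowI_hasStrictFDerivAt (v := v) (u := u) hg
  -- basic facts on the frame
  have hv0 : v ≠ 0 := by
    rintro rfl
    simp at hav
  have hu0 : fderiv ℝ g z u ≠ 0 := by
    intro h0
    have := hL.1 (a₁ := ((0 : E), (1 : ℝ))) (a₂ := ((0 : E), (0 : ℝ))) (by simp [h0])
    simp at this
  -- the function `H` and its implicit function
  set H : ℝ × (E × ℝ) → F := avg (blowI g v u) with hH
  have hHd := avg_hasStrictFDerivAt hΦ'
  rw [← hH] at hHd
  have hinv : ((Φ'.comp ((ContinuousLinearMap.inr ℝ ℝ (E × ℝ)).comp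
      (ContinuousLinearMap.snd ℝ ℝ (E × ℝ)))).comp
        (ContinuousLinearMap.inr ℝ ℝ (E × ℝ))).IsInvertible := by
    set L := (Φ'.comp ((ContinuousLinearMap.inr ℝ ℝ (E × ℝ)).comp
      (ContinuousLinearMap.snd ℝ ℝ (E × ℝ)))).comp (ContinuousLinearMap.inr ℝ ℝ (E × ℝ)) with hLdef
    have hLeq : ∀ p : E × ℝ, L p = fderiv ℝ (fderiv ℝ g) z p.1 v + p.2 • fderiv ℝ g z u := by
      intro p
      rw [← hΦ'v p.1 p.2]
      simp [hLdef]
    have hbij : Function.Bijective L := by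
      have : (L : E × ℝ → F) =
          (fun p : E × ℝ => fderiv ℝ (fderiv ℝ g) z p.1 v + p.2 • fderiv ℝ g z u) := funext hLeq
      rw [this]; exact hL
    refine ⟨(LinearEquiv.ofBijective (L : E × ℝ →ₗ[ℝ] F) hbij).toContinuousLinearEquiv, ?_⟩
    ext p <;> rfl
  have hH0' : ∀ q : ℝ × (E × ℝ), q.1 = 0 → H q = fderiv ℝ g q.2.1 (v + q.2.2 • u) := by
    intro q hq
    rw [hH, avg]
    simp only [hq, mul_zero, blowI, zero_smul, add_zero, intervalIntegral.integral_const, smul_smul]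
    norm_num
  set ψ := hHd.implicitFunctionOfProdDomain hinv with hψ
  have hψ1 := hHd.eventually_apply_eq_iff_implicitFunctionOfProdDomain hinv
  rw [← hψ] at hψ1
  have hH0 : H ((0 : ℝ), (z, (0 : ℝ))) = 0 := by
    rw [hH0' _ rfl]; simp [hker]
  rw [hH0] at hψ1
  have hψ0 : ψ 0 = (z, 0) := by
    have := hψ1.self_of_nhds.1 hH0
    exact this
  have hψc : ∀ᶠ t in 𝓝 (0 : ℝ), ContinuousAt ψ t := by
    obtain ⟨K, s, hs, hlip⟩ :=
      (hHd.hasStrictFDerivAt_implicitFunctionOfProdDomain hinv).exists_lipschitzOnWith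
    filter_upwards [eventually_eventually_nhds.2 hs] with t ht
    exact hlip.continuousOn.continuousAt ht
  have hψt : Tendsto ψ (𝓝 0) (𝓝 (z, 0)) := by
    have := hψc.self_of_nhds
    rwa [ContinuousAt, hψ0] at this
  -- the regular neighbourhood
  have hreg : ∀ᶠ q in 𝓝 ((0 : ℝ), (z, (0 : ℝ))), (2 * q.1) • H q
      = g (q.2.1 + q.1 • (v + q.2.2 • u)) - g (q.2.1 - q.1 • (v + q.2.2 • u)) := by
    have hgood : ∀ᶠ x in 𝓝 z, DifferentiableAt ℝ g x ∧ ContinuousAt (fderiv ℝ g) x := by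
      filter_upwards [hg.eventually (by simp)] with x hx
      exact ⟨hx.differentiableAt (by norm_num),
        (hx.fderiv_right (m := 1) (by norm_num)).continuousAt⟩
    have hP : Tendsto (fun q : ℝ × (E × ℝ) => q.2.1 + q.1 • (v + q.2.2 • u))
        (𝓝 ((0 : ℝ), (z, (0 : ℝ)))) (𝓝 z) := by
      have : ContinuousAt (fun q : ℝ × (E × ℝ) => q.2.1 + q.1 • (v + q.2.2 • u))
        ((0 : ℝ), (z, (0 : ℝ))) := by fun_prop
      simpa [ContinuousAt] using this
    obtain ⟨δ, hδ, hball⟩ := Metric.eventually_nhds_iff_ball.1 (hP.eventually hgood)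
    filter_upwards [ball_mem_nhds _ hδ] with q hq
    have hscale : ∀ t ∈ Icc (-1 : ℝ) 1, (t * q.1, q.2) ∈ ball ((0 : ℝ), (z, (0 : ℝ))) δ := by
      intro t ht
      rw [mem_ball, Prod.dist_eq, max_lt_iff] at hq ⊢
      refine ⟨?_, hq.2⟩
      rw [Real.dist_eq, sub_zero] at hq ⊢
      simp only [abs_mul] at hq ⊢
      have h1 : |t| ≤ 1 := abs_le.2 ht
      calc |t| * |q.1| ≤ 1 * |q.1| := by gcongr
        _ < δ := by rw [one_mul]; exact hq.1
    apply two_mul_avg_blowI
    · intro s hs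
      exact (hball _ (hscale s hs)).1
    · intro s hs
      have h1 := (hball _ (hscale s hs)).2
      have h2 : ContinuousAt (fun s : ℝ => q.2.1 + (s * q.1) • (v + q.2.2 • u)) s := by fun_prop
      have h3 : ContinuousAt (fun s : ℝ => fderiv ℝ g (q.2.1 + (s * q.1) • (v + q.2.2 • u))) s :=
        ContinuousAt.comp (g := fderiv ℝ g) h1 h2
      exact (h3.clm_apply continuousAt_const).continuousWithinAt
  -- smallness of the slope
  have hslope : ∀ ε > 0, ∃ c > 0, ∀ w : E, w ≠ 0 → ‖fderiv ℝ g z w‖ ≤ c * ‖w‖ →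
      a w ≠ 0 ∧ |b w| ≤ ε * |a w| := by
    intro ε hε
    set κ := ‖fderiv ℝ g z u‖ with hκ
    have hκ0 : 0 < κ := norm_pos_iff.2 hu0
    refine ⟨min (κ / (2 * (‖u‖ + 1))) (ε * κ / (2 * (‖v‖ + 1))), by positivity, ?_⟩
    intro w hw hle
    set c := min (κ / (2 * (‖u‖ + 1))) (ε * κ / (2 * (‖v‖ + 1))) with hc
    have hc0 : 0 < c := by rw [hc]; positivity
    have hc1 : c * ‖u‖ ≤ κ / 2 := by
      have h1 : c ≤ κ / (2 * (‖u‖ + 1)) := min_le_left _ _
      calc c * ‖u‖ ≤ κ / (2 * (‖u‖ + 1)) * (‖u‖ + 1) := by gcongr; linarith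
        _ = κ / 2 := by field_simp
    have hc2 : c * ‖v‖ ≤ ε * κ / 2 := by
      have h1 : c ≤ ε * κ / (2 * (‖v‖ + 1)) := min_le_right _ _
      calc c * ‖v‖ ≤ ε * κ / (2 * (‖v‖ + 1)) * (‖v‖ + 1) := by gcongr; linarith
        _ = ε * κ / 2 := by field_simp
    have h1 : fderiv ℝ g z w = b w • fderiv ℝ g z u := by
      conv_lhs => rw [hdec w]
      rw [map_add, map_smul, map_smul, hker, smul_zero, zero_add]
    have h2 : ‖w‖ ≤ |a w| * ‖v‖ + |b w| * ‖u‖ := by
      calc ‖w‖ = ‖a w • v + b w • u‖ := by rw [← hdec w]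
        _ ≤ ‖a w • v‖ + ‖b w • u‖ := norm_add_le _ _
        _ = _ := by rw [norm_smul, norm_smul, Real.norm_eq_abs, Real.norm_eq_abs]
    rw [h1, norm_smul, Real.norm_eq_abs, ← hκ] at hle
    have h3 : |b w| * κ ≤ |a w| * (ε * κ / 2) + |b w| * (κ / 2) := by
      calc |b w| * κ ≤ c * ‖w‖ := hle
        _ ≤ c * (|a w| * ‖v‖ + |b w| * ‖u‖) := by gcongr
        _ = |a w| * (c * ‖v‖) + |b w| * (c * ‖u‖) := by ring
        _ ≤ _ := by gcongr
    have h4 : |b w| * κ ≤ ε * |a w| * κ := by nlinarith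
    have h5 : |b w| ≤ ε * |a w| := le_of_mul_le_mul_right h4 hκ0
    refine ⟨?_, h5⟩
    intro ha
    rw [ha, abs_zero, mul_zero] at h5
    have hb0 : b w = 0 := abs_nonpos_iff.1 h5
    apply hw
    rw [hdec w, ha, hb0]; simp
  have hτe : ∀ t : ℝ, ∀ m : E, ∀ η : ℝ,
      a ((m + t • (v + η • u)) - (m - t • (v + η • u))) / 2 = t := by
    intro t m η
    have : (m + t • (v + η • u)) - (m - t • (v + η • u)) = (2 * t) • (v + η • u) := by
      rw [mul_smul, two_smul]; abel
    rw [this, map_smul, map_add, map_smul, hav, hau]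
    simp
  refine ⟨fun t => ((ψ t).1 + t • (v + (ψ t).2 • u), (ψ t).1 - t • (v + (ψ t).2 • u)),
    fun q => a (q.1 - q.2) / 2, ?_, ?_, ?_, ?_, ?_, fun q hq => by simp [hq]⟩
  · simp [hψ0]
  · filter_upwards [hψc] with t ht
    have h1 : ContinuousAt (fun t => (ψ t).1) t := continuous_fst.continuousAt.comp ht
    have h2 : ContinuousAt (fun t => (ψ t).2) t := continuous_snd.continuousAt.comp ht
    exact (h1.add (continuousAt_id.smul (continuousAt_const.add (h2.smul continuousAt_const)))).prodMk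
      (h1.sub (continuousAt_id.smul (continuousAt_const.add (h2.smul continuousAt_const))))
  · exact Eventually.of_forall fun q => by fun_prop
  · have htend : Tendsto (fun t : ℝ => (t, ψ t)) (𝓝 0) (𝓝 ((0 : ℝ), (z, (0 : ℝ)))) := by
      rw [nhds_prod_eq]
      exact tendsto_id.prodMk hψt
    filter_upwards [htend.eventually (hψ1.and hreg)] with t ht
    refine ⟨?_, hτe t _ _⟩
    obtain ⟨ht1, ht2⟩ := ht
    by_cases ht0 : t = 0
    · right
      rw [ht0, hψ0]
      refine ⟨by simp, ?_⟩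
      intro hinj
      apply hv0
      apply hinj
      simp only [zero_smul, add_zero, map_zero]
      exact hker
    · left
      have hHt : H (t, ψ t) = 0 := ht1.2 rfl
      rw [hHt, smul_zero] at ht2
      refine ⟨?_, ?_⟩
      · intro heq
        have := hτe t (ψ t).1 (ψ t).2
        simp only at heq
        rw [← heq, sub_self, map_zero, zero_div] at this
        exact ht0 this.symm
      · exact sub_eq_zero.1 ht2.symm
  · obtain ⟨δ, hδ, hball⟩ := Metric.eventually_nhds_iff_ball.1 (hψ1.and hreg)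
    obtain ⟨c, hc, hsl⟩ := hslope (δ / 2) (by positivity)
    -- strict differentiability of `g`
    have hgs : HasStrictFDerivAt g (fderiv ℝ g z) z := hg.hasStrictFDerivAt (by norm_num)
    have hE1 : ∀ᶠ q : E × E in 𝓝 (z, z), ‖g q.1 - g q.2 - fderiv ℝ g z (q.1 - q.2)‖
        ≤ c * ‖q.1 - q.2‖ := by
      have := hgs.isLittleO
      exact Asymptotics.isLittleO_iff.1 this hc
    have hE2 : ∀ᶠ x in 𝓝 z, ‖fderiv ℝ g x - fderiv ℝ g z‖ ≤ c := by
      have h1 : ContinuousAt (fderiv ℝ g) z :=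
        (hg.fderiv_right (m := 1) (by norm_num)).continuousAt
      filter_upwards [Metric.continuousAt_iff'.1 h1 c hc] with x hx
      rw [dist_eq_norm] at hx
      exact hx.le
    have hE2' : ∀ᶠ q : E × E in 𝓝 (z, z), ‖fderiv ℝ g q.1 - fderiv ℝ g z‖ ≤ c :=
      (continuous_fst.tendsto' (z, z) z rfl).eventually hE2
    have hE3 : ∀ᶠ q : E × E in 𝓝 (z, z), |a (q.1 - q.2) / 2| < δ := by
      have h1 : Tendsto (fun q : E × E => |a (q.1 - q.2) / 2|) (𝓝 (z, z)) (𝓝 0) := by
        have : Continuous (fun q : E × E => |a (q.1 - q.2) / 2|) := by fun_prop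
        exact this.tendsto' _ _ (by simp)
      exact h1.eventually_lt_const hδ
    have hE4 : ∀ᶠ q : E × E in 𝓝 (z, z), dist ((1 / 2 : ℝ) • (q.1 + q.2)) z < δ := by
      have h1 : Tendsto (fun q : E × E => dist ((1 / 2 : ℝ) • (q.1 + q.2)) z) (𝓝 (z, z)) (𝓝 0) := by
        have : Continuous (fun q : E × E => dist ((1 / 2 : ℝ) • (q.1 + q.2)) z) := by fun_prop
        refine this.tendsto' _ _ ?_
        simp only
        rw [← two_smul ℝ z, smul_smul]
        norm_num
      exact h1.eventually_lt_const hδ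
    filter_upwards [hE1, hE2', hE3, hE4] with q h1 h2 h3 h4 hq
    obtain ⟨x, y⟩ := q
    simp only at h1 h2 h3 h4
    rcases hq with ⟨hne, heq⟩ | ⟨heq, hninj⟩
    · simp only at hne heq
      set w := x - y with hw
      have hw0 : w ≠ 0 := sub_ne_zero.2 hne
      rw [heq, sub_self, zero_sub, norm_neg] at h1
      obtain ⟨haw, hbw⟩ := hsl w hw0 h1
      have hη : |b w / a w| < δ := by
        rw [abs_div, div_lt_iff₀ (abs_pos.2 haw)]
        have : 0 < |a w| := abs_pos.2 haw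
        nlinarith
      have hmem : ((a w / 2, ((1 / 2 : ℝ) • (x + y), b w / a w)) : ℝ × (E × ℝ))
          ∈ ball ((0 : ℝ), (z, (0 : ℝ))) δ := by
        rw [mem_ball, Prod.dist_eq, Prod.dist_eq]
        simp only [Real.dist_eq, sub_zero, max_lt_iff]
        exact ⟨h3, h4, hη⟩
      obtain ⟨hA, hB⟩ := hball _ hmem
      simp only at hA hB
      have hww : (a w / 2) • (v + (b w / a w) • u) = (1 / 2 : ℝ) • w := by
        conv_rhs => rw [hdec w]
        rw [smul_add, smul_add, smul_smul, smul_smul, smul_smul]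
        congr 2
        · ring
        · field_simp
      have hx : (1 / 2 : ℝ) • (x + y) + (1 / 2 : ℝ) • w = x := by
        rw [hw, ← smul_add]
        have : x + y + (x - y) = (2 : ℝ) • x := by rw [two_smul]; abel
        rw [this, smul_smul]; norm_num
      have hy : (1 / 2 : ℝ) • (x + y) - (1 / 2 : ℝ) • w = y := by
        rw [hw, ← smul_sub]
        have : x + y - (x - y) = (2 : ℝ) • y := by rw [two_smul]; abel
        rw [this, smul_smul]; norm_num
      rw [hww, hx, hy, heq, sub_self] at hB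
      have hH00 : H (a w / 2, ((1 / 2 : ℝ) • (x + y), b w / a w)) = 0 := by
        rcases smul_eq_zero.1 hB with h0 | h0
        · exfalso
          apply haw
          linarith
        · exact h0
      have hψw := hA.1 hH00
      simp only [hψw, hww, hx, hy]
    · simp only at heq hninj
      subst heq
      obtain ⟨w, hw1, hw0⟩ : ∃ w, fderiv ℝ g x w = 0 ∧ w ≠ 0 := by
        by_contra hcon
        push Not at hcon
        exact hninj ((injective_iff_map_eq_zero (fderiv ℝ g x)).2 hcon)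
      have hle : ‖fderiv ℝ g z w‖ ≤ c * ‖w‖ := by
        have : fderiv ℝ g z w = -((fderiv ℝ g x - fderiv ℝ g z) w) := by
          simp [hw1]
        rw [this, norm_neg]
        exact (ContinuousLinearMap.le_opNorm _ _).trans (by gcongr)
      obtain ⟨haw, hbw⟩ := hsl w hw0 hle
      have hη : |b w / a w| < δ := by
        rw [abs_div, div_lt_iff₀ (abs_pos.2 haw)]
        have : 0 < |a w| := abs_pos.2 haw
        nlinarith
      have h4' : dist x z < δ := by
        rw [← two_smul ℝ x, smul_smul] at h4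
        norm_num at h4
        exact h4
      have hmem : (((0 : ℝ), (x, b w / a w)) : ℝ × (E × ℝ))
          ∈ ball ((0 : ℝ), (z, (0 : ℝ))) δ := by
        rw [mem_ball, Prod.dist_eq, Prod.dist_eq]
        simp only [Real.dist_eq, sub_zero, max_lt_iff, abs_zero]
        exact ⟨hδ, h4', hη⟩
      obtain ⟨hA, _⟩ := hball _ hmem
      simp only at hA
      have hww : v + (b w / a w) • u = (a w)⁻¹ • w := by
        have h5 : (a w)⁻¹ • w = (a w)⁻¹ • (a w • v + b w • u) := congrArg _ (hdec w)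
        rw [h5, smul_add, smul_smul, smul_smul, inv_mul_cancel₀ haw, one_smul]
        congr 2
        field_simp
      have hH00 : H ((0 : ℝ), (x, b w / a w)) = 0 := by
        rw [hH0' _ rfl]
        simp only
        rw [hww, map_smul, hw1, smul_zero]
      have hψw := hA.1 hH00
      rw [hψ0] at hψw
      have hxz : z = x := congrArg Prod.fst hψw
      simp only [sub_self, map_zero, zero_div, zero_smul, add_zero, sub_zero, hψ0]
      rw [← hxz]

theorem LC_crosscap (hg : ContDiffAt ℝ 2 g z) (a b : E →L[ℝ] ℝ) (hav : a v = 1) (hau : a u = 0)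
    (hdec : ∀ x, x = a x • v + b x • u)
    (hker : fderiv ℝ g z v = 0)
    (hL : Function.Bijective
      (fun p : E × ℝ => fderiv ℝ (fderiv ℝ g) z p.1 v + p.2 • fderiv ℝ g z u)) :
    LC (dbl g) (z, z) ∧ ∀ᶠ x in 𝓝 z, ¬ Function.Injective (fderiv ℝ g x) → x = z := by
  obtain ⟨e, τ, h0, h1, h2, h3, h4, h5⟩ := LC_crosscap_aux hg a b hav hau hdec hker hL
  refine ⟨⟨e, τ, h0, h1, h2, h3, h4⟩, ?_⟩
  have ht : Tendsto (fun x : E => (x, x)) (𝓝 z) (𝓝 (z, z)) :=
    (Continuous.prodMk continuous_id continuous_id).tendsto' z (z, z) rfl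
  filter_upwards [ht.eventually h4] with x hx hninj
  have h6 := hx (Or.inr ⟨rfl, hninj⟩)
  rw [h5 (x, x) rfl, h0] at h6
  exact (congrArg Prod.fst h6).symm

/-- near an immersion point there are no double points -/
theorem eventually_notMem_dbl (hg : ContDiffAt ℝ 1 g z)
    (hinj : Function.Injective (fderiv ℝ g z)) : ∀ᶠ q in 𝓝 (z, z), q ∉ dbl g := by
  obtain ⟨K, hK, hKa⟩ := (fderiv ℝ g z : E →ₗ[ℝ] F).exists_antilipschitzWith
    (LinearMap.ker_eq_bot.2 hinj)
  have hKpos : (0 : ℝ) < K := by exact_mod_cast hK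
  have hlow : ∀ w : E, ‖w‖ ≤ K * ‖fderiv ℝ g z w‖ := fun w => by
    have := hKa.le_mul_dist w 0
    simpa using this
  have hc : 0 < 1 / (2 * (K : ℝ)) := by positivity
  have hgs : HasStrictFDerivAt g (fderiv ℝ g z) z := hg.hasStrictFDerivAt (by norm_num)
  have hE1 : ∀ᶠ q : E × E in 𝓝 (z, z), ‖g q.1 - g q.2 - fderiv ℝ g z (q.1 - q.2)‖
      ≤ 1 / (2 * (K : ℝ)) * ‖q.1 - q.2‖ :=
    Asymptotics.isLittleO_iff.1 hgs.isLittleO hc
  have hE2 : ∀ᶠ x in 𝓝 z, ‖fderiv ℝ g x - fderiv ℝ g z‖ ≤ 1 / (2 * (K : ℝ)) := by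
    have h1 : ContinuousAt (fderiv ℝ g) z :=
      (hg.fderiv_right (m := 0) (by norm_num)).continuousAt
    filter_upwards [Metric.continuousAt_iff'.1 h1 _ hc] with x hx
    rw [dist_eq_norm] at hx
    exact hx.le
  have hE2' : ∀ᶠ q : E × E in 𝓝 (z, z), ‖fderiv ℝ g q.1 - fderiv ℝ g z‖ ≤ 1 / (2 * (K : ℝ)) :=
    (continuous_fst.tendsto' (z, z) z rfl).eventually hE2
  have hkey : ∀ w : E, ‖fderiv ℝ g z w‖ ≤ 1 / (2 * (K : ℝ)) * ‖w‖ → w = 0 := by
    intro w hw
    have h1 := hlow w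
    have h2 : (K : ℝ) * ‖fderiv ℝ g z w‖ ≤ (1 / 2) * ‖w‖ := by
      calc (K : ℝ) * ‖fderiv ℝ g z w‖ ≤ K * (1 / (2 * (K : ℝ)) * ‖w‖) := by gcongr
        _ = (1 / 2) * ‖w‖ := by field_simp
    have h3 : ‖w‖ ≤ 0 := by linarith
    exact norm_le_zero_iff.1 h3
  filter_upwards [hE1, hE2'] with q h1 h2 hq
  obtain ⟨x, y⟩ := q
  simp only at h1 h2
  rcases hq with ⟨hne, heq⟩ | ⟨_, hninj⟩
  · simp only at hne heq
    rw [heq, sub_self, zero_sub, norm_neg] at h1
    exact hne (sub_eq_zero.1 (hkey _ h1))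
  · simp only at hninj
    apply hninj
    refine (injective_iff_map_eq_zero (fderiv ℝ g x)).2 fun w hw => hkey w ?_
    have : fderiv ℝ g z w = -((fderiv ℝ g x - fderiv ℝ g z) w) := by
      simp [hw]
    rw [this, norm_neg]
    exact (ContinuousLinearMap.le_opNorm _ _).trans (by gcongr)

end crosscap

end Crest.Agent.R216.D3
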