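import Crest.Agent.R216.D0
import Crest.Agent.R216.D2
import Crest.Agent.R216.D3Local

/-! Row 216 (D), module D3: the number of cross-caps in each component is even (owner: helper30). -/

set_option autoImplicit false
open scoped Manifold ContDiff Topology
open Set Metric Function

namespace Crest.Agent.R216.D

namespace D3aux

open Filter Crest.Agent.R216.D3

/-! ### Linear algebra -/

theorem exists_frame {v : E2} (hv : v ≠ 0) : ∃ (u : E2) (a b : E2 →L[ℝ] ℝ),
    a v = 1 ∧ a u = 0 ∧ b u = 1 ∧ ∀ x, x = a x • v + b x • u := by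
  set N : ℝ := v 0 ^ 2 + v 1 ^ 2 with hN
  have hN0 : N ≠ 0 := by
    intro h0
    apply hv
    have h1 : v 0 = 0 := by nlinarith [sq_nonneg (v 0), sq_nonneg (v 1)]
    have h2 : v 1 = 0 := by nlinarith [sq_nonneg (v 0), sq_nonneg (v 1)]
    ext i
    fin_cases i
    · simpa using h1
    · simpa using h2
  refine ⟨!₂[-v 1, v 0], (1 / N) • (v 0 • EuclideanSpace.proj 0 + v 1 • EuclideanSpace.proj 1),
    (1 / N) • (-v 1 • EuclideanSpace.proj 0 + v 0 • EuclideanSpace.proj 1), ?_, ?_, ?_, ?_⟩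
  · simp
    field_simp
    rw [hN]
  · simp
    ring
  · simp
    field_simp
    rw [hN]; ring
  · intro x
    ext i
    fin_cases i
    · simp
      field_simp
      rw [hN]; ring
    · simp
      field_simp
      rw [hN]; ring

/-- nondegeneracy gives the hypothesis of `LC_crosscap` -/
theorem bijective_of_nondeg {g : E2 → E3} {z v u : E2} {a b : E2 →L[ℝ] ℝ} (hav : a v = 1)
    (hau : a u = 0) (hbu : b u = 1) (hnd : Nondeg (fderiv ℝ g) z) (hker : fderiv ℝ g z v = 0) :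
    Bijective (fun p : E2 × ℝ => fderiv ℝ (fderiv ℝ g) z p.1 v + p.2 • fderiv ℝ g z u) := by
  have hv : v ≠ 0 := by rintro rfl; simp at hav
  let f : E2 × ℝ →ₗ[ℝ] E3 := LinearMap.coprod
    (((fderiv ℝ (fderiv ℝ g) z).flip v : E2 →L[ℝ] E3) : E2 →ₗ[ℝ] E3)
    (LinearMap.toSpanSingleton ℝ E3 (fderiv ℝ g z u))
  have hf : ∀ p, f p = fderiv ℝ (fderiv ℝ g) z p.1 v + p.2 • fderiv ℝ g z u := by
    intro p
    simp [f, LinearMap.coprod_apply]
  have hinj : Injective f := by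
    refine (injective_iff_map_eq_zero f).2 fun p hp => ?_
    rw [hf] at hp
    obtain ⟨h1, τ, h2⟩ := hnd v hv hker p.1 (p.2 • u) (by rw [map_smul]; exact hp)
    have h3 := congrArg a h2
    rw [map_smul, map_smul, hav, hau] at h3
    have hτ : τ = 0 := by simpa using h3.symm
    rw [hτ, zero_smul] at h2
    have h4 := congrArg b h2
    rw [map_smul, hbu, map_zero] at h4
    ext1
    · exact h1
    · simpa using h4
  have hdim : Module.finrank ℝ (E2 × ℝ) = Module.finrank ℝ E3 := by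
    rw [Module.finrank_prod]; simp
  have hsurj := (LinearMap.injective_iff_surjective_of_finrank_eq_finrank hdim).1 hinj
  have : (fun p : E2 × ℝ => fderiv ℝ (fderiv ℝ g) z p.1 v + p.2 • fderiv ℝ g z u) = f :=
    funext fun p => (hf p).symm
  rw [this]
  exact ⟨hinj, hsurj⟩

/-- planar version of the local structure near a singular point -/
theorem LC_dbl {g : E2 → E3} {z : E2} (hg : ContDiffAt ℝ 2 g z) (hnd : Nondeg (fderiv ℝ g) z)
    (hsing : ¬ Injective (fderiv ℝ g z)) :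
    LC (dbl g) (z, z) ∧ ∀ᶠ x in 𝓝 z, ¬ Injective (fderiv ℝ g x) → x = z := by
  obtain ⟨v, hv1, hv0⟩ : ∃ v, fderiv ℝ g z v = 0 ∧ v ≠ 0 := by
    by_contra hcon
    push Not at hcon
    exact hsing ((injective_iff_map_eq_zero (fderiv ℝ g z)).2 hcon)
  obtain ⟨u, a, b, hav, hau, hbu, hdec⟩ := exists_frame hv0
  exact LC_crosscap hg a b hav hau hdec hv1 (bijective_of_nondeg hav hau hbu hnd hv1)

/-! ### The completed double point set -/

section Wbar

variable {M : Type*} [TopologicalSpace M] [ChartedSpace E2 M]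

/-- the completed double point set -/
def Wb (G : M → E3) : Set (M × M) :=
  {q | (q.1 ≠ q.2 ∧ G q.1 = G q.2) ∨ (q.1 = q.2 ∧ q.1 ∈ sing G)}

variable [IsManifold (𝓡 2) ∞ M]

theorem mem_sing_iff' {G : M → E3} (hG : ContMDiff (𝓡 2) 𝓘(ℝ, E3) ∞ G)
    {c : OpenPartialHomeomorph M E2} (hc : c ∈ IsManifold.maximalAtlas (𝓡 2) ∞ M)
    {x : M} (hx : x ∈ c.source) : x ∈ sing G ↔ ¬ Injective (fderiv ℝ (G ∘ c.symm) (c x)) := by
  have h := mem_sing_iff hG hc (c.map_source hx)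
  rw [c.left_inv hx] at h
  rw [h, injective_iff_map_eq_zero]
  push Not
  constructor
  · rintro ⟨e, he, h0⟩; exact ⟨e, h0, he⟩
  · rintro ⟨e, he, h0⟩; exact ⟨e, h0, he⟩

theorem contDiffAt_chart {G : M → E3} (hG : ContMDiff (𝓡 2) 𝓘(ℝ, E3) ∞ G)
    {c : OpenPartialHomeomorph M E2} (hc : c ∈ IsManifold.maximalAtlas (𝓡 2) ∞ M)
    {u : E2} (hu : u ∈ c.target) : ContDiffAt ℝ ∞ (G ∘ c.symm) u :=
  (contDiffOn_chart hG hc).contDiffAt (c.open_target.mem_nhds hu)

/-- membership near the diagonal, in a chart -/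
theorem mem_Wb_iff_dbl {G : M → E3} (hG : ContMDiff (𝓡 2) 𝓘(ℝ, E3) ∞ G)
    {c : OpenPartialHomeomorph M E2} (hc : c ∈ IsManifold.maximalAtlas (𝓡 2) ∞ M)
    {q : M × M} (h1 : q.1 ∈ c.source) (h2 : q.2 ∈ c.source) :
    q ∈ Wb G ↔ (c.prod c) q ∈ dbl (G ∘ c.symm) := by
  have hinj : c q.1 = c q.2 ↔ q.1 = q.2 := c.injOn.eq_iff h1 h2
  simp only [Wb, dbl, mem_ofPred_eq, OpenPartialHomeomorph.prod_apply, Function.comp,
    c.left_inv h1, c.left_inv h2, ne_eq, hinj]
  rw [mem_sing_iff' hG hc h1]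

omit [ChartedSpace E2 M] [IsManifold (𝓡 2) ∞ M] in
theorem eventually_mem_source {c c' : OpenPartialHomeomorph M E2} {q : M × M}
    (h1 : q.1 ∈ c.source) (h2 : q.2 ∈ c'.source) :
    ∀ᶠ p in 𝓝 q, p.1 ∈ c.source ∧ p.2 ∈ c'.source :=
  (continuous_fst.continuousAt.eventually (c.open_source.mem_nhds h1)).and
    (continuous_snd.continuousAt.eventually (c'.open_source.mem_nhds h2))

/-- local structure at a cross-cap -/
theorem LC_Wb_diag {G : M → E3} (hG : ContMDiff (𝓡 2) 𝓘(ℝ, E3) ∞ G)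
    {c : OpenPartialHomeomorph M E2} (hc : c ∈ IsManifold.maximalAtlas (𝓡 2) ∞ M)
    {x : M} (hx : x ∈ c.source) (hnd : Nondeg (fderiv ℝ (G ∘ c.symm)) (c x))
    (hsing : x ∈ sing G) : LC (Wb G) (x, x) := by
  have hg := contDiffAt_chart hG hc (c.map_source hx)
  have h1 := (LC_dbl (hg.of_le ENat.LEInfty.out) hnd ((mem_sing_iff' hG hc hx).1 hsing)).1
  refine LC.of_chart (c.prod c) (T := dbl (G ∘ c.symm)) ?_ ?_ ?_
  · rw [OpenPartialHomeomorph.prod_source]; exact ⟨hx, hx⟩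
  · filter_upwards [eventually_mem_source (q := (x, x)) hx hx] with q hq
    exact mem_Wb_iff_dbl hG hc hq.1 hq.2
  · exact h1

/-- cross-caps are isolated -/
theorem eventually_sing_eq {G : M → E3} (hG : ContMDiff (𝓡 2) 𝓘(ℝ, E3) ∞ G)
    {c : OpenPartialHomeomorph M E2} (hc : c ∈ IsManifold.maximalAtlas (𝓡 2) ∞ M)
    {x : M} (hx : x ∈ c.source) (hnd : Nondeg (fderiv ℝ (G ∘ c.symm)) (c x))
    (hsing : x ∈ sing G) : ∀ᶠ y in 𝓝 x, y ∈ sing G → y = x := by
  have hg := contDiffAt_chart hG hc (c.map_source hx)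
  have h1 := (LC_dbl (hg.of_le ENat.LEInfty.out) hnd ((mem_sing_iff' hG hc hx).1 hsing)).2
  have h2 : Tendsto c (𝓝 x) (𝓝 (c x)) := c.continuousAt hx
  filter_upwards [h2.eventually h1, c.open_source.mem_nhds hx] with y hy1 hy2 hy3
  exact c.injOn hy2 hx (hy1 ((mem_sing_iff' hG hc hy2).1 hy3))

/-- near a nonsingular diagonal point there are no double points -/
theorem eventually_notMem_Wb {G : M → E3} (hG : ContMDiff (𝓡 2) 𝓘(ℝ, E3) ∞ G)
    {c : OpenPartialHomeomorph M E2} (hc : c ∈ IsManifold.maximalAtlas (𝓡 2) ∞ M)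
    {x : M} (hx : x ∈ c.source) (hsing : x ∉ sing G) : ∀ᶠ q in 𝓝 (x, x), q ∉ Wb G := by
  have hg := contDiffAt_chart hG hc (c.map_source hx)
  have hinj : Injective (fderiv ℝ (G ∘ c.symm) (c x)) := by
    by_contra h
    exact hsing ((mem_sing_iff' hG hc hx).2 h)
  have h1 := eventually_notMem_dbl (hg.of_le ENat.LEInfty.out) hinj
  have h2 : Tendsto (c.prod c) (𝓝 (x, x)) (𝓝 (c x, c x)) := by
    have := (c.prod c).continuousAt (x := (x, x))
      (by rw [OpenPartialHomeomorph.prod_source]; exact ⟨hx, hx⟩)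
    exact this
  filter_upwards [h2.eventually h1, eventually_mem_source (q := (x, x)) hx hx] with q hq1 hq2 hq3
  exact hq1 ((mem_Wb_iff_dbl hG hc hq2.1 hq2.2).1 hq3)

/-- local structure at a transversal double pair -/
theorem LC_Wb_offdiag [T2Space M] {G : M → E3} (hG : ContMDiff (𝓡 2) 𝓘(ℝ, E3) ∞ G)
    {c c' : OpenPartialHomeomorph M E2} (hc : c ∈ IsManifold.maximalAtlas (𝓡 2) ∞ M)
    (hc' : c' ∈ IsManifold.maximalAtlas (𝓡 2) ∞ M) {x y : M} (hx : x ∈ c.source)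
    (hy : y ∈ c'.source) (hne : x ≠ y) (heq : G x = G y)
    (hT : ∀ w : E3, ∃ a b : E2,
      fderiv ℝ (G ∘ c.symm) (c x) a - fderiv ℝ (G ∘ c'.symm) (c' y) b = w) :
    LC (Wb G) (x, y) := by
  have hg := contDiffAt_chart hG hc (c.map_source hx)
  have hg' := contDiffAt_chart hG hc' (c'.map_source hy)
  let f : E2 × E2 → E3 := fun p => (G ∘ c.symm) p.1 - (G ∘ c'.symm) p.2
  let f' : E2 × E2 →L[ℝ] E3 := (fderiv ℝ (G ∘ c.symm) (c x)).comp (ContinuousLinearMap.fst ℝ E2 E2)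
    - (fderiv ℝ (G ∘ c'.symm) (c' y)).comp (ContinuousLinearMap.snd ℝ E2 E2)
  have hf : HasStrictFDerivAt f f' (c x, c' y) := by
    have h1 : HasStrictFDerivAt (G ∘ c.symm) (fderiv ℝ (G ∘ c.symm) (c x)) (c x) :=
      hg.hasStrictFDerivAt (by simp)
    have h2 : HasStrictFDerivAt (G ∘ c'.symm) (fderiv ℝ (G ∘ c'.symm) (c' y)) (c' y) :=
      hg'.hasStrictFDerivAt (by simp)
    have h3 : HasStrictFDerivAt (fun p : E2 × E2 => (G ∘ c.symm) p.1)
        ((fderiv ℝ (G ∘ c.symm) (c x)).comp (ContinuousLinearMap.fst ℝ E2 E2)) (c x, c' y) :=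
      HasStrictFDerivAt.comp (c x, c' y) (g := G ∘ c.symm) h1
        (ContinuousLinearMap.fst ℝ E2 E2).hasStrictFDerivAt
    have h4 : HasStrictFDerivAt (fun p : E2 × E2 => (G ∘ c'.symm) p.2)
        ((fderiv ℝ (G ∘ c'.symm) (c' y)).comp (ContinuousLinearMap.snd ℝ E2 E2)) (c x, c' y) :=
      HasStrictFDerivAt.comp (c x, c' y) (g := G ∘ c'.symm) h2
        (ContinuousLinearMap.snd ℝ E2 E2).hasStrictFDerivAt
    exact h3.sub h4
  have hsurj : f'.range = ⊤ := by
    refine LinearMap.range_eq_top.2 fun w => ?_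
    obtain ⟨a, b, hab⟩ := hT w
    exact ⟨(a, b), hab⟩
  have hdim : Module.finrank ℝ f'.ker = 1 := by
    have h1 := LinearMap.finrank_range_add_finrank_ker (f' : E2 × E2 →ₗ[ℝ] E3)
    have h2 : LinearMap.range (f' : E2 × E2 →ₗ[ℝ] E3) = ⊤ := hsurj
    rw [h2, finrank_top, Module.finrank_prod] at h1
    simp only [finrank_euclideanSpace, Fintype.card_fin] at h1
    have h3 : Module.finrank ℝ (LinearMap.ker (f' : E2 × E2 →ₗ[ℝ] E3)) = 1 := by omega
    exact h3
  have hLC := LC_of_submersion hf hsurj hdim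
  have hf0 : f (c x, c' y) = 0 := by
    simp only [f, Function.comp, c.left_inv hx, c'.left_inv hy, heq, sub_self]
  rw [hf0] at hLC
  refine LC.of_chart (c.prod c') (T := {q | f q = 0}) ?_ ?_ ?_
  · rw [OpenPartialHomeomorph.prod_source]; exact ⟨hx, hy⟩
  · have hne' : ∀ᶠ q : M × M in 𝓝 (x, y), q.1 ≠ q.2 :=
      (isOpen_ne_fun continuous_fst continuous_snd).mem_nhds hne
    filter_upwards [eventually_mem_source (q := (x, y)) hx hy, hne'] with q hq1 hq2
    simp only [Wb, mem_ofPred_eq, f, OpenPartialHomeomorph.prod_apply, Function.comp,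
      c.left_inv hq1.1, c'.left_inv hq1.2, sub_eq_zero]
    constructor
    · rintro (h | h)
      · exact h.2
      · exact absurd h.1 hq2
    · intro h; exact Or.inl ⟨hq2, h⟩
  · exact hLC

end Wbar

end D3aux

variable {M : Type*} [TopologicalSpace M] [T2Space M] [CompactSpace M] [ChartedSpace E2 M]
  [IsManifold (𝓡 2) ∞ M]

theorem finite_sing (𝒜 : BallAtlas M) {G : M → E3} (hG : ContMDiff (𝓡 2) 𝓘(ℝ, E3) ∞ G)
    (hN : ∀ i, ∀ u ∈ (𝒜.c i).target, Nondeg (fderiv ℝ (G ∘ (𝒜.c i).symm)) u) :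
    (sing G).Finite := by
  have hclosed : IsClosed (sing G) := by
    rw [← isOpen_compl_iff, isOpen_iff_mem_nhds]
    intro x hx
    obtain ⟨i, hxi, -⟩ := 𝒜.cover x
    have h1 := D3aux.eventually_notMem_Wb hG (𝒜.mem i) hxi hx
    have ht : Filter.Tendsto (fun y : M => (y, y)) (𝓝 x) (𝓝 (x, x)) :=
      (Continuous.prodMk continuous_id continuous_id).tendsto' x (x, x) rfl
    filter_upwards [ht.eventually h1] with y hy hy'
    exact hy (Or.inr ⟨rfl, hy'⟩)
  have hcpt : IsCompact (sing G) := hclosed.isCompact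
  refine hcpt.finite ?_
  rw [isDiscrete_iff_forall_mem_exists_isOpen]
  intro x hx
  obtain ⟨i, hxi, -⟩ := 𝒜.cover x
  have h1 := D3aux.eventually_sing_eq hG (𝒜.mem i) hxi
    (hN i _ ((𝒜.c i).map_source hxi)) hx
  obtain ⟨U, hU, hUo, hxU⟩ := eventually_nhds_iff.1 h1
  refine ⟨U, hUo, ?_⟩
  ext y
  simp only [mem_inter_iff, mem_singleton_iff]
  constructor
  · rintro ⟨h2, h3⟩; exact hU y h2 h3
  · rintro rfl; exact ⟨hxU, hx⟩

/-- the completed double point set is closed -/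
theorem D3aux.isClosed_Wb (𝒜 : BallAtlas M) {G : M → E3} (hG : ContMDiff (𝓡 2) 𝓘(ℝ, E3) ∞ G) :
    IsClosed (D3aux.Wb G) := by
  rw [← isOpen_compl_iff, isOpen_iff_mem_nhds]
  rintro ⟨x, y⟩ hq
  by_cases hxy : x = y
  · subst hxy
    obtain ⟨i, hxi, -⟩ := 𝒜.cover x
    have hs : x ∉ sing G := fun h => hq (Or.inr ⟨rfl, h⟩)
    exact D3aux.eventually_notMem_Wb hG (𝒜.mem i) hxi hs
  · have hne' : ∀ᶠ q : M × M in 𝓝 (x, y), q.1 ≠ q.2 :=
      (isOpen_ne_fun continuous_fst continuous_snd).mem_nhds hxy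
    have hGxy : G x ≠ G y := fun h => hq (Or.inl ⟨hxy, h⟩)
    have hne2 : ∀ᶠ q : M × M in 𝓝 (x, y), G q.1 ≠ G q.2 :=
      (isOpen_ne_fun (hG.continuous.comp continuous_fst)
        (hG.continuous.comp continuous_snd)).mem_nhds hGxy
    filter_upwards [hne', hne2] with q h1 h2 h3
    rcases h3 with h3 | h3
    · exact h2 h3.2
    · exact h1 h3.1

theorem even_sing (𝒜 : BallAtlas M) {G : M → E3} (hG : ContMDiff (𝓡 2) 𝓘(ℝ, E3) ∞ G)
    (hT : Transverse 𝒜 G)
    (hN : ∀ i, ∀ u ∈ (𝒜.c i).target, Nondeg (fderiv ℝ (G ∘ (𝒜.c i).symm)) u) (x : M) :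
    Even (sing G ∩ connectedComponent x).ncard := by
  have hfin := finite_sing 𝒜 hG hN
  have hlc : LocallyConnectedSpace M := ChartedSpace.locallyConnectedSpace E2 M
  set C : Set M := connectedComponent x with hC
  have hCo : IsOpen C := isOpen_connectedComponent
  have hCc : IsClosed C := isClosed_connectedComponent
  let S : Set (M × M) := D3aux.Wb G ∩ (C ×ˢ C)
  have hSc : IsClosed S := (D3aux.isClosed_Wb 𝒜 hG).inter (hCc.prod hCc)
  have hScomp : CompactSpace S := isCompact_iff_compactSpace.1 hSc.isCompact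
  have hLC : ∀ q ∈ S, Crest.Agent.R216.D3.LC S q := by
    rintro ⟨y, z⟩ ⟨hq, hq1, hq2⟩
    simp only at hq1 hq2
    have h1 : Crest.Agent.R216.D3.LC (D3aux.Wb G) (y, z) := by
      obtain ⟨i, hyi, -⟩ := 𝒜.cover y
      rcases hq with ⟨hne, heq⟩ | ⟨heq, hs⟩
      · simp only at hne heq
        obtain ⟨j, hzj, -⟩ := 𝒜.cover z
        refine D3aux.LC_Wb_offdiag hG (𝒜.mem i) (𝒜.mem j) hyi hzj hne heq ?_
        refine hT i j _ ((𝒜.c i).map_source hyi) _ ((𝒜.c j).map_source hzj) ?_ ?_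
        · rwa [(𝒜.c i).left_inv hyi, (𝒜.c j).left_inv hzj]
        · rwa [(𝒜.c i).left_inv hyi, (𝒜.c j).left_inv hzj]
      · simp only at heq hs
        subst heq
        exact D3aux.LC_Wb_diag hG (𝒜.mem i) hyi (hN i _ ((𝒜.c i).map_source hyi)) hs
    refine h1.congr ?_
    have h2 : ∀ᶠ q : M × M in 𝓝 (y, z), q ∈ C ×ˢ C := (hCo.prod hCo).mem_nhds ⟨hq1, hq2⟩
    filter_upwards [h2] with q hq
    simp only [S, mem_inter_iff, hq, and_true]
  have hswap : ∀ q ∈ S, Prod.swap q ∈ S := by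
    rintro ⟨y, z⟩ ⟨hq, hq1, hq2⟩
    refine ⟨?_, hq2, hq1⟩
    rcases hq with ⟨hne, heq⟩ | ⟨heq, hs⟩
    · exact Or.inl ⟨fun h => hne h.symm, heq.symm⟩
    · simp only at heq hs
      subst heq
      exact Or.inr ⟨rfl, hs⟩
  let σ : S → S := fun q => ⟨Prod.swap q.1, hswap q.1 q.2⟩
  have hσc : Continuous σ :=
    (continuous_swap.comp continuous_subtype_val).subtype_mk _
  have hσi : Function.Involutive σ := fun q => Subtype.ext (Prod.swap_swap _)
  have hfix : ∀ q : S, σ q = q ↔ q.1.1 = q.1.2 := by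
    intro q
    constructor
    · intro h
      have := congrArg (fun p : S => p.1.2) h
      exact this
    · intro h
      apply Subtype.ext
      exact Prod.ext h.symm h
  have himg : sing G ∩ C = (fun q : S => q.1.1) '' {q | σ q = q} := by
    ext y
    constructor
    · rintro ⟨hy1, hy2⟩
      exact ⟨⟨(y, y), Or.inr ⟨rfl, hy1⟩, hy2, hy2⟩, (hfix _).2 rfl, rfl⟩
    · rintro ⟨q, hq, rfl⟩
      have h1 : q.1.1 = q.1.2 := (hfix q).1 hq
      obtain ⟨hq1, hq2, hq3⟩ := q.2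
      refine ⟨?_, hq2⟩
      rcases hq1 with h2 | h2
      · exact absurd h1 h2.1
      · exact h2.2
  have hinj : Set.InjOn (fun q : S => q.1.1) {q | σ q = q} := by
    intro p hp q hq hpq
    have h1 : p.1.1 = p.1.2 := (hfix p).1 hp
    have h2 : q.1.1 = q.1.2 := (hfix q).1 hq
    simp only at hpq
    apply Subtype.ext
    exact Prod.ext hpq (by rw [← h1, ← h2, hpq])
  have hfinσ : {q : S | σ q = q}.Finite := by
    refine Set.Finite.of_finite_image ?_ hinj
    rw [← himg]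
    exact hfin.subset inter_subset_left
  have hev := even_fixed (W := S) (fun w => (hLC w.1 w.2).exists_isOpenEmbedding) σ hσc hσi hfinσ
  rw [himg, hinj.ncard_image]
  exact hev

end Crest.Agent.R216.D
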