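import Crest.Agent.R216.DDefs

/-! Row 216 (D), module D4: definitions for the planar part (sections of `a^⊥`). -/

set_option autoImplicit false
open scoped Manifold ContDiff Topology
open Set Metric Function

namespace Crest.Agent.R216.D

/-- cross product on `E3` -/
def cr (a b : E3) : E3 :=
  !₂[a 1 * b 2 - a 2 * b 1, a 2 * b 0 - a 0 * b 2, a 0 * b 1 - a 1 * b 0]

/-- multiplication by the complex number `q` on the plane `a^⊥` oriented by `a` -/
noncomputable def act (a : E3) (q : ℂ) (b : E3) : E3 :=
  q.re • b + (q.im / ‖a‖) • cr a b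

/-- the plane as complex numbers -/
noncomputable def toC : E2 ≃ₗᵢ[ℝ] ℂ := Complex.orthonormalBasisOneI.repr.symm

/-- standard basis of the plane -/
noncomputable def u1 : E2 := EuclideanSpace.single 0 1
/-- standard basis of the plane -/
noncomputable def u2 : E2 := EuclideanSpace.single 1 1

/-- `b` is a smooth section of `a^⊥` over `T` with simple zeros -/
structure Sec (T : Set E2) (a b : E2 → E3) : Prop where
  ha : ContDiffOn ℝ ∞ a T
  ha0 : ∀ u ∈ T, a u ≠ 0
  hb : ContDiffOn ℝ ∞ b T
  hab : ∀ u ∈ T, inner ℝ (a u) (b u) = 0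
  simple : ∀ u ∈ T, b u = 0 → Injective (fderiv ℝ b u)

/-- orientation character of a zero of the section `b` of `a^⊥` -/
noncomputable def sgnAt (a b : E2 → E3) (u : E2) : ℝ :=
  inner ℝ (a u) (cr (fderiv ℝ b u u1) (fderiv ℝ b u u2))

/-- non-injectivity of a linear map -/
def Sing (L : E2 →L[ℝ] E3) : Prop := ∃ e : E2, e ≠ 0 ∧ L e = 0

end Crest.Agent.R216.D
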