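import Crest.Agent.R216.D0
import Crest.Agent.R216.D4Defs
import Crest.Agent.R216.GlobChart

/-! Row 216 (D), module D4Lift: lifting planar modifications to formal data; chart invariance
(owner: helper86). -/

set_option autoImplicit false
set_option linter.unusedSectionVars false
open scoped Manifold ContDiff Topology
open Set Metric Function

namespace Crest.Agent.R216.D

section leftInv
variable {V : Type*} [NormedAddCommGroup V] [InnerProductSpace ℝ V]

/-- Gram determinant -/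
noncomputable def gramDet (D : E2 →L[ℝ] V) : ℝ :=
  inner ℝ (D u1) (D u1) * inner ℝ (D u2) (D u2) - inner ℝ (D u1) (D u2) ^ 2

/-- left inverse of an injective map `E2 → V` -/
noncomputable def leftInv (D : E2 →L[ℝ] V) : V →L[ℝ] E2 :=
  (gramDet D)⁻¹ •
    ((inner ℝ (D u2) (D u2) • innerSL ℝ (D u1) - inner ℝ (D u1) (D u2) • innerSL ℝ (D u2)).smulRight u1
      + (inner ℝ (D u1) (D u1) • innerSL ℝ (D u2) - inner ℝ (D u1) (D u2) • innerSL ℝ (D u1)).smulRight u2)

lemma e2_decomp (v : E2) : v = v 0 • u1 + v 1 • u2 := by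
  ext i
  fin_cases i <;> simp [u1, u2]

lemma gramDet_pos {D : E2 →L[ℝ] V} (hD : Injective D) : 0 < gramDet D := by
  have h1 : D u1 ≠ 0 := by
    intro h
    have : u1 = 0 := hD (by simpa using h)
    have := congrArg (fun v : E2 => v 0) this
    simp [u1] at this
  have h1' : 0 < inner ℝ (D u1) (D u1) := real_inner_self_pos.2 h1
  set w : E2 := u2 - (inner ℝ (D u1) (D u2) / inner ℝ (D u1) (D u1)) • u1 with hw
  have hw0 : D w ≠ 0 := by
    intro h
    have : w = 0 := hD (by simpa using h)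
    have := congrArg (fun v : E2 => v 1) this
    simp [u1, u2, hw] at this
  have h2 : 0 < inner ℝ (D w) (D w) := real_inner_self_pos.2 hw0
  have h3 : inner ℝ (D u1) (D u1) * inner ℝ (D w) (D w) = gramDet D := by
    rw [hw]
    simp only [map_sub, map_smul, inner_sub_left, inner_sub_right, inner_smul_left, inner_smul_right,
      gramDet, real_inner_comm (D u1) (D u2)]
    simp only [conj_trivial]
    field_simp
    ring
  rw [← h3]
  positivity

lemma leftInv_apply {D : E2 →L[ℝ] V} (hD : Injective D) (v : E2) : leftInv D (D v) = v := by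
  have h := gramDet_pos hD
  conv_rhs => rw [e2_decomp v]
  conv_lhs => rw [e2_decomp v]
  simp only [leftInv, map_add, map_smul, smul_apply, add_apply,
    ContinuousLinearMap.smulRight_apply, sub_apply, innerSL_apply_apply, smul_eq_mul]
  have e1 : (inner ℝ (D u2) (D u2) * inner ℝ (D u1) (D u1) - inner ℝ (D u1) (D u2) * inner ℝ (D u2) (D u1))
      = gramDet D := by
    rw [gramDet, real_inner_comm (D u1) (D u2)]; ring
  have e2 : (inner ℝ (D u2) (D u2) * inner ℝ (D u1) (D u2) - inner ℝ (D u1) (D u2) * inner ℝ (D u2) (D u2))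
      = 0 := by ring
  have e3 : (inner ℝ (D u1) (D u1) * inner ℝ (D u2) (D u1) - inner ℝ (D u1) (D u2) * inner ℝ (D u1) (D u1))
      = 0 := by rw [real_inner_comm (D u1) (D u2)]; ring
  have e4 : (inner ℝ (D u1) (D u1) * inner ℝ (D u2) (D u2) - inner ℝ (D u1) (D u2) * inner ℝ (D u1) (D u2))
      = gramDet D := by
    rw [gramDet]; ring
  rw [e1, e2, e3, e4]
  simp only [zero_smul, add_zero, zero_add, smul_add, smul_smul]
  rw [inv_mul_cancel₀ h.ne', mul_one, mul_one]

lemma contDiffOn_leftInv [FiniteDimensional ℝ V] {D : E2 → E2 →L[ℝ] V} {T : Set E2} (hD : ContDiffOn ℝ ∞ D T)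
    (hinj : ∀ u ∈ T, Injective (D u)) : ContDiffOn ℝ ∞ (fun u => leftInv (D u)) T := by
  have hd1 : ContDiffOn ℝ ∞ (fun u => D u u1) T := hD.clm_apply contDiffOn_const
  have hd2 : ContDiffOn ℝ ∞ (fun u => D u u2) T := hD.clm_apply contDiffOn_const
  have hg : ContDiffOn ℝ ∞ (fun u => gramDet (D u)) T :=
    ((hd1.inner ℝ hd1).mul (hd2.inner ℝ hd2)).sub ((hd1.inner ℝ hd2).pow 2)
  rw [contDiffOn_clm_apply]
  intro w
  have hgi : ContDiffOn ℝ ∞ (fun u => (gramDet (D u))⁻¹) T :=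
    hg.inv fun u hu => (gramDet_pos (hinj u hu)).ne'
  have hw1 : ContDiffOn ℝ ∞ (fun u => inner ℝ (D u u1) w) T := hd1.inner ℝ contDiffOn_const
  have hw2 : ContDiffOn ℝ ∞ (fun u => inner ℝ (D u u2) w) T := hd2.inner ℝ contDiffOn_const
  simp only [leftInv, smul_apply, add_apply,
    ContinuousLinearMap.smulRight_apply, sub_apply, innerSL_apply_apply, smul_eq_mul]
  exact hgi.smul (((((hd2.inner ℝ hd2).mul hw1).sub ((hd1.inner ℝ hd2).mul hw2)).smul contDiffOn_const).add
    ((((hd1.inner ℝ hd1).mul hw2).sub ((hd1.inner ℝ hd2).mul hw1)).smul contDiffOn_const))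

end leftInv

variable {M : Type*} [TopologicalSpace M] [ChartedSpace E2 M] [IsManifold (𝓡 2) ∞ M]

/-- the derivative of the reference immersion in a chart is injective -/
lemma Formal.injective_dι (F : Formal M) {c : OpenPartialHomeomorph M E2}
    (hc : c ∈ IsManifold.maximalAtlas (𝓡 2) ∞ M) {u : E2} (hu : u ∈ c.target) :
    Injective (fderiv ℝ (F.ι ∘ c.symm) u) := by
  intro v w hvw
  rw [← mfderiv_chart F.hι hc hu, ← mfderiv_chart F.hι hc hu] at hvw
  exact (bijective_mfderiv_chart_symm hc hu).1 (F.himm _ hvw)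

/-- lift of a planar modification -/
theorem Formal.exists_lift [T2Space M] (F : Formal M) {c : OpenPartialHomeomorph M E2}
    (hc : c ∈ IsManifold.maximalAtlas (𝓡 2) ∞ M) {A' : E2 → E2 →L[ℝ] E3}
    (hA' : ContDiffOn ℝ ∞ A' c.target) {K : Set E2} (hK : IsCompact K) (hKt : K ⊆ c.target)
    (hEq : ∀ u ∈ c.target, u ∉ K → A' u = F.mat c u) :
    ∃ F' : Formal M, (∀ u ∈ c.target, F'.mat c u = A' u) ∧
      ∀ d : OpenPartialHomeomorph M E2, ∀ v ∈ d.target, d.symm v ∉ c.symm '' K →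
        F'.mat d v = F.mat d v := by
  set D : E2 → E2 →L[ℝ] EuclideanSpace ℝ (Fin F.N) := fun u => fderiv ℝ (F.ι ∘ c.symm) u with hD
  have hDs : ContDiffOn ℝ ∞ D c.target :=
    (contDiffOn_chart F.hι hc).fderiv_of_isOpen (m := ∞) c.open_target (by simp)
  have hDi : ∀ u ∈ c.target, Injective (D u) := fun u hu => F.injective_dι hc hu
  have hJ := contDiffOn_leftInv hDs hDi
  set P : E2 → (EuclideanSpace ℝ (Fin F.N) →L[ℝ] E3) :=
    fun u => F.Ψ (c.symm u) + (A' u - F.mat c u).comp (leftInv (D u)) with hP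
  have hPs : ContDiffOn ℝ ∞ P c.target :=
    (contDiffOn_chart F.hΨ hc).add ((hA'.sub (F.contDiffOn_mat hc)).clm_comp hJ)
  have hPe : ∀ u ∈ c.target, u ∉ K → P u = rep F.Ψ c u := by
    intro u hu huK
    simp only [hP, rep, comp_apply, hEq u hu huK, sub_self, ContinuousLinearMap.zero_comp, add_zero]
  refine ⟨⟨F.N, F.ι, F.hι, F.himm, glue F.Ψ c P, glue_contMDiff F.hΨ hc hPs hK hKt hPe⟩, ?_, ?_⟩
  · intro u hu
    have h1 : glue F.Ψ c P (c.symm u) = P u := rep_glue F.Ψ c P hu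
    refine ContinuousLinearMap.ext fun v => ?_
    have h2 : leftInv (D u) (D u v) = v := leftInv_apply (hDi u hu) v
    have h3 : P u (D u v) = F.mat c u v + (A' u - F.mat c u) (leftInv (D u) (D u v)) := rfl
    have h4 : (glue F.Ψ c P (c.symm u)) (D u v) = P u (D u v) := by rw [h1]
    refine h4.trans ?_
    rw [h3, h2, sub_apply, add_sub_cancel]
  · intro d v hv hvK
    have h1 : glue F.Ψ c P (d.symm v) = F.Ψ (d.symm v) := glue_eq hPe hvK
    simp only [Formal.mat, h1]

/-- change of chart for the matrix -/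
theorem Formal.mat_trans (F : Formal M) {c d : OpenPartialHomeomorph M E2}
    (hc : c ∈ IsManifold.maximalAtlas (𝓡 2) ∞ M) (hd : d ∈ IsManifold.maximalAtlas (𝓡 2) ∞ M)
    {v : E2} (hv : v ∈ d.target) (hv' : d.symm v ∈ c.source) :
    F.mat d v = (F.mat c (trans d c v)).comp (fderiv ℝ (trans d c) v) := by
  have h1 : F.ι ∘ d.symm =ᶠ[𝓝 v] (F.ι ∘ c.symm) ∘ trans d c := rep_trans F.ι hv hv'
  have hy : trans d c v ∈ c.target := c.map_source hv'
  have h2 : DifferentiableAt ℝ (F.ι ∘ c.symm) (trans d c v) :=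
    ((contDiffOn_chart F.hι hc).contDiffAt (c.open_target.mem_nhds hy)).differentiableAt (by simp)
  have h3 : DifferentiableAt ℝ (trans d c) v :=
    (trans_contDiffAt hd hc hv hv').differentiableAt (by simp)
  have h4 : c.symm (trans d c v) = d.symm v := c.left_inv hv'
  simp only [Formal.mat, h4]
  rw [h1.fderiv_eq, fderiv_comp v h2 h3, ContinuousLinearMap.comp_assoc]

theorem nondeg_congr {A B : E2 → E2 →L[ℝ] E3} {v : E2} (h : A =ᶠ[𝓝 v] B) (hA : Nondeg A v) :
    Nondeg B v := by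
  intro e he h0 δ w hw
  have h1 : B v = A v := h.self_of_nhds.symm
  have h2 : fderiv ℝ B v = fderiv ℝ A v := h.symm.fderiv_eq
  rw [h1] at h0
  rw [h1, h2] at hw
  exact hA e he h0 δ w hw

/-- nondegeneracy is invariant under a change of chart -/
theorem nondeg_comp {A : E2 → E2 →L[ℝ] E3} {τ : E2 → E2} {v : E2}
    (hA : DifferentiableAt ℝ A (τ v)) (hτ : ContDiffAt ℝ 2 τ v) (hinj : Injective (fderiv ℝ τ v))
    (hN : Nondeg A (τ v)) : Nondeg (fun w => (A (τ w)).comp (fderiv ℝ τ w)) v := by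
  intro e he h0 δ w hw
  have hτ1 : DifferentiableAt ℝ τ v := hτ.differentiableAt (by simp)
  have hτ2 : DifferentiableAt ℝ (fderiv ℝ τ) v :=
    (hτ.fderiv_right (m := 1) (by norm_num)).differentiableAt (by simp)
  have hAτ : HasFDerivAt (fun w => A (τ w)) ((fderiv ℝ A (τ v)).comp (fderiv ℝ τ v)) v :=
    hA.hasFDerivAt.comp v hτ1.hasFDerivAt
  have h1 := (hAτ.clm_comp hτ2.hasFDerivAt).fderiv
  rw [h1] at hw
  simp only [add_apply, ContinuousLinearMap.comp_apply,
    ContinuousLinearMap.compL_apply, ContinuousLinearMap.flip_apply] at hw h0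
  have he' : fderiv ℝ τ v e ≠ 0 := by
    intro h
    exact he (hinj (by simpa using h))
  have h2 := hN (fderiv ℝ τ v e) he' h0 (fderiv ℝ τ v δ)
    (fderiv ℝ (fderiv ℝ τ) v δ e + fderiv ℝ τ v w) (by
      rw [map_add, ← add_assoc]
      rw [← hw]
      abel)
  obtain ⟨h3, τ', h4⟩ := h2
  have hδ : δ = 0 := hinj (by simpa using h3)
  refine ⟨hδ, τ', ?_⟩
  apply hinj
  rw [hδ] at h4
  simpa using h4

/-- formal data which is nondegenerate in all charts of the atlas -/
def Formal.Good (𝒜 : BallAtlas M) (F : Formal M) : Prop :=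
  (∀ i, ∀ u ∈ (𝒜.c i).target, Nondeg (F.mat (𝒜.c i)) u) ∧ F.sing.Finite

/-- main lifting statement: planar modification in a chart of the atlas, with nondegeneracy in all charts -/
theorem Formal.exists_lift_good [T2Space M] (𝒜 : BallAtlas M) (F : Formal M)
    (hF : ∀ i, ∀ u ∈ (𝒜.c i).target, Nondeg (F.mat (𝒜.c i)) u) (i : Fin 𝒜.n) {A' : E2 → E2 →L[ℝ] E3}
    (hA' : ContDiffOn ℝ ∞ A' (𝒜.c i).target) (hN : ∀ u ∈ (𝒜.c i).target, Nondeg A' u)
    (hEq : ∀ u, 9 ≤ ‖u‖ → A' u = F.mat (𝒜.c i) u) :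
    ∃ F' : Formal M, (∀ j, ∀ u ∈ (𝒜.c j).target, Nondeg (F'.mat (𝒜.c j)) u) ∧
      (∀ u ∈ (𝒜.c i).target, F'.mat (𝒜.c i) u = A' u) ∧
      (∀ x, x ∉ (𝒜.c i).source → (x ∈ F'.sing ↔ x ∈ F.sing)) := by
  have hKt : closedBall (0 : E2) 9 ⊆ (𝒜.c i).target :=
    (closedBall_subset_closedBall (by norm_num)).trans (𝒜.big i)
  have hK : IsCompact (closedBall (0 : E2) 9) := isCompact_closedBall _ _
  obtain ⟨F', h1, h2⟩ := F.exists_lift (𝒜.mem i) hA' hK hKt (by
    intro u _ hu
    apply hEq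
    rw [mem_closedBall_zero_iff] at hu
    linarith)
  have hcl : IsClosed ((𝒜.c i).symm '' closedBall (0 : E2) 9) := isClosed_symm_image hK hKt
  refine ⟨F', ?_, h1, ?_⟩
  · intro j v hv
    by_cases hs : (𝒜.c j).symm v ∈ (𝒜.c i).source
    · have hev : (fun w => (A' (trans (𝒜.c j) (𝒜.c i) w)).comp (fderiv ℝ (trans (𝒜.c j) (𝒜.c i)) w))
          =ᶠ[𝓝 v] F'.mat (𝒜.c j) := by
        filter_upwards [(isOpen_transDom (𝒜.c j) (𝒜.c i)).mem_nhds ⟨hv, hs⟩] with w hw
        rw [F'.mat_trans (𝒜.mem i) (𝒜.mem j) hw.1 hw.2]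
        rw [h1 (trans (𝒜.c j) (𝒜.c i) w) ((𝒜.c i).map_source hw.2)]
      refine nondeg_congr hev ?_
      have hy : trans (𝒜.c j) (𝒜.c i) v ∈ (𝒜.c i).target := (𝒜.c i).map_source hs
      refine nondeg_comp ?_ ?_ ?_ (hN _ hy)
      · exact (hA'.contDiffAt ((𝒜.c i).open_target.mem_nhds hy)).differentiableAt (by simp)
      · exact (trans_contDiffAt (𝒜.mem j) (𝒜.mem i) hv hs).of_le (ENat.LEInfty.out)
      · exact fderiv_trans_injective (𝒜.mem j) (𝒜.mem i) hv hs
    · have hnot : (𝒜.c j).symm v ∉ (𝒜.c i).symm '' closedBall (0 : E2) 9 := by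
        rintro ⟨x, hx, hxe⟩
        apply hs
        rw [← hxe]
        exact (𝒜.c i).map_target (hKt hx)
      have hev : F.mat (𝒜.c j) =ᶠ[𝓝 v] F'.mat (𝒜.c j) := by
        have hcont : ContinuousAt (𝒜.c j).symm v :=
          (𝒜.c j).continuousAt_symm hv
        filter_upwards [hcont.preimage_mem_nhds (hcl.isOpen_compl.mem_nhds hnot),
          (𝒜.c j).open_target.mem_nhds hv] with w hw hw'
        exact (h2 _ w hw' hw).symm
      exact nondeg_congr hev (hF j v hv)
  · intro x hx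
    obtain ⟨j, hj, -⟩ := 𝒜.cover x
    have hv : (𝒜.c j) x ∈ (𝒜.c j).target := (𝒜.c j).map_source hj
    have hxe : (𝒜.c j).symm ((𝒜.c j) x) = x := (𝒜.c j).left_inv hj
    have hnot : (𝒜.c j).symm ((𝒜.c j) x) ∉ (𝒜.c i).symm '' closedBall (0 : E2) 9 := by
      rw [hxe]
      rintro ⟨y, hy, rfl⟩
      exact hx ((𝒜.c i).map_target (hKt hy))
    have h3 := h2 (𝒜.c j) _ hv hnot
    have h4 := F'.mem_sing_iff (𝒜.mem j) hv
    have h5 := F.mem_sing_iff (𝒜.mem j) hv
    rw [hxe] at h4 h5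
    rw [h4, h5, h3]

end Crest.Agent.R216.D
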