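import Crest.Agent.R216.D4Defs

/-! Row 216 (D), module D4Mat, part A: frames, sections and matrix fields (owner: helper359). -/

set_option autoImplicit false
open scoped Manifold ContDiff Topology
open Set Metric Function

namespace Crest.Agent.R216.D

/-- first frame vector at angle `t` -/
noncomputable def fr1 (t : ℝ) : E2 := Real.cos t • u1 + Real.sin t • u2
/-- second frame vector at angle `t` -/
noncomputable def fr2 (t : ℝ) : E2 := -Real.sin t • u1 + Real.cos t • u2

theorem inner_u1_u1 : inner ℝ u1 u1 = 1 := by simp [u1]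
theorem inner_u2_u2 : inner ℝ u2 u2 = 1 := by simp [u2]
theorem inner_u1_u2 : inner ℝ u1 u2 = 0 := by simp [u1, u2, EuclideanSpace.inner_single_left]
theorem inner_u2_u1 : inner ℝ u2 u1 = 0 := by simp [u1, u2, EuclideanSpace.inner_single_left]

theorem inner_fr1_fr1 (t : ℝ) : inner ℝ (fr1 t) (fr1 t) = 1 := by
  simp only [fr1, inner_add_left, inner_add_right, inner_smul_left, inner_smul_right,
    inner_u1_u1, inner_u2_u2, inner_u1_u2, inner_u2_u1]
  have := Real.sin_sq_add_cos_sq t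
  simp only [conj_trivial]
  nlinarith

theorem inner_fr2_fr2 (t : ℝ) : inner ℝ (fr2 t) (fr2 t) = 1 := by
  simp only [fr2, inner_add_left, inner_add_right, inner_smul_left, inner_smul_right,
    inner_u1_u1, inner_u2_u2, inner_u1_u2, inner_u2_u1]
  have := Real.sin_sq_add_cos_sq t
  simp only [conj_trivial]
  nlinarith

theorem inner_fr2_fr1 (t : ℝ) : inner ℝ (fr2 t) (fr1 t) = 0 := by
  simp only [fr1, fr2, inner_add_left, inner_add_right, inner_smul_left, inner_smul_right,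
    inner_u1_u1, inner_u2_u2, inner_u1_u2, inner_u2_u1]
  simp only [conj_trivial]
  ring

theorem eq_coords (v : E2) : v = v 0 • u1 + v 1 • u2 := by
  ext i
  fin_cases i <;> simp [u1, u2]

theorem eq_fr (t : ℝ) (v : E2) : ∃ x y : ℝ, v = x • fr1 t + y • fr2 t := by
  refine ⟨v 0 * Real.cos t + v 1 * Real.sin t, -v 0 * Real.sin t + v 1 * Real.cos t, ?_⟩
  have h := Real.sin_sq_add_cos_sq t
  conv_lhs => rw [eq_coords v]
  ext i
  fin_cases i
  · simp [fr1, fr2, u1, u2]
    linear_combination (-(v 0)) * h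
  · simp [fr1, fr2, u1, u2]
    linear_combination (-(v 1)) * h

theorem contDiff_fr1 : ContDiff ℝ ∞ fr1 :=
  (Real.contDiff_cos.smul contDiff_const).add (Real.contDiff_sin.smul contDiff_const)

theorem contDiff_fr2 : ContDiff ℝ ∞ fr2 :=
  (Real.contDiff_sin.neg.smul contDiff_const).add (Real.contDiff_cos.smul contDiff_const)

/-- zeros of nondegenerate matrix fields have rank one -/
theorem Nondeg.ne_zero {A : E2 → E2 →L[ℝ] E3} {u : E2} (h : Nondeg A u) : A u ≠ 0 := by
  intro h0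
  have h1 : (u1 : E2) ≠ 0 := by
    intro h1
    have := inner_u1_u1
    rw [h1] at this; simp at this
  obtain ⟨-, τ, hτ⟩ := h u1 h1 (by rw [h0]; rfl) 0 u2 (by rw [h0]; simp)
  have := inner_u2_u2
  nth_rewrite 1 [hτ] at this
  rw [inner_smul_left, inner_u1_u2] at this
  simp at this

/-- a constant frame direction outside finitely many kernels -/
theorem exists_angle {A : E2 → E2 →L[ℝ] E3} {S : Set E2} (hS : S.Finite)
    (h : ∀ u ∈ S, A u ≠ 0) : ∃ t : ℝ, ∀ u ∈ S, A u (fr1 t) ≠ 0 := by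
  by_contra hcon
  push Not at hcon
  have hsub : Ico (0 : ℝ) Real.pi ⊆ ⋃ u ∈ S, {t | t ∈ Ico (0 : ℝ) Real.pi ∧ A u (fr1 t) = 0} := by
    intro t ht
    obtain ⟨u, hu, h0⟩ := hcon t
    simp only [mem_iUnion]
    exact ⟨u, hu, ht, h0⟩
  have hfin : (⋃ u ∈ S, {t | t ∈ Ico (0 : ℝ) Real.pi ∧ A u (fr1 t) = 0}).Finite := by
    apply hS.biUnion
    intro u hu
    apply Set.Subsingleton.finite
    rintro t ⟨ht, h1⟩ s ⟨hs, h2⟩
    by_contra hne
    apply h u hu
    have hsin : Real.sin (s - t) ≠ 0 := by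
      intro h0
      rcases lt_or_gt_of_ne hne with hlt | hlt
      · have := Real.sin_pos_of_pos_of_lt_pi (x := s - t) (by linarith) (by linarith [ht.1, hs.2])
        linarith
      · have := Real.sin_pos_of_pos_of_lt_pi (x := t - s) (by linarith) (by linarith [hs.1, ht.2])
        have h3 : Real.sin (t - s) = - Real.sin (s - t) := by rw [← Real.sin_neg]; ring_nf
        linarith
    have e1 : Real.sin (s - t) • u1 = Real.sin s • fr1 t - Real.sin t • fr1 s := by
      rw [Real.sin_sub]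
      simp only [fr1]
      module
    have e2 : Real.sin (s - t) • u2 = Real.cos t • fr1 s - Real.cos s • fr1 t := by
      rw [Real.sin_sub]
      simp only [fr1]
      module
    have h3 : A u u1 = 0 := by
      have := congrArg (A u) e1
      rw [map_smul, map_sub, map_smul, map_smul, h1, h2, smul_zero, smul_zero, sub_zero] at this
      exact (smul_eq_zero.1 this).resolve_left hsin
    have h4 : A u u2 = 0 := by
      have := congrArg (A u) e2
      rw [map_smul, map_sub, map_smul, map_smul, h1, h2, smul_zero, smul_zero, sub_zero] at this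
      exact (smul_eq_zero.1 this).resolve_left hsin
    ext1 v
    rw [eq_coords v]
    simp [h3, h4]
  exact (Ico_infinite Real.pi_pos) (hfin.subset hsub)

section Frame

variable (A : E2 → E2 →L[ℝ] E3) (θ : E2 → ℝ)

/-- first column in the frame -/
noncomputable def colA (u : E2) : E3 := A u (fr1 (θ u))
/-- slope of the second column -/
noncomputable def kap (u : E2) : ℝ :=
  inner ℝ (A u (fr2 (θ u))) (colA A θ u) / ‖colA A θ u‖ ^ 2
/-- orthogonal part of the second column -/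
noncomputable def colB (u : E2) : E3 := A u (fr2 (θ u)) - kap A θ u • colA A θ u
/-- direction mapped to `colB` -/
noncomputable def dirE (u : E2) : E2 := fr2 (θ u) - kap A θ u • fr1 (θ u)

theorem apply_dirE (u : E2) : A u (dirE A θ u) = colB A θ u := by
  simp [dirE, colB, colA]

theorem dirE_ne_zero (u : E2) : dirE A θ u ≠ 0 := by
  intro h
  have : inner ℝ (fr2 (θ u)) (dirE A θ u) = 1 := by
    rw [dirE, inner_sub_right, inner_smul_right, inner_fr2_fr2, inner_fr2_fr1]
    ring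
  rw [h, inner_zero_right] at this
  exact zero_ne_one this

variable {A θ}
variable {T : Set E2}

theorem contDiffOn_fr1 (hθ : ContDiff ℝ ∞ θ) : ContDiffOn ℝ ∞ (fun u => fr1 (θ u)) T :=
  (contDiff_fr1.comp hθ).contDiffOn

theorem contDiffOn_fr2 (hθ : ContDiff ℝ ∞ θ) : ContDiffOn ℝ ∞ (fun u => fr2 (θ u)) T :=
  (contDiff_fr2.comp hθ).contDiffOn

theorem contDiffOn_colA (hA : ContDiffOn ℝ ∞ A T) (hθ : ContDiff ℝ ∞ θ) :
    ContDiffOn ℝ ∞ (colA A θ) T :=
  hA.clm_apply (contDiffOn_fr1 hθ)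

theorem contDiffOn_kap (hA : ContDiffOn ℝ ∞ A T) (hθ : ContDiff ℝ ∞ θ)
    (h0 : ∀ u ∈ T, colA A θ u ≠ 0) : ContDiffOn ℝ ∞ (kap A θ) T := by
  apply ContDiffOn.div
  · exact (hA.clm_apply (contDiffOn_fr2 hθ)).inner ℝ (contDiffOn_colA hA hθ)
  · exact (contDiffOn_colA hA hθ).norm_sq ℝ
  · intro u hu
    exact pow_ne_zero 2 (norm_ne_zero_iff.2 (h0 u hu))

theorem contDiffOn_colB (hA : ContDiffOn ℝ ∞ A T) (hθ : ContDiff ℝ ∞ θ)
    (h0 : ∀ u ∈ T, colA A θ u ≠ 0) : ContDiffOn ℝ ∞ (colB A θ) T :=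
  (hA.clm_apply (contDiffOn_fr2 hθ)).sub ((contDiffOn_kap hA hθ h0).smul (contDiffOn_colA hA hθ))

theorem contDiffOn_dirE (hA : ContDiffOn ℝ ∞ A T) (hθ : ContDiff ℝ ∞ θ)
    (h0 : ∀ u ∈ T, colA A θ u ≠ 0) : ContDiffOn ℝ ∞ (dirE A θ) T :=
  (contDiffOn_fr2 hθ).sub ((contDiffOn_kap hA hθ h0).smul (contDiffOn_fr1 hθ))

theorem inner_colA_colB {u : E2} (h : colA A θ u ≠ 0) : inner ℝ (colA A θ u) (colB A θ u) = 0 := by
  have hn : ‖colA A θ u‖ ^ 2 ≠ 0 := pow_ne_zero 2 (norm_ne_zero_iff.2 h)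
  rw [colB, inner_sub_right, inner_smul_right, real_inner_self_eq_norm_sq, kap,
    div_mul_cancel₀ _ hn, real_inner_comm]
  ring

/-- the field built from a section `b'` of `a^⊥` -/
noncomputable def matOf (A : E2 → E2 →L[ℝ] E3) (θ : E2 → ℝ) (b' : E2 → E3) (u : E2) : E2 →L[ℝ] E3 :=
  A u + (innerSL ℝ (fr2 (θ u)) : StrongDual ℝ E2).smulRight (b' u - colB A θ u)

theorem matOf_apply (b' : E2 → E3) (u v : E2) :
    matOf A θ b' u v = A u v + inner ℝ (fr2 (θ u)) v • (b' u - colB A θ u) := by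
  simp [matOf]

theorem matOf_fr1 (b' : E2 → E3) (u : E2) : matOf A θ b' u (fr1 (θ u)) = colA A θ u := by
  rw [matOf_apply, inner_fr2_fr1, zero_smul, add_zero, colA]

theorem matOf_dirE (b' : E2 → E3) (u : E2) : matOf A θ b' u (dirE A θ u) = b' u := by
  rw [matOf_apply, apply_dirE]
  have : inner ℝ (fr2 (θ u)) (dirE A θ u) = 1 := by
    rw [dirE, inner_sub_right, inner_smul_right, inner_fr2_fr2, inner_fr2_fr1]
    ring
  rw [this, one_smul]
  abel

theorem eq_dirE (u v : E2) : ∃ x y : ℝ, v = x • fr1 (θ u) + y • dirE A θ u := by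
  obtain ⟨x, y, rfl⟩ := eq_fr (θ u) v
  refine ⟨x + y * kap A θ u, y, ?_⟩
  rw [dirE]
  module

/-- kernel of the field built from a section -/
theorem matOf_eq_zero {b' : E2 → E3} {u v : E2} (ha : colA A θ u ≠ 0)
    (hab : inner ℝ (colA A θ u) (b' u) = 0) (hv : v ≠ 0) (h : matOf A θ b' u v = 0) :
    b' u = 0 ∧ ∃ y : ℝ, y ≠ 0 ∧ v = y • dirE A θ u := by
  obtain ⟨x, y, rfl⟩ := eq_dirE (A := A) (θ := θ) u v
  rw [map_add, map_smul, map_smul, matOf_fr1, matOf_dirE] at h
  have h1 : inner ℝ (colA A θ u) (x • colA A θ u + y • b' u) = (0 : ℝ) := by rw [h, inner_zero_right]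
  rw [inner_add_right, inner_smul_right, inner_smul_right, hab, mul_zero, add_zero,
    real_inner_self_eq_norm_sq] at h1
  have hx : x = 0 := by
    rcases mul_eq_zero.1 h1 with h2 | h2
    · exact h2
    · exact absurd h2 (pow_ne_zero 2 (norm_ne_zero_iff.2 ha))
  subst hx
  rw [zero_smul, zero_add] at h hv
  have hy : y ≠ 0 := by
    rintro rfl
    exact hv (by simp)
  refine ⟨(smul_eq_zero.1 h).resolve_left hy, y, hy, by simp⟩

theorem sing_matOf_iff {b' : E2 → E3} {u : E2} (ha : colA A θ u ≠ 0)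
    (hab : inner ℝ (colA A θ u) (b' u) = 0) : Sing (matOf A θ b' u) ↔ b' u = 0 := by
  constructor
  · rintro ⟨e, he, h⟩
    exact (matOf_eq_zero ha hab he h).1
  · intro h
    exact ⟨dirE A θ u, dirE_ne_zero A θ u, by rw [matOf_dirE, h]⟩

theorem matOf_colB (u : E2) : matOf A θ (colB A θ) u = A u := by
  ext1 v
  rw [matOf_apply, sub_self, smul_zero, add_zero]

theorem contDiffOn_matOf (hA : ContDiffOn ℝ ∞ A T) (hθ : ContDiff ℝ ∞ θ)
    (h0 : ∀ u ∈ T, colA A θ u ≠ 0) {b' : E2 → E3} (hb' : ContDiffOn ℝ ∞ b' T) :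
    ContDiffOn ℝ ∞ (matOf A θ b') T := by
  apply hA.add
  have h2 : ContDiffOn ℝ ∞ (fun u => (innerSL ℝ (fr2 (θ u)) : StrongDual ℝ E2)) T :=
    (innerSL ℝ : E2 →L[ℝ] StrongDual ℝ E2).contDiff.comp_contDiffOn (contDiffOn_fr2 hθ)
  exact h2.smulRight (hb'.sub (contDiffOn_colB hA hθ h0))

/-- derivative of `A E = b` -/
theorem hasFDerivAt_apply {B : E2 → E2 →L[ℝ] E3} {E : E2 → E2} {b : E2 → E3} {u : E2}
    (hB : DifferentiableAt ℝ B u) (hE : DifferentiableAt ℝ E u)
    (heq : (fun x => B x (E x)) =ᶠ[𝓝 u] b) (δ : E2) :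
    fderiv ℝ B u δ (E u) + B u (fderiv ℝ E u δ) = fderiv ℝ b u δ := by
  have h1 := (hB.hasFDerivAt.clm_apply hE.hasFDerivAt)
  have h2 := (heq.hasFDerivAt_iff).1 h1
  rw [h2.fderiv]
  exact add_comm _ _

/-- simple zeros from nondegeneracy -/
theorem sec_of_frame (hT : IsOpen T) (hA : ContDiffOn ℝ ∞ A T) (hN : ∀ u ∈ T, Nondeg A u)
    (hθ : ContDiff ℝ ∞ θ) (h0 : ∀ u ∈ T, colA A θ u ≠ 0) : Sec T (colA A θ) (colB A θ) where
  ha := contDiffOn_colA hA hθ
  ha0 := h0
  hb := contDiffOn_colB hA hθ h0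
  hab := fun u hu => inner_colA_colB (h0 u hu)
  simple := by
    intro u hu hbu
    have hn : T ∈ 𝓝 u := hT.mem_nhds hu
    have hAd : DifferentiableAt ℝ A u := (hA.contDiffAt hn).differentiableAt (by simp)
    have hEd : DifferentiableAt ℝ (dirE A θ) u :=
      ((contDiffOn_dirE hA hθ h0).contDiffAt hn).differentiableAt (by simp)
    refine (injective_iff_map_eq_zero _).2 fun δ hδ => ?_
    have h1 := hasFDerivAt_apply hAd hEd (b := colB A θ)
      (Filter.Eventually.of_forall (fun x => apply_dirE A θ x)) δ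
    rw [hδ] at h1
    exact (hN u hu (dirE A θ u) (dirE_ne_zero A θ u) (by rw [apply_dirE, hbu]) δ _ h1).1

/-- the transfer lemma: from a section to a matrix field -/
theorem nondeg_matOf (hT : IsOpen T) (hA : ContDiffOn ℝ ∞ A T)
    (hθ : ContDiff ℝ ∞ θ) (h0 : ∀ u ∈ T, colA A θ u ≠ 0) {b' : E2 → E3}
    (hb' : Sec T (colA A θ) b') : ∀ u ∈ T, Nondeg (matOf A θ b') u := by
  intro u hu e he hAe δ w hw
  obtain ⟨hbu, y, hy, rfl⟩ := matOf_eq_zero (h0 u hu) (hb'.hab u hu) he hAe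
  have hn : T ∈ 𝓝 u := hT.mem_nhds hu
  have hAd : DifferentiableAt ℝ (matOf A θ b') u :=
    ((contDiffOn_matOf hA hθ h0 hb'.hb).contDiffAt hn).differentiableAt (by simp)
  have hEd : DifferentiableAt ℝ (dirE A θ) u :=
    ((contDiffOn_dirE hA hθ h0).contDiffAt hn).differentiableAt (by simp)
  have had : DifferentiableAt ℝ (colA A θ) u := (hb'.ha.contDiffAt hn).differentiableAt (by simp)
  have hbd : DifferentiableAt ℝ b' u := (hb'.hb.contDiffAt hn).differentiableAt (by simp)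
  have h1 := hasFDerivAt_apply hAd hEd (b := b')
    (Filter.Eventually.of_forall (fun x => matOf_dirE b' x)) δ
  -- `y • Db' δ` lies in the range of the field at `u`
  have h2 : y • fderiv ℝ b' u δ
      = matOf A θ b' u (y • fderiv ℝ (dirE A θ) u δ - w) := by
    rw [← h1, map_sub, map_smul, smul_add]
    rw [map_smul] at hw
    rw [eq_neg_of_add_eq_zero_left hw]
    abel
  obtain ⟨x, z, hxz⟩ := eq_dirE (A := A) (θ := θ) u (y • fderiv ℝ (dirE A θ) u δ - w)
  have h3 : y • fderiv ℝ b' u δ = x • colA A θ u := by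
    rw [h2, hxz, map_add, map_smul, map_smul, matOf_fr1, matOf_dirE, hbu, smul_zero, add_zero]
  -- orthogonality
  have h4 : inner ℝ (colA A θ u) (fderiv ℝ b' u δ) = (0 : ℝ) := by
    have h5 : (fun x => inner ℝ (colA A θ x) (b' x)) =ᶠ[𝓝 u] fun _ => (0 : ℝ) := by
      filter_upwards [hn] with x hx
      exact hb'.hab x hx
    have h6 := (had.hasFDerivAt.inner ℝ hbd.hasFDerivAt)
    have h7 := h6.unique ((h5.hasFDerivAt_iff).2 (hasFDerivAt_const (0 : ℝ) u))
    have h8 := DFunLike.congr_fun h7 δ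
    simpa [hbu] using h8
  have h9 : x = 0 := by
    have h10 : inner ℝ (colA A θ u) (y • fderiv ℝ b' u δ) = (0 : ℝ) := by
      rw [inner_smul_right, h4, mul_zero]
    rw [h3, inner_smul_right, real_inner_self_eq_norm_sq] at h10
    exact (mul_eq_zero.1 h10).resolve_right (pow_ne_zero 2 (norm_ne_zero_iff.2 (h0 u hu)))
  rw [h9, zero_smul] at h3
  have hδ : δ = 0 := by
    have h11 := (smul_eq_zero.1 h3).resolve_left hy
    exact (injective_iff_map_eq_zero _).1 (hb'.simple u hu hbu) δ h11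
  refine ⟨hδ, ?_⟩
  subst hδ
  have h12 : matOf A θ b' u w = 0 := by
    simpa using hw
  rcases eq_or_ne w 0 with h | h
  · exact ⟨0, by rw [h, zero_smul]⟩
  · obtain ⟨-, z', -, hz'⟩ := matOf_eq_zero (h0 u hu) (hb'.hab u hu) h h12
    refine ⟨z' / y, ?_⟩
    rw [smul_smul, div_mul_cancel₀ _ hy]
    exact hz'

theorem sing_iff_colB {u : E2} (h0 : colA A θ u ≠ 0) : Sing (A u) ↔ colB A θ u = 0 := by
  have h := sing_matOf_iff (b' := colB A θ) h0 (inner_colA_colB h0)
  rwa [matOf_colB] at h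

end Frame

end Crest.Agent.R216.D
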