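import Crest.Agent.R216.D4Sec
import Crest.Agent.R216.D4MatA

/-! Row 216 (D), module D4Mat: moving and cancelling zeros of matrix fields
`A : T → Hom(ℝ²,ℝ³)` (owner: helper359).  FROZEN statements `mat_jump`, `mat_cancel`.

Proof sketch.  Nondegenerate zeros have rank one (`A z ≠ 0`), so there is a constant unit vector `e1`
outside the finitely many kernels; `e2 ⊥ e1` unit.  General frame: `e1 u = cos η e1 + sin η e2`,
`e2 u = -sin η e1 + cos η e2`, `η` smooth with values in `π ℤ` near the zeros.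
`a u = A u (e1 u) ≠ 0` on `T`, `κ = ⟪A e2, a⟫/|a|²`, `b = A e2 - κ a ⊥ a`.
For any other section `b'` of `a^⊥`: `A' u v = A u v + ⟪e2 u, v⟫ (b' u - b u)`.
Kernel of `A'` at `u` nonzero iff `b' u = 0`; with `E u = e2 u - κ u e1 u`: `A' u (E u) = b' u`,
differentiate: `Nondeg A' u ↔ (b' u = 0 → Injective (fderiv b' u))` (use `⟪Db' δ, a⟫ = 0` at a zero).
Signs for `mat_cancel`: with constant frame, if `sgnAt a b z * sgnAt a b z' < 0` apply `sec_cancel`
(maybe with `z,z'` exchanged); if `> 0` take `η = π·bump` near `z'` (`0` near the other zeros): near `z'`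
`a, b` become `-a, -b`, so `sgnAt` changes sign at `z'` only. (`sgnAt ≠ 0` at simple zeros.) -/

set_option autoImplicit false
open scoped Manifold ContDiff Topology
open Set Metric Function

namespace Crest.Agent.R216.D

theorem fr1_ne_zero (t : ℝ) : fr1 t ≠ 0 := by
  intro h
  have := inner_fr1_fr1 t
  rw [h, inner_zero_left] at this
  exact zero_ne_one this

theorem colA_ne_zero_of_not_sing {A : E2 → E2 →L[ℝ] E3} {θ : E2 → ℝ} {u : E2}
    (h : ¬ Sing (A u)) : colA A θ u ≠ 0 :=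
  fun h0 => h ⟨fr1 (θ u), fr1_ne_zero _, h0⟩

/-- common end of `mat_jump` and `mat_cancel` -/
theorem mat_of_sec {T : Set E2} (hT : IsOpen T)
    {A : E2 → E2 →L[ℝ] E3} (hA : ContDiffOn ℝ ∞ A T) {θ : E2 → ℝ} (hθ : ContDiff ℝ ∞ θ)
    (h0 : ∀ u ∈ T, colA A θ u ≠ 0) {b' : E2 → E3} (hb' : Sec T (colA A θ) b')
    (h9 : ∀ u, 9 ≤ ‖u‖ → b' u = colB A θ u) :
    ∃ A' : E2 → E2 →L[ℝ] E3, ContDiffOn ℝ ∞ A' T ∧ (∀ u ∈ T, Nondeg A' u) ∧
      (∀ u, 9 ≤ ‖u‖ → A' u = A u) ∧ ∀ u ∈ T, Sing (A' u) ↔ b' u = 0 := by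
  refine ⟨matOf A θ b', contDiffOn_matOf hA hθ h0 hb'.hb, nondeg_matOf hT hA hθ h0 hb', ?_, ?_⟩
  · intro u hu
    ext1 v
    rw [matOf_apply, h9 u hu, sub_self, smul_zero, add_zero]
  · intro u hu
    exact sing_matOf_iff (h0 u hu) (hb'.hab u hu)

theorem mat_jump {T : Set E2} (hT : IsOpen T) (hball : closedBall (0 : E2) 10 ⊆ T)
    {A : E2 → E2 →L[ℝ] E3} (hA : ContDiffOn ℝ ∞ A T) (hN : ∀ u ∈ T, Nondeg A u)
    (hfin : {u ∈ T | Sing (A u)}.Finite) {z z'' : E2}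
    (hz : z ∈ ball (0 : E2) 1) (hz'' : z'' ∈ ball (0 : E2) 1) (hAz : Sing (A z))
    (hAz'' : ¬ Sing (A z'')) :
    ∃ A' : E2 → E2 →L[ℝ] E3, ContDiffOn ℝ ∞ A' T ∧ (∀ u ∈ T, Nondeg A' u) ∧
      (∀ u, 9 ≤ ‖u‖ → A' u = A u) ∧
      ∀ u ∈ T, Sing (A' u) ↔ (Sing (A u) ∧ u ≠ z) ∨ u = z'' := by
  have hzT : z ∈ T := hball (ball_subset_closedBall (ball_subset_ball (by norm_num) hz))
  have hz''T : z'' ∈ T := hball (ball_subset_closedBall (ball_subset_ball (by norm_num) hz''))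
  obtain ⟨t, ht⟩ := exists_angle (A := A) hfin (fun u hu => (hN u hu.1).ne_zero)
  set θ : E2 → ℝ := fun _ => t with hθdef
  have hθ : ContDiff ℝ ∞ θ := contDiff_const
  have h0 : ∀ u ∈ T, colA A θ u ≠ 0 := by
    intro u hu
    by_cases hs : Sing (A u)
    · exact ht u ⟨hu, hs⟩
    · exact colA_ne_zero_of_not_sing hs
  have hsec := sec_of_frame hT hA hN hθ h0
  have hiff : ∀ u ∈ T, Sing (A u) ↔ colB A θ u = 0 := fun u hu => sing_iff_colB (h0 u hu)
  have hfin' : {u ∈ T | colB A θ u = 0}.Finite := by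
    apply hfin.subset
    rintro u ⟨hu, h⟩
    exact ⟨hu, (hiff u hu).2 h⟩
  obtain ⟨b', hb', h9, hzero⟩ := sec_jump hT hball hsec hfin' hz hz''
    ((hiff z hzT).1 hAz) (fun h => hAz'' ((hiff z'' hz''T).2 h))
  obtain ⟨A', h1, h2, h3, h4⟩ := mat_of_sec hT hA hθ h0 hb' h9
  refine ⟨A', h1, h2, h3, fun u hu => ?_⟩
  rw [h4 u hu, hzero u hu, hiff u hu]

/-- Gram identity for a triple of vectors -/
theorem inner_cr_sq (a p q : E3) (hp : inner ℝ a p = 0) (hq : inner ℝ a q = 0) :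
    (inner ℝ a (cr p q)) ^ 2
      = inner ℝ a a * (inner ℝ p p * inner ℝ q q - (inner ℝ p q) ^ 2) := by
  have e1 : inner ℝ a (cr p q) = a 0 * (p 1 * q 2 - p 2 * q 1) + a 1 * (p 2 * q 0 - p 0 * q 2)
      + a 2 * (p 0 * q 1 - p 1 * q 0) := by
    simp [cr, PiLp.inner_apply, Fin.sum_univ_three]
    ring
  have e : ∀ x y : E3, inner ℝ x y = x 0 * y 0 + x 1 * y 1 + x 2 * y 2 := by
    intro x y
    simp [PiLp.inner_apply, Fin.sum_univ_three]
    ring
  rw [e] at hp hq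
  rw [e1, e, e, e, e]
  linear_combination
    (-(a 0 * p 0 + a 1 * p 1 + a 2 * p 2) * (q 0 ^ 2 + q 1 ^ 2 + q 2 ^ 2)
      + 2 * (p 0 * q 0 + p 1 * q 1 + p 2 * q 2) * (a 0 * q 0 + a 1 * q 1 + a 2 * q 2)) * hp
    - (a 0 * q 0 + a 1 * q 1 + a 2 * q 2) * (p 0 ^ 2 + p 1 ^ 2 + p 2 ^ 2) * hq

theorem sgnAt_ne_zero {T : Set E2} (hT : IsOpen T) {a b : E2 → E3} (h : Sec T a b) {u : E2}
    (hu : u ∈ T) (hb : b u = 0) : sgnAt a b u ≠ 0 := by
  have hn : T ∈ 𝓝 u := hT.mem_nhds hu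
  have had : DifferentiableAt ℝ a u := (h.ha.contDiffAt hn).differentiableAt (by simp)
  have hbd : DifferentiableAt ℝ b u := (h.hb.contDiffAt hn).differentiableAt (by simp)
  have horth : ∀ δ, inner ℝ (a u) (fderiv ℝ b u δ) = (0 : ℝ) := by
    intro δ
    have h5 : (fun x => inner ℝ (a x) (b x)) =ᶠ[𝓝 u] fun _ => (0 : ℝ) := by
      filter_upwards [hn] with x hx
      exact h.hab x hx
    have h6 := (had.hasFDerivAt.inner ℝ hbd.hasFDerivAt)
    have h7 := h6.unique ((h5.hasFDerivAt_iff).2 (hasFDerivAt_const (0 : ℝ) u))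
    have h8 := DFunLike.congr_fun h7 δ
    simpa [hb] using h8
  set p := fderiv ℝ b u u1 with hp
  set q := fderiv ℝ b u u2 with hq
  have hinj := h.simple u hu hb
  have hu1 : (u1 : E2) ≠ 0 := by
    intro h1
    have := inner_u1_u1
    rw [h1] at this; simp at this
  have hp0 : p ≠ 0 := by
    intro h1
    exact hu1 ((injective_iff_map_eq_zero _).1 hinj _ h1)
  have hpp : 0 < inner ℝ p p := by
    rw [real_inner_self_eq_norm_sq]
    have := norm_pos_iff.2 hp0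
    positivity
  have hv : inner ℝ p p • q - inner ℝ p q • p ≠ 0 := by
    intro h1
    have h2 : fderiv ℝ b u (inner ℝ p p • u2 - inner ℝ p q • u1) = 0 := by
      rw [map_sub, map_smul, map_smul]; exact h1
    have h3 := (injective_iff_map_eq_zero _).1 hinj _ h2
    have h4 : inner ℝ u2 (inner ℝ p p • u2 - inner ℝ p q • u1) = inner ℝ p p := by
      rw [inner_sub_right, inner_smul_right, inner_smul_right, inner_u2_u2, inner_u2_u1]
      ring
    rw [h3, inner_zero_right] at h4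
    exact hpp.ne h4
  have hvv : 0 < inner ℝ (inner ℝ p p • q - inner ℝ p q • p) (inner ℝ p p • q - inner ℝ p q • p) := by
    rw [real_inner_self_eq_norm_sq]
    have := norm_pos_iff.2 hv
    positivity
  have hvv' : inner ℝ (inner ℝ p p • q - inner ℝ p q • p) (inner ℝ p p • q - inner ℝ p q • p)
      = inner ℝ p p * (inner ℝ p p * inner ℝ q q - (inner ℝ p q) ^ 2) := by
    simp only [inner_sub_left, inner_sub_right, inner_smul_left, inner_smul_right, conj_trivial]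
    rw [real_inner_comm p q]
    ring
  rw [hvv'] at hvv
  have hG : 0 < inner ℝ p p * inner ℝ q q - (inner ℝ p q) ^ 2 := by
    by_contra hcon
    push Not at hcon
    nlinarith
  have haa : 0 < inner ℝ (a u) (a u) := by
    rw [real_inner_self_eq_norm_sq]
    have := norm_pos_iff.2 (h.ha0 u hu)
    positivity
  intro h0
  have := inner_cr_sq (a u) p q (horth _) (horth _)
  rw [sgnAt] at h0
  rw [h0] at this
  have h2 : 0 < inner ℝ (a u) (a u) * (inner ℝ p p * inner ℝ q q - (inner ℝ p q) ^ 2) :=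
    mul_pos haa hG
  rw [← this] at h2
  norm_num at h2

theorem fr1_add_pi (t : ℝ) : fr1 (t + Real.pi) = - fr1 t := by
  simp only [fr1, Real.cos_add_pi, Real.sin_add_pi]
  module

theorem fr2_add_pi (t : ℝ) : fr2 (t + Real.pi) = - fr2 t := by
  simp only [fr2, Real.cos_add_pi, Real.sin_add_pi]
  module

theorem colA_congr {A : E2 → E2 →L[ℝ] E3} {θ θ' : E2 → ℝ} {u : E2} (h : θ u = θ' u) :
    colA A θ u = colA A θ' u := by
  simp only [colA, h]

theorem colB_congr {A : E2 → E2 →L[ℝ] E3} {θ θ' : E2 → ℝ} {u : E2} (h : θ u = θ' u) :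
    colB A θ u = colB A θ' u := by
  simp only [colB, kap, colA, h]

theorem colA_pi {A : E2 → E2 →L[ℝ] E3} {θ θ' : E2 → ℝ} {u : E2} (h : θ u = θ' u + Real.pi) :
    colA A θ u = - colA A θ' u := by
  simp only [colA, h, fr1_add_pi, map_neg]

theorem colB_pi {A : E2 → E2 →L[ℝ] E3} {θ θ' : E2 → ℝ} {u : E2} (h : θ u = θ' u + Real.pi) :
    colB A θ u = - colB A θ' u := by
  simp only [colB, kap, colA, h, fr1_add_pi, fr2_add_pi, map_neg, inner_neg_neg, norm_neg,
    smul_neg]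
  abel

theorem sgnAt_neg {a b : E2 → E3} {a' b' : E2 → E3} {u : E2} (ha : a' u = - a u)
    (hb : b' =ᶠ[𝓝 u] fun x => - b x) : sgnAt a' b' u = - sgnAt a b u := by
  have h1 : fderiv ℝ b' u = - fderiv ℝ b u := by
    rw [hb.fderiv_eq]
    exact fderiv_fun_neg
  have e : ∀ p q : E3, cr (-p) (-q) = cr p q := by
    intro p q
    simp [cr]
  rw [sgnAt, sgnAt, h1, ha]
  simp only [neg_apply, e, inner_neg_left]

theorem sgnAt_congr {a b : E2 → E3} {a' b' : E2 → E3} {u : E2} (ha : a' u = a u)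
    (hb : b' =ᶠ[𝓝 u] b) : sgnAt a' b' u = sgnAt a b u := by
  rw [sgnAt, sgnAt, ha, hb.fderiv_eq]

/-- cancelling when the signs are opposite in some frame -/
theorem mat_cancel_aux {T : Set E2} (hT : IsOpen T) (hball : closedBall (0 : E2) 10 ⊆ T)
    {A : E2 → E2 →L[ℝ] E3} (hA : ContDiffOn ℝ ∞ A T) (hN : ∀ u ∈ T, Nondeg A u)
    (hfin : {u ∈ T | Sing (A u)}.Finite) {z z' : E2}
    (hz : z ∈ ball (0 : E2) 1) (hz' : z' ∈ ball (0 : E2) 1) (hAz : Sing (A z))
    (hAz' : Sing (A z')) {θ : E2 → ℝ} (hθ : ContDiff ℝ ∞ θ)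
    (h0 : ∀ u ∈ T, colA A θ u ≠ 0)
    (hs : sgnAt (colA A θ) (colB A θ) z * sgnAt (colA A θ) (colB A θ) z' < 0) :
    ∃ A' : E2 → E2 →L[ℝ] E3, ContDiffOn ℝ ∞ A' T ∧ (∀ u ∈ T, Nondeg A' u) ∧
      (∀ u, 9 ≤ ‖u‖ → A' u = A u) ∧
      ∀ u ∈ T, Sing (A' u) ↔ Sing (A u) ∧ u ≠ z ∧ u ≠ z' := by
  have hzT : z ∈ T := hball (ball_subset_closedBall (ball_subset_ball (by norm_num) hz))
  have hz'T : z' ∈ T := hball (ball_subset_closedBall (ball_subset_ball (by norm_num) hz'))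
  have hsec := sec_of_frame hT hA hN hθ h0
  have hiff : ∀ u ∈ T, Sing (A u) ↔ colB A θ u = 0 := fun u hu => sing_iff_colB (h0 u hu)
  have hfin' : {u ∈ T | colB A θ u = 0}.Finite := by
    apply hfin.subset
    rintro u ⟨hu, h⟩
    exact ⟨hu, (hiff u hu).2 h⟩
  rcases mul_neg_iff.1 hs with ⟨hp, hm⟩ | ⟨hm, hp⟩
  · obtain ⟨b', hb', h9, hzero⟩ := sec_cancel hT hball hsec hfin' hz hz'
      ((hiff z hzT).1 hAz) ((hiff z' hz'T).1 hAz') hp hm
    obtain ⟨A', h1, h2, h3, h4⟩ := mat_of_sec hT hA hθ h0 hb' h9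
    refine ⟨A', h1, h2, h3, fun u hu => ?_⟩
    rw [h4 u hu, hzero u hu, hiff u hu]
  · obtain ⟨b', hb', h9, hzero⟩ := sec_cancel hT hball hsec hfin' hz' hz
      ((hiff z' hz'T).1 hAz') ((hiff z hzT).1 hAz) hp hm
    obtain ⟨A', h1, h2, h3, h4⟩ := mat_of_sec hT hA hθ h0 hb' h9
    refine ⟨A', h1, h2, h3, fun u hu => ?_⟩
    rw [h4 u hu, hzero u hu, hiff u hu]
    tauto

theorem mat_cancel {T : Set E2} (hT : IsOpen T) (hball : closedBall (0 : E2) 10 ⊆ T)
    {A : E2 → E2 →L[ℝ] E3} (hA : ContDiffOn ℝ ∞ A T) (hN : ∀ u ∈ T, Nondeg A u)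
    (hfin : {u ∈ T | Sing (A u)}.Finite) {z z' : E2} (hne : z ≠ z')
    (hz : z ∈ ball (0 : E2) 1) (hz' : z' ∈ ball (0 : E2) 1) (hAz : Sing (A z))
    (hAz' : Sing (A z')) :
    ∃ A' : E2 → E2 →L[ℝ] E3, ContDiffOn ℝ ∞ A' T ∧ (∀ u ∈ T, Nondeg A' u) ∧
      (∀ u, 9 ≤ ‖u‖ → A' u = A u) ∧
      ∀ u ∈ T, Sing (A' u) ↔ Sing (A u) ∧ u ≠ z ∧ u ≠ z' := by
  have hzT : z ∈ T := hball (ball_subset_closedBall (ball_subset_ball (by norm_num) hz))
  have hz'T : z' ∈ T := hball (ball_subset_closedBall (ball_subset_ball (by norm_num) hz'))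
  obtain ⟨t, ht⟩ := exists_angle (A := A) hfin (fun u hu => (hN u hu.1).ne_zero)
  set θ : E2 → ℝ := fun _ => t with hθdef
  have hθ : ContDiff ℝ ∞ θ := contDiff_const
  have h0 : ∀ u ∈ T, colA A θ u ≠ 0 := by
    intro u hu
    by_cases hs : Sing (A u)
    · exact ht u ⟨hu, hs⟩
    · exact colA_ne_zero_of_not_sing hs
  have hsec := sec_of_frame hT hA hN hθ h0
  have hiff : ∀ u ∈ T, Sing (A u) ↔ colB A θ u = 0 := fun u hu => sing_iff_colB (h0 u hu)
  have hs1 : sgnAt (colA A θ) (colB A θ) z ≠ 0 := sgnAt_ne_zero hT hsec hzT ((hiff z hzT).1 hAz)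
  have hs2 : sgnAt (colA A θ) (colB A θ) z' ≠ 0 :=
    sgnAt_ne_zero hT hsec hz'T ((hiff z' hz'T).1 hAz')
  rcases lt_or_gt_of_ne (mul_ne_zero hs1 hs2) with hlt | hgt
  · exact mat_cancel_aux hT hball hA hN hfin hz hz' hAz hAz' hθ h0 hlt
  · -- rotate the frame by `π` near `z'`
    have hcl : IsClosed ({u ∈ T | Sing (A u)} \ {z'}) :=
      (hfin.subset sdiff_subset).isClosed
    have hmem : z' ∈ ({u ∈ T | Sing (A u)} \ {z'})ᶜ := by simp
    obtain ⟨ε, hε, hball'⟩ := Metric.isOpen_iff.1 hcl.isOpen_compl z' hmem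
    let f : ContDiffBump z' := ⟨ε / 3, ε / 2, by positivity, by linarith⟩
    set η : E2 → ℝ := fun u => t + f u * Real.pi with hηdef
    have hη : ContDiff ℝ ∞ η := contDiff_const.add (f.contDiff.mul contDiff_const)
    have hη1 : ∀ u, dist u z' ≤ ε / 3 → η u = θ u + Real.pi := by
      intro u hu
      have : f u = 1 := f.one_of_mem_closedBall (by simpa using hu)
      simp [hηdef, hθdef, this]
    have hη0 : ∀ u, ε / 2 ≤ dist u z' → η u = θ u := by
      intro u hu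
      have : f u = 0 := f.zero_of_le_dist hu
      simp [hηdef, hθdef, this]
    have hfar : ∀ u ∈ T, Sing (A u) → u ≠ z' → ε ≤ dist u z' := by
      intro u hu hs hne'
      by_contra hcon
      push Not at hcon
      exact hball' hcon ⟨⟨hu, hs⟩, hne'⟩
    have h0' : ∀ u ∈ T, colA A η u ≠ 0 := by
      intro u hu
      by_cases hs : Sing (A u)
      · rcases eq_or_ne u z' with rfl | hne'
        · rw [colA_pi (hη1 u (by rw [dist_self]; positivity)), neg_ne_zero]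
          exact h0 u hu
        · rw [colA_congr (hη0 u (by linarith [hfar u hu hs hne']))]
          exact h0 u hu
      · exact colA_ne_zero_of_not_sing hs
    have hz0 : ε ≤ dist z z' := hfar z hzT hAz hne
    have e1 : sgnAt (colA A η) (colB A η) z = sgnAt (colA A θ) (colB A θ) z := by
      apply sgnAt_congr
      · exact colA_congr (hη0 z (by linarith))
      · have hop : {u : E2 | ε / 2 < dist u z'} ∈ 𝓝 z :=
          (isOpen_lt continuous_const (continuous_id.dist continuous_const)).mem_nhds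
            (by show ε / 2 < dist z z'; linarith)
        filter_upwards [hop] with u hu
        exact colB_congr (hη0 u hu.le)
    have e2 : sgnAt (colA A η) (colB A η) z' = - sgnAt (colA A θ) (colB A θ) z' := by
      apply sgnAt_neg
      · exact colA_pi (hη1 z' (by rw [dist_self]; positivity))
      · filter_upwards [ball_mem_nhds z' (show (0 : ℝ) < ε / 3 by positivity)] with u hu
        exact colB_pi (hη1 u (mem_ball.1 hu).le)
    refine mat_cancel_aux hT hball hA hN hfin hz hz' hAz hAz' hη h0' ?_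
    rw [e1, e2]
    linarith

end Crest.Agent.R216.D
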