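import Crest.Agent.R216.D0
import Crest.Agent.R216.D4Lift
import Crest.Agent.R216.D4Mat

/-! Row 216 (D), module D4: moving and cancelling formal zeros (owner: helper86). -/

set_option autoImplicit false
open scoped Manifold ContDiff Topology
open Set Metric Function

namespace Crest.Agent.R216.D

section chart
variable {M : Type*} [TopologicalSpace M] [ChartedSpace E2 M] [IsManifold (𝓡 2) ∞ M]

lemma Formal.finite_planar (F : Formal M) (hfin : F.sing.Finite)
    {c : OpenPartialHomeomorph M E2} (hc : c ∈ IsManifold.maximalAtlas (𝓡 2) ∞ M) :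
    {u ∈ c.target | Sing (F.mat c u)}.Finite := by
  refine Set.Finite.of_finite_image (f := c.symm) (hfin.subset ?_) ?_
  · rintro _ ⟨u, ⟨hu, hs⟩, rfl⟩
    exact (F.mem_sing_iff hc hu).2 hs
  · intro u hu v hv h
    exact c.symm.injOn hu.1 hv.1 h

lemma Formal.mem_sing_iff' (F : Formal M)
    {c : OpenPartialHomeomorph M E2} (hc : c ∈ IsManifold.maximalAtlas (𝓡 2) ∞ M)
    {x : M} (hx : x ∈ c.source) : x ∈ F.sing ↔ Sing (F.mat c (c x)) := by
  have h := F.mem_sing_iff hc (c.map_source hx)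
  rw [c.left_inv hx] at h
  exact h

variable [T2Space M]

/-- moving a zero inside a chart ball -/
theorem Formal.jump {𝒜 : BallAtlas M} {F : Formal M} (hF : F.Good 𝒜) (i : Fin 𝒜.n) {p q : M}
    (hp : p ∈ (𝒜.c i).source) (hp1 : 𝒜.c i p ∈ ball (0 : E2) 1)
    (hq : q ∈ (𝒜.c i).source) (hq1 : 𝒜.c i q ∈ ball (0 : E2) 1)
    (hps : p ∈ F.sing) (hqs : q ∉ F.sing) :
    ∃ F' : Formal M, F'.Good 𝒜 ∧ ∀ x, x ∈ F'.sing ↔ (x ∈ F.sing ∧ x ≠ p) ∨ x = q := by
  have hc := 𝒜.mem i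
  obtain ⟨A', hA', hN', hEq, hsing⟩ := mat_jump (𝒜.c i).open_target (𝒜.big i)
    (F.contDiffOn_mat hc) (hF.1 i) (F.finite_planar hF.2 hc) hp1 hq1
    ((F.mem_sing_iff' hc hp).1 hps) (fun h => hqs ((F.mem_sing_iff' hc hq).2 h))
  obtain ⟨F', h1, h2, h3⟩ := F.exists_lift_good 𝒜 hF.1 i hA' hN' hEq
  have key : ∀ x, x ∈ F'.sing ↔ (x ∈ F.sing ∧ x ≠ p) ∨ x = q := by
    intro x
    by_cases hx : x ∈ (𝒜.c i).source
    · have hu := (𝒜.c i).map_source hx
      rw [F'.mem_sing_iff' hc hx, F.mem_sing_iff' hc hx, h2 _ hu, hsing _ hu]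
      have e1 : (𝒜.c i) x = (𝒜.c i) p ↔ x = p := (𝒜.c i).injOn.eq_iff hx hp
      have e2 : (𝒜.c i) x = (𝒜.c i) q ↔ x = q := (𝒜.c i).injOn.eq_iff hx hq
      rw [ne_eq, ne_eq, e1, e2]
    · have e1 : x ≠ p := fun h => hx (h ▸ hp)
      have e2 : x ≠ q := fun h => hx (h ▸ hq)
      rw [h3 x hx]
      simp [e1, e2]
  refine ⟨F', ⟨h1, ?_⟩, key⟩
  refine (hF.2.union (finite_singleton q)).subset ?_
  intro x hx
  rcases (key x).1 hx with h | h
  · exact Or.inl h.1
  · exact Or.inr h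

/-- cancelling two zeros inside a chart ball -/
theorem Formal.cancel {𝒜 : BallAtlas M} {F : Formal M} (hF : F.Good 𝒜) (i : Fin 𝒜.n) {p q : M}
    (hp : p ∈ (𝒜.c i).source) (hp1 : 𝒜.c i p ∈ ball (0 : E2) 1)
    (hq : q ∈ (𝒜.c i).source) (hq1 : 𝒜.c i q ∈ ball (0 : E2) 1)
    (hps : p ∈ F.sing) (hqs : q ∈ F.sing) (hpq : p ≠ q) :
    ∃ F' : Formal M, F'.Good 𝒜 ∧ ∀ x, x ∈ F'.sing ↔ x ∈ F.sing ∧ x ≠ p ∧ x ≠ q := by
  have hc := 𝒜.mem i
  have hne : 𝒜.c i p ≠ 𝒜.c i q := fun h => hpq ((𝒜.c i).injOn hp hq h)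
  obtain ⟨A', hA', hN', hEq, hsing⟩ := mat_cancel (𝒜.c i).open_target (𝒜.big i)
    (F.contDiffOn_mat hc) (hF.1 i) (F.finite_planar hF.2 hc) hne hp1 hq1
    ((F.mem_sing_iff' hc hp).1 hps) ((F.mem_sing_iff' hc hq).1 hqs)
  obtain ⟨F', h1, h2, h3⟩ := F.exists_lift_good 𝒜 hF.1 i hA' hN' hEq
  have key : ∀ x, x ∈ F'.sing ↔ x ∈ F.sing ∧ x ≠ p ∧ x ≠ q := by
    intro x
    by_cases hx : x ∈ (𝒜.c i).source
    · have hu := (𝒜.c i).map_source hx
      rw [F'.mem_sing_iff' hc hx, F.mem_sing_iff' hc hx, h2 _ hu, hsing _ hu]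
      have e1 : (𝒜.c i) x = (𝒜.c i) p ↔ x = p := (𝒜.c i).injOn.eq_iff hx hp
      have e2 : (𝒜.c i) x = (𝒜.c i) q ↔ x = q := (𝒜.c i).injOn.eq_iff hx hq
      rw [ne_eq, ne_eq, e1, e2]
    · have e1 : x ≠ p := fun h => hx (h ▸ hp)
      have e2 : x ≠ q := fun h => hx (h ▸ hq)
      rw [h3 x hx]
      simp [e1, e2]
  refine ⟨F', ⟨h1, ?_⟩, key⟩
  exact hF.2.subset fun x hx => ((key x).1 hx).1

/-- cancelling two zeros in the same component -/
theorem Formal.cancel_component {𝒜 : BallAtlas M} {y p : M} (hpy : p ∈ connectedComponent y)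
    {F : Formal M} (hF : F.Good 𝒜) (hps : p ∈ F.sing) (hys : y ∈ F.sing) (hne : p ≠ y) :
    ∃ F' : Formal M, F'.Good 𝒜 ∧ ∀ x, x ∈ F'.sing ↔ x ∈ F.sing ∧ x ≠ p ∧ x ≠ y := by
  set B : Fin 𝒜.n → Set M := fun i => (𝒜.c i).source ∩ (𝒜.c i) ⁻¹' ball (0 : E2) 1 with hB
  have hBo : ∀ i, IsOpen (B i) := fun i => (𝒜.c i).isOpen_inter_preimage isOpen_ball
  set S : Set M := {p | p = y ∨ ∀ F : Formal M, F.Good 𝒜 → p ∈ F.sing → y ∈ F.sing → p ≠ y →
    ∃ F' : Formal M, F'.Good 𝒜 ∧ ∀ x, x ∈ F'.sing ↔ x ∈ F.sing ∧ x ≠ p ∧ x ≠ y} with hS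
  have hstep : ∀ i, (S ∩ B i).Nonempty → B i ⊆ S := by
    rintro i ⟨q, hqS, hqB⟩ p hpB
    by_cases hpy : p = y
    · exact Or.inl hpy
    refine Or.inr fun F hF hps hys _ => ?_
    rcases hqS with hqy | hq
    · -- `q = y` : cancel directly
      subst hqy
      exact Formal.cancel hF i hpB.1 hpB.2 hqB.1 hqB.2 hps hys hpy
    · by_cases hqy : q = y
      · subst hqy
        exact Formal.cancel hF i hpB.1 hpB.2 hqB.1 hqB.2 hps hys hpy
      by_cases hqp : q = p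
      · subst hqp
        exact hq F hF hps hys hqy
      by_cases hqs : q ∈ F.sing
      · obtain ⟨F₁, hF₁, h₁⟩ := hq F hF hqs hys hqy
        have hp₁ : p ∈ F₁.sing := (h₁ p).2 ⟨hps, fun h => hqp h.symm, hpy⟩
        have hq₁ : q ∉ F₁.sing := fun h => ((h₁ q).1 h).2.1 rfl
        obtain ⟨F₂, hF₂, h₂⟩ := Formal.jump hF₁ i hpB.1 hpB.2 hqB.1 hqB.2 hp₁ hq₁
        refine ⟨F₂, hF₂, fun x => ?_⟩
        rw [h₂ x, h₁ x]
        constructor
        · rintro (⟨⟨a, b, c⟩, d⟩ | h)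
          · exact ⟨a, d, c⟩
          · subst h
            exact ⟨hqs, hqp, hqy⟩
        · rintro ⟨a, b, c⟩
          by_cases hxq : x = q
          · exact Or.inr hxq
          · exact Or.inl ⟨⟨a, hxq, c⟩, b⟩
      · obtain ⟨F₁, hF₁, h₁⟩ := Formal.jump hF i hpB.1 hpB.2 hqB.1 hqB.2 hps hqs
        have hq₁ : q ∈ F₁.sing := (h₁ q).2 (Or.inr rfl)
        have hy₁ : y ∈ F₁.sing := (h₁ y).2 (Or.inl ⟨hys, fun h => hpy h.symm⟩)
        obtain ⟨F₂, hF₂, h₂⟩ := hq F₁ hF₁ hq₁ hy₁ hqy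
        refine ⟨F₂, hF₂, fun x => ?_⟩
        rw [h₂ x, h₁ x]
        constructor
        · rintro ⟨(⟨a, d⟩ | h), b, c⟩
          · exact ⟨a, d, c⟩
          · exact absurd h b
        · rintro ⟨a, b, c⟩
          refine ⟨Or.inl ⟨a, b⟩, ?_, c⟩
          rintro rfl
          exact hqs a
  have hSo : IsOpen S := by
    rw [isOpen_iff_mem_nhds]
    intro q hq
    obtain ⟨i, hi, hi1⟩ := 𝒜.cover q
    exact Filter.mem_of_superset ((hBo i).mem_nhds ⟨hi, hi1⟩) (hstep i ⟨q, hq, hi, hi1⟩)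
  have hSc : IsOpen Sᶜ := by
    rw [isOpen_iff_mem_nhds]
    intro q hq
    obtain ⟨i, hi, hi1⟩ := 𝒜.cover q
    refine Filter.mem_of_superset ((hBo i).mem_nhds ⟨hi, hi1⟩) ?_
    intro p hp hpS
    exact hq (hstep i ⟨p, hpS, hp⟩ ⟨hi, hi1⟩)
  have hclopen : IsClopen S := ⟨⟨hSc⟩, hSo⟩
  have hyS : y ∈ S := Or.inl rfl
  rcases hclopen.connectedComponent_subset hyS hpy with h | h
  · exact absurd h hne
  · exact h F hF hps hys hne

theorem Formal.cancel_all {𝒜 : BallAtlas M} : ∀ (n : ℕ) (F : Formal M), F.Good 𝒜 → F.sing.ncard = n →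
    (∀ x, Even (F.sing ∩ connectedComponent x).ncard) → ∃ F' : Formal M, F'.sing = ∅ := by
  intro n
  induction n using Nat.strong_induction_on with
  | _ n ih =>
    intro F hF hn heven
    by_cases hemp : F.sing = ∅
    · exact ⟨F, hemp⟩
    obtain ⟨y, hy⟩ := nonempty_iff_ne_empty.2 hemp
    -- a second singular point in the component of `y`
    have hfin := hF.2
    have hycc : y ∈ F.sing ∩ connectedComponent y := ⟨hy, mem_connectedComponent⟩
    have h2 : 1 < (F.sing ∩ connectedComponent y).ncard := by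
      have hpos : 0 < (F.sing ∩ connectedComponent y).ncard :=
        (Set.ncard_pos (hfin.subset inter_subset_left)).2 ⟨y, hycc⟩
      obtain ⟨k, hk⟩ := heven y
      omega
    obtain ⟨p, hp, hpy⟩ := Set.exists_ne_of_one_lt_ncard h2 y
    obtain ⟨F', hF', h'⟩ := Formal.cancel_component hp.2 hF hp.1 hy hpy
    have hsub : F'.sing = F.sing \ {p, y} := by
      ext x
      rw [h' x]
      simp only [mem_diff, mem_insert_iff, mem_singleton_iff, not_or]
    have hlt : F'.sing.ncard < n := by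
      rw [← hn]
      apply Set.ncard_lt_ncard _ hfin
      rw [hsub]
      refine ⟨diff_subset, fun h => ?_⟩
      exact (h hy).2 (by simp)
    refine ih _ hlt F' hF' rfl fun x => ?_
    by_cases hxy : connectedComponent x = connectedComponent y
    · rw [hxy]
      have h3 : F'.sing ∩ connectedComponent y = (F.sing ∩ connectedComponent y) \ {p, y} := by
        rw [hsub]; ext z; simp only [mem_inter_iff, mem_diff]; tauto
      have h4 : ({p, y} : Set M) ⊆ F.sing ∩ connectedComponent y := by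
        rintro z (rfl | rfl)
        · exact hp
        · exact hycc
      rw [h3, Set.ncard_diff h4 (by simp), Set.ncard_pair hpy]
      obtain ⟨k, hk⟩ := heven y
      exact ⟨k - 1, by omega⟩
    · have h3 : F'.sing ∩ connectedComponent x = F.sing ∩ connectedComponent x := by
        rw [hsub]
        ext z
        simp only [mem_inter_iff, mem_diff, mem_insert_iff, mem_singleton_iff]
        constructor
        · rintro ⟨⟨a, b⟩, c⟩
          exact ⟨a, c⟩
        · rintro ⟨a, c⟩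
          refine ⟨⟨a, ?_⟩, c⟩
          rintro (rfl | rfl)
          · apply hxy
            rw [connectedComponent_eq c, connectedComponent_eq hp.2]
          · exact hxy (connectedComponent_eq c)
      rw [h3]
      exact heven x

end chart

variable {M : Type*} [TopologicalSpace M] [T2Space M] [CompactSpace M] [ChartedSpace E2 M]
  [IsManifold (𝓡 2) ∞ M]

theorem exists_formal_immersion (𝒜 : BallAtlas M) (F : Formal M)
    (hN : ∀ i, ∀ u ∈ (𝒜.c i).target, Nondeg (F.mat (𝒜.c i)) u)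
    (hfin : F.sing.Finite) (heven : ∀ x, Even (F.sing ∩ connectedComponent x).ncard) :
    ∃ F' : Formal M, F'.sing = ∅ :=
  Formal.cancel_all (𝒜 := 𝒜) _ F ⟨hN, hfin⟩ rfl heven

end Crest.Agent.R216.D
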