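import Crest.Agent.R216.DDefs

/-! Row 216 (D), module D5, planar part: one primitive corrugation of a formal immersion into `ℝ³`
(owner: helper547). -/

set_option autoImplicit false
open scoped Manifold ContDiff Topology
open Set Metric Function

namespace Crest.Agent.R216.D.P5

noncomputable section

/-- cross product on `E3` -/
def cr (a b : E3) : E3 :=
  !₂[a 1 * b 2 - a 2 * b 1, a 2 * b 0 - a 0 * b 2, a 0 * b 1 - a 1 * b 0]

lemma inner3 (a b : E3) : inner ℝ a b = a 0 * b 0 + a 1 * b 1 + a 2 * b 2 := by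
  simp [PiLp.inner_apply, Fin.sum_univ_three, mul_comm]

lemma norm3_sq (a : E3) : ‖a‖ ^ 2 = a 0 ^ 2 + a 1 ^ 2 + a 2 ^ 2 := by
  rw [← real_inner_self_eq_norm_sq, inner3]; ring

lemma inner_cr_left (a b : E3) : inner ℝ a (cr a b) = 0 := by
  rw [inner3]; simp [cr]; ring

lemma inner_cr_right (a b : E3) : inner ℝ b (cr a b) = 0 := by
  rw [inner3]; simp [cr]; ring

/-- Gram determinant -/
def gd (a b : E3) : ℝ := ‖a‖ ^ 2 * ‖b‖ ^ 2 - (inner ℝ a b) ^ 2

lemma norm_cr_sq (a b : E3) : ‖cr a b‖ ^ 2 = gd a b := by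
  rw [gd, norm3_sq, norm3_sq, norm3_sq, inner3]; simp [cr]; ring

/-- the vector in the span of `a`, `b`, orthogonal to `b`. -/
def pv (a b : E3) : E3 := ‖b‖ ^ 2 • a - (inner ℝ a b : ℝ) • b

lemma inner_left_pv (a b : E3) : inner ℝ a (pv a b) = gd a b := by
  simp only [pv, gd, inner_sub_right, inner_smul_right, real_inner_self_eq_norm_sq]
  ring

lemma inner_right_pv (a b : E3) : inner ℝ b (pv a b) = 0 := by
  simp only [pv, inner_sub_right, inner_smul_right, real_inner_self_eq_norm_sq,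
    real_inner_comm a b]
  ring

lemma inner_cr_pv (a b : E3) : inner ℝ (cr a b) (pv a b) = 0 := by
  have h1 : inner ℝ (cr a b) a = 0 := by rw [real_inner_comm, inner_cr_left]
  have h2 : inner ℝ (cr a b) b = 0 := by rw [real_inner_comm, inner_cr_right]
  rw [pv, inner_sub_right, inner_smul_right, inner_smul_right, h1, h2]
  ring

lemma contDiff_cr {n : WithTop ℕ∞} {V : Type*} [NormedAddCommGroup V] [NormedSpace ℝ V]
    {a b : V → E3} {x : V} (ha : ContDiffAt ℝ n a x) (hb : ContDiffAt ℝ n b x) :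
    ContDiffAt ℝ n (fun u => cr (a u) (b u)) x := by
  rw [contDiffAt_euclidean] at ha hb ⊢
  intro i
  fin_cases i
  · simpa [cr] using ((ha 1).mul (hb 2)).sub ((ha 2).mul (hb 1))
  · simpa [cr] using ((ha 2).mul (hb 0)).sub ((ha 0).mul (hb 2))
  · simpa [cr] using ((ha 0).mul (hb 1)).sub ((ha 1).mul (hb 0))

lemma gd_pos {L : E2 →L[ℝ] E3} (hL : Injective L) {i j : Fin 2} (hij : i ≠ j) :
    0 < gd (L (EuclideanSpace.single i 1)) (L (EuclideanSpace.single j 1)) := by
  set P := L (EuclideanSpace.single i 1) with hP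
  set Q := L (EuclideanSpace.single j 1) with hQ
  have h0 : 0 ≤ gd P Q := by
    rw [← norm_cr_sq]; positivity
  rcases h0.lt_or_eq with h | h
  · exact h
  exfalso
  -- norm of pv
  have hp : ‖pv P Q‖ ^ 2 = ‖Q‖ ^ 2 * gd P Q := by
    rw [← real_inner_self_eq_norm_sq]
    conv_lhs => rw [pv]
    rw [inner_sub_left, inner_smul_left, inner_smul_left]
    have h1 := inner_left_pv P Q
    have h2 := inner_right_pv P Q
    rw [pv] at h1 h2
    rw [h1, h2]; simp
  rw [← h, mul_zero] at hp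
  have hp0 : pv P Q = 0 := by
    have : ‖pv P Q‖ = 0 := by
      exact pow_eq_zero_iff (n := 2) (by norm_num) |>.1 hp
    exact norm_eq_zero.1 this
  have hlin : L (‖Q‖ ^ 2 • EuclideanSpace.single i (1 : ℝ) -
      (inner ℝ P Q : ℝ) • EuclideanSpace.single j (1 : ℝ)) = 0 := by
    rw [map_sub, map_smul, map_smul]
    exact hp0
  have hz := hL (hlin.trans (map_zero L).symm)
  have hi := congrArg (fun w : E2 => w i) hz
  simp [hij] at hi
  have hj : EuclideanSpace.single j (1 : ℝ) = 0 := hL ((hQ ▸ hi : L _ = 0).trans (map_zero L).symm)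
  have := congrArg (fun w : E2 => w j) hj
  simp at this

/-- the key algebraic fact: the loop avoids the line spanned by `Q`. -/
lemma loop_indep {P Q T : E3} (hD : 0 < gd P Q) {ρ K c : ℝ} (hρ0 : 0 ≤ ρ) (hK : 1 ≤ K)
    (hKb : 2 * (|inner ℝ T (pv P Q)| + (inner ℝ T (cr P Q)) ^ 2 / gd P Q) ≤ K * gd P Q)
    {a b : ℝ}
    (h : a • (P - ρ • T + (K * ρ) • ((-(1 / 2) * (2 * c ^ 2 - 1)) • P + c • cr P Q)) + b • Q = 0) :
    a = 0 ∧ b = 0 := by
  set D := gd P Q with hDdef
  have hp := congrArg (fun w => inner ℝ w (pv P Q)) h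
  have hn := congrArg (fun w => inner ℝ w (cr P Q)) h
  simp only [inner_add_left, inner_sub_left, inner_smul_left, inner_zero_left,
    inner_left_pv, inner_right_pv, inner_cr_pv, inner_cr_left, inner_cr_right,
    real_inner_self_eq_norm_sq, norm_cr_sq, ← hDdef, RCLike.conj_to_real] at hp hn
  have hK0 : 0 < K := by linarith
  have ha : a = 0 := by
    by_contra ha
    have hp' : D - ρ * inner ℝ T (pv P Q) + K * ρ * (-(1 / 2) * (2 * c ^ 2 - 1) * D) = 0 := by
      have : a * (D - ρ * inner ℝ T (pv P Q) + K * ρ * (-(1 / 2) * (2 * c ^ 2 - 1) * D)) = 0 := by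
        linarith
      exact (mul_eq_zero.1 this).resolve_left ha
    have hn' : ρ * (K * (c * D) - inner ℝ T (cr P Q)) = 0 := by
      have : a * (ρ * (K * (c * D) - inner ℝ T (cr P Q))) = 0 := by linarith
      exact (mul_eq_zero.1 this).resolve_left ha
    rcases mul_eq_zero.1 hn' with hr | hc
    · subst hr
      simp at hp'
      linarith
    · have hcD : K * (c * D) = inner ℝ T (cr P Q) := by linarith
      -- K c^2 D = <T,n>^2/(K D)
      have h1 : K * (c ^ 2 * D) ≤ (inner ℝ T (cr P Q)) ^ 2 / D := by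
        rw [← hcD, le_div_iff₀ hD]
        have : K * (c ^ 2 * D) * D = K * (c * D) ^ 2 := by ring
        rw [this]
        have h2 : (K * (c * D)) ^ 2 = K ^ 2 * (c * D) ^ 2 := by ring
        rw [h2]
        have : K ≤ K ^ 2 := by nlinarith
        exact mul_le_mul_of_nonneg_right this (sq_nonneg _)
      have h3 := le_abs_self (inner ℝ T (pv P Q))
      have h4 : 0 ≤ ρ * (K * D / 2 - inner ℝ T (pv P Q) - K * (c ^ 2 * D)) := by
        apply mul_nonneg hρ0
        linarith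
      nlinarith
  subst ha
  refine ⟨rfl, ?_⟩
  have hQ : b • Q = 0 := by simpa using h
  rcases smul_eq_zero.1 hQ with h | h
  · exact h
  · exfalso
    rw [h] at hDdef
    simp [gd] at hDdef
    linarith

/-! ### calculus -/

lemma contDiff_smul_of_tsupport {F : Type*} [NormedAddCommGroup F] [NormedSpace ℝ F]
    {U : Set E2} (hU : IsOpen U) {ρ : E2 → ℝ} (hρ : ContDiff ℝ ∞ ρ) (hs : tsupport ρ ⊆ U)
    {f : E2 → F} (hf : ContDiffOn ℝ ∞ f U) : ContDiff ℝ ∞ (fun u => ρ u • f u) := by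
  rw [contDiff_iff_contDiffAt]
  intro x
  by_cases hx : x ∈ U
  · exact hρ.contDiffAt.smul (hf.contDiffAt (hU.mem_nhds hx))
  · have hx' : x ∉ tsupport ρ := fun h => hx (hs h)
    have : (fun u => ρ u • f u) =ᶠ[𝓝 x] fun _ => 0 := by
      filter_upwards [notMem_tsupport_iff_eventuallyEq.1 hx'] with u hu
      simp [hu]
    exact contDiffAt_const.congr_of_eventuallyEq this

/-- the coordinate functional -/
abbrev xi (i : Fin 2) : E2 →L[ℝ] ℝ := EuclideanSpace.proj i

/-- the basis vector -/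
abbrev eb (i : Fin 2) : E2 := EuclideanSpace.single i 1

lemma decomp2 {i j : Fin 2} (hij : i ≠ j) (v : E2) : v = v i • eb i + v j • eb j := by
  ext k
  fin_cases i <;> fin_cases j <;> fin_cases k <;> simp at hij ⊢

lemma hasFDerivAt_osc {i : Fin 2} {φ : ℝ → ℝ} {φ' ε : ℝ} (hε : ε ≠ 0) {a : E2 → E3}
    {a' : E2 →L[ℝ] E3} {u : E2} (hφ : HasDerivAt φ φ' (xi i u / ε)) (ha : HasFDerivAt a a' u) :
    HasFDerivAt (fun u => ε • (φ (xi i u / ε) • a u))
      ((ε * φ (xi i u / ε)) • a' + (xi i).smulRight (φ' • a u)) u := by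
  have h1 : HasFDerivAt (fun u : E2 => xi i u / ε) (ε⁻¹ • xi i) u := by
    have := ((xi i).hasFDerivAt (x := u)).const_mul ε⁻¹
    refine this.congr_of_eventuallyEq (Filter.Eventually.of_forall fun y => ?_)
    simp [div_eq_inv_mul]
  have h2 : HasFDerivAt (fun u : E2 => φ (xi i u / ε)) (φ' • (ε⁻¹ • xi i)) u :=
    hφ.comp_hasFDerivAt u h1
  have h3 := (h2.smul ha).const_smul ε
  refine h3.congr_fderiv ?_
  ext1 v
  simp only [_root_.smul_apply, _root_.add_apply,
    ContinuousLinearMap.smulRight_apply, smul_add, smul_smul]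
  congr 1
  simp only [smul_eq_mul]
  field_simp

/-- One primitive step. -/
theorem primitive_step {U : Set E2} (hU : IsOpen U) {g : E2 → E3} {A : E2 → E2 →L[ℝ] E3}
    (hg : ContDiffOn ℝ ∞ g U) (hA : ContDiffOn ℝ ∞ A U)
    (hinj : ∀ u ∈ U, Injective (fderiv ℝ g u + A u))
    {ρ : E2 → ℝ} (hρ : ContDiff ℝ ∞ ρ) (hρ0 : ∀ u, 0 ≤ ρ u) (hcpt : HasCompactSupport ρ)
    (hs : tsupport ρ ⊆ U) {i j : Fin 2} (hij : i ≠ j) :
    ∃ h : E2 → E3, ContDiff ℝ ∞ h ∧ tsupport h ⊆ tsupport ρ ∧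
      ∀ u ∈ U, Injective (fderiv ℝ g u + fderiv ℝ h u +
        (A u - ρ u • (xi i).smulRight (A u (eb i)))) := by
  set P : E2 → E3 := fun u => (fderiv ℝ g u + A u) (eb i) with hPdef
  set Q : E2 → E3 := fun u => (fderiv ℝ g u + A u) (eb j) with hQdef
  set T : E2 → E3 := fun u => A u (eb i) with hTdef
  set N : E2 → E3 := fun u => cr (P u) (Q u) with hNdef
  have hDg : ContDiffOn ℝ ∞ (fderiv ℝ g) U := hg.fderiv_of_isOpen hU (by simp)
  have hP : ContDiffOn ℝ ∞ P U := (hDg.add hA).clm_apply contDiffOn_const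
  have hQ : ContDiffOn ℝ ∞ Q U := (hDg.add hA).clm_apply contDiffOn_const
  have hT : ContDiffOn ℝ ∞ T U := hA.clm_apply contDiffOn_const
  have hN : ContDiffOn ℝ ∞ N U := fun u hu =>
    (contDiff_cr (hP.contDiffAt (hU.mem_nhds hu)) (hQ.contDiffAt (hU.mem_nhds hu))).contDiffWithinAt
  have hD : ∀ u ∈ U, 0 < gd (P u) (Q u) := fun u hu => gd_pos (hinj u hu) hij
  set a : E2 → E3 := fun u => ρ u • P u with hadef
  set b : E2 → E3 := fun u => ρ u • N u with hbdef
  have ha : ContDiff ℝ ∞ a := contDiff_smul_of_tsupport hU hρ hs hP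
  have hb : ContDiff ℝ ∞ b := contDiff_smul_of_tsupport hU hρ hs hN
  have hPc : ContinuousOn P (tsupport ρ) := hP.continuousOn.mono hs
  have hQc : ContinuousOn Q (tsupport ρ) := hQ.continuousOn.mono hs
  have hTc : ContinuousOn T (tsupport ρ) := hT.continuousOn.mono hs
  have hNc : ContinuousOn N (tsupport ρ) := hN.continuousOn.mono hs
  have hpvc : ContinuousOn (fun u => pv (P u) (Q u)) (tsupport ρ) := by
    have hin : ContinuousOn (fun u => (inner ℝ (P u) (Q u) : ℝ)) (tsupport ρ) := hPc.inner hQc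
    simp only [pv]
    exact ((hQc.norm.pow 2).smul hPc).sub (hin.smul hQc)
  have hgdc : ContinuousOn (fun u => gd (P u) (Q u)) (tsupport ρ) := by
    simp only [gd]
    exact ((hPc.norm.pow 2).mul (hQc.norm.pow 2)).sub ((hPc.inner hQc).pow 2)
  have hFc : ContinuousOn (fun u => 2 * (|inner ℝ (T u) (pv (P u) (Q u))| +
      (inner ℝ (T u) (cr (P u) (Q u))) ^ 2 / gd (P u) (Q u)) / gd (P u) (Q u)) (tsupport ρ) := by
    refine ContinuousOn.div ?_ hgdc fun u hu => (hD u (hs hu)).ne'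
    refine continuousOn_const.mul (ContinuousOn.add (hTc.inner hpvc).abs ?_)
    exact ContinuousOn.div ((hTc.inner hNc).pow 2) hgdc fun u hu => (hD u (hs hu)).ne'
  obtain ⟨C0, hC0⟩ := hcpt.isCompact.exists_bound_of_continuousOn hFc
  set K : ℝ := max 1 C0 with hKdef
  have hK1 : 1 ≤ K := le_max_left _ _
  have hKb : ∀ u ∈ tsupport ρ, 2 * (|inner ℝ (T u) (pv (P u) (Q u))| +
      (inner ℝ (T u) (cr (P u) (Q u))) ^ 2 / gd (P u) (Q u)) ≤ K * gd (P u) (Q u) := by
    intro u hu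
    have h1 := (le_abs_self _).trans ((hC0 u hu).trans (le_max_right 1 C0))
    rwa [div_le_iff₀ (hD u (hs hu))] at h1
  -- the loop
  set γ : E2 → ℝ → E3 := fun u c => P u - ρ u • T u +
    (K * ρ u) • ((-(1 / 2) * (2 * c ^ 2 - 1)) • P u + c • cr (P u) (Q u)) with hγdef
  have hScpt : IsCompact (tsupport ρ ×ˢ (Icc (-1 : ℝ) 1 ×ˢ sphere (0 : E2) 1)) :=
    hcpt.isCompact.prod (isCompact_Icc.prod (isCompact_sphere _ _))
  have hfc : ContinuousOn (fun z : E2 × ℝ × E2 => ‖z.2.2 i • γ z.1 z.2.1 + z.2.2 j • Q z.1‖)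
      (tsupport ρ ×ˢ (Icc (-1 : ℝ) 1 ×ˢ sphere (0 : E2) 1)) := by
    have m1 : MapsTo (fun z : E2 × ℝ × E2 => z.1)
      (tsupport ρ ×ˢ (Icc (-1 : ℝ) 1 ×ˢ sphere (0 : E2) 1)) (tsupport ρ) := fun z hz => hz.1
    have c1 := continuousOn_fst (α := E2) (β := ℝ × E2)
      (s := tsupport ρ ×ˢ (Icc (-1 : ℝ) 1 ×ˢ sphere (0 : E2) 1))
    have cP := hPc.comp c1 m1
    have cQ := hQc.comp c1 m1
    have cT := hTc.comp c1 m1
    have cN := hNc.comp c1 m1
    have cρ : ContinuousOn (fun z : E2 × ℝ × E2 => ρ z.1)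
      (tsupport ρ ×ˢ (Icc (-1 : ℝ) 1 ×ˢ sphere (0 : E2) 1)) :=
      (hρ.continuous.comp continuous_fst).continuousOn
    have cc : ContinuousOn (fun z : E2 × ℝ × E2 => z.2.1)
      (tsupport ρ ×ˢ (Icc (-1 : ℝ) 1 ×ˢ sphere (0 : E2) 1)) :=
      (continuous_fst.comp continuous_snd).continuousOn
    have ci : ∀ k : Fin 2, ContinuousOn (fun z : E2 × ℝ × E2 => z.2.2 k)
      (tsupport ρ ×ˢ (Icc (-1 : ℝ) 1 ×ˢ sphere (0 : E2) 1)) := fun k =>
      ((xi k).continuous.comp (continuous_snd.comp continuous_snd)).continuousOn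
    refine ContinuousOn.norm (((ci i).smul ?_).add ((ci j).smul cQ))
    refine (cP.sub (cρ.smul cT)).add ((continuousOn_const.mul cρ).smul ?_)
    exact ((continuousOn_const.mul ((continuousOn_const.mul (cc.pow 2)).sub
      continuousOn_const)).smul cP).add (cc.smul cN)
  have hfpos : ∀ z ∈ (tsupport ρ ×ˢ (Icc (-1 : ℝ) 1 ×ˢ sphere (0 : E2) 1)),
      (0 : ℝ) < ‖z.2.2 i • γ z.1 z.2.1 + z.2.2 j • Q z.1‖ := by
    rintro ⟨u, c, v⟩ ⟨hu, hc, hv⟩
    rw [norm_pos_iff]
    intro h0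
    have := loop_indep (hD u (hs hu)) (hρ0 u) hK1 (hKb u hu) h0
    have hv0 : v = 0 := by
      rw [decomp2 hij v, this.1, this.2]; simp
    rw [mem_sphere_zero_iff_norm, hv0] at hv
    simp at hv
  obtain ⟨κ, hκ0, hκ⟩ := hScpt.exists_forall_le' hfc hfpos
  -- derivative bounds
  obtain ⟨Ca, hCa⟩ := hcpt.isCompact.exists_bound_of_continuousOn
    (ha.continuous_fderiv (by simp)).continuousOn
  obtain ⟨Cb, hCb⟩ := hcpt.isCompact.exists_bound_of_continuousOn
    (hb.continuous_fderiv (by simp)).continuousOn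
  set B : ℝ := K * (|Ca| + |Cb|) + 1 with hBdef
  have hK0 : 0 < K := by linarith
  have hB0 : 0 < B := by positivity
  set ε : ℝ := κ / (2 * B) with hεdef
  have hε0 : 0 < ε := by positivity
  have hεB : ε * B < κ := by
    rw [hεdef]; field_simp; linarith
  set h : E2 → E3 := fun u => K • (ε • ((-(1 / 4) * Real.sin (2 * (xi i u / ε))) • a u) +
    ε • (Real.sin (xi i u / ε) • b u)) with hhdef
  have hh : ContDiff ℝ ∞ h := by
    have hx : ContDiff ℝ ∞ (fun u : E2 => xi i u / ε) := (xi i).contDiff.div_const ε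
    have hx1 : ContDiff ℝ ∞ (fun u : E2 => -(1 / 4) * Real.sin (2 * (xi i u / ε))) :=
      contDiff_const.mul (Real.contDiff_sin.comp (contDiff_const.mul hx))
    have hx2 : ContDiff ℝ ∞ (fun u : E2 => Real.sin (xi i u / ε)) := Real.contDiff_sin.comp hx
    exact (((hx1.smul ha).const_smul ε).add ((hx2.smul hb).const_smul ε)).const_smul K
  have hts : tsupport h ⊆ tsupport ρ := by
    refine closure_mono fun u hu => ?_
    rw [mem_support] at hu ⊢
    intro h0
    apply hu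
    simp [hhdef, hadef, hbdef, h0]
  refine ⟨h, hh, hts, fun u hu => ?_⟩
  by_cases hut : u ∈ tsupport ρ
  swap
  · have h1 : fderiv ℝ h u = 0 := fderiv_of_notMem_tsupport (𝕜 := ℝ) fun h => hut (hts h)
    have h2 : ρ u = 0 := image_eq_zero_of_notMem_tsupport hut
    rw [h1, h2]
    simpa using hinj u hu
  have hfd : HasFDerivAt h (K • (((ε * (-(1 / 4) * Real.sin (2 * (xi i u / ε)))) • fderiv ℝ a u +
      (xi i).smulRight ((-(1 / 2) * Real.cos (2 * (xi i u / ε))) • a u)) +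
      ((ε * Real.sin (xi i u / ε)) • fderiv ℝ b u +
      (xi i).smulRight (Real.cos (xi i u / ε) • b u)))) u := by
    refine HasFDerivAt.const_smul (HasFDerivAt.add ?_ ?_) K
    · refine hasFDerivAt_osc (φ := fun t => -(1 / 4) * Real.sin (2 * t)) hε0.ne' ?_
        (ha.differentiable (by simp) u).hasFDerivAt
      have h1 : HasDerivAt (fun t : ℝ => 2 * t) 2 (xi i u / ε) := by
        simpa using (hasDerivAt_id (xi i u / ε)).const_mul (2 : ℝ)
      have h2 := (h1.sin).const_mul (-(1 / 4) : ℝ)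
      refine h2.congr_deriv ?_
      ring
    · exact hasFDerivAt_osc (φ := Real.sin) hε0.ne' (Real.hasDerivAt_sin _)
        (hb.differentiable (by simp) u).hasFDerivAt
  rw [hfd.fderiv]
  rw [injective_iff_map_eq_zero]
  intro v hv
  by_contra hv0
  have hvn : 0 < ‖v‖ := norm_pos_iff.2 hv0
  set c : ℝ := Real.cos (xi i u / ε) with hcdef
  set s : ℝ := Real.sin (xi i u / ε) with hsdef
  have hcos2 : Real.cos (2 * (xi i u / ε)) = 2 * c ^ 2 - 1 := Real.cos_two_mul _
  set s2 : ℝ := Real.sin (2 * (xi i u / ε)) with hs2def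
  have hPhi : fderiv ℝ g u v + A u v = v i • P u + v j • Q u := by
    have : (fderiv ℝ g u + A u) v = (fderiv ℝ g u + A u) (v i • eb i + v j • eb j) := by
      rw [← decomp2 hij v]
    rw [map_add, map_smul, map_smul] at this
    exact this
  have hmain : v i • γ u c + v j • Q u =
      -(K • ((ε * (-(1 / 4) * s2)) • fderiv ℝ a u v + (ε * s) • fderiv ℝ b u v)) := by
    rw [eq_neg_iff_add_eq_zero, ← hv]
    simp only [_root_.add_apply, _root_.sub_apply,
      _root_.smul_apply, ContinuousLinearMap.smulRight_apply, hcos2]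
    have hxi : (xi i) v = v i := rfl
    rw [hxi]
    have e1 : fderiv ℝ g u v = v i • P u + v j • Q u - A u v := by rw [← hPhi]; abel
    rw [e1]
    simp only [hγdef, hadef, hbdef, hNdef, hTdef]
    module
  have hb1 : ‖v i • γ u c + v j • Q u‖ ≤ ε * B * ‖v‖ := by
    rw [hmain, norm_neg, norm_smul, Real.norm_of_nonneg hK0.le]
    have q1 : ‖(ε * (-(1 / 4) * s2)) • fderiv ℝ a u v‖ ≤ ε * (|Ca| * ‖v‖) := by
      rw [norm_smul, norm_mul, Real.norm_of_nonneg hε0.le, mul_assoc]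
      refine mul_le_mul_of_nonneg_left ?_ hε0.le
      have : ‖(-(1 / 4) * s2 : ℝ)‖ ≤ 1 := by
        rw [Real.norm_eq_abs, abs_mul, hs2def]
        have := Real.abs_sin_le_one (2 * (xi i u / ε))
        rw [abs_neg, abs_of_pos (by norm_num : (0 : ℝ) < 1 / 4)]
        linarith
      calc _ ≤ 1 * (|Ca| * ‖v‖) := by
            refine mul_le_mul this ?_ (norm_nonneg _) zero_le_one
            exact ((fderiv ℝ a u).le_opNorm v).trans
              (mul_le_mul_of_nonneg_right ((hCa u hut).trans (le_abs_self _)) (norm_nonneg _))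
        _ = _ := one_mul _
    have q2 : ‖(ε * s) • fderiv ℝ b u v‖ ≤ ε * (|Cb| * ‖v‖) := by
      rw [norm_smul, norm_mul, Real.norm_of_nonneg hε0.le, mul_assoc]
      refine mul_le_mul_of_nonneg_left ?_ hε0.le
      have : ‖s‖ ≤ 1 := Real.abs_sin_le_one _
      calc _ ≤ 1 * (|Cb| * ‖v‖) := by
            refine mul_le_mul this ?_ (norm_nonneg _) zero_le_one
            exact ((fderiv ℝ b u).le_opNorm v).trans
              (mul_le_mul_of_nonneg_right ((hCb u hut).trans (le_abs_self _)) (norm_nonneg _))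
        _ = _ := one_mul _
    calc K * ‖(ε * (-(1 / 4) * s2)) • fderiv ℝ a u v + (ε * s) • fderiv ℝ b u v‖
        ≤ K * (ε * (|Ca| * ‖v‖) + ε * (|Cb| * ‖v‖)) := by
          refine mul_le_mul_of_nonneg_left ((norm_add_le _ _).trans (add_le_add q1 q2)) hK0.le
      _ = ε * (K * (|Ca| + |Cb|)) * ‖v‖ := by ring
      _ ≤ ε * B * ‖v‖ := by
          refine mul_le_mul_of_nonneg_right (mul_le_mul_of_nonneg_left ?_ hε0.le) hvn.le
          rw [hBdef]; linarith
  have hb2 : κ * ‖v‖ ≤ ‖v i • γ u c + v j • Q u‖ := by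
    have hw := hκ (u, c, ‖v‖⁻¹ • v) ⟨hut, ⟨Real.neg_one_le_cos _, Real.cos_le_one _⟩, by
      rw [mem_sphere_zero_iff_norm, norm_smul, norm_inv, norm_norm, inv_mul_cancel₀ hvn.ne']⟩
    simp only [PiLp.smul_apply, smul_eq_mul] at hw
    have : (‖v‖⁻¹ * v i) • γ u c + (‖v‖⁻¹ * v j) • Q u =
        ‖v‖⁻¹ • (v i • γ u c + v j • Q u) := by module
    rw [this, norm_smul, norm_inv, norm_norm, inv_mul_eq_div, le_div_iff₀ hvn] at hw
    exact hw
  have : κ * ‖v‖ ≤ ε * B * ‖v‖ := hb2.trans hb1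
  have := le_of_mul_le_mul_right this hvn
  linarith

/-- Two primitive steps: `A` is replaced by `(1-ρ)A`. -/
theorem planar_step {U : Set E2} (hU : IsOpen U) {g : E2 → E3} {A : E2 → E2 →L[ℝ] E3}
    (hg : ContDiffOn ℝ ∞ g U) (hA : ContDiffOn ℝ ∞ A U)
    (hinj : ∀ u ∈ U, Injective (fderiv ℝ g u + A u))
    {ρ : E2 → ℝ} (hρ : ContDiff ℝ ∞ ρ) (hρ0 : ∀ u, 0 ≤ ρ u) (hcpt : HasCompactSupport ρ)
    (hs : tsupport ρ ⊆ U) :
    ∃ h : E2 → E3, ContDiff ℝ ∞ h ∧ tsupport h ⊆ tsupport ρ ∧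
      ∀ u ∈ U, Injective (fderiv ℝ (g + h) u + (1 - ρ u) • A u) := by
  obtain ⟨h1, hh1, hs1, hinj1⟩ := primitive_step hU hg hA hinj hρ hρ0 hcpt hs
    (i := 0) (j := 1) (by decide)
  set A1 : E2 → E2 →L[ℝ] E3 := fun u => A u - ρ u • (xi 0).smulRight (A u (eb 0)) with hA1def
  have hA1 : ContDiffOn ℝ ∞ A1 U := by
    refine hA.sub (hρ.contDiffOn.smul ?_)
    have h0 : ContDiffOn ℝ ∞ (fun u => A u (eb 0)) U := hA.clm_apply contDiffOn_const
    exact ((ContinuousLinearMap.smulRightL ℝ E2 E3 (xi 0)).contDiff.comp_contDiffOn h0)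
  have hdg : ∀ u ∈ U, fderiv ℝ (g + h1) u = fderiv ℝ g u + fderiv ℝ h1 u := fun u hu =>
    fderiv_add ((hg.contDiffAt (hU.mem_nhds hu)).differentiableAt (by simp))
      (hh1.differentiable (by simp) u)
  obtain ⟨h2, hh2, hs2, hinj2⟩ := primitive_step hU (hg.add hh1.contDiffOn) hA1
    (fun u hu => by rw [show (fun x => g x + h1 x) = g + h1 from rfl, hdg u hu]; exact hinj1 u hu)
    hρ hρ0 hcpt hs (i := 1) (j := 0) (by decide)
  refine ⟨h1 + h2, hh1.add hh2, ?_, fun u hu => ?_⟩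
  · exact (tsupport_add h1 h2).trans (union_subset hs1 hs2)
  · have e := hinj2 u hu
    have e1 : fderiv ℝ (g + (h1 + h2)) u = fderiv ℝ (fun x => g x + h1 x) u + fderiv ℝ h2 u := by
      rw [← add_assoc]
      exact fderiv_add (((hg.add hh1.contDiffOn).contDiffAt (hU.mem_nhds hu)).differentiableAt
        (by simp)) (hh2.differentiable (by simp) u)
    rw [e1]
    have e2 : A1 u - ρ u • (xi 1).smulRight (A1 u (eb 1)) = (1 - ρ u) • A u := by
      ext1 v
      have hv : A u v = v 0 • A u (eb 0) + v 1 • A u (eb 1) := by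
        conv_lhs => rw [decomp2 (i := 0) (j := 1) (by decide) v]
        rw [map_add, map_smul, map_smul]
      simp only [hA1def, _root_.sub_apply, _root_.smul_apply,
        ContinuousLinearMap.smulRight_apply]
      have hx0 : (xi 0) v = v 0 := rfl
      have hx1 : (xi 1) v = v 1 := rfl
      have hx2 : (xi 0) (eb 1) = 0 := by simp
      rw [hx0, hx1, hx2, hv]
      module
    rw [← e2]
    exact e

end

end Crest.Agent.R216.D.P5
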