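import Crest.Agent.R216.D0
import Crest.Agent.R216.D5Planar

/-! Row 216 (D), module D5: h-principle for immersions `M → ℝ³` (owner: helper547). -/

set_option autoImplicit false
open scoped Manifold ContDiff Topology
open Set Metric Function

namespace Crest.Agent.R216.D
open Crest.Agent.R216.D.P5

set_option linter.unusedSectionVars false

variable {M : Type*} [TopologicalSpace M] [T2Space M] [CompactSpace M] [ChartedSpace E2 M]
  [IsManifold (𝓡 2) ∞ M]

/-- `mfderiv` with plain types -/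
noncomputable def dM {M : Type*} [TopologicalSpace M] [ChartedSpace E2 M]
    {V : Type*} [NormedAddCommGroup V] [NormedSpace ℝ V] (f : M → V) (x : M) :
    E2 →L[ℝ] V := mfderiv (𝓡 2) 𝓘(ℝ, V) f x

/-- partially integrated formal immersion: `dg + s·Ψ∘dι` is injective everywhere. -/
structure Part (F : Formal M) (g : M → E3) (s : M → ℝ) : Prop where
  smg : ContMDiff (𝓡 2) 𝓘(ℝ, E3) ∞ g
  sms : ContMDiff (𝓡 2) 𝓘(ℝ, ℝ) ∞ s
  inj : ∀ (x : M) (v : E2), dM g x v + s x • F.Ψ x (dM F.ι x v) = 0 → v = 0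

/-- `mfderiv` of an inverse chart, with plain types -/
noncomputable def dS {M : Type*} [TopologicalSpace M] [ChartedSpace E2 M]
    (c : OpenPartialHomeomorph M E2) (u : E2) : E2 →L[ℝ] E2 := mfderiv (𝓡 2) (𝓡 2) c.symm u

lemma dS_bij {c : OpenPartialHomeomorph M E2}
    (hc : c ∈ IsManifold.maximalAtlas (𝓡 2) ∞ M) {u : E2} (hu : u ∈ c.target) :
    Bijective (dS c u) := bijective_mfderiv_chart_symm hc hu

lemma dM_chart {V : Type*} [NormedAddCommGroup V] [NormedSpace ℝ V] {f : M → V}
    (hf : ContMDiff (𝓡 2) 𝓘(ℝ, V) ∞ f) {c : OpenPartialHomeomorph M E2}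
    (hc : c ∈ IsManifold.maximalAtlas (𝓡 2) ∞ M) {u : E2} (hu : u ∈ c.target) (v : E2) :
    dM f (c.symm u) (dS c u v) = fderiv ℝ (f ∘ c.symm) u v :=
  mfderiv_chart hf hc hu v

lemma extend0_symm {V : Type*} [Zero V] {c : OpenPartialHomeomorph M E2} (h : E2 → V) {u : E2}
    (hu : u ∈ c.target) : extend0 c h (c.symm u) = h u := by
  unfold extend0
  rw [if_pos (c.map_target hu), c.right_inv hu]

lemma extend0_eventually_zero {V : Type*} [Zero V] {c : OpenPartialHomeomorph M E2}
    (h : E2 → V) {K : Set E2} (hK : IsCompact K) (hKt : K ⊆ c.target)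
    (hs : tsupport h ⊆ K) {x : M} (hx : x ∉ c.source) : ∀ᶠ y in 𝓝 x, extend0 c h y = 0 := by
  have hcl : IsClosed (c.symm '' K) :=
    (hK.image_of_continuousOn (c.continuousOn_symm.mono hKt)).isClosed
  have hx' : x ∉ c.symm '' K := by
    rintro ⟨u, hu, rfl⟩
    exact hx (c.map_target (hKt hu))
  filter_upwards [hcl.isOpen_compl.mem_nhds hx'] with y hy
  unfold extend0
  split_ifs with hys
  · apply image_eq_zero_of_notMem_tsupport
    intro hc
    exact hy ⟨c y, hs hc, c.left_inv hys⟩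
  · rfl

theorem Part.step {F : Formal M} {g : M → E3} {s : M → ℝ} (hP : Part F g s)
    {c : OpenPartialHomeomorph M E2} (hc : c ∈ IsManifold.maximalAtlas (𝓡 2) ∞ M)
    (hbig : closedBall (0 : E2) 10 ⊆ c.target) :
    ∃ (g' : M → E3) (s' : M → ℝ), Part F g' s' ∧ (∀ x, s x = 0 → s' x = 0) ∧
      ∀ x ∈ c.source, c x ∈ ball (0 : E2) 1 → s' x = 0 := by
  let f : ContDiffBump (0 : E2) := ⟨1, 2, one_pos, one_lt_two⟩
  have hts : tsupport f ⊆ closedBall (0 : E2) 2 := by
    rw [f.tsupport_eq]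
  have h2 : closedBall (0 : E2) 2 ⊆ c.target :=
    (closedBall_subset_closedBall (by norm_num)).trans hbig
  have hK : IsCompact (closedBall (0 : E2) 2) := isCompact_closedBall _ _
  have hgc := contDiffOn_chart hP.smg hc
  have hsc := contDiffOn_chart hP.sms hc
  have hAc : ContDiffOn ℝ ∞ (fun u => s (c.symm u) • F.mat c u) c.target :=
    hsc.smul (F.contDiffOn_mat hc)
  have hinj : ∀ u ∈ c.target, Injective (fderiv ℝ (g ∘ c.symm) u +
      (fun u => s (c.symm u) • F.mat c u) u) := by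
    intro u hu
    rw [injective_iff_map_eq_zero]
    intro e he
    have h1 := dM_chart hP.smg hc hu e
    have h2 := dM_chart F.hι hc hu e
    have h3 := hP.inj (c.symm u) (dS c u e) (by
      rw [h1, h2]
      exact he)
    exact (dS_bij hc hu).1 (h3.trans (map_zero _).symm)
  obtain ⟨h, hh, hhs, hhi⟩ := planar_step c.open_target hgc hAc hinj
    (ρ := f) f.contDiff (fun u => f.nonneg) f.hasCompactSupport (hts.trans h2)
  refine ⟨fun x => g x + extend0 c h x, fun x => (1 - extend0 c f x) * s x, ⟨?_, ?_, ?_⟩, ?_, ?_⟩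
  · exact hP.smg.add (contMDiff_extend0 hc hh hK h2 (hhs.trans hts))
  · exact (contMDiff_const.sub (contMDiff_extend0 hc f.contDiff hK h2 hts)).mul hP.sms
  · intro x v hv
    by_cases hx : x ∈ c.source
    · obtain ⟨u, hu, rfl⟩ : ∃ u ∈ c.target, c.symm u = x := ⟨c x, c.map_source hx, c.left_inv hx⟩
      obtain ⟨e, rfl⟩ := (dS_bij hc hu).2 v
      have hg' : ContMDiff (𝓡 2) 𝓘(ℝ, E3) ∞ (fun x => g x + extend0 c h x) :=
        hP.smg.add (contMDiff_extend0 hc hh hK h2 (hhs.trans hts))
      rw [dM_chart hg' hc hu, dM_chart F.hι hc hu, extend0_symm _ hu] at hv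
      have heq : ((fun x => g x + extend0 c h x) ∘ c.symm) =ᶠ[𝓝 u] (g ∘ c.symm + h) := by
        filter_upwards [c.open_target.mem_nhds hu] with y hy
        simp [extend0_symm h hy]
      rw [heq.fderiv_eq] at hv
      have he : e = 0 := by
        refine (injective_iff_map_eq_zero _).1 (hhi u hu) e ?_
        rw [_root_.add_apply, _root_.smul_apply, _root_.smul_apply, smul_smul]
        exact hv
      rw [he, map_zero]
    · have h1 : (fun x => g x + extend0 c h x) =ᶠ[𝓝 x] g := by
        filter_upwards [extend0_eventually_zero h hK h2 (hhs.trans hts) hx] with y hy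
        simp [hy]
      have h2 : extend0 c f x = 0 := by
        unfold extend0
        rw [if_neg hx]
      have h3 : dM (fun x => g x + extend0 c h x) x = dM g x := h1.mfderiv_eq
      rw [h3, h2, sub_zero, one_mul] at hv
      exact hP.inj x v hv
  · intro x hx
    simp [hx]
  · intro x hx hx1
    have : extend0 c f x = 1 := by
      unfold extend0
      rw [if_pos hx]
      exact f.one_of_mem_closedBall (ball_subset_closedBall hx1)
    simp [this]

theorem exists_immersion_of_formal (𝒜 : BallAtlas M) (F : Formal M) (hF : F.sing = ∅) :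
    ∃ j : M → E3, ContMDiff (𝓡 2) 𝓘(ℝ, E3) ∞ j ∧ sing j = ∅ := by
  have key : ∀ k : ℕ, ∃ (g : M → E3) (s : M → ℝ), Part F g s ∧
      ∀ i : Fin 𝒜.n, i.1 < k → ∀ x ∈ (𝒜.c i).source, 𝒜.c i x ∈ ball (0 : E2) 1 → s x = 0 := by
    intro k
    induction k with
    | zero =>
      refine ⟨fun _ => 0, fun _ => 1, ⟨contMDiff_const, contMDiff_const, ?_⟩, ?_⟩
      · intro x v hv
        by_contra hne
        have : x ∈ F.sing := by
          refine ⟨v, hne, ?_⟩
          have h0 : dM (fun _ : M => (0 : E3)) x = 0 := mfderiv_const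
          rw [h0, _root_.zero_apply, zero_add, one_smul] at hv
          exact hv
        rw [hF] at this
        exact this
      · intro i hi
        exact absurd hi (Nat.not_lt_zero _)
    | succ k ih =>
      obtain ⟨g, s, hP, hs⟩ := ih
      by_cases hk : k < 𝒜.n
      · obtain ⟨g', s', hP', h1, h2⟩ := hP.step (𝒜.mem ⟨k, hk⟩) (𝒜.big ⟨k, hk⟩)
        refine ⟨g', s', hP', fun i hi x hx hx1 => ?_⟩
        rcases Nat.lt_succ_iff_lt_or_eq.1 hi with h | h
        · exact h1 x (hs i h x hx hx1)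
        · have : i = ⟨k, hk⟩ := Fin.ext h
          subst this
          exact h2 x hx hx1
      · refine ⟨g, s, hP, fun i hi x hx hx1 => hs i (lt_of_lt_of_le i.2 (not_lt.1 hk)) x hx hx1⟩
  obtain ⟨g, s, hP, hs⟩ := key 𝒜.n
  refine ⟨g, hP.smg, ?_⟩
  rw [Set.eq_empty_iff_forall_notMem]
  rintro x ⟨v, hv, h0⟩
  obtain ⟨i, hx, hx1⟩ := 𝒜.cover x
  apply hv
  refine hP.inj x v ?_
  have h1 : dM g x v = 0 := h0
  rw [hs i i.2 x hx hx1, h1, zero_smul, zero_add]

end Crest.Agent.R216.D
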