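import Crest.Agent.R216.D1
import Crest.Agent.R216.D3
import Crest.Agent.R216.D4
import Crest.Agent.R216.D5

/-! Row 216 (D), module D6: assembly. Every compact surface immerses in `ℝ³`. -/

set_option autoImplicit false
open scoped Manifold ContDiff Topology
open Set Metric Function

namespace Crest.Agent.R216.D

theorem exists_immersion_E3 (M : Type*) [TopologicalSpace M] [T2Space M] [CompactSpace M]
    [ChartedSpace E2 M] [IsManifold (𝓡 2) ∞ M] :
    ∃ j : M → E3, ContMDiff (𝓡 2) 𝓘(ℝ, E3) ∞ j ∧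
      ∀ x, Injective (mfderiv (𝓡 2) 𝓘(ℝ, E3) j x) := by
  obtain ⟨𝒜⟩ := exists_ballAtlas (M := M)
  obtain ⟨F, G, hG, hFG, hT, hN⟩ := exists_generic 𝒜
  have hsing : F.sing = sing G := by
    ext x
    obtain ⟨i, hx, -⟩ := 𝒜.cover x
    have hu : 𝒜.c i x ∈ (𝒜.c i).target := (𝒜.c i).map_source hx
    have hxe : (𝒜.c i).symm (𝒜.c i x) = x := (𝒜.c i).left_inv hx
    rw [← hxe, F.mem_sing_iff (𝒜.mem i) hu, mem_sing_iff hG (𝒜.mem i) hu, hFG i _ hu]
  have hfin := finite_sing 𝒜 hG hN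
  have heven := even_sing 𝒜 hG hT hN
  have hNF : ∀ i, ∀ u ∈ (𝒜.c i).target, Nondeg (F.mat (𝒜.c i)) u := by
    intro i u hu
    have h := hN i u hu
    have hEq : (fderiv ℝ (G ∘ (𝒜.c i).symm)) =ᶠ[𝓝 u] F.mat (𝒜.c i) :=
      Filter.eventuallyEq_of_mem ((𝒜.c i).open_target.mem_nhds hu) (hFG i)
    intro e he h0 δ w hw
    refine h e he ?_ δ w ?_
    · rw [hFG i u hu]; exact h0
    · rw [hEq.fderiv_eq, hFG i u hu]; exact hw
  obtain ⟨F', hF'⟩ := exists_formal_immersion 𝒜 F hNF (hsing ▸ hfin) (by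
    intro x; rw [hsing]; exact heven x)
  obtain ⟨j, hj, hjs⟩ := exists_immersion_of_formal 𝒜 F' hF'
  refine ⟨j, hj, fun x => ?_⟩
  refine (injective_iff_map_eq_zero _).2 fun v hv => ?_
  by_contra hne
  have : x ∈ sing j := ⟨v, hne, hv⟩
  rw [hjs] at this
  exact this

end Crest.Agent.R216.D
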