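import Crest.Agent.R216.BaseMain
import Crest.Agent.R216.D6

/-!
# Row 216: BASE MAP, unconditional statement (helper326)

`exists_immersion_E3` (module D) and `Base.base_of_immersion` (helper904, helper326) give
`BaseStatement M` for every compact surface.
-/

set_option autoImplicit false
open scoped Manifold ContDiff Topology
open Set

noncomputable section
namespace Crest.Agent.R216

/-- **BASE**: `BaseStatement M` for every compact boundaryless smooth surface. -/
theorem baseStatement (M : Type*) [TopologicalSpace M] [T2Space M] [CompactSpace M]
    [ChartedSpace E2 M] [IsManifold (𝓡 2) ∞ M] : BaseStatement M := by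
  obtain ⟨j, hj, hinj⟩ := D.exists_immersion_E3 M
  exact Base.base_of_immersion hj hinj

end Crest.Agent.R216
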