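import Crest.Agent.R216.BaseG

/-!
# Row 216: BASE MAP, flattening at finitely many points of the surface, main result (helper904)
-/

set_option autoImplicit false
open scoped Manifold ContDiff Topology
open Set

noncomputable section
namespace Crest.Agent.R216
namespace Base

variable {M : Type*} [TopologicalSpace M] [ChartedSpace E2 M] [IsManifold (𝓡 2) ∞ M]

omit [IsManifold (𝓡 2) ∞ M] in
lemma contMDiff_Phi_comp {j : M → E3} (hj : ContMDiff (𝓡 2) 𝓘(ℝ, E3) ∞ j) :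
    ContMDiff (𝓡 2) 𝓘(ℝ, E4) ∞ (Phi ∘ j) :=
  contDiff_Phi.contMDiff.comp hj

/-- positivity of the pulled back metric gives injectivity of the planar derivative -/
lemma rep_injective {j : M → E3} (hj : ContMDiff (𝓡 2) 𝓘(ℝ, E3) ∞ j)
    (hpos : ∀ (p : M) (v : TangentSpace (𝓡 2) p), v ≠ 0 → 0 < pull (Phi ∘ j) p v v)
    {ψ : OpenPartialHomeomorph M E2} (hψ : ψ ∈ IsManifold.maximalAtlas (𝓡 2) ∞ M)
    {y : E2} (hy : y ∈ ψ.target) : Function.Injective (fderiv ℝ (rep j ψ) y) := by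
  rw [injective_iff_map_eq_zero]
  intro v hv
  by_contra hne
  have h1 := coef_pos hpos hψ hy hne
  rw [coef_pull (contMDiff_Phi_comp hj) hψ hy] at h1
  have h2 : fderiv ℝ ((Phi ∘ j) ∘ ψ.symm) y v = TT (rep j ψ y) (fderiv ℝ (rep j ψ) y v) :=
    fderiv_Phi_compW ψ.open_target (rep_contDiffOn hj hψ) hy v
  rw [h2, hv, map_zero, inner_zero_left] at h1
  exact lt_irrefl _ h1

section step
variable {m : ℕ}

/-- the modified map -/
def jmod (j : M → E3) (ι : M → EuclideanSpace ℝ (Fin m)) (θ : EuclideanSpace ℝ (Fin m) → ℝ)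
    (p : M) (N : E3) (κ : ℝ) (q : M) : E3 := j q + phiF θ (ι p) κ (ι q) • N

omit [IsManifold (𝓡 2) ∞ M] in
lemma jmod_contMDiff {j : M → E3} (hj : ContMDiff (𝓡 2) 𝓘(ℝ, E3) ∞ j)
    {ι : M → EuclideanSpace ℝ (Fin m)}
    (hι : ContMDiff (𝓡 2) 𝓘(ℝ, EuclideanSpace ℝ (Fin m)) ∞ ι)
    {θ : EuclideanSpace ℝ (Fin m) → ℝ} (hθ : ContDiff ℝ ∞ θ) (p : M) (N : E3) (κ : ℝ) :
    ContMDiff (𝓡 2) 𝓘(ℝ, E3) ∞ (jmod j ι θ p N κ) := by
  have h1 : ContMDiff (𝓡 2) 𝓘(ℝ, ℝ) ∞ (fun q => phiF θ (ι p) κ (ι q)) :=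
    (phiF_contDiff hθ κ).contMDiff.comp hι
  exact hj.add (h1.smul contMDiff_const)

/-- the coefficients of the modified metrics are close for small `κ` -/
lemma inClass_jmod (A : FinAtlas M) {j : M → E3} (hj : ContMDiff (𝓡 2) 𝓘(ℝ, E3) ∞ j)
    {ι : M → EuclideanSpace ℝ (Fin m)}
    (hι : ContMDiff (𝓡 2) 𝓘(ℝ, EuclideanSpace ℝ (Fin m)) ∞ ι) (hinj : Function.Injective ι)
    {θ : EuclideanSpace ℝ (Fin m) → ℝ} (hθ : ContDiff ℝ ∞ θ) (hc : HasCompactSupport θ)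
    (p : M) (N : E3)
    (hN : ∀ v : E2, inner ℝ (TT (j p) N)
      (TT (j p) (fderiv ℝ (rep j (chartAt E2 p)) (chartAt E2 p p) v)) = 0)
    {η : ℝ} (hη : 0 < η) :
    ∃ κ0 > 0, ∀ κ, 0 < κ → κ < κ0 →
      InClass A (pull (Phi ∘ j)) η (pull (Phi ∘ jmod j ι θ p N κ)) := by
  set ψ := chartAt E2 p with hψdef
  have hψ : ψ ∈ IsManifold.maximalAtlas (𝓡 2) ∞ M := IsManifold.chart_mem_maximalAtlas p
  have hpψ : p ∈ ψ.source := mem_chart_source E2 p
  -- orthogonality at the point, in the charts of the atlas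
  have horth : ∀ c, ∀ y ∈ A.K c, rep ι (A.χ c) y = ι p → ∀ v : E2,
      inner ℝ (TT (rep j (A.χ c) y) N)
        (TT (rep j (A.χ c) y) (fderiv ℝ (rep j (A.χ c)) y v)) = 0 := by
    intro c y hy hιy v
    have hyt := A.sub c hy
    have hyp : (A.χ c).symm y = p := hinj hιy
    have hsrc : (A.χ c).symm y ∈ ψ.source := by rw [hyp]; exact hpψ
    have e1 : rep j (A.χ c) y = j p := by simp only [rep, Function.comp_apply, hyp]
    have e2 : trans (A.χ c) ψ y = ψ p := by simp only [trans, Function.comp_apply, hyp]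
    have e3 : fderiv ℝ (rep j (A.χ c)) y v
        = fderiv ℝ (rep j ψ) (ψ p) (fderiv ℝ (trans (A.χ c) ψ) y v) := by
      have hd : DifferentiableAt ℝ (rep j ψ) (trans (A.χ c) ψ y) := by
        rw [e2]
        exact ((rep_contDiffOn hj hψ).contDiffAt
          (ψ.open_target.mem_nhds (ψ.map_source hpψ))).differentiableAt (by simp)
      rw [(rep_trans j hyt hsrc).fderiv_eq, fderiv_comp y hd
        ((trans_contDiffAt (A.hχ c) hψ hyt hsrc).differentiableAt (by simp)), e2]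
      rfl
    rw [e1, e3]
    exact hN _
  -- smallness of all coefficients
  have hsm : ∀ t : Fin A.n × Fin 2 × Fin 2, ∃ κ0 > 0, ∀ κ, 0 < κ → κ < κ0 → ∀ y ∈ A.K t.1,
      |coef (pull (Phi ∘ jmod j ι θ p N κ)) (A.χ t.1) (bv t.2.1) (bv t.2.2) y
        - coef (pull (Phi ∘ j)) (A.χ t.1) (bv t.2.1) (bv t.2.2) y| ≤ η ∧
      ‖fderiv ℝ (coef (pull (Phi ∘ jmod j ι θ p N κ)) (A.χ t.1) (bv t.2.1) (bv t.2.2)) y
        - fderiv ℝ (coef (pull (Phi ∘ j)) (A.χ t.1) (bv t.2.1) (bv t.2.2)) y‖ ≤ η := by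
    rintro ⟨c, a, b⟩
    have h := sm_coef (z0 := ι p) (A.χ c).open_target (A.cpt c) (A.sub c)
      (rep_contDiffOn hι (A.hχ c)) hθ hc (rep_contDiffOn hj (A.hχ c)) N (horth c) (bv a) (bv b)
    obtain ⟨κ0, h0, h1⟩ := h.2 η hη
    refine ⟨κ0, h0, fun κ hκ hκ' y hy => ?_⟩
    have hyt := A.sub c hy
    have hform : ∀ z ∈ (A.χ c).target,
        coef (pull (Phi ∘ jmod j ι θ p N κ)) (A.χ c) (bv a) (bv b) z
        - coef (pull (Phi ∘ j)) (A.χ c) (bv a) (bv b) z =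
        inner ℝ (fderiv ℝ (fun y => Phi (rep j (A.χ c) y
            + phiF θ (ι p) κ (rep ι (A.χ c) y) • N)) z (bv a))
          (fderiv ℝ (fun y => Phi (rep j (A.χ c) y
            + phiF θ (ι p) κ (rep ι (A.χ c) y) • N)) z (bv b))
        - inner ℝ (fderiv ℝ (fun y => Phi (rep j (A.χ c) y)) z (bv a))
          (fderiv ℝ (fun y => Phi (rep j (A.χ c) y)) z (bv b)) := by
      intro z hz
      rw [coef_pull (contMDiff_Phi_comp (jmod_contMDiff hj hι hθ p N κ)) (A.hχ c) hz,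
        coef_pull (contMDiff_Phi_comp hj) (A.hχ c) hz]
      rfl
    obtain ⟨g0, g1⟩ := h1 κ hκ hκ' y hy
    constructor
    · simp only
      rw [hform y hyt]
      exact g0
    · simp only
      have d1 : DifferentiableAt ℝ
          (coef (pull (Phi ∘ jmod j ι θ p N κ)) (A.χ c) (bv a) (bv b)) y :=
        ((coef_pull_contDiffOn (contMDiff_Phi_comp (jmod_contMDiff hj hι hθ p N κ)) (A.hχ c)
          (bv a) (bv b)).contDiffAt ((A.χ c).open_target.mem_nhds hyt)).differentiableAt (by simp)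
      have d2 : DifferentiableAt ℝ (coef (pull (Phi ∘ j)) (A.χ c) (bv a) (bv b)) y :=
        ((coef_pull_contDiffOn (contMDiff_Phi_comp hj) (A.hχ c)
          (bv a) (bv b)).contDiffAt ((A.χ c).open_target.mem_nhds hyt)).differentiableAt (by simp)
      rw [← fderiv_fun_sub d1 d2]
      have hev : (fun z => coef (pull (Phi ∘ jmod j ι θ p N κ)) (A.χ c) (bv a) (bv b) z
        - coef (pull (Phi ∘ j)) (A.χ c) (bv a) (bv b) z) =ᶠ[𝓝 y]
        (fun z => inner ℝ (fderiv ℝ (fun y => Phi (rep j (A.χ c) y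
            + phiF θ (ι p) κ (rep ι (A.χ c) y) • N)) z (bv a))
          (fderiv ℝ (fun y => Phi (rep j (A.χ c) y
            + phiF θ (ι p) κ (rep ι (A.χ c) y) • N)) z (bv b))
        - inner ℝ (fderiv ℝ (fun y => Phi (rep j (A.χ c) y)) z (bv a))
          (fderiv ℝ (fun y => Phi (rep j (A.χ c) y)) z (bv b))) := by
        filter_upwards [(A.χ c).open_target.mem_nhds hyt] with z hz
        exact hform z hz
      rw [hev.fderiv_eq]
      exact g1
  choose κf hκf hκf' using hsm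
  obtain ⟨κ0, h0, h1⟩ := fin_min κf hκf
  refine ⟨κ0, h0, fun κ hκ hκ' => ⟨fun c y hy a b => ?_, fun c y hy a b => ?_⟩⟩
  · exact (hκf' (c, a, b) κ hκ (hκ'.trans_le (h1 _)) y hy).1
  · exact (hκf' (c, a, b) κ hκ (hκ'.trans_le (h1 _)) y hy).2

end step

/-- flattening at one more point -/
theorem exists_flat_step [T2Space M] [CompactSpace M] (A : FinAtlas M) (j : M → E3)
    (hj : ContMDiff (𝓡 2) 𝓘(ℝ, E3) ∞ j)
    (hpos : ∀ (p : M) (v : TangentSpace (𝓡 2) p), v ≠ 0 → 0 < pull (Phi ∘ j) p v v)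
    (X : Set M) (hX : X.Finite) (hflat : ∀ q ∈ X, FlatM j q) (p : M) (hp : p ∉ X)
    (η : ℝ) (hη : 0 < η) :
    ∃ jp : M → E3, ContMDiff (𝓡 2) 𝓘(ℝ, E3) ∞ jp ∧
      (∀ (p : M) (v : TangentSpace (𝓡 2) p), v ≠ 0 → 0 < pull (Phi ∘ jp) p v v) ∧
      InClass A (pull (Phi ∘ j)) η (pull (Phi ∘ jp)) ∧ ∀ q ∈ insert p X, FlatM jp q := by
  obtain ⟨m, ι, hι, hemb, hιinj⟩ := exists_embedding_euclidean_of_compact (I := 𝓡 2) (M := M)
  have hι' : ContMDiff (𝓡 2) 𝓘(ℝ, EuclideanSpace ℝ (Fin m)) ∞ ι := hι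
  have hinj : Function.Injective ι := hemb.injective
  have hψ : chartAt E2 p ∈ IsManifold.maximalAtlas (𝓡 2) ∞ M :=
    IsManifold.chart_mem_maximalAtlas p
  have hpψ : p ∈ (chartAt E2 p).source := mem_chart_source E2 p
  have hyt : chartAt E2 p p ∈ (chartAt E2 p).target := (chartAt E2 p).map_source hpψ
  have ej : rep j (chartAt E2 p) (chartAt E2 p p) = j p := by
    simp [rep, (chartAt E2 p).left_inv hpψ]
  have ei : rep ι (chartAt E2 p) (chartAt E2 p p) = ι p := by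
    simp [rep, (chartAt E2 p).left_inv hpψ]
  obtain ⟨N, hN0, hN1, hN2⟩ := exists_normal (rep_injective hj hpos hψ hyt) (j p)
  -- injectivity of the planar derivative of the embedding
  have hii : Function.Injective (fderiv ℝ (rep ι (chartAt E2 p)) (chartAt E2 p p)) := by
    rw [injective_iff_map_eq_zero]
    intro v hv
    have h1 := mfderiv_symm hι' hψ hyt v
    rw [hv] at h1
    have h2 : mfderiv (𝓡 2) (𝓡 2) (chartAt E2 p).symm (chartAt E2 p p) v = 0 :=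
      hιinj _ (by rw [map_zero]; exact h1)
    have h3 := dchart_symm hψ hyt v
    rw [h2] at h3
    rw [← h3]; exact map_zero _
  obtain ⟨θ, hθ, hc, hfl⟩ := exists_flat_planar (chartAt E2 p).open_target
    (rep_contDiffOn hι' hψ) (rep_contDiffOn hj hψ) hyt hii hN0 (by rw [ej]; exact hN2)
  -- positivity is stable
  obtain ⟨η0, hη0, hstab⟩ := exists_pos_nbhd A (contMDiff_Phi_comp hj) hpos
  obtain ⟨κ1, hκ1, hcl⟩ := inClass_jmod A hj hι' hinj hθ hc p N hN1 (lt_min hη hη0)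
  -- near the other points nothing changes
  obtain ⟨C, hC, R0, hR0, -, hsupp⟩ := exists_bounds hθ hc
  obtain ⟨R, hR, -, hoff⟩ := phi_zero_off (z0 := ι p) (θ := θ) ⟨R0, hsupp⟩
  obtain ⟨d, hd, hdX⟩ : ∃ d > 0, ∀ q ∈ X, d < ‖ι q - ι p‖ := by
    have h1 : IsClosed (ι '' X) := (hX.image ι).isClosed
    have h2 : ι p ∈ (ι '' X)ᶜ := by
      rintro ⟨q, hq, he⟩
      exact hp (hinj he ▸ hq)
    obtain ⟨e, he, hball⟩ := Metric.isOpen_iff.1 h1.isOpen_compl _ h2
    refine ⟨e / 2, by positivity, fun q hq => ?_⟩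
    by_contra hcon
    push Not at hcon
    have h3 : ι q ∈ Metric.ball (ι p) e := by
      rw [Metric.mem_ball, dist_eq_norm]; linarith
    exact hball h3 ⟨q, hq, rfl⟩
  set κ := min κ1 (d / R) / 2 with hκdef
  have hκ : 0 < κ := by positivity
  have hκ1' : κ < κ1 := by
    have := min_le_left κ1 (d / R)
    have h2 : 0 < min κ1 (d / R) := by positivity
    rw [hκdef]; linarith
  have hκd : κ * R < d := by
    have h1 := min_le_right κ1 (d / R)
    have h2 : 0 < min κ1 (d / R) := by positivity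
    have h3 : κ < d / R := by rw [hκdef]; linarith
    rwa [lt_div_iff₀ hR] at h3
  have hsm := jmod_contMDiff hj hι' hθ p N κ
  have hcl' := hcl κ hκ hκ1'
  refine ⟨jmod j ι θ p N κ, hsm, hstab _ (contMDiff_Phi_comp hsm)
    (inClass_mono hcl' (min_le_right _ _)), inClass_mono hcl' (min_le_left _ _), ?_⟩
  rintro q (rfl | hq)
  · refine flatM_of_chart hsm hψ hpψ ?_
    have := hfl κ hκ
    rw [ei] at this
    exact this
  · refine (hflat q hq).congr ?_
    have h1 : ∀ᶠ z in 𝓝 q, κ * R < ‖ι z - ι p‖ := by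
      have hcont : ContinuousAt (fun z => ‖ι z - ι p‖) q :=
        ((hι.continuous.sub continuous_const).norm).continuousAt
      exact hcont.eventually (lt_mem_nhds (hκd.trans (hdX q hq)))
    filter_upwards [h1] with z hz
    simp only [jmod, hoff κ hκ _ hz, zero_smul, add_zero]

/-- **flattening at finitely many points** -/
theorem exists_flat [T2Space M] [CompactSpace M] (A : FinAtlas M) (j : M → E3)
    (hj : ContMDiff (𝓡 2) 𝓘(ℝ, E3) ∞ j)
    (hpos : ∀ (p : M) (v : TangentSpace (𝓡 2) p), v ≠ 0 → 0 < pull (Phi ∘ j) p v v)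
    (X : Set M) (hX : X.Finite) (η : ℝ) (hη : 0 < η) :
    ∃ jp : M → E3, ContMDiff (𝓡 2) 𝓘(ℝ, E3) ∞ jp ∧
      (∀ (p : M) (v : TangentSpace (𝓡 2) p), v ≠ 0 → 0 < pull (Phi ∘ jp) p v v) ∧
      InClass A (pull (Phi ∘ j)) η (pull (Phi ∘ jp)) ∧
      ∀ ψ ∈ IsManifold.maximalAtlas (𝓡 2) ∞ M, ∀ p ∈ X, p ∈ ψ.source →
        ∀ v w : E2, ∃ z : E2, fderiv ℝ (fderiv ℝ (jp ∘ ψ.symm)) (ψ p) v w
          = fderiv ℝ (jp ∘ ψ.symm) (ψ p) z := by
  suffices h : ∀ η : ℝ, 0 < η → ∃ jp : M → E3, ContMDiff (𝓡 2) 𝓘(ℝ, E3) ∞ jp ∧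
      (∀ (p : M) (v : TangentSpace (𝓡 2) p), v ≠ 0 → 0 < pull (Phi ∘ jp) p v v) ∧
      InClass A (pull (Phi ∘ j)) η (pull (Phi ∘ jp)) ∧ ∀ q ∈ X, FlatM jp q by
    obtain ⟨jp, h1, h2, h3, h4⟩ := h η hη
    exact ⟨jp, h1, h2, h3, fun ψ hψ p hp hpψ => h4 p hp ψ hψ hpψ⟩
  clear hη η
  induction X, hX using Set.Finite.induction_on with
  | empty => exact fun η hη => ⟨j, hj, hpos, inClass_refl A _ hη.le, by simp⟩
  | insert hpX hX ih =>
    intro η hη
    obtain ⟨j1, h1, h2, h3, h4⟩ := ih (η / 2) (half_pos hη)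
    obtain ⟨j2, g1, g2, g3, g4⟩ := exists_flat_step A j1 h1 h2 _ hX h4 _ hpX (η / 2) (half_pos hη)
    refine ⟨j2, g1, g2, ?_, g4⟩
    have := inClass_trans h3 g3
    rwa [add_halves] at this

end Base
end Crest.Agent.R216
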