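import Crest.Agent.R216.BaseF
import Crest.Agent.R216.GlobCoef

/-!
# Row 216: BASE MAP, flattening at finitely many points of the surface (helper904)
-/

set_option autoImplicit false
open scoped Manifold ContDiff Topology
open Set

noncomputable section
namespace Crest.Agent.R216
namespace Base

variable {M : Type*} [TopologicalSpace M] [ChartedSpace E2 M] [IsManifold (𝓡 2) ∞ M]

/-! ## small helpers -/

lemma fin_min {ι : Type*} [Finite ι] (δ : ι → ℝ) (h : ∀ c, 0 < δ c) : ∃ d > 0, ∀ c, d ≤ δ c := by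
  rcases isEmpty_or_nonempty ι with he | he
  · exact ⟨1, one_pos, fun c => (he.false c).elim⟩
  · obtain ⟨c0, hc0⟩ := Finite.exists_min δ
    exact ⟨δ c0, h c0, hc0⟩

omit [IsManifold (𝓡 2) ∞ M] in
lemma inClass_trans {A : FinAtlas M} {hs h1 h2 : Tens M} {η1 η2 : ℝ}
    (a : InClass A hs η1 h1) (b : InClass A h1 η2 h2) : InClass A hs (η1 + η2) h2 where
  c0 := fun c y hy i j => by
    have e1 := a.c0 c y hy i j
    have e2 := b.c0 c y hy i j
    have e3 := abs_add_le (coef h2 (A.χ c) (bv i) (bv j) y - coef h1 (A.χ c) (bv i) (bv j) y)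
      (coef h1 (A.χ c) (bv i) (bv j) y - coef hs (A.χ c) (bv i) (bv j) y)
    rw [sub_add_sub_cancel] at e3
    linarith
  c1 := fun c y hy i j => by
    have e1 := a.c1 c y hy i j
    have e2 := b.c1 c y hy i j
    have e3 := norm_add_le
      (fderiv ℝ (coef h2 (A.χ c) (bv i) (bv j)) y - fderiv ℝ (coef h1 (A.χ c) (bv i) (bv j)) y)
      (fderiv ℝ (coef h1 (A.χ c) (bv i) (bv j)) y - fderiv ℝ (coef hs (A.χ c) (bv i) (bv j)) y)
    rw [sub_add_sub_cancel] at e3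
    linarith

omit [IsManifold (𝓡 2) ∞ M] in
lemma inClass_mono {A : FinAtlas M} {hs h1 : Tens M} {η1 η2 : ℝ}
    (a : InClass A hs η1 h1) (h : η1 ≤ η2) : InClass A hs η2 h1 where
  c0 := fun c y hy i j => (a.c0 c y hy i j).trans h
  c1 := fun c y hy i j => (a.c1 c y hy i j).trans h

omit [IsManifold (𝓡 2) ∞ M] in
lemma inClass_refl (A : FinAtlas M) (hs : Tens M) {η : ℝ} (h : 0 ≤ η) : InClass A hs η hs where
  c0 := fun c y hy i j => by simpa using h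
  c1 := fun c y hy i j => by simpa using h

/-! ## positivity -/

lemma coef_pull_expand {F : M → E4} (hF : ContMDiff (𝓡 2) 𝓘(ℝ, E4) ∞ F)
    {ψ : OpenPartialHomeomorph M E2} (hψ : ψ ∈ IsManifold.maximalAtlas (𝓡 2) ∞ M)
    {y : E2} (hy : y ∈ ψ.target) (v : E2) :
    coef (pull F) ψ v v y =
      v 0 * v 0 * coef (pull F) ψ (bv 0) (bv 0) y + v 0 * v 1 * coef (pull F) ψ (bv 0) (bv 1) y +
      v 1 * v 0 * coef (pull F) ψ (bv 1) (bv 0) y
      + v 1 * v 1 * coef (pull F) ψ (bv 1) (bv 1) y := by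
  simp only [coef_pull hF hψ hy]
  conv_lhs => rw [plane_decomp v]
  simp only [map_add, map_smul, inner_add_left, inner_add_right, inner_smul_left,
    inner_smul_right, conj_trivial]
  ring

lemma coef_pos {F : M → E4}
    (hpos : ∀ (p : M) (v : TangentSpace (𝓡 2) p), v ≠ 0 → 0 < pull F p v v)
    {ψ : OpenPartialHomeomorph M E2} (hψ : ψ ∈ IsManifold.maximalAtlas (𝓡 2) ∞ M)
    {y : E2} (hy : y ∈ ψ.target) {v : E2} (hv : v ≠ 0) : 0 < coef (pull F) ψ v v y := by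
  apply hpos
  intro h0
  apply hv
  have h1 := dchart_symm hψ hy v
  have h2 : mfderiv (𝓡 2) (𝓡 2) ψ.symm y v = 0 := h0
  rw [h2] at h1
  rw [← h1]
  exact map_zero _

lemma norm_sq_E2 (v : E2) : ‖v‖ ^ 2 = v 0 ^ 2 + v 1 ^ 2 := by
  rw [EuclideanSpace.norm_sq_eq]
  simp

theorem exists_lower (A : FinAtlas M) {F : M → E4} (hF : ContMDiff (𝓡 2) 𝓘(ℝ, E4) ∞ F)
    (hpos : ∀ (p : M) (v : TangentSpace (𝓡 2) p), v ≠ 0 → 0 < pull F p v v) :
    ∃ δ > 0, ∀ c, ∀ y ∈ A.K c, ∀ v : E2, δ * ‖v‖ ^ 2 ≤ coef (pull F) (A.χ c) v v y := by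
  have h1 : ∀ c, ∃ δ > 0, ∀ y ∈ A.K c, ∀ v : E2, δ * ‖v‖ ^ 2 ≤ coef (pull F) (A.χ c) v v y := by
    intro c
    rcases (A.K c).eq_empty_or_nonempty with he | hne
    · exact ⟨1, one_pos, fun y hy => by simp [he] at hy⟩
    · have hcpt : IsCompact (A.K c ×ˢ Metric.sphere (0 : E2) 1) :=
        (A.cpt c).prod (isCompact_sphere _ _)
      have hne2 : (A.K c ×ˢ Metric.sphere (0 : E2) 1).Nonempty := by
        obtain ⟨y, hy⟩ := hne
        exact ⟨(y, bv 0), hy, by simp [bv]⟩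
      have hc : ∀ i j : Fin 2, ContinuousOn (fun q : E2 × E2 =>
          coef (pull F) (A.χ c) (bv i) (bv j) q.1) (A.K c ×ˢ Metric.sphere (0 : E2) 1) :=
        fun i j => ((coef_pull_contDiffOn hF (A.hχ c) (bv i) (bv j)).continuousOn.mono
          (A.sub c)).comp continuousOn_fst (fun q hq => hq.1)
      have hv : ∀ i : Fin 2, ContinuousOn (fun q : E2 × E2 => q.2 i)
          (A.K c ×ˢ Metric.sphere (0 : E2) 1) := fun i => by
        have : Continuous (fun q : E2 × E2 => q.2 i) := by fun_prop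
        exact this.continuousOn
      have hcont : ContinuousOn (fun q : E2 × E2 =>
        q.2 0 * q.2 0 * coef (pull F) (A.χ c) (bv 0) (bv 0) q.1
        + q.2 0 * q.2 1 * coef (pull F) (A.χ c) (bv 0) (bv 1) q.1
        + q.2 1 * q.2 0 * coef (pull F) (A.χ c) (bv 1) (bv 0) q.1
        + q.2 1 * q.2 1 * coef (pull F) (A.χ c) (bv 1) (bv 1) q.1)
          (A.K c ×ˢ Metric.sphere (0 : E2) 1) :=
        (((((hv 0).mul (hv 0)).mul (hc 0 0)).add (((hv 0).mul (hv 1)).mul (hc 0 1))).add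
          (((hv 1).mul (hv 0)).mul (hc 1 0))).add (((hv 1).mul (hv 1)).mul (hc 1 1))
      obtain ⟨q, hq, hmin⟩ := hcpt.exists_isMinOn hne2 hcont
      have hqne : q.2 ≠ 0 := by
        intro h0
        have := hq.2
        rw [h0] at this
        simp at this
      have hqpos := coef_pos hpos (A.hχ c) (A.sub c hq.1) hqne
      rw [coef_pull_expand hF (A.hχ c) (A.sub c hq.1)] at hqpos
      refine ⟨_, hqpos, fun y hy v => ?_⟩
      rcases eq_or_ne v 0 with rfl | hv0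
      · have : coef (pull F) (A.χ c) 0 0 y = 0 := by
          rw [coef_pull hF (A.hχ c) (A.sub c hy)]; simp
        rw [this]; simp
      have hn : 0 < ‖v‖ := norm_pos_iff.2 hv0
      have hmem : (y, ‖v‖⁻¹ • v) ∈ A.K c ×ˢ Metric.sphere (0 : E2) 1 :=
        ⟨hy, by simp [norm_smul, hn.ne']⟩
      have h2 := hmin hmem
      rw [Set.mem_ofPred_eq] at h2
      rw [coef_pull_expand hF (A.hχ c) (A.sub c hy) v]
      refine (mul_le_mul_of_nonneg_right h2 (sq_nonneg ‖v‖)).trans (le_of_eq ?_)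
      simp only [PiLp.smul_apply, smul_eq_mul]
      field_simp
  choose δ hδ hδ' using h1
  obtain ⟨d, hd, hd'⟩ := fin_min δ hδ
  exact ⟨d, hd, fun c y hy v => (mul_le_mul_of_nonneg_right (hd' c) (sq_nonneg _)).trans
    (hδ' c y hy v)⟩

theorem exists_pos_nbhd (A : FinAtlas M) {F : M → E4} (hF : ContMDiff (𝓡 2) 𝓘(ℝ, E4) ∞ F)
    (hpos : ∀ (p : M) (v : TangentSpace (𝓡 2) p), v ≠ 0 → 0 < pull F p v v) :
    ∃ η0 > 0, ∀ F' : M → E4, ContMDiff (𝓡 2) 𝓘(ℝ, E4) ∞ F' →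
      InClass A (pull F) η0 (pull F') →
      ∀ (p : M) (v : TangentSpace (𝓡 2) p), v ≠ 0 → 0 < pull F' p v v := by
  obtain ⟨δ, hδ, hlow⟩ := exists_lower A hF hpos
  refine ⟨δ / 4, by positivity, fun F' hF' hcl p v hv => ?_⟩
  obtain ⟨c, hpc, hint⟩ := A.cover p
  have hyK : A.χ c p ∈ A.K c := interior_subset hint
  rw [tens_eq_coef (pull F') (A.hχ c) hpc]
  set u : E2 := mfderiv (𝓡 2) (𝓡 2) (A.χ c) p v with hu
  have hu0 : u ≠ 0 := by
    intro h0
    apply hv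
    have h1 := dsymm_chart (A.hχ c) hpc v
    have h2 : mfderiv (𝓡 2) (𝓡 2) (A.χ c) p v = 0 := h0
    rw [h2] at h1
    rw [← h1]
    exact map_zero _
  have h1 := hlow c _ hyK u
  rw [coef_pull_expand hF (A.hχ c) (A.sub c hyK)] at h1
  rw [coef_pull_expand hF' (A.hχ c) (A.sub c hyK)]
  have c00 := abs_le.1 (hcl.c0 c _ hyK 0 0)
  have c01 := abs_le.1 (hcl.c0 c _ hyK 0 1)
  have c10 := abs_le.1 (hcl.c0 c _ hyK 1 0)
  have c11 := abs_le.1 (hcl.c0 c _ hyK 1 1)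
  set a00 := coef (pull F) (A.χ c) (bv 0) (bv 0) (A.χ c p)
  set a01 := coef (pull F) (A.χ c) (bv 0) (bv 1) (A.χ c p)
  set a10 := coef (pull F) (A.χ c) (bv 1) (bv 0) (A.χ c p)
  set a11 := coef (pull F) (A.χ c) (bv 1) (bv 1) (A.χ c p)
  set b00 := coef (pull F') (A.χ c) (bv 0) (bv 0) (A.χ c p)
  set b01 := coef (pull F') (A.χ c) (bv 0) (bv 1) (A.χ c p)
  set b10 := coef (pull F') (A.χ c) (bv 1) (bv 0) (A.χ c p)
  set b11 := coef (pull F') (A.χ c) (bv 1) (bv 1) (A.χ c p)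
  have hn : 0 < ‖u‖ ^ 2 := by positivity
  rw [norm_sq_E2] at h1 hn
  have habs : ∀ s t : ℝ, -(δ / 4) ≤ t → t ≤ δ / 4 → -(δ / 4 * |s|) ≤ s * t := by
    intro s t h h'
    have h3 : |s * t| ≤ |s| * (δ / 4) := by
      rw [abs_mul]
      exact mul_le_mul_of_nonneg_left (abs_le.2 ⟨h, h'⟩) (abs_nonneg s)
    have h4 := neg_abs_le (s * t)
    linarith
  have t00 := habs (u 0 * u 0) _ c00.1 c00.2
  have t01 := habs (u 0 * u 1) _ c01.1 c01.2
  have t10 := habs (u 1 * u 0) _ c10.1 c10.2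
  have t11 := habs (u 1 * u 1) _ c11.1 c11.2
  have s0 : |u 0 * u 0| = u 0 ^ 2 := by rw [abs_of_nonneg (mul_self_nonneg _)]; ring
  have s1 : |u 1 * u 1| = u 1 ^ 2 := by rw [abs_of_nonneg (mul_self_nonneg _)]; ring
  have s01 : |u 0 * u 1| ≤ (u 0 ^ 2 + u 1 ^ 2) / 2 := by
    rw [abs_le]
    constructor
    · nlinarith [sq_nonneg (u 0 + u 1)]
    · nlinarith [sq_nonneg (u 0 - u 1)]
  have s10 : |u 1 * u 0| ≤ (u 0 ^ 2 + u 1 ^ 2) / 2 := by rw [mul_comm]; exact s01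
  rw [s0] at t00
  rw [s1] at t11
  have m01 : δ / 4 * |u 0 * u 1| ≤ δ / 4 * ((u 0 ^ 2 + u 1 ^ 2) / 2) := by gcongr
  have m10 : δ / 4 * |u 1 * u 0| ≤ δ / 4 * ((u 0 ^ 2 + u 1 ^ 2) / 2) := by gcongr
  have hδn : 0 < δ * (u 0 ^ 2 + u 1 ^ 2) := by positivity
  nlinarith

/-! ## flatness on the surface -/

def FlatM (j : M → E3) (q : M) : Prop :=
  ∀ ψ ∈ IsManifold.maximalAtlas (𝓡 2) ∞ M, q ∈ ψ.source → FlatAt (rep j ψ) (ψ q)

lemma flatM_of_chart {j : M → E3} (hj : ContMDiff (𝓡 2) 𝓘(ℝ, E3) ∞ j)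
    {χ : OpenPartialHomeomorph M E2} (hχ : χ ∈ IsManifold.maximalAtlas (𝓡 2) ∞ M) {q : M}
    (hq : q ∈ χ.source) (h : FlatAt (rep j χ) (χ q)) : FlatM j q := by
  intro ψ hψ hqψ
  have h1 : ψ.symm (ψ q) ∈ χ.source := by rwa [ψ.left_inv hqψ]
  have h2 : trans ψ χ (ψ q) = χ q := by simp [trans, ψ.left_inv hqψ]
  have hev := rep_trans j (ψ.map_source hqψ) h1
  refine FlatAt.congr (FlatAt.comp (by rwa [h2]) ?_ ?_ ?_) hev
  · rw [h2]
    exact ((rep_contDiffOn hj hχ).contDiffAt (χ.open_target.mem_nhds (χ.map_source hq))).of_le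
      ENat.LEInfty.out
  · exact (trans_contDiffAt hψ hχ (ψ.map_source hqψ) h1).of_le ENat.LEInfty.out
  · exact fderiv_trans_surjective hψ hχ (ψ.map_source hqψ) h1

omit [IsManifold (𝓡 2) ∞ M] in
lemma FlatM.congr {j j' : M → E3} {q : M} (h : FlatM j q) (hev : j' =ᶠ[𝓝 q] j) :
    FlatM j' q := by
  intro ψ hψ hq
  refine (h ψ hψ hq).congr ?_
  have hc : ContinuousAt ψ.symm (ψ q) := ψ.continuousAt_symm (ψ.map_source hq)
  have h1 : Filter.Tendsto ψ.symm (𝓝 (ψ q)) (𝓝 q) := by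
    have := hc.tendsto
    rwa [ψ.left_inv hq] at this
  exact h1.eventually hev

end Base
end Crest.Agent.R216
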