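import Crest.Agent.R216.BaseDefs

/-!
# Row 216: BASE MAP, frozen interface (helper744)

`BaseStatement M` from an immersion `G : M → ℝ³`:
`fs = r • (Sig ∘ G)`, `f0 = r • (Sig ∘ G')`, `G' = G + Σ_{p ∈ X} bump_p • N_p`, `ν0 = -(Sig ∘ G')`.
-/

set_option autoImplicit false
open scoped Manifold ContDiff Topology
open Set

noncomputable section
namespace Crest.Agent.R216
namespace Base

/-! ## B1 -/
theorem contDiff_Sig : ContDiff ℝ ∞ Sig := by sorry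
theorem norm_Sig (x : E3) : ‖Sig x‖ = 1 := by sorry
theorem Sig_conformal (x u v : E3) :
    inner ℝ (fderiv ℝ Sig x u) (fderiv ℝ Sig x v) = om x ^ 2 * inner ℝ u v := by sorry
theorem om_pos (x : E3) : 0 < om x := by sorry
theorem contDiff_om : ContDiff ℝ ∞ om := by sorry

/-! ## B2: positivity -/
/-- a planar map with values in the sphere of radius `r` -/
theorem inner_sff_sphere {F : E2 → E4} {r : ℝ} (hr : 0 < r) {y : E2}
    (hF : ContDiffAt ℝ 2 F y) (hn : ∀ᶠ z in 𝓝 y, ‖F z‖ = r) (v w : E2) :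
    inner ℝ (sff F y v w) (-(r⁻¹ • F y)) = r⁻¹ * inner ℝ (fderiv ℝ F y v) (fderiv ℝ F y w) := by
  sorry
theorem inner_fderiv_sphere {F : E2 → E4} {r : ℝ} {y : E2}
    (hF : ContDiffAt ℝ 2 F y) (hn : ∀ᶠ z in 𝓝 y, ‖F z‖ = r) (v : E2) :
    inner ℝ (F y) (fderiv ℝ F y v) = 0 := by
  sorry

/-! ## B3: P2 from positive definiteness -/
/-- `F` immersive planar map into the sphere, `n` a unit vector orthogonal to `F y` and to the
tangent space, and `⟨D²F(v,v), n⟩ > 0` for all `v ≠ 0`: then (P2) holds for all directions. -/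
theorem P2at_of_posdef {F : E2 → E4} {r : ℝ} (hr : 0 < r) {y : E2}
    (hF : ContDiffAt ℝ 2 F y) (hn : ∀ᶠ z in 𝓝 y, ‖F z‖ = r)
    (hinj : Function.Injective (fderiv ℝ F y)) {n : E4} (hn1 : ‖n‖ = 1)
    (hnF : inner ℝ n (F y) = 0) (hnT : ∀ v, inner ℝ n (fderiv ℝ F y v) = 0)
    (hpos : ∀ v : E2, v ≠ 0 → 0 < inner ℝ (dd F y v v) n) (v w : E2) (hv : v ≠ 0) (hw : w ≠ 0) :
    P2at F y w v := by
  sorry

/-! ## B4: the bumps -/
variable {M : Type*} [TopologicalSpace M] [ChartedSpace E2 M] [IsManifold (𝓡 2) ∞ M]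

/-- Bump lemma: modify an immersion near finitely many points such that it stays `C¹`-close, the
metric stays `C¹`-close, and at the points of `X` value and first derivative are unchanged while
the second derivative changes by `λ ⟨dι v, dι w⟩ N_p`, `N_p` a unit normal at `p`. -/
theorem exists_bump [T2Space M] [CompactSpace M] (A : FinAtlas M)
    (G : M → E3) (hG : ContMDiff (𝓡 2) 𝓘(ℝ, E3) ∞ G)
    (hGi : ∀ p, Function.Injective (mfderiv (𝓡 2) 𝓘(ℝ, E3) G p))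
    (X : Set M) (hX : X.Finite) (N : M → E3) (hN1 : ∀ p ∈ X, ‖N p‖ = 1)
    (hN : ∀ p ∈ X, ∀ v, inner ℝ (N p) (mfderiv (𝓡 2) 𝓘(ℝ, E3) G p v : E3) = 0)
    (m : ℕ) (ι : M → EuclideanSpace ℝ (Fin m))
    (hι : ContMDiff (𝓡 2) 𝓘(ℝ, EuclideanSpace ℝ (Fin m)) ∞ ι)
    (hιinj : Function.Injective ι)
    (lam : ℝ) (η : ℝ) (hη : 0 < η) :
    ∃ G' : M → E3, ContMDiff (𝓡 2) 𝓘(ℝ, E3) ∞ G' ∧
      (∀ p, Function.Injective (mfderiv (𝓡 2) 𝓘(ℝ, E3) G' p)) ∧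
      (∀ c, ∀ y ∈ A.K c,
        ‖G' ((A.χ c).symm y) - G ((A.χ c).symm y)‖ ≤ η ∧
        ‖fderiv ℝ (G' ∘ (A.χ c).symm) y - fderiv ℝ (G ∘ (A.χ c).symm) y‖ ≤ η ∧
        ∀ i j : Fin 2, ‖fderiv ℝ (coef3 G' (A.χ c) (bv i) (bv j)) y -
          fderiv ℝ (coef3 G (A.χ c) (bv i) (bv j)) y‖ ≤ η) ∧
      (∀ p ∈ X, G' p = G p) ∧
      (∀ ψ ∈ IsManifold.maximalAtlas (𝓡 2) ∞ M, ∀ p ∈ X, p ∈ ψ.source →
        fderiv ℝ (G' ∘ ψ.symm) (ψ p) = fderiv ℝ (G ∘ ψ.symm) (ψ p) ∧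
        ∀ v w : E2, fderiv ℝ (fderiv ℝ (G' ∘ ψ.symm)) (ψ p) v w =
          fderiv ℝ (fderiv ℝ (G ∘ ψ.symm)) (ψ p) v w +
            (lam * inner ℝ (fderiv ℝ (ι ∘ ψ.symm) (ψ p) v) (fderiv ℝ (ι ∘ ψ.symm) (ψ p) w)) • N p) := by
  sorry

end Base
end Crest.Agent.R216
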