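import Crest.Agent.R216.BaseAsm
import Crest.Agent.R216.BaseFlat

/-!
# Row 216: BASE MAP, final statement (helper904, helper326)
-/

set_option autoImplicit false
open scoped Manifold ContDiff Topology
open Set

noncomputable section
namespace Crest.Agent.R216
namespace Base

variable {M : Type*} [TopologicalSpace M] [ChartedSpace E2 M] [IsManifold (𝓡 2) ∞ M]
  [T2Space M] [CompactSpace M]

theorem flatStatement : FlatStatement M := fun A j hj hpos X hX η hη =>
  exists_flat A j hj hpos X hX η hη

/-- **BASE**: an immersion into `ℝ³` gives `BaseStatement`. -/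
theorem base_of_immersion {j : M → E3} (hj : ContMDiff (𝓡 2) 𝓘(ℝ, E3) ∞ j)
    (hinj : ∀ p, Function.Injective (mfderiv (𝓡 2) 𝓘(ℝ, E3) j p)) : BaseStatement M :=
  base_of_immersion_of_flat flatStatement hj hinj

end Base
end Crest.Agent.R216
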