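import Crest.Agent.R216.BaseDefs

/-!
# Row 216: BASE MAP, parts B1, B2, B3 (helper87)

B1: inverse stereographic projection; B2: second fundamental form of maps into the sphere;
B3: property (P2) from positive definiteness.
-/

set_option autoImplicit false
open scoped Manifold ContDiff Topology
open Set

noncomputable section
namespace Crest.Agent.R216
namespace Base

/-! ## B1 -/

/-- linear inclusion `ℝ³ → ℝ⁴` -/
def incl : E3 →L[ℝ] E4 :=
  LinearMap.toContinuousLinearMap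
    { toFun := fun x => !₂[x 0, x 1, x 2, 0]
      map_add' := by
        intro x y
        ext i
        fin_cases i <;> simp
      map_smul' := by
        intro c x
        ext i
        fin_cases i <;> simp }

/-- north pole -/
def pole : E4 := !₂[0, 0, 0, 1]

lemma incl_apply (x : E3) : incl x = !₂[x 0, x 1, x 2, 0] := rfl

lemma one_add_pos (x : E3) : 0 < 1 + ‖x‖ ^ 2 := by positivity

lemma Sig_eq (x : E3) : Sig x = pole + om x • (incl x - pole) := by
  have h := (one_add_pos x).ne'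
  ext i
  fin_cases i
  · simp [Sig, pole, incl_apply, om]; ring
  · simp [Sig, pole, incl_apply, om]; ring
  · simp [Sig, pole, incl_apply, om]; ring
  · simp [Sig, pole, incl_apply, om]; field_simp; ring

lemma inner_incl_incl (x y : E3) : inner ℝ (incl x) (incl y) = inner ℝ x y := by
  simp [incl_apply, PiLp.inner_apply, Fin.sum_univ_succ]

lemma inner_incl_pole (x : E3) : inner ℝ (incl x) pole = 0 := by
  simp [incl_apply, pole, PiLp.inner_apply, Fin.sum_univ_succ]

lemma inner_pole_incl (x : E3) : inner ℝ pole (incl x) = 0 := by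
  rw [real_inner_comm, inner_incl_pole]

lemma norm_pole : ‖pole‖ = 1 := by
  rw [pole, EuclideanSpace.norm_eq]
  simp [Fin.sum_univ_succ]

lemma norm_incl (x : E3) : ‖incl x‖ = ‖x‖ := by
  have h := inner_incl_incl x x
  rw [real_inner_self_eq_norm_sq, real_inner_self_eq_norm_sq] at h
  exact (pow_left_inj₀ (norm_nonneg _) (norm_nonneg _) (by norm_num)).1 h

theorem om_pos (x : E3) : 0 < om x := by
  unfold om
  positivity

theorem contDiff_om : ContDiff ℝ ∞ om := by
  unfold om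
  apply ContDiff.div contDiff_const
  · exact contDiff_const.add (contDiff_norm_sq ℝ)
  · intro x
    exact (one_add_pos x).ne'

theorem contDiff_Sig : ContDiff ℝ ∞ Sig := by
  have h : Sig = fun x => pole + om x • (incl x - pole) := funext Sig_eq
  rw [h]
  exact contDiff_const.add (contDiff_om.smul (incl.contDiff.sub contDiff_const))

lemma om_mul (x : E3) : om x * (1 + ‖x‖ ^ 2) = 2 := by
  unfold om
  field_simp [(one_add_pos x).ne']

theorem norm_Sig (x : E3) : ‖Sig x‖ = 1 := by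
  have h1 : ‖Sig x‖ ^ 2 = 1 := by
    rw [← real_inner_self_eq_norm_sq, Sig_eq]
    simp only [inner_add_left, inner_add_right, inner_smul_left, inner_smul_right,
      inner_sub_left, inner_sub_right, inner_incl_pole, inner_pole_incl,
      norm_pole, norm_incl, real_inner_self_eq_norm_sq, RCLike.conj_to_real]
    have := om_mul x
    linear_combination om x * this
  have h2 : 0 ≤ ‖Sig x‖ := norm_nonneg _
  nlinarith

lemma hasFDerivAt_om (x : E3) :
    HasFDerivAt om (-(om x ^ 2) • (innerSL ℝ x : E3 →L[ℝ] ℝ)) x := by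
  have h1 : HasFDerivAt (fun z : E3 => 1 + ‖z‖ ^ 2) (2 • (innerSL ℝ x : E3 →L[ℝ] ℝ)) x :=
    (hasStrictFDerivAt_norm_sq x).hasFDerivAt.const_add (1 : ℝ)
  have h2 : HasFDerivAt (fun z : E3 => (2 : ℝ) * (1 + ‖z‖ ^ 2)⁻¹)
      ((2 : ℝ) • (-((1 + ‖x‖ ^ 2) ^ 2)⁻¹ • (2 • (innerSL ℝ x : E3 →L[ℝ] ℝ)))) x := by
    have h3 := (hasDerivAt_inv (one_add_pos x).ne').comp_hasFDerivAt x h1
    exact h3.const_mul 2
  have h4 : om = fun z : E3 => (2 : ℝ) * (1 + ‖z‖ ^ 2)⁻¹ := by
    funext z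
    simp [om, div_eq_mul_inv]
  have h5 : (-(om x ^ 2) • (innerSL ℝ x : E3 →L[ℝ] ℝ)) =
      (2 : ℝ) • (-((1 + ‖x‖ ^ 2) ^ 2)⁻¹ • (2 • (innerSL ℝ x : E3 →L[ℝ] ℝ))) := by
    ext v
    have := (one_add_pos x).ne'
    simp [om]
    field_simp
  rw [h5, h4]
  exact h2

lemma fderiv_Sig (x u : E3) :
    fderiv ℝ Sig x u = om x • incl u + (-(om x ^ 2) * inner ℝ x u) • (incl x - pole) := by
  have h : Sig = fun x => pole + om x • (incl x - pole) := funext Sig_eq
  have h1 := (hasFDerivAt_om x).smul ((incl.hasFDerivAt (x := x)).sub_const pole)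
  have h2 : HasFDerivAt (fun x => pole + om x • (incl x - pole)) _ x := h1.const_add pole
  rw [h, h2.fderiv]
  simp

theorem Sig_conformal (x u v : E3) :
    inner ℝ (fderiv ℝ Sig x u) (fderiv ℝ Sig x v) = om x ^ 2 * inner ℝ u v := by
  rw [fderiv_Sig, fderiv_Sig]
  simp only [inner_add_left, inner_add_right, inner_smul_left, inner_smul_right,
      inner_sub_left, inner_sub_right, inner_incl_incl, inner_incl_pole, inner_pole_incl,
      norm_pole, norm_incl, real_inner_self_eq_norm_sq, RCLike.conj_to_real]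
  have h := om_mul x
  have h1 : inner ℝ u x = (inner ℝ x u : ℝ) := real_inner_comm _ _
  rw [h1]
  linear_combination om x ^ 3 * (inner ℝ x u : ℝ) * (inner ℝ x v : ℝ) * h

/-! ## B2: positivity -/

theorem inner_fderiv_sphere {F : E2 → E4} {r : ℝ} {y : E2}
    (hF : ContDiffAt ℝ 2 F y) (hn : ∀ᶠ z in 𝓝 y, ‖F z‖ = r) (v : E2) :
    inner ℝ (F y) (fderiv ℝ F y v) = 0 := by
  have hd : DifferentiableAt ℝ F y := hF.differentiableAt (by norm_num)
  have h1 : HasFDerivAt (fun z => ‖F z‖ ^ 2)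
      (2 • (innerSL ℝ (F y)).comp (fderiv ℝ F y)) y := hd.hasFDerivAt.norm_sq
  have h2 : (fun z => ‖F z‖ ^ 2) =ᶠ[𝓝 y] fun _ => r ^ 2 := by
    filter_upwards [hn] with z hz
    rw [hz]
  have h3 : fderiv ℝ (fun z => ‖F z‖ ^ 2) y = 0 := by
    rw [h2.fderiv_eq]
    simp
  rw [h1.fderiv] at h3
  have h4 := congrArg (fun L : E2 →L[ℝ] ℝ => L v) h3
  simpa using h4

lemma inner_dd_sphere {F : E2 → E4} {r : ℝ} {y : E2}
    (hF : ContDiffAt ℝ 2 F y) (hn : ∀ᶠ z in 𝓝 y, ‖F z‖ = r) (v w : E2) :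
    inner ℝ (F y) (dd F y v w) = - inner ℝ (fderiv ℝ F y v) (fderiv ℝ F y w) := by
  have hev : ∀ᶠ z in 𝓝 y, ContDiffAt ℝ 2 F z := hF.eventually (by simp)
  have hn2 : ∀ᶠ z in 𝓝 y, ∀ᶠ z' in 𝓝 z, ‖F z'‖ = r := hn.eventually_nhds
  have h0 : (fun z => inner ℝ (F z) (fderiv ℝ F z w)) =ᶠ[𝓝 y] fun _ => (0 : ℝ) := by
    filter_upwards [hev, hn2] with z hz1 hz2
    exact inner_fderiv_sphere hz1 hz2 w
  have hd : DifferentiableAt ℝ F y := hF.differentiableAt (by norm_num)
  have hdd : DifferentiableAt ℝ (fderiv ℝ F) y :=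
    (hF.fderiv_right (m := 1) (by norm_num)).differentiableAt (by norm_num)
  have h1 : HasFDerivAt (fun z => fderiv ℝ F z w)
      ((ContinuousLinearMap.apply ℝ E4 w).comp (fderiv ℝ (fderiv ℝ F) y)) y :=
    (ContinuousLinearMap.apply ℝ E4 w).hasFDerivAt.comp y hdd.hasFDerivAt
  have h2 := hd.hasFDerivAt.inner ℝ h1
  have h3 : fderiv ℝ (fun z => inner ℝ (F z) (fderiv ℝ F z w)) y = 0 := by
    rw [h0.fderiv_eq]
    simp
  rw [h2.fderiv] at h3
  have h4 := congrArg (fun L : E2 →L[ℝ] ℝ => L v) h3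
  simp [dd, d2, fderivInnerCLM_apply] at h4 ⊢
  linarith

lemma orthP_inner {K : Submodule ℝ P4} {n : P4} (hn : n ∈ Kᗮ) (z : P4) :
    inner ℝ (orthP K z) n = inner ℝ z n := by
  have h := sub_orthP_mem K z
  have h2 : inner ℝ (z - orthP K z) n = 0 := Submodule.inner_right_of_mem_orthogonal h hn
  rw [inner_sub_left] at h2
  linarith

lemma mem_tanSp_orth {F : E2 → E4} {y : E2} {n : E4}
    (h : ∀ v, inner ℝ n (fderiv ℝ F y v) = 0) : n ∈ (tanSp F y)ᗮ := by
  rw [Submodule.mem_orthogonal]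
  rintro u ⟨v, rfl⟩
  rw [real_inner_comm]
  exact h v

/-- a planar map with values in the sphere of radius `r` -/
theorem inner_sff_sphere {F : E2 → E4} {r : ℝ} (hr : 0 < r) {y : E2}
    (hF : ContDiffAt ℝ 2 F y) (hn : ∀ᶠ z in 𝓝 y, ‖F z‖ = r) (v w : E2) :
    inner ℝ (sff F y v w) (-(r⁻¹ • F y)) = r⁻¹ * inner ℝ (fderiv ℝ F y v) (fderiv ℝ F y w) := by
  have hm : -(r⁻¹ • F y) ∈ (tanSp F y)ᗮ := by
    apply mem_tanSp_orth
    intro u
    rw [inner_neg_left, inner_smul_left, inner_fderiv_sphere hF hn]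
    simp
  rw [sff, hN, orthP_inner hm]
  have h := inner_dd_sphere hF hn v w
  rw [inner_neg_right, inner_smul_right, real_inner_comm]
  change -(r⁻¹ * inner ℝ (F y) (dd F y v w)) = _
  rw [h]
  ring

/-! ## B3 -/

lemma inner_eq_two {E : Type*} [NormedAddCommGroup E] [InnerProductSpace ℝ E]
    [FiniteDimensional ℝ E] (h2 : Module.finrank ℝ E = 2) {a b : E} (ha : ‖a‖ = 1) (hb : ‖b‖ = 1)
    (hab : inner ℝ a b = (0 : ℝ)) (x z : E) :
    (inner ℝ x z : ℝ) = inner ℝ x a * inner ℝ z a + inner ℝ x b * inner ℝ z b := by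
  have hV : Orthonormal ℝ ![a, b] := by
    rw [orthonormal_iff_ite]
    intro i j
    fin_cases i <;> fin_cases j
    · simp [ha]
    · simp [hab]
    · simp [real_inner_comm, hab]
    · simp [hb]
  have hr : Orthonormal ℝ (Set.domRestrict Set.univ ![a, b]) :=
    hV.comp (fun i : Set.univ => i.1) Subtype.val_injective
  obtain ⟨B, hB⟩ := hr.exists_orthonormalBasis_extension_of_card_eq (by rw [h2]; simp)
  have h := B.sum_inner_mul_inner x z
  rw [Fin.sum_univ_two, hB 0 (Set.mem_univ _), hB 1 (Set.mem_univ _)] at h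
  simp only [Matrix.cons_val_zero, Matrix.cons_val_one] at h
  rw [← h, real_inner_comm z a, real_inner_comm z b]

/-- inner products in the 2-dimensional normal space -/
lemma inner_eq_of_normal {F : E2 → E4} {y : E2}
    (hinj : Function.Injective (fderiv ℝ F y)) {a b : E4} (ha : ‖a‖ = 1) (hb : ‖b‖ = 1)
    (hab : inner ℝ a b = (0 : ℝ)) (haT : a ∈ (tanSp F y)ᗮ) (hbT : b ∈ (tanSp F y)ᗮ)
    {x z : E4} (hx : x ∈ (tanSp F y)ᗮ) (hz : z ∈ (tanSp F y)ᗮ) :
    (inner ℝ x z : ℝ) = inner ℝ x a * inner ℝ z a + inner ℝ x b * inner ℝ z b := by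
  have hfr : Module.finrank ℝ (tanSp F y) = 2 := by
    rw [tanSp, LinearMap.finrank_range_of_inj]
    · simp
    · exact hinj
  have hfr2 : Module.finrank ℝ ((tanSp F y)ᗮ : Submodule ℝ P4) = 2 := by
    have h := Submodule.finrank_add_finrank_orthogonal (tanSp F y)
    have h4 : Module.finrank ℝ P4 = 4 := by simp
    omega
  exact inner_eq_two hfr2 (a := (⟨a, haT⟩ : ((tanSp F y)ᗮ : Submodule ℝ P4)))
    (b := ⟨b, hbT⟩) ha hb hab ⟨x, hx⟩ ⟨z, hz⟩

lemma P2_arith {A B C P Q R : ℝ} (hC : 0 < C) (hR : 0 < R) (h1 : B ^ 2 ≤ A * C)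
    (h2 : Q ^ 2 < P * R) :
    (B ^ 2 + Q ^ 2) * (C ^ 2 + R ^ 2) - (B * C + Q * R) ^ 2 < (A * C + P * R) * (C ^ 2 + R ^ 2) := by
  have h3 : 0 < C ^ 2 + R ^ 2 := by positivity
  have h4 : (B ^ 2 + Q ^ 2) * (C ^ 2 + R ^ 2) < (A * C + P * R) * (C ^ 2 + R ^ 2) :=
    mul_lt_mul_of_pos_right (by linarith) h3
  nlinarith [sq_nonneg (B * C + Q * R)]

/-- `F` immersive planar map into the sphere, `n` a unit vector orthogonal to `F y` and to the
tangent space, and `⟨D²F(v,v), n⟩ > 0` for all `v ≠ 0`: then (P2) holds for all directions. -/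
theorem P2at_of_posdef {F : E2 → E4} {r : ℝ} (hr : 0 < r) {y : E2}
    (hF : ContDiffAt ℝ 2 F y) (hn : ∀ᶠ z in 𝓝 y, ‖F z‖ = r)
    (hinj : Function.Injective (fderiv ℝ F y)) {n : E4} (hn1 : ‖n‖ = 1)
    (hnF : inner ℝ n (F y) = 0) (hnT : ∀ v, inner ℝ n (fderiv ℝ F y v) = 0)
    (hpos : ∀ v : E2, v ≠ 0 → 0 < inner ℝ (dd F y v v) n) (v w : E2) (hv : v ≠ 0) (hw : w ≠ 0) :
    P2at F y w v := by
  have hFr : ‖F y‖ = r := hn.self_of_nhds
  set a : E4 := -(r⁻¹ • F y) with ha
  have hr1 : 0 < r⁻¹ := inv_pos.2 hr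
  have ha1 : ‖a‖ = 1 := by
    rw [ha, norm_neg, norm_smul, hFr, Real.norm_eq_abs, abs_of_pos hr1]
    field_simp
  have haT : a ∈ (tanSp F y)ᗮ := by
    apply mem_tanSp_orth
    intro u
    rw [ha, inner_neg_left, inner_smul_left, inner_fderiv_sphere hF hn]
    simp
  have hnT' : n ∈ (tanSp F y)ᗮ := mem_tanSp_orth hnT
  have han : inner ℝ a n = (0 : ℝ) := by
    rw [ha, inner_neg_left, inner_smul_left, real_inner_comm, hnF]
    simp
  have hs : ∀ u t : E2, sff F y u t ∈ (tanSp F y)ᗮ := fun u t => orthP_mem _ _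
  have hsa : ∀ u t : E2, (inner ℝ (sff F y u t) a : ℝ) =
      r⁻¹ * inner ℝ (fderiv ℝ F y u) (fderiv ℝ F y t) := fun u t => inner_sff_sphere hr hF hn u t
  have hsn : ∀ u t : E2, (inner ℝ (sff F y u t) n : ℝ) = inner ℝ (dd F y u t) n :=
    fun u t => orthP_inner hnT' _
  have hin : ∀ u t u' t' : E2, (inner ℝ (sff F y u t) (sff F y u' t') : ℝ) =
      (r⁻¹ * inner ℝ (fderiv ℝ F y u) (fderiv ℝ F y t)) *
        (r⁻¹ * inner ℝ (fderiv ℝ F y u') (fderiv ℝ F y t')) +
      inner ℝ (dd F y u t) n * inner ℝ (dd F y u' t') n := by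
    intro u t u' t'
    rw [inner_eq_of_normal hinj ha1 hn1 han haT hnT' (hs u t) (hs u' t'), hsa, hsa, hsn, hsn]
  have hsym : ∀ u t : E2, dd F y u t = dd F y t u := fun u t =>
    (hF.isSymmSndFDerivAt (by simp)).eq u t
  have hgpos : ∀ u : E2, u ≠ 0 → 0 < (inner ℝ (fderiv ℝ F y u) (fderiv ℝ F y u) : ℝ) := by
    intro u hu
    rw [real_inner_self_eq_norm_sq]
    have : fderiv ℝ F y u ≠ 0 := by
      intro h
      exact hu (hinj (by rw [h, map_zero]))
    positivity
  have hcs : (inner ℝ (fderiv ℝ F y v) (fderiv ℝ F y w) : ℝ) ^ 2 ≤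
      inner ℝ (fderiv ℝ F y v) (fderiv ℝ F y v) * inner ℝ (fderiv ℝ F y w) (fderiv ℝ F y w) := by
    have := real_inner_mul_inner_self_le (fderiv ℝ F y v) (fderiv ℝ F y w)
    nlinarith [this]
  unfold P2at
  rw [← real_inner_self_eq_norm_sq, ← real_inner_self_eq_norm_sq, hin, hin, hin, hin]
  set gvv : ℝ := inner ℝ (fderiv ℝ F y v) (fderiv ℝ F y v)
  set gvw : ℝ := inner ℝ (fderiv ℝ F y v) (fderiv ℝ F y w) with hgvw
  set gww : ℝ := inner ℝ (fderiv ℝ F y w) (fderiv ℝ F y w) with hgww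
  set P : ℝ := inner ℝ (dd F y v v) n with hP
  set Q : ℝ := inner ℝ (dd F y v w) n with hQ
  set R : ℝ := inner ℝ (dd F y w w) n with hR
  have hRpos : 0 < R := hpos w hw
  have hgw : 0 < gww := hgpos w hw
  have hlin : ∀ c : ℝ, (inner ℝ (dd F y (v - c • w) (v - c • w)) n : ℝ) =
      P - 2 * c * Q + c ^ 2 * R := by
    intro c
    have e1 : dd F y (v - c • w) (v - c • w) =
        dd F y v v - c • dd F y v w - c • dd F y w v + (c ^ 2) • dd F y w w := by
      simp only [dd, d2, map_sub, map_smul, sub_apply,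
        smul_apply, smul_sub, smul_smul]
      rw [pow_two]
      abel
    rw [e1, hsym w v]
    simp only [inner_add_left, inner_sub_left, inner_smul_left, RCLike.conj_to_real]
    ring
  by_cases hu : v - (Q / R) • w = 0
  · have hvw : v = (Q / R) • w := sub_eq_zero.1 hu
    set c := Q / R with hc
    have hc0 : c ≠ 0 := by
      intro h
      rw [h, zero_smul] at hvw
      exact hv hvw
    have e1 : gvw = c * gww := by
      rw [hgvw, hvw, map_smul, inner_smul_left]
      simp [hgww]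
    have e2 : Q = c * R := by
      rw [hc]
      field_simp
    have e3 : gvv = c ^ 2 * gww := by
      simp only [gvv, gww]
      rw [hvw, map_smul, inner_smul_left, inner_smul_right]
      simp
      ring
    have e4 : P = c ^ 2 * R := by
      have h := hlin c
      rw [hu] at h
      have h0 : (inner ℝ (dd F y (0 : E2) 0) n : ℝ) = 0 := by simp [dd, d2]
      rw [h0] at h
      rw [e2] at h
      linarith
    rw [e1, e2, e3, e4]
    have h5 : 0 < c ^ 2 := by positivity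
    have h6 : 0 < (r⁻¹ * gww) ^ 2 + R ^ 2 := by positivity
    nlinarith [mul_pos h5 (mul_pos h6 h6)]
  · have hpu := hpos _ hu
    rw [hlin] at hpu
    have h2 : Q ^ 2 < P * R := by
      have : P - 2 * (Q / R) * Q + (Q / R) ^ 2 * R = (P * R - Q ^ 2) / R := by
        field_simp
        ring
      rw [this] at hpu
      have := (div_pos_iff_of_pos_right hRpos).1 hpu
      linarith
    have h1 : (r⁻¹ * gvw) ^ 2 ≤ (r⁻¹ * gvv) * (r⁻¹ * gww) := by
      have : 0 ≤ (r⁻¹) ^ 2 := by positivity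
      nlinarith [mul_le_mul_of_nonneg_left hcs this]
    have h3 := P2_arith (mul_pos hr1 hgw) hRpos h1 h2
    nlinarith [h3]

end Base
end Crest.Agent.R216
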