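import Mathlib

/-!
# Row 216: class calculus for families of functions of `(x,t)`.
-/

open Set Topology
open scoped ContDiff

set_option linter.unusedSectionVars false

namespace Crest.Agent.R216.TE

abbrev X2 := ℝ × ℝ
abbrev Q := (ℝ × ℝ) × ℝ
abbrev E4 := EuclideanSpace ℝ (Fin 4)

/-- the three basis directions of `Q`: `x1`, `x2`, `t` -/
def bas : Fin 3 → Q := ![((1, 0), 0), ((0, 1), 0), ((0, 0), 1)]

section
variable {V V' V'' : Type*} [NormedAddCommGroup V] [NormedSpace ℝ V]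
  [NormedAddCommGroup V'] [NormedSpace ℝ V'] [NormedAddCommGroup V''] [NormedSpace ℝ V'']

/-- partial derivative -/
noncomputable def pd (j : Fin 3) (u : Q → V) : Q → V := fun z => fderiv ℝ u z (bas j)

lemma pd_eqOn {u v : Q → V} {s : Set Q} (hs : IsOpen s) (h : EqOn u v s) (j : Fin 3) :
    EqOn (pd j u) (pd j v) s := by
  intro z hz
  have : u =ᶠ[𝓝 z] v := Filter.eventuallyEq_of_mem (hs.mem_nhds hz) h
  simp only [pd, this.fderiv_eq]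

lemma pd_contDiffOn {u : Q → V} {s : Set Q} (hs : IsOpen s) (h : ContDiffOn ℝ ∞ u s) (j : Fin 3) :
    ContDiffOn ℝ ∞ (pd j u) s := by
  have h1 : ContDiffOn ℝ ∞ (fderiv ℝ u) s := h.fderiv_of_isOpen hs (by simp)
  exact h1.clm_apply contDiffOn_const

lemma diffAt {u : Q → V} {s : Set Q} (hs : IsOpen s) (h : ContDiffOn ℝ ∞ u s) {z : Q}
    (hz : z ∈ s) : DifferentiableAt ℝ u z :=
  (h.contDiffAt (hs.mem_nhds hz)).differentiableAt (by simp)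

/-- A family of open domains in `ℝ²` with a derivative cost `Lam ≥ 1`. -/
structure Fam where
  I : Type
  D : I → Set X2
  isOpen : ∀ i, IsOpen (D i)
  Lam : I → ℝ
  one_le : ∀ i, 1 ≤ Lam i

namespace Fam
variable (𝓕 : Fam)

/-- the domain in `(x,t)`-space -/
def dom (i : 𝓕.I) : Set Q := {z | z.1 ∈ 𝓕.D i}

lemma isOpen_dom (i : 𝓕.I) : IsOpen (𝓕.dom i) := (𝓕.isOpen i).preimage continuous_fst

/-- smooth families -/
def Sm (u : 𝓕.I → Q → V) : Prop := ∀ i, ContDiffOn ℝ ∞ (u i) (𝓕.dom i)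

/-- size bound -/
def Sz (w : 𝓕.I → X2 → ℝ) (u : 𝓕.I → Q → V) : Prop :=
  ∃ C : ℝ, 0 < C ∧ ∀ i, ∀ z ∈ 𝓕.dom i, ‖u i z‖ ≤ C * w i z.1

/-- bounds of all partial derivatives of order `≤ k`: each derivative costs a factor `Lam`. -/
def Bk : ℕ → (𝓕.I → X2 → ℝ) → (𝓕.I → Q → V) → Prop
  | 0, w, u => 𝓕.Sz w u
  | k + 1, w, u => 𝓕.Sz w u ∧ ∀ j, Bk k (fun i x => 𝓕.Lam i * w i x) (fun i => pd j (u i))

/-- The class `B(w)`. -/
structure B (w : 𝓕.I → X2 → ℝ) (u : 𝓕.I → Q → V) : Prop where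
  smooth : 𝓕.Sm u
  bound : ∀ k, 𝓕.Bk k w u

variable {𝓕}
variable {w w' w'' : 𝓕.I → X2 → ℝ}

lemma Lam_pos (i : 𝓕.I) : 0 < 𝓕.Lam i := lt_of_lt_of_le one_pos (𝓕.one_le i)

lemma Bk.sz {k : ℕ} {u : 𝓕.I → Q → V} (h : 𝓕.Bk k w u) : 𝓕.Sz w u := by
  cases k with
  | zero => exact h
  | succ k => exact h.1

lemma B.sz {u : 𝓕.I → Q → V} (h : 𝓕.B w u) : 𝓕.Sz w u := (h.bound 0)

lemma Bk.of_succ {k : ℕ} : ∀ {w : 𝓕.I → X2 → ℝ} {u : 𝓕.I → Q → V},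
    𝓕.Bk (k + 1) w u → 𝓕.Bk k w u := by
  induction k with
  | zero => intro w u h; exact h.1
  | succ k ih => intro w u h; exact ⟨h.1, fun j => ih (h.2 j)⟩

lemma Sz.congr {u v : 𝓕.I → Q → V} (h : 𝓕.Sz w u) (huv : ∀ i, EqOn (u i) (v i) (𝓕.dom i)) :
    𝓕.Sz w v := by
  obtain ⟨C, hC, h⟩ := h
  exact ⟨C, hC, fun i z hz => by rw [← huv i hz]; exact h i z hz⟩

lemma Bk.congr {k : ℕ} : ∀ {w : 𝓕.I → X2 → ℝ} {u v : 𝓕.I → Q → V}, 𝓕.Bk k w u →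
    (∀ i, EqOn (u i) (v i) (𝓕.dom i)) → 𝓕.Bk k w v := by
  induction k with
  | zero => intro w u v h huv; exact Sz.congr h huv
  | succ k ih =>
    intro w u v h huv
    exact ⟨h.1.congr huv, fun j => ih (h.2 j) (fun i => pd_eqOn (𝓕.isOpen_dom i) (huv i) j)⟩

lemma B.congr {u v : 𝓕.I → Q → V} (h : 𝓕.B w u) (huv : ∀ i, EqOn (u i) (v i) (𝓕.dom i)) :
    𝓕.B w v :=
  ⟨fun i => (h.smooth i).congr (fun z hz => (huv i hz).symm), fun k => (h.bound k).congr huv⟩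

lemma Sz.mono {u : 𝓕.I → Q → V} (h : 𝓕.Sz w u) {C : ℝ} (hC : 0 < C)
    (hw : ∀ i, ∀ x ∈ 𝓕.D i, w i x ≤ C * w' i x) : 𝓕.Sz w' u := by
  obtain ⟨C1, hC1, h⟩ := h
  refine ⟨C1 * C, by positivity, fun i z hz => (h i z hz).trans ?_⟩
  rw [mul_assoc]
  exact mul_le_mul_of_nonneg_left (hw i z.1 hz) hC1.le

lemma Bk.mono {k : ℕ} : ∀ {w w' : 𝓕.I → X2 → ℝ} {u : 𝓕.I → Q → V}, 𝓕.Bk k w u →
    ∀ {C : ℝ}, 0 < C → (∀ i, ∀ x ∈ 𝓕.D i, w i x ≤ C * w' i x) → 𝓕.Bk k w' u := by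
  induction k with
  | zero => intro w w' u h C hC hw; exact Sz.mono h hC hw
  | succ k ih =>
    intro w w' u h C hC hw
    refine ⟨h.1.mono hC hw, fun j => ih (h.2 j) hC (fun i x hx => ?_)⟩
    have := mul_le_mul_of_nonneg_left (hw i x hx) (Lam_pos i).le
    linarith

lemma B.mono {u : 𝓕.I → Q → V} (h : 𝓕.B w u) {C : ℝ} (hC : 0 < C)
    (hw : ∀ i, ∀ x ∈ 𝓕.D i, w i x ≤ C * w' i x) : 𝓕.B w' u :=
  ⟨h.smooth, fun k => (h.bound k).mono hC hw⟩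

lemma B.weight_congr {u : 𝓕.I → Q → V} (h : 𝓕.B w u)
    (hw : ∀ i, ∀ x ∈ 𝓕.D i, w i x = w' i x) : 𝓕.B w' u :=
  h.mono one_pos (fun i x hx => by rw [hw i x hx, one_mul])

lemma B.le {u : 𝓕.I → Q → V} (h : 𝓕.B w u)
    (hw : ∀ i, ∀ x ∈ 𝓕.D i, w i x ≤ w' i x) : 𝓕.B w' u :=
  h.mono one_pos (fun i x hx => by rw [one_mul]; exact hw i x hx)

lemma Sm.pd {u : 𝓕.I → Q → V} (h : 𝓕.Sm u) (j : Fin 3) : 𝓕.Sm (fun i => pd j (u i)) :=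
  fun i => pd_contDiffOn (𝓕.isOpen_dom i) (h i) j

lemma B.pd {u : 𝓕.I → Q → V} (h : 𝓕.B w u) (j : Fin 3) :
    𝓕.B (fun i x => 𝓕.Lam i * w i x) (fun i => pd j (u i)) :=
  ⟨h.smooth.pd j, fun k => (h.bound (k + 1)).2 j⟩

lemma B.of_pd {u : 𝓕.I → Q → V} (hs : 𝓕.Sm u) (h0 : 𝓕.Sz w u)
    (h : ∀ j, 𝓕.B (fun i x => 𝓕.Lam i * w i x) (fun i => Crest.Agent.R216.TE.pd j (u i))) :
    𝓕.B w u :=
  ⟨hs, fun k => by
    cases k with
    | zero => exact h0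
    | succ k => exact ⟨h0, fun j => (h j).bound k⟩⟩

/-! ### additive structure -/

lemma Sz.add {u v : 𝓕.I → Q → V} (hu : 𝓕.Sz w u) (hv : 𝓕.Sz w v) :
    𝓕.Sz w (fun i z => u i z + v i z) := by
  obtain ⟨C, hC, hu⟩ := hu
  obtain ⟨C', hC', hv⟩ := hv
  refine ⟨C + C', by positivity, fun i z hz => (norm_add_le _ _).trans ?_⟩
  rw [add_mul]
  exact add_le_add (hu i z hz) (hv i z hz)

lemma Bk.add {k : ℕ} : ∀ {w : 𝓕.I → X2 → ℝ} {u v : 𝓕.I → Q → V}, 𝓕.Sm u → 𝓕.Sm v →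
    𝓕.Bk k w u → 𝓕.Bk k w v → 𝓕.Bk k w (fun i z => u i z + v i z) := by
  induction k with
  | zero => intro w u v _ _ hu hv; exact Sz.add hu hv
  | succ k ih =>
    intro w u v su sv hu hv
    refine ⟨hu.1.add hv.1, fun j => ?_⟩
    refine (ih (su.pd j) (sv.pd j) (hu.2 j) (hv.2 j)).congr (fun i z hz => ?_)
    have h1 := diffAt (𝓕.isOpen_dom i) (su i) hz
    have h2 := diffAt (𝓕.isOpen_dom i) (sv i) hz
    show _ = fderiv ℝ (fun z => u i z + v i z) z (bas j)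
    rw [fderiv_fun_add h1 h2]; rfl

lemma B.add {u v : 𝓕.I → Q → V} (hu : 𝓕.B w u) (hv : 𝓕.B w v) :
    𝓕.B w (fun i z => u i z + v i z) :=
  ⟨fun i => (hu.smooth i).add (hv.smooth i),
    fun k => (hu.bound k).add hu.smooth hv.smooth (hv.bound k)⟩

/-- linear maps -/
lemma Bk.clm {k : ℕ} (L : V →L[ℝ] V') : ∀ {w : 𝓕.I → X2 → ℝ} {u : 𝓕.I → Q → V}, 𝓕.Sm u →
    (∀ i, ∀ x ∈ 𝓕.D i, 0 ≤ w i x) →
    𝓕.Bk k w u → 𝓕.Bk k w (fun i z => L (u i z)) := by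
  have key : ∀ {w : 𝓕.I → X2 → ℝ} {u : 𝓕.I → Q → V}, (∀ i, ∀ x ∈ 𝓕.D i, 0 ≤ w i x) →
      𝓕.Sz w u → 𝓕.Sz w (fun i z => L (u i z)) := by
    intro w u hw hu
    obtain ⟨C, hC, hu⟩ := hu
    refine ⟨(‖L‖ + 1) * C, by positivity, fun i z hz => (L.le_opNorm _).trans ?_⟩
    have h1 := hu i z hz
    have h2 := hw i z.1 hz
    calc ‖L‖ * ‖u i z‖ ≤ (‖L‖ + 1) * (C * w i z.1) :=
          mul_le_mul (by linarith) h1 (norm_nonneg _) (by positivity)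
      _ = _ := by ring
  induction k with
  | zero => intro w u _ hw hu; exact key hw hu
  | succ k ih =>
    intro w u su hw hu
    refine ⟨key hw hu.1, fun j => ?_⟩
    refine (ih (su.pd j) (fun i x hx => mul_nonneg (Lam_pos i).le (hw i x hx)) (hu.2 j)).congr
      (fun i z hz => ?_)
    have h1 := diffAt (𝓕.isOpen_dom i) (su i) hz
    show _ = fderiv ℝ (fun z => L (u i z)) z (bas j)
    have : HasFDerivAt (fun z => L (u i z)) (L.comp (fderiv ℝ (u i) z)) z :=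
      L.hasFDerivAt.comp z h1.hasFDerivAt
    rw [this.fderiv]; rfl

lemma B.clm (L : V →L[ℝ] V') {u : 𝓕.I → Q → V} (hw : ∀ i, ∀ x ∈ 𝓕.D i, 0 ≤ w i x)
    (hu : 𝓕.B w u) : 𝓕.B w (fun i z => L (u i z)) :=
  ⟨fun i => L.contDiff.comp_contDiffOn (hu.smooth i),
    fun k => (hu.bound k).clm L hu.smooth hw⟩

/-! ### products -/

lemma Sz.bilin (L : V →L[ℝ] V' →L[ℝ] V'') {u : 𝓕.I → Q → V} {v : 𝓕.I → Q → V'}
    (hw' : ∀ i, ∀ x ∈ 𝓕.D i, 0 ≤ w' i x) (hw : ∀ i, ∀ x ∈ 𝓕.D i, 0 ≤ w i x)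
    (hu : 𝓕.Sz w u) (hv : 𝓕.Sz w' v) :
    𝓕.Sz (fun i x => w i x * w' i x) (fun i z => L (u i z) (v i z)) := by
  obtain ⟨C, hC, hu⟩ := hu
  obtain ⟨C', hC', hv⟩ := hv
  refine ⟨(‖L‖ + 1) * C * C', by positivity, fun i z hz => (L.le_opNorm₂ _ _).trans ?_⟩
  have h1 := hu i z hz
  have h2 := hv i z hz
  have h3 := hw i z.1 hz
  have h4 := hw' i z.1 hz
  calc ‖L‖ * ‖u i z‖ * ‖v i z‖ ≤ (‖L‖ + 1) * (C * w i z.1) * (C' * w' i z.1) := by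
        gcongr
        linarith
    _ = _ := by ring

lemma Bk.bilin {k : ℕ} (L : V →L[ℝ] V' →L[ℝ] V'') : ∀ {w w' : 𝓕.I → X2 → ℝ}
    {u : 𝓕.I → Q → V} {v : 𝓕.I → Q → V'}, 𝓕.Sm u → 𝓕.Sm v →
    (∀ i, ∀ x ∈ 𝓕.D i, 0 ≤ w i x) → (∀ i, ∀ x ∈ 𝓕.D i, 0 ≤ w' i x) →
    𝓕.Bk k w u → 𝓕.Bk k w' v → 𝓕.Bk k (fun i x => w i x * w' i x) (fun i z => L (u i z) (v i z)) := by
  induction k with
  | zero => intro w w' u v _ _ hw hw' hu hv; exact Sz.bilin L hw' hw hu hv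
  | succ k ih =>
    intro w w' u v su sv hw hw' hu hv
    refine ⟨Sz.bilin L hw' hw hu.1 hv.1, fun j => ?_⟩
    have hL : ∀ (w : 𝓕.I → X2 → ℝ), (∀ i, ∀ x ∈ 𝓕.D i, 0 ≤ w i x) →
      ∀ i, ∀ x ∈ 𝓕.D i, 0 ≤ 𝓕.Lam i * w i x :=
      fun w hw i x hx => mul_nonneg (Lam_pos i).le (hw i x hx)
    have h1 := ih (su.pd j) sv (hL w hw) hw' (hu.2 j) hv.of_succ
    have h2 := ih su (sv.pd j) hw (hL w' hw') hu.of_succ (hv.2 j)
    have h2' : 𝓕.Bk k (fun i x => 𝓕.Lam i * w i x * w' i x)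
        (fun i z => L (u i z) (Crest.Agent.R216.TE.pd j (v i) z)) :=
      h2.mono one_pos (fun i x _ => by rw [one_mul]; apply le_of_eq; ring)
    have s1 : 𝓕.Sm (fun i z => L (Crest.Agent.R216.TE.pd j (u i) z) (v i z)) := fun i =>
      L.isBoundedBilinearMap.contDiff.comp_contDiffOn ((su.pd j i).prodMk (sv i))
    have s2 : 𝓕.Sm (fun i z => L (u i z) (Crest.Agent.R216.TE.pd j (v i) z)) := fun i =>
      L.isBoundedBilinearMap.contDiff.comp_contDiffOn ((su i).prodMk (sv.pd j i))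
    refine ((Bk.add s1 s2 h1 h2').congr (fun i z hz => ?_)).mono one_pos
      (fun i x _ => by rw [one_mul]; apply le_of_eq; ring)
    have d1 := diffAt (𝓕.isOpen_dom i) (su i) hz
    have d2 := diffAt (𝓕.isOpen_dom i) (sv i) hz
    show _ = fderiv ℝ (fun z => L (u i z) (v i z)) z (bas j)
    have := (L.hasFDerivAt_of_bilinear d1.hasFDerivAt d2.hasFDerivAt).fderiv
    rw [this]
    simp [Crest.Agent.R216.TE.pd, add_comm]

lemma B.bilin (L : V →L[ℝ] V' →L[ℝ] V'') {u : 𝓕.I → Q → V} {v : 𝓕.I → Q → V'}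
    (hw : ∀ i, ∀ x ∈ 𝓕.D i, 0 ≤ w i x) (hw' : ∀ i, ∀ x ∈ 𝓕.D i, 0 ≤ w' i x)
    (hu : 𝓕.B w u) (hv : 𝓕.B w' v) :
    𝓕.B (fun i x => w i x * w' i x) (fun i z => L (u i z) (v i z)) :=
  ⟨fun i => L.isBoundedBilinearMap.contDiff.comp_contDiffOn ((hu.smooth i).prodMk (hv.smooth i)),
    fun k => Bk.bilin L hu.smooth hv.smooth hw hw' (hu.bound k) (hv.bound k)⟩

end Fam
end
end Crest.Agent.R216.TE
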