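import Crest.Agent.R216.Cls

/-!
# Row 216: class calculus, algebraic corollaries (sub, mul, smul, inner, inv, sqrt).
-/

open Set Topology
open scoped ContDiff

set_option linter.unusedSectionVars false

namespace Crest.Agent.R216.TE

variable {V V' V'' : Type*} [NormedAddCommGroup V] [NormedSpace ℝ V]
  [NormedAddCommGroup V'] [NormedSpace ℝ V'] [NormedAddCommGroup V''] [NormedSpace ℝ V'']

namespace Fam
variable {𝓕 : Fam}
variable {w w' w'' : 𝓕.I → X2 → ℝ}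

/-- nonnegative weights -/
def Nn (w : 𝓕.I → X2 → ℝ) : Prop := ∀ i, ∀ x ∈ 𝓕.D i, 0 ≤ w i x

lemma B.const_smul {u : 𝓕.I → Q → V} (c : ℝ) (hw : Nn w) (hu : 𝓕.B w u) :
    𝓕.B w (fun i z => c • u i z) :=
  hu.clm (c • ContinuousLinearMap.id ℝ V) hw

lemma B.neg {u : 𝓕.I → Q → V} (hw : Nn w) (hu : 𝓕.B w u) : 𝓕.B w (fun i z => - u i z) := by
  have := hu.const_smul (-1) hw
  simpa using this

lemma B.sub {u v : 𝓕.I → Q → V} (hw : Nn w) (hu : 𝓕.B w u) (hv : 𝓕.B w v) :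
    𝓕.B w (fun i z => u i z - v i z) := by
  have := hu.add (hv.neg hw)
  simpa [sub_eq_add_neg] using this

lemma B.mul {u v : 𝓕.I → Q → ℝ} (hw : Nn w) (hw' : Nn w') (hu : 𝓕.B w u) (hv : 𝓕.B w' v) :
    𝓕.B (fun i x => w i x * w' i x) (fun i z => u i z * v i z) :=
  B.bilin (ContinuousLinearMap.mul ℝ ℝ) hw hw' hu hv

lemma B.smul {u : 𝓕.I → Q → ℝ} {v : 𝓕.I → Q → V} (hw : Nn w) (hw' : Nn w') (hu : 𝓕.B w u)
    (hv : 𝓕.B w' v) :
    𝓕.B (fun i x => w i x * w' i x) (fun i z => u i z • v i z) :=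
  B.bilin (ContinuousLinearMap.lsmul ℝ ℝ) hw hw' hu hv

lemma B.inner {u v : 𝓕.I → Q → E4} (hw : Nn w) (hw' : Nn w') (hu : 𝓕.B w u)
    (hv : 𝓕.B w' v) :
    𝓕.B (fun i x => w i x * w' i x) (fun i z => inner ℝ (u i z) (v i z)) :=
  B.bilin (innerSL ℝ) hw hw' hu hv

lemma Sm.inner {u v : 𝓕.I → Q → E4} (hu : 𝓕.Sm u) (hv : 𝓕.Sm v) :
    𝓕.Sm (fun i z => inner ℝ (u i z) (v i z)) := fun i => (hu i).inner ℝ (hv i)

/-- a constant-in-`z` family -/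
lemma B.const (c : 𝓕.I → V) (h : ∃ C : ℝ, 0 < C ∧ ∀ i, ∀ x ∈ 𝓕.D i, ‖c i‖ ≤ C * w i x)
    (hw : Nn w) : 𝓕.B w (fun i _ => c i) := by
  have hzero : ∀ k, ∀ w : 𝓕.I → X2 → ℝ, Nn w → 𝓕.Bk k w (fun _ _ => (0 : V)) := by
    intro k
    induction k with
    | zero =>
      intro w hw
      exact ⟨1, one_pos, fun i z hz => by simpa using hw i z.1 hz⟩
    | succ k ih =>
      intro w hw
      refine ⟨⟨1, one_pos, fun i z hz => by simpa using hw i z.1 hz⟩, fun j => ?_⟩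
      refine (ih _ (fun i x hx => mul_nonneg (Lam_pos i).le (hw i x hx))).congr (fun i z hz => ?_)
      simp [Crest.Agent.R216.TE.pd]
  have hsz : 𝓕.Sz w (fun i _ => c i) := by
    obtain ⟨C, hC, h⟩ := h
    exact ⟨C, hC, fun i z hz => h i z.1 hz⟩
  refine ⟨fun i => contDiffOn_const, fun k => ?_⟩
  cases k with
  | zero => exact hsz
  | succ k =>
    refine ⟨hsz, fun j => ?_⟩
    refine (hzero k _ (fun i x hx => mul_nonneg (Lam_pos i).le (hw i x hx))).congr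
      (fun i z hz => ?_)
    simp [Crest.Agent.R216.TE.pd]

lemma B.zero (hw : Nn w) : 𝓕.B w (fun _ _ => (0 : V)) :=
  B.const (fun _ => 0) ⟨1, one_pos, fun i x hx => by simpa using hw i x hx⟩ hw

/-- multiplication by `z`-independent numbers -/
lemma B.smul_const {u : 𝓕.I → Q → V} (c : 𝓕.I → ℝ) (hw : Nn w) (hu : 𝓕.B w u) :
    𝓕.B (fun i x => |c i| * w i x) (fun i z => c i • u i z) :=
  B.smul (fun i x _ => abs_nonneg _) hw
    (B.const (w := fun i _ => |c i|) c ⟨1, one_pos, fun i x _ => by simp⟩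
      (fun i x _ => abs_nonneg _)) hu

/-! ### inverses and square roots -/

lemma Sz.inv {u : 𝓕.I → Q → ℝ} {c : ℝ} (hc : 0 < c) (hw : ∀ i, ∀ x ∈ 𝓕.D i, 0 < w i x)
    (hlow : ∀ i, ∀ z ∈ 𝓕.dom i, c * w i z.1 ≤ u i z) :
    𝓕.Sz (fun i x => (w i x)⁻¹) (fun i z => (u i z)⁻¹) := by
  refine ⟨c⁻¹, inv_pos.2 hc, fun i z hz => ?_⟩
  have h1 := hlow i z hz
  have h2 := hw i z.1 hz
  have h3 : 0 < c * w i z.1 := mul_pos hc h2
  rw [Real.norm_eq_abs, abs_of_pos (inv_pos.2 (lt_of_lt_of_le h3 h1)), ← mul_inv]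
  exact inv_anti₀ h3 h1

lemma Bk.inv {k : ℕ} : ∀ {w : 𝓕.I → X2 → ℝ} {u : 𝓕.I → Q → ℝ} {c : ℝ}, 𝓕.Sm u →
    0 < c → (∀ i, ∀ x ∈ 𝓕.D i, 0 < w i x) →
    (∀ i, ∀ z ∈ 𝓕.dom i, c * w i z.1 ≤ u i z) →
    𝓕.Bk k w u → 𝓕.Bk k (fun i x => (w i x)⁻¹) (fun i z => (u i z)⁻¹) := by
  induction k with
  | zero => intro w u c _ hc hw hlow _; exact Sz.inv hc hw hlow
  | succ k ih =>
    intro w u c su hc hw hlow hu
    have hpos : ∀ i, ∀ z ∈ 𝓕.dom i, 0 < u i z := fun i z hz =>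
      lt_of_lt_of_le (mul_pos hc (hw i z.1 hz)) (hlow i z hz)
    refine ⟨Sz.inv hc hw hlow, fun j => ?_⟩
    have sinv : 𝓕.Sm (fun i z => (u i z)⁻¹) := fun i =>
      (su i).inv (fun z hz => (hpos i z hz).ne')
    have hinv := ih su hc hw hlow hu.of_succ
    have nw : Nn w := fun i x hx => (hw i x hx).le
    have nwi : Nn (fun i x => (w i x)⁻¹ : 𝓕.I → X2 → ℝ) := fun i x hx => (inv_pos.2 (hw i x hx)).le
    have nl : Nn (fun i x => 𝓕.Lam i * w i x : 𝓕.I → X2 → ℝ) := fun i x hx =>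
      mul_nonneg (Lam_pos i).le (nw i x hx)
    have sq := Bk.bilin (ContinuousLinearMap.mul ℝ ℝ) sinv sinv nwi nwi hinv hinv
    have s2 : 𝓕.Sm (fun i z => ContinuousLinearMap.mul ℝ ℝ (u i z)⁻¹ (u i z)⁻¹) := fun i => by
      simpa using (sinv i).mul (sinv i)
    have pr := Bk.bilin (ContinuousLinearMap.mul ℝ ℝ) (su.pd j) s2 nl
      (fun i x hx => mul_nonneg (nwi i x hx) (nwi i x hx)) (hu.2 j) sq
    have s3 : 𝓕.Sm (fun i z => ContinuousLinearMap.mul ℝ ℝ (Crest.Agent.R216.TE.pd j (u i) z)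
        (ContinuousLinearMap.mul ℝ ℝ (u i z)⁻¹ (u i z)⁻¹)) := fun i => by
      simpa using (su.pd j i).mul (s2 i)
    have pr' := pr.clm (-ContinuousLinearMap.id ℝ ℝ) s3
      (fun i x hx => mul_nonneg (nl i x hx) (mul_nonneg (nwi i x hx) (nwi i x hx)))
    refine (pr'.mono one_pos (fun i x hx => ?_)).congr (fun i z hz => ?_)
    · rw [one_mul]
      have := (hw i x hx).ne'
      apply le_of_eq
      field_simp
    · have d1 := diffAt (𝓕.isOpen_dom i) (su i) hz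
      show _ = fderiv ℝ (fun z => (u i z)⁻¹) z (bas j)
      have e : fderiv ℝ (fun z => (u i z)⁻¹) z = -(u i z ^ 2)⁻¹ • fderiv ℝ (u i) z :=
        ((hasDerivAt_inv (hpos i z hz).ne').comp_hasFDerivAt z d1.hasFDerivAt).fderiv
      rw [e]
      simp [Crest.Agent.R216.TE.pd]
      ring

lemma B.inv {u : 𝓕.I → Q → ℝ} {c : ℝ} (hc : 0 < c) (hw : ∀ i, ∀ x ∈ 𝓕.D i, 0 < w i x)
    (hlow : ∀ i, ∀ z ∈ 𝓕.dom i, c * w i z.1 ≤ u i z) (hu : 𝓕.B w u) :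
    𝓕.B (fun i x => (w i x)⁻¹) (fun i z => (u i z)⁻¹) :=
  ⟨fun i => (hu.smooth i).inv (fun z hz =>
      (lt_of_lt_of_le (mul_pos hc (hw i z.1 hz)) (hlow i z hz)).ne'),
    fun k => (hu.bound k).inv hu.smooth hc hw hlow⟩

lemma Sz.sqrt {u : 𝓕.I → Q → ℝ} (hw : ∀ i, ∀ x ∈ 𝓕.D i, 0 < w i x) (hu : 𝓕.Sz w u) :
    𝓕.Sz (fun i x => Real.sqrt (w i x)) (fun i z => Real.sqrt (u i z)) := by
  obtain ⟨C, hC, h⟩ := hu
  refine ⟨Real.sqrt C, Real.sqrt_pos.2 hC, fun i z hz => ?_⟩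
  rw [← Real.sqrt_mul hC.le, Real.norm_eq_abs, abs_of_nonneg (Real.sqrt_nonneg _)]
  exact Real.sqrt_le_sqrt ((le_abs_self _).trans (h i z hz))

lemma Bk.sqrt {k : ℕ} : ∀ {w : 𝓕.I → X2 → ℝ} {u : 𝓕.I → Q → ℝ} {c : ℝ}, 𝓕.Sm u →
    0 < c → (∀ i, ∀ x ∈ 𝓕.D i, 0 < w i x) →
    (∀ i, ∀ z ∈ 𝓕.dom i, c * w i z.1 ≤ u i z) →
    𝓕.Bk k w u → 𝓕.Bk k (fun i x => Real.sqrt (w i x)) (fun i z => Real.sqrt (u i z)) := by
  induction k with
  | zero => intro w u c _ hc hw hlow hu; exact Sz.sqrt hw hu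
  | succ k ih =>
    intro w u c su hc hw hlow hu
    have hpos : ∀ i, ∀ z ∈ 𝓕.dom i, 0 < u i z := fun i z hz =>
      lt_of_lt_of_le (mul_pos hc (hw i z.1 hz)) (hlow i z hz)
    refine ⟨Sz.sqrt hw hu.1, fun j => ?_⟩
    have ss : 𝓕.Sm (fun i z => Real.sqrt (u i z)) := fun i =>
      (su i).sqrt (fun z hz => (hpos i z hz).ne')
    have hs := ih su hc hw hlow hu.of_succ
    have hws : ∀ i, ∀ x ∈ 𝓕.D i, 0 < Real.sqrt (w i x) := fun i x hx => Real.sqrt_pos.2 (hw i x hx)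
    have hlow' : ∀ i, ∀ z ∈ 𝓕.dom i, Real.sqrt c * Real.sqrt (w i z.1) ≤ Real.sqrt (u i z) := by
      intro i z hz
      rw [← Real.sqrt_mul hc.le]
      exact Real.sqrt_le_sqrt (hlow i z hz)
    have hsi := Bk.inv ss (Real.sqrt_pos.2 hc) hws hlow' hs
    have ssi : 𝓕.Sm (fun i z => (Real.sqrt (u i z))⁻¹) := fun i =>
      (ss i).inv (fun z hz => (Real.sqrt_pos.2 (hpos i z hz)).ne')
    have nw : Nn w := fun i x hx => (hw i x hx).le
    have nl : Nn (fun i x => 𝓕.Lam i * w i x : 𝓕.I → X2 → ℝ) := fun i x hx =>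
      mul_nonneg (Lam_pos i).le (nw i x hx)
    have nsi : Nn (fun i x => (Real.sqrt (w i x))⁻¹ : 𝓕.I → X2 → ℝ) := fun i x hx =>
      (inv_pos.2 (hws i x hx)).le
    have pr := Bk.bilin (ContinuousLinearMap.mul ℝ ℝ) (su.pd j) ssi nl nsi (hu.2 j) hsi
    have s3 : 𝓕.Sm (fun i z => ContinuousLinearMap.mul ℝ ℝ (Crest.Agent.R216.TE.pd j (u i) z)
        (Real.sqrt (u i z))⁻¹) := fun i => by
      simpa using (su.pd j i).mul (ssi i)
    have pr' := pr.clm ((2⁻¹ : ℝ) • ContinuousLinearMap.id ℝ ℝ) s3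
      (fun i x hx => mul_nonneg (nl i x hx) (nsi i x hx))
    refine (pr'.mono one_pos (fun i x hx => ?_)).congr (fun i z hz => ?_)
    · rw [one_mul]
      have h1 := hw i x hx
      have h2 := (hws i x hx).ne'
      apply le_of_eq
      have : w i x = Real.sqrt (w i x) * Real.sqrt (w i x) := (Real.mul_self_sqrt h1.le).symm
      calc 𝓕.Lam i * w i x * (Real.sqrt (w i x))⁻¹
          = 𝓕.Lam i * (Real.sqrt (w i x) * Real.sqrt (w i x)) * (Real.sqrt (w i x))⁻¹ := by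
            rw [← this]
        _ = 𝓕.Lam i * Real.sqrt (w i x) := by field_simp
    · have d1 := diffAt (𝓕.isOpen_dom i) (su i) hz
      show _ = fderiv ℝ (fun z => Real.sqrt (u i z)) z (bas j)
      have h := (d1.hasFDerivAt.sqrt (hpos i z hz).ne').fderiv
      rw [h]
      simp [Crest.Agent.R216.TE.pd]
      ring

lemma B.sqrt {u : 𝓕.I → Q → ℝ} {c : ℝ} (hc : 0 < c) (hw : ∀ i, ∀ x ∈ 𝓕.D i, 0 < w i x)
    (hlow : ∀ i, ∀ z ∈ 𝓕.dom i, c * w i z.1 ≤ u i z) (hu : 𝓕.B w u) :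
    𝓕.B (fun i x => Real.sqrt (w i x)) (fun i z => Real.sqrt (u i z)) :=
  ⟨fun i => (hu.smooth i).sqrt (fun z hz =>
      (lt_of_lt_of_le (mul_pos hc (hw i z.1 hz)) (hlow i z hz)).ne'),
    fun k => (hu.bound k).sqrt hu.smooth hc hw hlow⟩

end Fam
end Crest.Agent.R216.TE
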