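import Crest.Agent.R216.MacDefs

/-!
# Row 216: class calculus, composition with fixed smooth maps, restriction, reindexing.
-/

open Set Topology
open scoped ContDiff

set_option linter.unusedSectionVars false

namespace Crest.Agent.R216.TE

universe u

namespace Fam
variable {𝓕 : Fam}

/-! ### composition -/
section comp
variable {Y : Type} [NormedAddCommGroup Y] [NormedSpace ℝ Y]

lemma Sm.comp {V : Type*} [NormedAddCommGroup V] [NormedSpace ℝ V] {S : Set Y} {G : Y → V}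
    (hG : ContDiffOn ℝ ∞ G S) {Φ : 𝓕.I → Q → Y} (hs : 𝓕.Sm Φ)
    (hmap : ∀ i, ∀ z ∈ 𝓕.dom i, Φ i z ∈ S) : 𝓕.Sm (fun i z => G (Φ i z)) :=
  fun i => hG.comp (hs i) (hmap i)

lemma Bk.comp {S : Set Y} (hS : IsOpen S) {S' : Set Y} (hS' : S' ⊆ S)
    {Φ : 𝓕.I → Q → Y} (hs : 𝓕.Sm Φ) (hmap : ∀ i, ∀ z ∈ 𝓕.dom i, Φ i z ∈ S')
    (hΦ : ∀ j, 𝓕.B (fun i _ => 𝓕.Lam i) (fun i => Crest.Agent.R216.TE.pd j (Φ i))) (k : ℕ) :
    ∀ {V : Type u} [NormedAddCommGroup V] [NormedSpace ℝ V] {G : Y → V},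
      ContDiffOn ℝ ∞ G S → (∀ k, ∃ C, ∀ y ∈ S', ‖iteratedFDeriv ℝ k G y‖ ≤ C) →
      𝓕.Bk k (fun _ _ => 1) (fun i z => G (Φ i z)) := by
  have hsz : ∀ {V : Type u} [NormedAddCommGroup V] [NormedSpace ℝ V] {G : Y → V},
      (∀ k, ∃ C, ∀ y ∈ S', ‖iteratedFDeriv ℝ k G y‖ ≤ C) →
      𝓕.Sz (fun _ _ => 1) (fun i z => G (Φ i z)) := by
    intro V _ _ G hb
    obtain ⟨C, hC⟩ := hb 0
    refine ⟨|C| + 1, by positivity, fun i z hz => ?_⟩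
    have := hC _ (hmap i z hz)
    rw [norm_iteratedFDeriv_zero] at this
    rw [mul_one]
    exact this.trans ((le_abs_self C).trans (by linarith))
  induction k with
  | zero => intro V _ _ G _ hb; exact hsz hb
  | succ k ih =>
    intro V _ _ G hG hb
    refine ⟨hsz hb, fun j => ?_⟩
    have hG' : ContDiffOn ℝ ∞ (fderiv ℝ G) S := hG.fderiv_of_isOpen hS (by simp)
    have hb' : ∀ k, ∃ C, ∀ y ∈ S', ‖iteratedFDeriv ℝ k (fderiv ℝ G) y‖ ≤ C := by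
      intro k
      obtain ⟨C, hC⟩ := hb (k + 1)
      exact ⟨C, fun y hy => by rw [norm_iteratedFDeriv_fderiv]; exact hC y hy⟩
    have h1 := ih hG' hb'
    have s1 : 𝓕.Sm (fun i z => fderiv ℝ G (Φ i z)) :=
      Sm.comp hG' hs (fun i z hz => hS' (hmap i z hz))
    have h2 := Bk.bilin (ContinuousLinearMap.id ℝ (Y →L[ℝ] V)) s1 (hΦ j).smooth
      (fun i x _ => zero_le_one) (fun i x _ => (Lam_pos i).le) h1 ((hΦ j).bound k)
    refine (h2.mono one_pos (w' := fun i _ => 𝓕.Lam i * 1)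
      (fun i x _ => by simp)).congr (fun i z hz => ?_)
    have d1 := diffAt (𝓕.isOpen_dom i) (hs i) hz
    have hmem := hS' (hmap i z hz)
    have d2 : HasFDerivAt G (fderiv ℝ G (Φ i z)) (Φ i z) :=
      ((hG.contDiffAt (hS.mem_nhds hmem)).differentiableAt (by simp)).hasFDerivAt
    show _ = fderiv ℝ (fun z => G (Φ i z)) z (bas j)
    have := (d2.comp z d1.hasFDerivAt).fderiv
    have e : fderiv ℝ (fun z => G (Φ i z)) z = _ := this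
    rw [e]
    rfl

/-- composition with a fixed smooth map all of whose derivatives are bounded on `S'` -/
lemma B.comp {V : Type u} [NormedAddCommGroup V] [NormedSpace ℝ V] {G : Y → V} {O' S' : Set Y}
    (hO : IsOpen O') (hS : S' ⊆ O') (hG : ContDiffOn ℝ ∞ G O')
    (hb : ∀ k : ℕ, ∃ C : ℝ, ∀ y ∈ S', ‖iteratedFDeriv ℝ k G y‖ ≤ C)
    {Φ : 𝓕.I → Q → Y} (hΦ : 𝓕.Sm Φ)
    (hd : ∀ j, 𝓕.B (fun i _ => 𝓕.Lam i) (fun i => Crest.Agent.R216.TE.pd j (Φ i)))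
    (hr : ∀ i, ∀ z ∈ 𝓕.dom i, Φ i z ∈ S') :
    𝓕.B (fun _ _ => 1) (fun i z => G (Φ i z)) :=
  ⟨Sm.comp hG hΦ (fun i z hz => hS (hr i z hz)), fun k => Bk.comp hO hS hΦ hr hd k hG hb⟩

/-- all derivatives of a smooth function are bounded on compact sets -/
lemma bdd_of_compact {V : Type*} [NormedAddCommGroup V] [NormedSpace ℝ V] {S : Set Y}
    (hS : IsOpen S) {G : Y → V} (hG : ContDiffOn ℝ ∞ G S) {K : Set Y} (hK : IsCompact K)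
    (hKS : K ⊆ S) (k : ℕ) : ∃ C, ∀ y ∈ K, ‖iteratedFDeriv ℝ k G y‖ ≤ C := by
  have h1 : ContinuousOn (iteratedFDeriv ℝ k G) S :=
    (hG.continuousOn_iteratedFDerivWithin (m := k) (by exact_mod_cast le_top)
      hS.uniqueDiffOn).congr (fun y hy => (iteratedFDerivWithin_of_isOpen k hS hy).symm)
  exact hK.exists_bound_of_continuousOn (h1.mono hKS)

/-- composition, values in a compact set -/
lemma B.comp_compact {V : Type u} [NormedAddCommGroup V] [NormedSpace ℝ V] {S : Set Y}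
    (hS : IsOpen S) {G : Y → V} (hG : ContDiffOn ℝ ∞ G S) {K : Set Y} (hK : IsCompact K)
    (hKS : K ⊆ S) {Φ : 𝓕.I → Q → Y} (hs : 𝓕.Sm Φ) (hmap : ∀ i, ∀ z ∈ 𝓕.dom i, Φ i z ∈ K)
    (hΦ : ∀ j, 𝓕.B (fun i _ => 𝓕.Lam i) (fun i => Crest.Agent.R216.TE.pd j (Φ i))) :
    𝓕.B (fun _ _ => 1) (fun i z => G (Φ i z)) :=
  B.comp hS hKS hG (bdd_of_compact hS hG hK hKS) hs hΦ hmap

/-- composition with a map of class `B 1` -/
lemma B.comp_B {V : Type u} [NormedAddCommGroup V] [NormedSpace ℝ V] {S : Set Y} (hS : IsOpen S)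
    {G : Y → V} (hG : ContDiffOn ℝ ∞ G S) {S' : Set Y} (hS' : S' ⊆ S)
    (hb : ∀ k, ∃ C, ∀ y ∈ S', ‖iteratedFDeriv ℝ k G y‖ ≤ C)
    {Φ : 𝓕.I → Q → Y} (hΦ : 𝓕.B (fun _ _ => 1) Φ) (hmap : ∀ i, ∀ z ∈ 𝓕.dom i, Φ i z ∈ S') :
    𝓕.B (fun _ _ => 1) (fun i z => G (Φ i z)) :=
  B.comp hS hS' hG hb hΦ.smooth
    (fun j => (hΦ.pd j).mono one_pos (fun i x _ => by simp)) hmap

lemma B.comp_compact_B {V : Type u} [NormedAddCommGroup V] [NormedSpace ℝ V] {S : Set Y}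
    (hS : IsOpen S) {G : Y → V} (hG : ContDiffOn ℝ ∞ G S) {K : Set Y} (hK : IsCompact K)
    (hKS : K ⊆ S) {Φ : 𝓕.I → Q → Y} (hΦ : 𝓕.B (fun _ _ => 1) Φ)
    (hmap : ∀ i, ∀ z ∈ 𝓕.dom i, Φ i z ∈ K) :
    𝓕.B (fun _ _ => 1) (fun i z => G (Φ i z)) :=
  B.comp_B hS hG hKS (bdd_of_compact hS hG hK hKS) hΦ hmap

end comp

/-! ### basic maps with bounded derivatives -/
section basic

/-- the derivatives of a continuous linear map composed with `z ↦ z` -/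
lemma pd_clm {V : Type*} [NormedAddCommGroup V] [NormedSpace ℝ V] (L : Q →L[ℝ] V) (j : Fin 3) :
    pd j (fun z => L z) = fun _ => L (bas j) := by
  funext z
  show fderiv ℝ (fun z => L z) z (bas j) = _
  rw [ContinuousLinearMap.fderiv]

/-- the derivative of a continuous linear map is in `B Λ` -/
lemma B_pd_clm {V : Type*} [NormedAddCommGroup V] [NormedSpace ℝ V] (L : Q →L[ℝ] V) (j : Fin 3) :
    𝓕.B (fun i _ => 𝓕.Lam i) (fun _ => pd j (fun z => L z)) := by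
  simp only [pd_clm]
  refine B.const (fun _ => L (bas j)) ⟨‖L (bas j)‖ + 1, by positivity, fun i x _ => ?_⟩
    (fun i x _ => (Lam_pos i).le)
  have h1 := 𝓕.one_le i
  have h2 : 0 ≤ ‖L (bas j)‖ := norm_nonneg _
  nlinarith

/-- a fixed function of `x`, smooth near a compact set containing all `D i` -/
lemma B_lift_fixed {V : Type u} [NormedAddCommGroup V] [NormedSpace ℝ V] {S : Set X2}
    (hS : IsOpen S) {v : X2 → V} (hv : ContDiffOn ℝ ∞ v S) {K : Set X2} (hK : IsCompact K)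
    (hKS : K ⊆ S) (hD : ∀ i, 𝓕.D i ⊆ K) :
    𝓕.B (fun _ _ => 1) (fun _ z => v z.1) :=
  B.comp_compact hS hv hK hKS (Φ := fun _ z => z.1) (fun i => contDiffOn_fst)
    (fun i z hz => hD i hz)
    (fun j => B_pd_clm (ContinuousLinearMap.fst ℝ X2 ℝ) j)

/-- a fixed function of `(x,t)`, with all derivatives bounded over `S'` -/
lemma B_fixed {V : Type u} [NormedAddCommGroup V] [NormedSpace ℝ V] {S : Set Q}
    (hS : IsOpen S) {v : Q → V} (hv : ContDiffOn ℝ ∞ v S) {S' : Set Q}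
    (hS' : S' ⊆ S) (hb : ∀ k, ∃ C, ∀ y ∈ S', ‖iteratedFDeriv ℝ k v y‖ ≤ C)
    (hD : ∀ i, ∀ z ∈ 𝓕.dom i, z ∈ S') :
    𝓕.B (fun _ _ => 1) (fun _ z => v z) :=
  B.comp hS hS' hv hb (Φ := fun _ z => z) (fun _ => contDiffOn_id)
    (fun j => B_pd_clm (ContinuousLinearMap.id ℝ Q) j) hD

/-- like `B.lift_fixed`, for functions smooth near a compact set only -/
lemma B.lift_fixedOn {V : Type*} [NormedAddCommGroup V] [NormedSpace ℝ V] {S O1 : Set X2}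
    (hS : IsCompact S) (hO : IsOpen O1) (hSO : S ⊆ O1) (hD : ∀ i, 𝓕.D i ⊆ S) {h : X2 → V}
    (hh : ContDiffOn ℝ ∞ h O1) :
    𝓕.B (fun _ _ => 1) (fun _ => lift h) ∧
    ∀ j, 𝓕.B (fun _ _ => 1) (fun _ => Crest.Agent.R216.TE.pd j (lift h)) := by
  refine ⟨B_lift_fixed hO hh hS hSO hD, fun j => ?_⟩
  have h1 : ContDiffOn ℝ ∞ (fun x => fderiv ℝ h x (bas j).1) O1 :=
    (hh.fderiv_of_isOpen hO (by simp)).clm_apply contDiffOn_const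
  refine (B_lift_fixed (𝓕 := 𝓕) hO h1 hS hSO hD).congr (fun i z hz => ?_)
  have hz1 : z.1 ∈ O1 := hSO (hD i hz)
  have h2 : HasFDerivAt h (fderiv ℝ h z.1) z.1 :=
    ((hh.contDiffAt (hO.mem_nhds hz1)).differentiableAt (by simp)).hasFDerivAt
  have h3 := h2.comp z (hasFDerivAt_fst (𝕜 := ℝ) (p := z))
  have h4 : fderiv ℝ (lift h) z = _ := h3.fderiv
  show _ = fderiv ℝ (lift h) z (bas j)
  rw [h4]
  rfl

end basic

/-! ### restriction -/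
section sub

/-- restriction to open sets (same parameters, same cost) -/
def sub (𝓕 : Fam) (D' : 𝓕.I → Set X2) (hD' : ∀ i, IsOpen (D' i)) : Fam where
  I := 𝓕.I
  D := D'
  isOpen := hD'
  Lam := 𝓕.Lam
  one_le := 𝓕.one_le

variable {V : Type*} [NormedAddCommGroup V] [NormedSpace ℝ V]

lemma Sz.sub {w : 𝓕.I → X2 → ℝ} {u : 𝓕.I → Q → V} {D' : 𝓕.I → Set X2}
    (hD' : ∀ i, IsOpen (D' i)) (h : 𝓕.Sz w u) (hs : ∀ i, D' i ⊆ 𝓕.D i) :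
    (𝓕.sub D' hD').Sz w u := by
  obtain ⟨C, hC, h⟩ := h
  exact ⟨C, hC, fun i z hz => h i z (hs i hz)⟩

lemma Bk.sub {k : ℕ} : ∀ {w : 𝓕.I → X2 → ℝ} {u : 𝓕.I → Q → V} {D' : 𝓕.I → Set X2}
    (hD' : ∀ i, IsOpen (D' i)), 𝓕.Bk k w u → (∀ i, D' i ⊆ 𝓕.D i) →
    (𝓕.sub D' hD').Bk k w u := by
  induction k with
  | zero => intro w u D' hD' h hs; exact Sz.sub hD' h hs
  | succ k ih => intro w u D' hD' h hs; exact ⟨Sz.sub hD' h.1 hs, fun j => ih hD' (h.2 j) hs⟩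

lemma B.sub_of {w : 𝓕.I → X2 → ℝ} {u : 𝓕.I → Q → V} {D' : 𝓕.I → Set X2}
    (hD' : ∀ i, IsOpen (D' i)) (h : 𝓕.B w u) (hs : ∀ i, D' i ⊆ 𝓕.D i) :
    (𝓕.sub D' hD').B w u :=
  ⟨fun i => (h.smooth i).mono (fun _ hz => hs i hz), fun k => (h.bound k).sub hD' hs⟩

/-- a finite cover -/
lemma Sz.of_coverN {n : ℕ} {w : 𝓕.I → X2 → ℝ} {u : 𝓕.I → Q → V} {D' : Fin n → 𝓕.I → Set X2}
    (hD' : ∀ m i, IsOpen (D' m i)) (hw : Nn w) (hc : ∀ i, 𝓕.D i ⊆ ⋃ m, D' m i)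
    (h : ∀ m, (𝓕.sub (D' m) (hD' m)).Sz w u) : 𝓕.Sz w u := by
  choose C hC h using h
  refine ⟨1 + ∑ m, C m, ?_, fun i z hz => ?_⟩
  · have : 0 ≤ ∑ m, C m := Finset.sum_nonneg (fun m _ => (hC m).le)
    linarith
  · obtain ⟨m, hm⟩ := mem_iUnion.1 (hc i hz)
    have h1 := h m i z hm
    have h2 : C m ≤ 1 + ∑ m, C m := by
      have : C m ≤ ∑ m, C m := Finset.single_le_sum (fun m _ => (hC m).le) (Finset.mem_univ m)
      linarith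
    exact h1.trans (mul_le_mul_of_nonneg_right h2 (hw i z.1 hz))

lemma Bk.of_coverN {n : ℕ} {k : ℕ} : ∀ {w : 𝓕.I → X2 → ℝ} {u : 𝓕.I → Q → V}
    {D' : Fin n → 𝓕.I → Set X2} (hD' : ∀ m i, IsOpen (D' m i)), Nn w →
    (∀ i, 𝓕.D i ⊆ ⋃ m, D' m i) →
    (∀ m, (𝓕.sub (D' m) (hD' m)).Bk k w u) → 𝓕.Bk k w u := by
  induction k with
  | zero => intro w u D' hD' hw hc h; exact Sz.of_coverN hD' hw hc h
  | succ k ih =>
    intro w u D' hD' hw hc h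
    exact ⟨Sz.of_coverN hD' hw hc (fun m => (h m).1),
      fun j => ih hD' (fun i x hx => mul_nonneg (Lam_pos i).le (hw i x hx)) hc
        (fun m => (h m).2 j)⟩

lemma B.of_coverN {n : ℕ} {w : 𝓕.I → X2 → ℝ} {u : 𝓕.I → Q → V}
    {D' : Fin n → 𝓕.I → Set X2} (hD' : ∀ m i, IsOpen (D' m i)) (hw : Nn w)
    (hc : ∀ i, 𝓕.D i ⊆ ⋃ m, D' m i)
    (h : ∀ m, (𝓕.sub (D' m) (hD' m)).B w u) : 𝓕.B w u := by
  refine ⟨fun i z hz => ?_, fun k => Bk.of_coverN hD' hw hc (fun m => (h m).bound k)⟩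
  obtain ⟨m, hm⟩ := mem_iUnion.1 (hc i hz)
  have h1 := (h m).smooth i
  have h2 : ContDiffAt ℝ ∞ (u i) z :=
    h1.contDiffAt (((𝓕.sub (D' m) (hD' m)).isOpen_dom i).mem_nhds hm)
  exact h2.contDiffWithinAt

/-- finite cover, two pieces -/
lemma B.of_cover_two {w : 𝓕.I → X2 → ℝ} {u : 𝓕.I → Q → V}
    {D1 D2 : 𝓕.I → Set X2} (h1 : ∀ i, IsOpen (D1 i)) (h2 : ∀ i, IsOpen (D2 i)) (hw : Nn w)
    (hc : ∀ i, 𝓕.D i ⊆ D1 i ∪ D2 i)
    (hu1 : (𝓕.sub D1 h1).B w u) (hu2 : (𝓕.sub D2 h2).B w u) : 𝓕.B w u := by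
  refine B.of_coverN (n := 2) (D' := ![D1, D2])
    (Fin.forall_fin_two.2 ⟨h1, h2⟩) hw (fun i x hx => ?_) (Fin.forall_fin_two.2 ⟨hu1, hu2⟩)
  rcases hc i hx with h | h
  · exact mem_iUnion.2 ⟨0, h⟩
  · exact mem_iUnion.2 ⟨1, h⟩

/-- restriction -/
lemma B.restrict {w : 𝓕.I → X2 → ℝ}
    {v : 𝓕.I → Q → V} (h : 𝓕.B w v) (U : 𝓕.I → Set X2) (hU : ∀ i, IsOpen (U i)) :
    (𝓕.restrict U hU).B w v :=
  B.sub_of (D' := fun i => 𝓕.D i ∩ U i) (fun i => (𝓕.isOpen i).inter (hU i)) h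
    (fun _ => inter_subset_left)

lemma B.of_cover {w : 𝓕.I → X2 → ℝ}
    {v : 𝓕.I → Q → V} (hw : Nn w) {U1 U2 : 𝓕.I → Set X2} (hU1 : ∀ i, IsOpen (U1 i))
    (hU2 : ∀ i, IsOpen (U2 i)) (hcov : ∀ i, 𝓕.D i ⊆ U1 i ∪ U2 i)
    (h1 : (𝓕.restrict U1 hU1).B w v) (h2 : (𝓕.restrict U2 hU2).B w v) : 𝓕.B w v :=
  B.of_cover_two (D1 := fun i => 𝓕.D i ∩ U1 i) (D2 := fun i => 𝓕.D i ∩ U2 i)
    (fun i => (𝓕.isOpen i).inter (hU1 i)) (fun i => (𝓕.isOpen i).inter (hU2 i)) hw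
    (fun i x hx => (hcov i hx).elim (fun h => Or.inl ⟨hx, h⟩) (fun h => Or.inr ⟨hx, h⟩)) h1 h2

end sub

/-! ### reindexing -/
section reindex

/-- reindexing of the parameters -/
def reindex (𝓕 : Fam) {J : Type} (φ : J → 𝓕.I) : Fam where
  I := J
  D := fun j => 𝓕.D (φ j)
  isOpen := fun j => 𝓕.isOpen _
  Lam := fun j => 𝓕.Lam (φ j)
  one_le := fun j => 𝓕.one_le _

variable {V : Type*} [NormedAddCommGroup V] [NormedSpace ℝ V]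

lemma Sz.reindex {J : Type} (φ : J → 𝓕.I) {w : 𝓕.I → X2 → ℝ} {u : 𝓕.I → Q → V}
    (h : 𝓕.Sz w u) : (𝓕.reindex φ).Sz (fun j => w (φ j)) (fun j => u (φ j)) := by
  obtain ⟨C, hC, h⟩ := h
  exact ⟨C, hC, fun i z hz => h _ z hz⟩

lemma Bk.reindex {J : Type} (φ : J → 𝓕.I) {k : ℕ} : ∀ {w : 𝓕.I → X2 → ℝ}
    {u : 𝓕.I → Q → V}, 𝓕.Bk k w u →
    (𝓕.reindex φ).Bk k (fun j => w (φ j)) (fun j => u (φ j)) := by
  induction k with
  | zero => intro w u h; exact Sz.reindex φ h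
  | succ k ih => intro w u h; exact ⟨Sz.reindex φ h.1, fun j => ih (h.2 j)⟩

lemma B.reindex {J : Type} (φ : J → 𝓕.I) {w : 𝓕.I → X2 → ℝ} {u : 𝓕.I → Q → V}
    (h : 𝓕.B w u) : (𝓕.reindex φ).B (fun j => w (φ j)) (fun j => u (φ j)) :=
  ⟨fun i => h.smooth _, fun k => (h.bound k).reindex φ⟩

end reindex

/-! ### change of the cost -/
section cost

/-- the same family with a larger cost -/
def withLam (𝓕 : Fam) (L : 𝓕.I → ℝ) (hL : ∀ i, 1 ≤ L i) : Fam where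
  I := 𝓕.I
  D := 𝓕.D
  isOpen := 𝓕.isOpen
  Lam := L
  one_le := hL

variable {V : Type*} [NormedAddCommGroup V] [NormedSpace ℝ V]

lemma Bk.withLam {L : 𝓕.I → ℝ} (hL : ∀ i, 1 ≤ L i) {C : ℝ} (hC : 0 < C)
    (hle : ∀ i, 𝓕.Lam i ≤ C * L i) {k : ℕ} : ∀ {w w' : 𝓕.I → X2 → ℝ}
    {u : 𝓕.I → Q → V} {C' : ℝ}, 0 < C' → (∀ i, ∀ x ∈ 𝓕.D i, 0 ≤ w i x) →
    (∀ i, ∀ x ∈ 𝓕.D i, w i x ≤ C' * w' i x) → 𝓕.Bk k w u →
    (𝓕.withLam L hL).Bk k w' u := by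
  induction k with
  | zero => intro w w' u C' hC' hw hww h; exact Sz.mono h hC' hww
  | succ k ih =>
    intro w w' u C' hC' hw hww h
    refine ⟨Sz.mono h.1 hC' hww, fun j => ih (C' := C * C') (by positivity)
      (fun i x hx => mul_nonneg (Lam_pos i).le (hw i x hx)) (fun i x hx => ?_) (h.2 j)⟩
    have h1 := hle i
    have h2 := hww i x hx
    have h3 := hw i x hx
    have h4 := Lam_pos (𝓕 := 𝓕) i
    calc 𝓕.Lam i * w i x ≤ (C * L i) * (C' * w' i x) :=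
          mul_le_mul h1 h2 h3 (h4.le.trans h1)
      _ = C * C' * (L i * w' i x) := by ring

lemma B.withLam {L : 𝓕.I → ℝ} (hL : ∀ i, 1 ≤ L i) {C : ℝ} (hC : 0 < C)
    (hle : ∀ i, 𝓕.Lam i ≤ C * L i) {w : 𝓕.I → X2 → ℝ} {u : 𝓕.I → Q → V} (hw : Nn w)
    (h : 𝓕.B w u) : (𝓕.withLam L hL).B w u :=
  ⟨h.smooth, fun k => (h.bound k).withLam hL hC hle one_pos hw (fun i x _ => by simp)⟩

end cost

end Fam

end Crest.Agent.R216.TE
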