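import Crest.Agent.R216.EngDefs

/-!
# Row 216: primitive in `x2` (section ClsInt2 of the interface of Theorem E).
-/

open Set Topology MeasureTheory Filter
open scoped ContDiff

namespace Crest.Agent.R216.TE

namespace Int2

variable {D : Set X2}

/-- star-shaped in the second variable -/
def Star (D : Set X2) : Prop := ∀ x ∈ D, ∀ l ∈ Icc (0:ℝ) 1, (x.1, l * x.2) ∈ D

lemma Star.seg (h : Star D) {a b s : ℝ} (hx : (a, b) ∈ D) (hs : s ∈ uIcc 0 b) : (a, s) ∈ D := by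
  rw [← segment_eq_uIcc, segment_eq_image] at hs
  obtain ⟨l, hl, rfl⟩ := hs
  have := h _ hx l hl
  simpa using this

lemma continuousOn_sec {g : X2 → ℝ} (hg : ContinuousOn g D) (a : ℝ) :
    ContinuousOn (fun s => g (a, s)) {s | (a, s) ∈ D} :=
  hg.comp (by fun_prop) (fun _ hs => hs)

lemma isOpen_sec (hD : IsOpen D) (a : ℝ) : IsOpen {s : ℝ | (a, s) ∈ D} :=
  hD.preimage (by fun_prop)

lemma intervalIntegrable_sec (h : Star D) {g : X2 → ℝ} (hg : ContinuousOn g D) {a b : ℝ}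
    (hx : (a, b) ∈ D) : IntervalIntegrable (fun s => g (a, s)) volume 0 b :=
  ((continuousOn_sec hg a).mono (fun _ hs => h.seg hx hs)).intervalIntegrable

lemma hasDerivAt_snd (hD : IsOpen D) (h : Star D) {g : X2 → ℝ} (hg : ContinuousOn g D) {a b : ℝ}
    (hx : (a, b) ∈ D) : HasDerivAt (fun b' => int2 g (a, b')) (g (a, b)) b := by
  refine intervalIntegral.integral_hasDerivAt_right (intervalIntegrable_sec h hg hx) ?_
    ((continuousOn_sec hg a).continuousAt ((isOpen_sec hD a).mem_nhds hx))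
  exact (continuousOn_sec hg a).stronglyMeasurableAtFilter (isOpen_sec hD a) _ hx

lemma d1_contDiffOn (hD : IsOpen D) {v : X2 → ℝ} (hv : ContDiffOn ℝ ∞ v D) :
    ContDiffOn ℝ ∞ (d1 v) D := by
  have h1 : ContDiffOn ℝ ∞ (fderiv ℝ v) D := hv.fderiv_of_isOpen hD (by simp)
  exact h1.clm_apply contDiffOn_const

lemma diffAt2 (hD : IsOpen D) {v : X2 → ℝ} (hv : ContDiffOn ℝ ∞ v D) {x : X2} (hx : x ∈ D) :
    DifferentiableAt ℝ v x :=
  (hv.contDiffAt (hD.mem_nhds hx)).differentiableAt (by simp)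

lemma hasDerivAt_fst_sec (hD : IsOpen D) {v : X2 → ℝ} (hv : ContDiffOn ℝ ∞ v D) {a b : ℝ}
    (hx : (a, b) ∈ D) : HasDerivAt (fun a' => v (a', b)) (d1 v (a, b)) a := by
  have h1 := (diffAt2 hD hv hx).hasFDerivAt
  have h2 : HasDerivAt (fun a' : ℝ => ((a', b) : X2)) ((1, 0) : X2) a :=
    (hasDerivAt_id a).prodMk (hasDerivAt_const a b)
  exact h1.comp_hasDerivAt a h2

lemma hasDerivAt_fst (hD : IsOpen D) (h : Star D) {v : X2 → ℝ} (hv : ContDiffOn ℝ ∞ v D)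
    {a b : ℝ} (hx : (a, b) ∈ D) :
    HasDerivAt (fun a' => int2 v (a', b)) (int2 (d1 v) (a, b)) a := by
  obtain ⟨r, hr, hball⟩ := Metric.nhds_basis_closedBall.mem_iff.1 (hD.mem_nhds hx)
  have hab : ∀ a' ∈ Metric.closedBall a r, (a', b) ∈ D := fun a' ha' => by
    apply hball
    rw [Metric.mem_closedBall, Prod.dist_eq]
    simp only [dist_self]
    exact max_le ha' hr.le
  have hsub : Metric.closedBall a r ×ˢ uIcc 0 b ⊆ D := by
    rintro ⟨a', s⟩ ⟨ha', hs⟩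
    exact h.seg (hab a' ha') hs
  have hd1 : ContinuousOn (d1 v) D := (d1_contDiffOn hD hv).continuousOn
  obtain ⟨C, hC⟩ := ((isCompact_closedBall a r).prod isCompact_uIcc).exists_bound_of_continuousOn
    (hd1.mono hsub)
  have key := intervalIntegral.hasDerivAt_integral_of_dominated_loc_of_deriv_le
    (F := fun a' s => v (a', s)) (F' := fun a' s => d1 v (a', s)) (μ := volume)
    (a := 0) (b := b) (x₀ := a) (bound := fun _ => C) (s := Metric.ball a r)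
    (Metric.ball_mem_nhds a hr) ?_ ?_ ?_ ?_ ?_ ?_
  · exact key.2
  · filter_upwards [Metric.ball_mem_nhds a hr] with a' ha'
    exact (intervalIntegrable_iff.1 (intervalIntegrable_sec h hv.continuousOn
      (hab a' (Metric.ball_subset_closedBall ha')))).aestronglyMeasurable
  · exact intervalIntegrable_sec h hv.continuousOn hx
  · exact (intervalIntegrable_iff.1 (intervalIntegrable_sec h hd1 hx)).aestronglyMeasurable
  · refine Eventually.of_forall (fun s hs a' ha' => hC (a', s) ⟨Metric.ball_subset_closedBall ha', ?_⟩)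
    exact uIoc_subset_uIcc hs
  · exact intervalIntegrable_const
  · refine Eventually.of_forall (fun s hs a' ha' => hasDerivAt_fst_sec hD hv ?_)
    exact hsub ⟨Metric.ball_subset_closedBall ha', uIoc_subset_uIcc hs⟩

lemma continuousOn_int2 (hD : IsOpen D) (h : Star D) {g : X2 → ℝ} (hg : ContinuousOn g D) :
    ContinuousOn (int2 g) D := by
  have e : ∀ x : X2, int2 g x = x.2 * ∫ l in (0:ℝ)..1, g (x.1, l * x.2) := fun x => by
    have := intervalIntegral.mul_integral_comp_mul_right (f := fun s => g (x.1, s)) (c := x.2)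
      (a := 0) (b := 1)
    rw [this]
    simp [int2]
  have e' : int2 g = fun x => x.2 * ∫ l in (0:ℝ)..1, g (x.1, l * x.2) := funext e
  rw [e']
  refine continuousOn_snd.mul ?_
  intro x hx
  apply ContinuousAt.continuousWithinAt
  obtain ⟨r, hr, hball⟩ := Metric.nhds_basis_closedBall.mem_iff.1 (hD.mem_nhds hx)
  set φ : X2 × ℝ → X2 := fun p => (p.1.1, p.2 * p.1.2) with hφ
  have hφc : Continuous φ := by fun_prop
  have hK : IsCompact (φ '' (Metric.closedBall x r ×ˢ Icc (0:ℝ) 1)) :=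
    ((isCompact_closedBall x r).prod isCompact_Icc).image hφc
  have hKD : φ '' (Metric.closedBall x r ×ˢ Icc (0:ℝ) 1) ⊆ D := by
    rintro _ ⟨⟨y, l⟩, ⟨hy, hl⟩, rfl⟩
    exact h y (hball hy) l hl
  obtain ⟨C, hC⟩ := hK.exists_bound_of_continuousOn (hg.mono hKD)
  have hcl : ∀ y ∈ D, ContinuousOn (fun l : ℝ => g (y.1, l * y.2)) (Icc 0 1) := fun y hy =>
    hg.comp (by fun_prop) (fun l hl => h y hy l hl)
  refine intervalIntegral.continuousAt_of_dominated_interval (bound := fun _ => C) ?_ ?_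
    intervalIntegrable_const ?_
  · filter_upwards [hD.mem_nhds hx] with y hy
    have : IntervalIntegrable (fun l : ℝ => g (y.1, l * y.2)) volume 0 1 := by
      apply ContinuousOn.intervalIntegrable
      rw [uIcc_of_le zero_le_one]
      exact hcl y hy
    exact (intervalIntegrable_iff.1 this).aestronglyMeasurable
  · filter_upwards [Metric.closedBall_mem_nhds x hr] with y hy
    refine Eventually.of_forall (fun l hl => hC _ ⟨(y, l), ⟨hy, ?_⟩, rfl⟩)
    rw [uIoc_of_le zero_le_one] at hl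
    exact Ioc_subset_Icc_self hl
  · refine Eventually.of_forall (fun l hl => ?_)
    rw [uIoc_of_le zero_le_one] at hl
    have h1 : ContinuousAt g (x.1, l * x.2) :=
      hg.continuousAt (hD.mem_nhds (h x hx l (Ioc_subset_Icc_self hl)))
    exact ContinuousAt.comp (f := fun y : X2 => ((y.1, l * y.2) : X2)) h1 (by fun_prop)

/-- the differential of `int2 v` -/
noncomputable def dInt (v : X2 → ℝ) (x : X2) : X2 →L[ℝ] ℝ :=
  ((1 : ℝ →L[ℝ] ℝ).smulRight (int2 (d1 v) x)).coprod ((1 : ℝ →L[ℝ] ℝ).smulRight (v x))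

lemma hasFDerivAt_int2 (hD : IsOpen D) (h : Star D) {v : X2 → ℝ} (hv : ContDiffOn ℝ ∞ v D)
    {x : X2} (hx : x ∈ D) : HasFDerivAt (int2 v) (dInt v x) x := by
  have key := hasStrictFDerivAt_uncurry_coprod (𝕜 := ℝ) (u := x)
    (f := fun a b => int2 v (a, b))
    (f₁ := fun a b => (1 : ℝ →L[ℝ] ℝ).smulRight (int2 (d1 v) (a, b)))
    (f₂ := fun a b => (1 : ℝ →L[ℝ] ℝ).smulRight (v (a, b))) ?_ ?_ ?_ ?_
  · exact key.hasFDerivAt
  · filter_upwards [hD.mem_nhds hx] with y hy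
    exact (hasDerivAt_fst hD h hv (a := y.1) (b := y.2) hy).hasFDerivAt
  · filter_upwards [hD.mem_nhds hx] with y hy
    exact (hasDerivAt_snd hD h hv.continuousOn (a := y.1) (b := y.2) hy).hasFDerivAt
  · have h1 : ContinuousAt (int2 (d1 v)) x :=
      (continuousOn_int2 hD h (d1_contDiffOn hD hv).continuousOn).continuousAt (hD.mem_nhds hx)
    exact ((ContinuousLinearMap.smulRightL ℝ ℝ ℝ (1 : ℝ →L[ℝ] ℝ)).continuous.continuousAt).comp h1
  · have h1 : ContinuousAt v x := hv.continuousOn.continuousAt (hD.mem_nhds hx)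
    exact ((ContinuousLinearMap.smulRightL ℝ ℝ ℝ (1 : ℝ →L[ℝ] ℝ)).continuous.continuousAt).comp h1

lemma contDiffOn_int2_nat (hD : IsOpen D) (h : Star D) (n : ℕ) : ∀ {v : X2 → ℝ},
    ContDiffOn ℝ ∞ v D → ContDiffOn ℝ n (int2 v) D := by
  induction n with
  | zero =>
    intro v hv
    exact contDiffOn_zero.2 (continuousOn_int2 hD h hv.continuousOn)
  | succ n ih =>
    intro v hv
    have hcast : ((n + 1 : ℕ) : WithTop ℕ∞) = (n : WithTop ℕ∞) + 1 := by simp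
    rw [hcast, contDiffOn_succ_iff_fderiv_of_isOpen hD]
    refine ⟨fun x hx => (hasFDerivAt_int2 hD h hv hx).differentiableAt.differentiableWithinAt,
      by simp, ?_⟩
    have h1 : ContDiffOn ℝ n (int2 (d1 v)) D := ih (d1_contDiffOn hD hv)
    have h2 : ContDiffOn ℝ n v D := hv.of_le (by exact_mod_cast le_top)
    have h3 : ContDiffOn ℝ n (fun x => int2 (d1 v) x • ContinuousLinearMap.fst ℝ ℝ ℝ
        + v x • ContinuousLinearMap.snd ℝ ℝ ℝ) D :=
      (h1.smul contDiffOn_const).add (h2.smul contDiffOn_const)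
    refine h3.congr (fun x hx => ?_)
    rw [(hasFDerivAt_int2 hD h hv hx).fderiv]
    ext <;> simp [dInt]

lemma contDiffOn_int2 (hD : IsOpen D) (h : Star D) {v : X2 → ℝ} (hv : ContDiffOn ℝ ∞ v D) :
    ContDiffOn ℝ ∞ (int2 v) D :=
  contDiffOn_infty.2 (fun n => contDiffOn_int2_nat hD h n hv)

/-- smoothness of `v` from smoothness of the lift -/
lemma contDiffOn_of_lift {V : Type*} [NormedAddCommGroup V] [NormedSpace ℝ V] {v : X2 → V}
    (hv : ContDiffOn ℝ ∞ (lift v) {z : Q | z.1 ∈ D}) : ContDiffOn ℝ ∞ v D := by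
  have h1 : ContDiffOn ℝ ∞ (fun x : X2 => ((x, 0) : Q)) D := by fun_prop
  exact hv.comp h1 (fun _ hx => hx)

lemma contDiffOn_lift {V : Type*} [NormedAddCommGroup V] [NormedSpace ℝ V] {v : X2 → V}
    (hv : ContDiffOn ℝ ∞ v D) : ContDiffOn ℝ ∞ (lift v) {z : Q | z.1 ∈ D} :=
  hv.comp contDiffOn_fst (fun _ hz => hz)

/-- derivative of a lift -/
lemma pd_lift {V : Type*} [NormedAddCommGroup V] [NormedSpace ℝ V] {v : X2 → V} {z : Q}
    (hv : DifferentiableAt ℝ v z.1) (j : Fin 3) :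
    pd j (lift v) z = fderiv ℝ v z.1 (bas j).1 := by
  have h1 : HasFDerivAt (lift v) ((fderiv ℝ v z.1).comp (ContinuousLinearMap.fst ℝ X2 ℝ)) z :=
    hv.hasFDerivAt.comp z hasFDerivAt_fst
  rw [pd, h1.fderiv]
  rfl

lemma pd0_lift_int2 (hD : IsOpen D) (h : Star D) {v : X2 → ℝ} (hv : ContDiffOn ℝ ∞ v D) {z : Q}
    (hz : z.1 ∈ D) : pd 0 (lift (int2 v)) z = int2 (d1 v) z.1 := by
  have h1 := hasFDerivAt_int2 hD h hv hz
  rw [pd_lift h1.differentiableAt, h1.fderiv]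
  simp [bas, dInt]

lemma pd1_lift_int2 (hD : IsOpen D) (h : Star D) {v : X2 → ℝ} (hv : ContDiffOn ℝ ∞ v D) {z : Q}
    (hz : z.1 ∈ D) : pd 1 (lift (int2 v)) z = v z.1 := by
  have h1 := hasFDerivAt_int2 hD h hv hz
  rw [pd_lift h1.differentiableAt, h1.fderiv]
  simp [bas, dInt]

lemma pd2_lift_int2 (hD : IsOpen D) (h : Star D) {v : X2 → ℝ} (hv : ContDiffOn ℝ ∞ v D) {z : Q}
    (hz : z.1 ∈ D) : pd 2 (lift (int2 v)) z = 0 := by
  have h1 := hasFDerivAt_int2 hD h hv hz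
  rw [pd_lift h1.differentiableAt, h1.fderiv]
  simp [bas, dInt]

end Int2

namespace Fam
variable {𝓕 : Fam}

private lemma sz_int2 {v : 𝓕.I → X2 → ℝ} {om : 𝓕.I → ℝ} (hom : ∀ i, 0 ≤ om i)
    (hstar : ∀ i, ∀ x ∈ 𝓕.D i, ∀ l ∈ Icc (0:ℝ) 1, (x.1, l * x.2) ∈ 𝓕.D i)
    (hbdd : ∃ L, 0 < L ∧ ∀ i, ∀ x ∈ 𝓕.D i, |x.2| ≤ L)
    (hv : 𝓕.Sz (fun i _ => om i) (fun i => lift (v i))) :
    𝓕.Sz (fun i _ => om i) (fun i => lift (Crest.Agent.R216.TE.int2 (v i))) := by
  obtain ⟨L, hL, hbdd⟩ := hbdd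
  obtain ⟨C, hC, hv⟩ := hv
  refine ⟨C * L, by positivity, fun i z hz => ?_⟩
  have h1 : ∀ s ∈ uIoc (0:ℝ) z.1.2, ‖v i (z.1.1, s)‖ ≤ C * om i := fun s hs =>
    hv i ((z.1.1, s), 0) (Int2.Star.seg (hstar i) hz (uIoc_subset_uIcc hs))
  have h2 := intervalIntegral.norm_integral_le_of_norm_le_const h1
  show ‖∫ s in (0:ℝ)..z.1.2, v i (z.1.1, s)‖ ≤ _
  refine h2.trans ?_
  have h3 : |z.1.2 - 0| ≤ L := by simpa using hbdd i z.1 hz
  have h4 : 0 ≤ C * om i := mul_nonneg hC.le (hom i)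
  calc C * om i * |z.1.2 - 0| ≤ C * om i * L := mul_le_mul_of_nonneg_left h3 h4
    _ = C * L * om i := by ring

private lemma bk_int2 (hstar : ∀ i, ∀ x ∈ 𝓕.D i, ∀ l ∈ Icc (0:ℝ) 1, (x.1, l * x.2) ∈ 𝓕.D i)
    (hbdd : ∃ L, 0 < L ∧ ∀ i, ∀ x ∈ 𝓕.D i, |x.2| ≤ L) (k : ℕ) :
    ∀ {v : 𝓕.I → X2 → ℝ} {om : 𝓕.I → ℝ}, (∀ i, 0 ≤ om i) → (∀ i, ContDiffOn ℝ ∞ (v i) (𝓕.D i)) →
    𝓕.Bk k (fun i _ => om i) (fun i => lift (v i)) →
    𝓕.Bk k (fun i _ => om i) (fun i => lift (Crest.Agent.R216.TE.int2 (v i))) := by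
  induction k with
  | zero => intro v om hom _ hv; exact sz_int2 hom hstar hbdd hv
  | succ k ih =>
    intro v om hom sv hv
    refine ⟨sz_int2 hom hstar hbdd hv.1, fun j => ?_⟩
    have hom' : ∀ i, 0 ≤ 𝓕.Lam i * om i := fun i => mul_nonneg (Lam_pos i).le (hom i)
    fin_cases j
    · -- `x1`
      have h0 : 𝓕.Bk k (fun i _ => 𝓕.Lam i * om i) (fun i => lift (d1 (v i))) := by
        refine (hv.2 0).congr (fun i z hz => ?_)
        rw [Int2.pd_lift (Int2.diffAt2 (𝓕.isOpen i) (sv i) hz)]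
        rfl
      refine (ih hom' (fun i => Int2.d1_contDiffOn (𝓕.isOpen i) (sv i)) h0).congr (fun i z hz => ?_)
      exact (Int2.pd0_lift_int2 (𝓕.isOpen i) (hstar i) (sv i) hz).symm
    · -- `x2`
      have h0 : 𝓕.Bk k (fun i _ => 𝓕.Lam i * om i) (fun i => lift (v i)) :=
        hv.of_succ.mono one_pos (fun i x _ => by
          have := mul_le_mul_of_nonneg_right (𝓕.one_le i) (hom i)
          linarith)
      refine h0.congr (fun i z hz => ?_)
      exact (Int2.pd1_lift_int2 (𝓕.isOpen i) (hstar i) (sv i) hz).symm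
    · -- `t`
      have h0 : 𝓕.B (fun i _ => 𝓕.Lam i * om i) (fun _ _ => (0 : ℝ)) :=
        B.zero (fun i x _ => hom' i)
      refine (h0.bound k).congr (fun i z hz => ?_)
      exact (Int2.pd2_lift_int2 (𝓕.isOpen i) (hstar i) (sv i) hz).symm

lemma B.int2 {v : 𝓕.I → X2 → ℝ} {om : 𝓕.I → ℝ} (hom : ∀ i, 0 ≤ om i)
    (hstar : ∀ i, ∀ x ∈ 𝓕.D i, ∀ l ∈ Icc (0:ℝ) 1, (x.1, l * x.2) ∈ 𝓕.D i)
    (hbdd : ∃ L, 0 < L ∧ ∀ i, ∀ x ∈ 𝓕.D i, |x.2| ≤ L)
    (hv : 𝓕.B (fun i _ => om i) (fun i => lift (v i))) :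
    𝓕.B (fun i _ => om i) (fun i => lift (Crest.Agent.R216.TE.int2 (v i))) := by
  have sv : ∀ i, ContDiffOn ℝ ∞ (v i) (𝓕.D i) := fun i => Int2.contDiffOn_of_lift (hv.smooth i)
  exact ⟨fun i => Int2.contDiffOn_lift (Int2.contDiffOn_int2 (𝓕.isOpen i) (hstar i) (sv i)),
    fun k => bk_int2 hstar hbdd k hom sv (hv.bound k)⟩

end Fam

lemma pd1_int2 {D : Set X2} (hD : IsOpen D)
    (hstar : ∀ x ∈ D, ∀ l ∈ Icc (0:ℝ) 1, (x.1, l * x.2) ∈ D)
    {v : X2 → ℝ} (hv : ContDiffOn ℝ ∞ v D) {z : Q} (hz : z.1 ∈ D) :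
    pd 1 (lift (int2 v)) z = v z.1 :=
  Int2.pd1_lift_int2 hD hstar hv hz

end Crest.Agent.R216.TE
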