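import Crest.Agent.R216.EngDefs

/-!
# Row 216, Theorem E: shift calculus (TE-2).
-/

open Set Topology MeasureTheory
open scoped ContDiff

set_option linter.unusedSectionVars false

namespace Crest.Agent.R216.TE

section ClsShift
variable {V : Type*} [NormedAddCommGroup V] [NormedSpace ℝ V]

namespace Shf

/-- the shift map `(x,t) ↦ (x, t + γ x)` -/
def shm (γ : X2 → ℝ) (z : Q) : Q := (z.1, z.2 + γ z.1)

lemma shift_eq_comp (γ : X2 → ℝ) (u : Q → V) : shift γ u = fun z => u (shm γ z) := rfl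

lemma lift_contDiffOn {D : Set X2} {v : X2 → V} (h : ContDiffOn ℝ ∞ v D) :
    ContDiffOn ℝ ∞ (lift v) {z : Q | z.1 ∈ D} := by
  have : ContDiffOn ℝ ∞ (v ∘ Prod.fst) {z : Q | z.1 ∈ D} :=
    h.comp contDiff_fst.contDiffOn (fun z hz => hz)
  exact this

lemma contDiffOn_of_lift {D : Set X2} {v : X2 → V}
    (h : ContDiffOn ℝ ∞ (lift v) {z : Q | z.1 ∈ D}) : ContDiffOn ℝ ∞ v D := by
  have h1 : ContDiffOn ℝ ∞ (fun x : X2 => ((x, (0:ℝ)) : Q)) D :=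
    (contDiff_id.prodMk contDiff_const).contDiffOn
  exact h.comp h1 (fun x hx => hx)

lemma shm_contDiffOn {D : Set X2} {γ : X2 → ℝ} (hγ : ContDiffOn ℝ ∞ γ D) :
    ContDiffOn ℝ ∞ (shm γ) {z : Q | z.1 ∈ D} := by
  have h1 : ContDiffOn ℝ ∞ (lift γ) {z : Q | z.1 ∈ D} := lift_contDiffOn hγ
  exact contDiff_fst.contDiffOn.prodMk (contDiff_snd.contDiffOn.add h1)

lemma shift_contDiffOn {D : Set X2} {u : Q → V} (hu : ContDiffOn ℝ ∞ u {z | z.1 ∈ D})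
    {γ : X2 → ℝ} (hγ : ContDiffOn ℝ ∞ γ D) : ContDiffOn ℝ ∞ (shift γ u) {z : Q | z.1 ∈ D} := by
  rw [shift_eq_comp]
  exact hu.comp (shm_contDiffOn hγ) (fun z hz => hz)

lemma isOpen_cyl {D : Set X2} (hD : IsOpen D) : IsOpen {z : Q | z.1 ∈ D} :=
  hD.preimage continuous_fst

/-- derivative of the lift -/
lemma lift_hasFDerivAt {D : Set X2} (hD : IsOpen D) {γ : X2 → V} (hγ : ContDiffOn ℝ ∞ γ D)
    {z : Q} (hz : z.1 ∈ D) :
    HasFDerivAt (lift γ) ((fderiv ℝ γ z.1).comp (ContinuousLinearMap.fst ℝ X2 ℝ)) z := by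
  have h1 : DifferentiableAt ℝ γ z.1 :=
    (hγ.contDiffAt (hD.mem_nhds hz)).differentiableAt (by simp)
  exact h1.hasFDerivAt.comp z hasFDerivAt_fst

lemma pd2_lift {D : Set X2} (hD : IsOpen D) {γ : X2 → V} (hγ : ContDiffOn ℝ ∞ γ D)
    {z : Q} (hz : z.1 ∈ D) : pd 2 (lift γ) z = 0 := by
  rw [pd, (lift_hasFDerivAt hD hγ hz).fderiv]
  exact map_zero (fderiv ℝ γ z.1)

end Shf
open Shf

/-- chain rule for the shift -/
lemma pd_shift {D : Set X2} (hD : IsOpen D) {u : Q → V} (hu : ContDiffOn ℝ ∞ u {z | z.1 ∈ D})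
    {γ : X2 → ℝ} (hγ : ContDiffOn ℝ ∞ γ D) (j : Fin 3) {z : Q} (hz : z.1 ∈ D) :
    pd j (shift γ u) z = shift γ (pd j u) z + pd j (lift γ) z • shift γ (pd 2 u) z := by
  have hl := lift_hasFDerivAt hD hγ hz
  have hs : HasFDerivAt (shm γ)
      ((ContinuousLinearMap.fst ℝ X2 ℝ).prod ((ContinuousLinearMap.snd ℝ X2 ℝ) +
        ((fderiv ℝ γ z.1).comp (ContinuousLinearMap.fst ℝ X2 ℝ)))) z :=
    hasFDerivAt_fst.prodMk (hasFDerivAt_snd.add hl)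
  have hz' : (shm γ z) ∈ {z : Q | z.1 ∈ D} := hz
  have hd := (diffAt (isOpen_cyl hD) hu hz').hasFDerivAt
  have hc := (hd.comp z hs).fderiv
  have e : pd j (lift γ) z = fderiv ℝ γ z.1 (bas j).1 := by
    rw [pd, hl.fderiv]; rfl
  have e2 : pd j (shift γ u) z = fderiv ℝ u (shm γ z)
      ((bas j).1, (bas j).2 + fderiv ℝ γ z.1 (bas j).1) := by
    rw [pd]
    change fderiv ℝ (u ∘ shm γ) z (bas j) = _
    rw [hc]; rfl
  have e3 : (((bas j).1, (bas j).2 + fderiv ℝ γ z.1 (bas j).1) : Q)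
      = bas j + (fderiv ℝ γ z.1 (bas j).1) • bas 2 := by
    ext <;> simp [bas]
  rw [e2, e3, map_add, map_smul, e]
  rfl

lemma mean_shift {D : Set X2} {u : Q → V} (_hu : ContDiffOn ℝ ∞ u {z | z.1 ∈ D}) (hp : PerOn D u)
    (γ : X2 → ℝ) {z : Q} (hz : z.1 ∈ D) : mean (shift γ u) z = mean u z := by
  have hper : Function.Periodic (fun s => u (z.1, s)) (2 * Real.pi) := fun s => hp z.1 hz s
  unfold mean
  congr 1
  have h1 : ∫ s in (0:ℝ)..(2 * Real.pi), shift γ u (z.1, s)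
      = ∫ s in (0:ℝ)..(2 * Real.pi), (fun s => u (z.1, s)) (s + γ z.1) := rfl
  rw [h1, intervalIntegral.integral_comp_add_right (fun s => u (z.1, s)) (γ z.1)]
  have := hper.intervalIntegral_add_eq (γ z.1) 0
  rw [zero_add] at this ⊢
  rw [add_comm (2 * Real.pi)]
  exact this

namespace Fam
variable {𝓕 : Fam} {w : 𝓕.I → X2 → ℝ}

lemma B.gamma_smooth {γ : 𝓕.I → X2 → ℝ} {w : 𝓕.I → X2 → ℝ}
    (hγ : 𝓕.B w (fun i => lift (γ i))) (i : 𝓕.I) : ContDiffOn ℝ ∞ (γ i) (𝓕.D i) :=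
  contDiffOn_of_lift (hγ.smooth i)

lemma Sm.shift {u : 𝓕.I → Q → V} {γ : 𝓕.I → X2 → ℝ} (hu : 𝓕.Sm u)
    (hγ : ∀ i, ContDiffOn ℝ ∞ (γ i) (𝓕.D i)) :
    𝓕.Sm (fun i => Crest.Agent.R216.TE.shift (γ i) (u i)) :=
  fun i => shift_contDiffOn (hu i) (hγ i)

lemma Sz.shift {u : 𝓕.I → Q → V} {γ : 𝓕.I → X2 → ℝ} (hu : 𝓕.Sz w u) :
    𝓕.Sz w (fun i => Crest.Agent.R216.TE.shift (γ i) (u i)) := by
  obtain ⟨C, hC, hu⟩ := hu
  exact ⟨C, hC, fun i z hz => hu i (shm (γ i) z) hz⟩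

lemma Nn.LamMul (hw : Nn w) : Nn (fun i x => 𝓕.Lam i * w i x) :=
  fun i x hx => mul_nonneg (Lam_pos i).le (hw i x hx)

lemma Bk.shift {k : ℕ} {γ : 𝓕.I → X2 → ℝ} {g : 𝓕.I → ℝ}
    (hg0 : ∀ i, 0 ≤ g i) (hγ : 𝓕.B (fun i _ => g i) (fun i => lift (γ i)))
    (hg : ∃ C, ∀ i, 𝓕.Lam i * g i ≤ C) :
    ∀ {w : 𝓕.I → X2 → ℝ} {u : 𝓕.I → Q → V}, Nn w → 𝓕.Sm u → 𝓕.Bk k w u →
      𝓕.Bk k w (fun i => Crest.Agent.R216.TE.shift (γ i) (u i)) := by
  obtain ⟨C, hC⟩ := hg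
  have hγs := hγ.gamma_smooth
  induction k with
  | zero => intro w u _ _ hu; exact Sz.shift hu
  | succ k ih =>
    intro w u hw su hu
    refine ⟨hu.1.shift, fun j => ?_⟩
    have h1 := ih hw.LamMul (su.pd j) (hu.2 j)
    have h2 := ih hw.LamMul (su.pd 2) (hu.2 2)
    have h3 := (hγ.pd j).bound k
    have hgn : Nn (𝓕 := 𝓕) (fun i _ => g i) := fun i _ _ => hg0 i
    have h4 := Bk.bilin (ContinuousLinearMap.lsmul ℝ ℝ) (hγ.smooth.pd j) ((su.pd 2).shift hγs)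
      hgn.LamMul hw.LamMul h3 h2
    have h4' : 𝓕.Bk k (fun i x => 𝓕.Lam i * w i x) (fun i z =>
        Crest.Agent.R216.TE.pd j (lift (γ i)) z •
          Crest.Agent.R216.TE.shift (γ i) (Crest.Agent.R216.TE.pd 2 (u i)) z) := by
      refine Bk.mono h4 (C := max C 1) (by positivity) (fun i x hx => ?_)
      exact mul_le_mul_of_nonneg_right ((hC i).trans (le_max_left _ _)) (hw.LamMul i x hx)
    have s2 : 𝓕.Sm (fun i z => Crest.Agent.R216.TE.pd j (lift (γ i)) z •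
          Crest.Agent.R216.TE.shift (γ i) (Crest.Agent.R216.TE.pd 2 (u i)) z) := fun i =>
      (hγ.smooth.pd j i).smul ((su.pd 2).shift hγs i)
    refine (Bk.add ((su.pd j).shift hγs) s2 h1 h4').congr (fun i z hz => ?_)
    exact (pd_shift (𝓕.isOpen i) (su i) (hγs i) j hz).symm

lemma B.shift {u : 𝓕.I → Q → V} {γ : 𝓕.I → X2 → ℝ} {g : 𝓕.I → ℝ} (hw : Nn w)
    (hg0 : ∀ i, 0 ≤ g i) (hu : 𝓕.B w u) (hγ : 𝓕.B (fun i _ => g i) (fun i => lift (γ i)))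
    (hg : ∃ C, ∀ i, 𝓕.Lam i * g i ≤ C) :
    𝓕.B w (fun i => Crest.Agent.R216.TE.shift (γ i) (u i)) :=
  ⟨hu.smooth.shift hγ.gamma_smooth, fun k => Bk.shift hg0 hγ hg hw hu.smooth (hu.bound k)⟩

lemma Bk.shift_sub (k : ℕ) {γ : 𝓕.I → X2 → ℝ} {g : 𝓕.I → ℝ}
    (hg0 : ∀ i, 0 ≤ g i) (hγ : 𝓕.B (fun i _ => g i) (fun i => lift (γ i)))
    (hg : ∃ C, ∀ i, 𝓕.Lam i * g i ≤ C) :
    ∀ {w : 𝓕.I → X2 → ℝ} {u : 𝓕.I → Q → V}, Nn w → 𝓕.B w u →
      𝓕.Bk k (fun i x => 𝓕.Lam i * g i * w i x)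
        (fun i z => Crest.Agent.R216.TE.shift (γ i) (u i) z - u i z) := by
  have hγs := hγ.gamma_smooth
  have hsz : ∀ {w : 𝓕.I → X2 → ℝ} {u : 𝓕.I → Q → V}, Nn w → 𝓕.B w u →
      𝓕.Sz (fun i x => 𝓕.Lam i * g i * w i x)
        (fun i z => Crest.Agent.R216.TE.shift (γ i) (u i) z - u i z) := by
    intro w u hw hu
    obtain ⟨C1, hC1, h1⟩ := (hu.pd 2).sz
    obtain ⟨C2, hC2, h2⟩ := hγ.sz
    refine ⟨C1 * C2, by positivity, fun i z hz => ?_⟩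
    have hγz : |γ i z.1| ≤ C2 * g i := by
      have := h2 i z hz
      simpa [lift] using this
    have hder : ∀ s : ℝ, HasDerivAt (fun s => u i (z.1, s))
        (Crest.Agent.R216.TE.pd 2 (u i) (z.1, s)) s := by
      intro s
      have hzs : ((z.1, s) : Q) ∈ 𝓕.dom i := hz
      have hd := (diffAt (𝓕.isOpen_dom i) (hu.smooth i) hzs).hasFDerivAt
      have hc : HasDerivAt (fun s : ℝ => ((z.1, s) : Q)) ((0, 1) : Q) s :=
        (hasDerivAt_const s z.1).prodMk (hasDerivAt_id s)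
      exact hd.comp_hasDerivAt s hc
    have hb : ∀ s ∈ (univ : Set ℝ), ‖Crest.Agent.R216.TE.pd 2 (u i) (z.1, s)‖
        ≤ C1 * (𝓕.Lam i * w i z.1) := fun s _ => h1 i (z.1, s) hz
    have := convex_univ.norm_image_sub_le_of_norm_hasDerivWithin_le
      (f := fun s => u i (z.1, s)) (fun s _ => (hder s).hasDerivWithinAt) hb
      (mem_univ z.2) (mem_univ (z.2 + γ i z.1))
    have hL : 0 ≤ 𝓕.Lam i * w i z.1 := hw.LamMul i z.1 hz
    calc ‖Crest.Agent.R216.TE.shift (γ i) (u i) z - u i z‖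
        = ‖u i (z.1, z.2 + γ i z.1) - u i (z.1, z.2)‖ := rfl
      _ ≤ C1 * (𝓕.Lam i * w i z.1) * ‖z.2 + γ i z.1 - z.2‖ := this
      _ ≤ C1 * (𝓕.Lam i * w i z.1) * (C2 * g i) := by
          refine mul_le_mul_of_nonneg_left ?_ (by positivity)
          rw [add_sub_cancel_left]; exact hγz
      _ = C1 * C2 * (𝓕.Lam i * g i * w i z.1) := by ring
  induction k with
  | zero => intro w u hw hu; exact hsz hw hu
  | succ k ih =>
    intro w u hw hu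
    refine ⟨hsz hw hu, fun j => ?_⟩
    have hgn : Nn (𝓕 := 𝓕) (fun i _ => g i) := fun i _ _ => hg0 i
    have h1 := ih hw.LamMul (hu.pd j)
    have h2 := (B.shift hw.LamMul hg0 (hu.pd 2) hγ hg)
    have h3 := (B.smul hgn.LamMul hw.LamMul (hγ.pd j) h2)
    have h1' : 𝓕.Bk k (fun i x => 𝓕.Lam i * (𝓕.Lam i * g i * w i x)) (fun i z =>
        Crest.Agent.R216.TE.shift (γ i) (Crest.Agent.R216.TE.pd j (u i)) z -
          Crest.Agent.R216.TE.pd j (u i) z) :=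
      h1.mono one_pos (fun i x _ => by rw [one_mul]; apply le_of_eq; ring)
    have h3' := (h3.bound k).mono (w' := fun i x => 𝓕.Lam i * (𝓕.Lam i * g i * w i x)) one_pos
      (fun i x _ => by rw [one_mul]; apply le_of_eq; ring)
    have s1 : 𝓕.Sm (fun i z => Crest.Agent.R216.TE.shift (γ i) (Crest.Agent.R216.TE.pd j (u i)) z -
          Crest.Agent.R216.TE.pd j (u i) z) := fun i =>
      ((hu.smooth.pd j).shift hγs i).sub (hu.smooth.pd j i)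
    refine (Bk.add s1 h3.smooth h1' h3').congr (fun i z hz => ?_)
    have d1 := diffAt (𝓕.isOpen_dom i) (hu.smooth.shift hγs i) hz
    have d2 := diffAt (𝓕.isOpen_dom i) (hu.smooth i) hz
    have e1 : Crest.Agent.R216.TE.pd j
        (fun z => Crest.Agent.R216.TE.shift (γ i) (u i) z - u i z) z
        = Crest.Agent.R216.TE.pd j (Crest.Agent.R216.TE.shift (γ i) (u i)) z
          - Crest.Agent.R216.TE.pd j (u i) z := by
      show fderiv ℝ (fun z => Crest.Agent.R216.TE.shift (γ i) (u i) z - u i z) z (bas j) = _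
      rw [fderiv_fun_sub d1 d2]; rfl
    rw [e1, pd_shift (𝓕.isOpen i) (hu.smooth i) (hγs i) j hz]
    simp only []
    abel

lemma B.shift_sub {u : 𝓕.I → Q → V} {γ : 𝓕.I → X2 → ℝ} {g : 𝓕.I → ℝ} (hw : Nn w)
    (hg0 : ∀ i, 0 ≤ g i) (hu : 𝓕.B w u) (hγ : 𝓕.B (fun i _ => g i) (fun i => lift (γ i)))
    (hg : ∃ C, ∀ i, 𝓕.Lam i * g i ≤ C) :
    𝓕.B (fun i x => 𝓕.Lam i * g i * w i x)
      (fun i z => Crest.Agent.R216.TE.shift (γ i) (u i) z - u i z) :=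
  ⟨fun i => (hu.smooth.shift hγ.gamma_smooth i).sub (hu.smooth i),
    fun k => Bk.shift_sub k hg0 hγ hg hw hu⟩

end Fam
end ClsShift
end Crest.Agent.R216.TE
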