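import Mathlib

/-!
# Row 216: smoothness of parametric interval integrals.
-/

open Set Topology MeasureTheory Metric
open scoped ContDiff Interval

set_option linter.unusedSectionVars false

namespace Crest.Agent.R216.Par

universe u

variable {E : Type} [NormedAddCommGroup E] [NormedSpace ℝ E] [FiniteDimensional ℝ E]

section
variable {V : Type u} [NormedAddCommGroup V] [NormedSpace ℝ V]

lemma tube {O : Set (E × ℝ)} (hO : IsOpen O) {a b : ℝ} {z0 : E}
    (h : ∀ s ∈ uIcc a b, (z0, s) ∈ O) : ∃ r > 0, closedBall z0 r ×ˢ uIcc a b ⊆ O := by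
  have h1 : ({z0} : Set E) ×ˢ uIcc a b ⊆ O := by
    rintro ⟨z, s⟩ ⟨hz, hs⟩
    simp only [mem_singleton_iff] at hz
    subst hz
    exact h s hs
  obtain ⟨u, v, hu, hv, hzu, hsv, huv⟩ := generalized_tube_lemma isCompact_singleton
    (isCompact_uIcc (a := a) (b := b)) hO h1
  have : u ∈ 𝓝 z0 := hu.mem_nhds (hzu rfl)
  obtain ⟨r, hr, hru⟩ := nhds_basis_closedBall.mem_iff.1 this
  exact ⟨r, hr, (prod_mono hru hsv).trans huv⟩

lemma slice_cont {O : Set (E × ℝ)} {g : E × ℝ → V} (hg : ContinuousOn g O) {a b : ℝ} {z : E}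
    (h : ∀ s ∈ uIcc a b, (z, s) ∈ O) : ContinuousOn (fun s => g (z, s)) (uIcc a b) :=
  hg.comp (by fun_prop) h

lemma cont_at {O : Set (E × ℝ)} (hO : IsOpen O) {g : E × ℝ → V} (hg : ContinuousOn g O)
    {a b : ℝ} {z0 : E} (h : ∀ s ∈ uIcc a b, (z0, s) ∈ O) :
    ContinuousAt (fun z => ∫ s in a..b, g (z, s)) z0 := by
  obtain ⟨r, hr, hsub⟩ := tube hO h
  have hK : IsCompact (closedBall z0 r ×ˢ uIcc a b) :=
    (isCompact_closedBall _ _).prod isCompact_uIcc
  obtain ⟨C, hC⟩ := hK.exists_bound_of_continuousOn (hg.mono hsub)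
  have hnh : closedBall z0 r ∈ 𝓝 z0 := closedBall_mem_nhds _ hr
  refine intervalIntegral.continuousAt_of_dominated_interval (bound := fun _ => C) ?_ ?_ ?_ ?_
  · filter_upwards [hnh] with z hz
    have : ContinuousOn (fun s => g (z, s)) (uIcc a b) :=
      slice_cont hg (fun s hs => hsub ⟨hz, hs⟩)
    exact (this.mono uIoc_subset_uIcc).aestronglyMeasurable measurableSet_uIoc
  · filter_upwards [hnh] with z hz
    exact Filter.Eventually.of_forall fun s hs => hC _ ⟨hz, uIoc_subset_uIcc hs⟩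
  · exact intervalIntegrable_const
  · refine Filter.Eventually.of_forall fun s hs => ?_
    have h1 : ContinuousAt g (z0, s) := hg.continuousAt (hO.mem_nhds (h s (uIoc_subset_uIcc hs)))
    exact ContinuousAt.comp (f := fun z => (z, s)) h1 (by fun_prop)

/-- differentiation under the integral sign -/
theorem hasFDerivAt_par {O : Set (E × ℝ)} (hO : IsOpen O) {g : E × ℝ → V}
    (hg : ContDiffOn ℝ 1 g O) {a b : ℝ} {z0 : E} (h : ∀ s ∈ uIcc a b, (z0, s) ∈ O) :
    HasFDerivAt (fun z => ∫ s in a..b, g (z, s))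
      (∫ s in a..b, (fderiv ℝ g (z0, s)).comp (ContinuousLinearMap.inl ℝ E ℝ)) z0 := by
  obtain ⟨r, hr, hsub⟩ := tube hO h
  have hg' : ContinuousOn (fderiv ℝ g) O := (hg.continuousOn_fderiv_of_isOpen hO (by simp))
  have hg'' : ContinuousOn
      (fun p => (fderiv ℝ g p).comp (ContinuousLinearMap.inl ℝ E ℝ)) O := by
    exact hg'.clm_comp continuousOn_const
  have hK : IsCompact (closedBall z0 r ×ˢ uIcc a b) :=
    (isCompact_closedBall _ _).prod isCompact_uIcc
  obtain ⟨C, hC⟩ := hK.exists_bound_of_continuousOn (hg''.mono hsub)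
  have hnh : closedBall z0 r ∈ 𝓝 z0 := closedBall_mem_nhds _ hr
  refine intervalIntegral.hasFDerivAt_integral_of_dominated_of_fderiv_le
    (F' := fun z s => (fderiv ℝ g (z, s)).comp (ContinuousLinearMap.inl ℝ E ℝ))
    (bound := fun _ => C) hnh ?_ ?_ ?_ ?_ ?_ ?_
  · filter_upwards [hnh] with z hz
    have : ContinuousOn (fun s => g (z, s)) (uIcc a b) :=
      slice_cont hg.continuousOn (fun s hs => hsub ⟨hz, hs⟩)
    exact (this.mono uIoc_subset_uIcc).aestronglyMeasurable measurableSet_uIoc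
  · exact (slice_cont hg.continuousOn h).intervalIntegrable
  · have := slice_cont hg'' h
    exact (this.mono uIoc_subset_uIcc).aestronglyMeasurable measurableSet_uIoc
  · exact Filter.Eventually.of_forall fun s hs z hz => hC _ ⟨hz, uIoc_subset_uIcc hs⟩
  · exact intervalIntegrable_const
  · refine Filter.Eventually.of_forall fun s hs z hz => ?_
    have hmem : (z, s) ∈ O := hsub ⟨hz, uIoc_subset_uIcc hs⟩
    have h1 : HasFDerivAt g (fderiv ℝ g (z, s)) (z, s) :=
      ((hg.contDiffAt (hO.mem_nhds hmem)).differentiableAt (by simp)).hasFDerivAt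
    exact h1.comp z (hasFDerivAt_prodMk_left z s)

theorem contDiffOn_par_nat {a b : ℝ} {U : Set E} (hU : IsOpen U) {O : Set (E × ℝ)} (hO : IsOpen O)
    (h : ∀ z ∈ U, ∀ s ∈ uIcc a b, (z, s) ∈ O) (n : ℕ) :
    ∀ {V : Type u} [NormedAddCommGroup V] [NormedSpace ℝ V] {g : E × ℝ → V},
      ContDiffOn ℝ n g O → ContDiffOn ℝ n (fun z => ∫ s in a..b, g (z, s)) U := by
  induction n with
  | zero =>
    intro V _ _ g hg
    rw [Nat.cast_zero, contDiffOn_zero] at hg ⊢
    exact fun z hz => (cont_at hO hg (h z hz)).continuousWithinAt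
  | succ n ih =>
    intro V _ _ g hg
    have hg1 : ContDiffOn ℝ 1 g O := hg.of_le (by norm_cast; omega)
    rw [Nat.cast_add, Nat.cast_one] at hg ⊢
    rw [contDiffOn_succ_iff_fderiv_of_isOpen hU]
    refine ⟨fun z hz => (hasFDerivAt_par hO hg1 (h z hz)).differentiableAt.differentiableWithinAt,
      by simp, ?_⟩
    have h2 : ContDiffOn ℝ n (fderiv ℝ g) O :=
      ((contDiffOn_succ_iff_fderiv_of_isOpen hO).1 hg).2.2
    have h3 : ContDiffOn ℝ n
        (fun p => (fderiv ℝ g p).comp (ContinuousLinearMap.inl ℝ E ℝ)) O :=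
      h2.clm_comp contDiffOn_const
    exact (ih h3).congr (fun z hz => (hasFDerivAt_par hO hg1 (h z hz)).fderiv)

theorem contDiffOn_par {a b : ℝ} {U : Set E} (hU : IsOpen U) {O : Set (E × ℝ)} (hO : IsOpen O)
    (h : ∀ z ∈ U, ∀ s ∈ uIcc a b, (z, s) ∈ O) {g : E × ℝ → V}
    (hg : ContDiffOn ℝ ∞ g O) : ContDiffOn ℝ ∞ (fun z => ∫ s in a..b, g (z, s)) U := by
  rw [contDiffOn_infty] at hg ⊢
  exact fun n => contDiffOn_par_nat hU hO h n (hg n)

/-- the derivative in a direction -/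
theorem fderiv_par_apply [CompleteSpace V] {O : Set (E × ℝ)} (hO : IsOpen O) {g : E × ℝ → V}
    (hg : ContDiffOn ℝ 1 g O) {a b : ℝ} {z0 : E} (h : ∀ s ∈ uIcc a b, (z0, s) ∈ O) (v : E) :
    fderiv ℝ (fun z => ∫ s in a..b, g (z, s)) z0 v = ∫ s in a..b, fderiv ℝ g (z0, s) (v, 0) := by
  rw [(hasFDerivAt_par hO hg h).fderiv]
  have hg' : ContinuousOn (fderiv ℝ g) O := (hg.continuousOn_fderiv_of_isOpen hO (by simp))
  have hg'' : ContinuousOn
      (fun p => (fderiv ℝ g p).comp (ContinuousLinearMap.inl ℝ E ℝ)) O := by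
    exact hg'.clm_comp continuousOn_const
  have hint : IntervalIntegrable
      (fun s => (fderiv ℝ g (z0, s)).comp (ContinuousLinearMap.inl ℝ E ℝ)) volume a b :=
    (slice_cont hg'' h).intervalIntegrable
  rw [ContinuousLinearMap.intervalIntegral_apply hint]
  simp

end

end Crest.Agent.R216.Par
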