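import Crest.Agent.R216.Skel
import Crest.Agent.R216.GlobChart

/-!
Row 216 (S0335), part (6), module CoefT (owner: helper706): smooth symmetric tensors,
bilinearity and smoothness of `coef`.
-/

set_option autoImplicit false
set_option linter.unusedSectionVars false
open scoped Manifold ContDiff Topology
open Set

noncomputable section
namespace Crest.Agent.R216.CoefT

variable {M : Type*} [TopologicalSpace M] [ChartedSpace E2 M]

/-- A smooth symmetric bilinear 2-tensor. -/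
structure STens (h : Tens M) : Prop where
  add_left : ∀ p v v' w, h p (v + v') w = h p v w + h p v' w
  smul_left : ∀ p (c : ℝ) v w, h p (c • v) w = c * h p v w
  symm : ∀ p v w, h p v w = h p w v
  smooth : ∀ ψ ∈ IsManifold.maximalAtlas (𝓡 2) ∞ M, ∀ v w : E2,
    ContDiffOn ℝ ∞ (coef h ψ v w) ψ.target

namespace STens
variable {h k : Tens M}

lemma add_right (hh : STens h) (p : M) (v w w' : TangentSpace (𝓡 2) p) :
    h p v (w + w') = h p v w + h p v w' := by
  rw [hh.symm, hh.add_left, hh.symm p w, hh.symm p w']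

lemma smul_right (hh : STens h) (p : M) (c : ℝ) (v w : TangentSpace (𝓡 2) p) :
    h p v (c • w) = c * h p v w := by
  rw [hh.symm, hh.smul_left, hh.symm p w]

lemma zero_left (hh : STens h) (p : M) (w : TangentSpace (𝓡 2) p) : h p 0 w = 0 := by
  have := hh.smul_left p 0 0 w
  simpa using this

/-- sums of tensors -/
lemma add (hh : STens h) (hk : STens k) : STens (fun p v w => h p v w + k p v w : Tens M) where
  add_left p v v' w := by rw [hh.add_left, hk.add_left]; ring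
  smul_left p c v w := by rw [hh.smul_left, hk.smul_left]; ring
  symm p v w := by rw [hh.symm, hk.symm]
  smooth ψ hψ v w := (hh.smooth ψ hψ v w).add (hk.smooth ψ hψ v w)

lemma sub (hh : STens h) (hk : STens k) : STens (fun p v w => h p v w - k p v w : Tens M) where
  add_left p v v' w := by rw [hh.add_left, hk.add_left]; ring
  smul_left p c v w := by rw [hh.smul_left, hk.smul_left]; ring
  symm p v w := by rw [hh.symm, hk.symm]
  smooth ψ hψ v w := (hh.smooth ψ hψ v w).sub (hk.smooth ψ hψ v w)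

lemma const_mul (hh : STens h) (c : ℝ) : STens (fun p v w => c * h p v w : Tens M) where
  add_left p v v' w := by rw [hh.add_left]; ring
  smul_left p c v w := by rw [hh.smul_left]; ring
  symm p v w := by rw [hh.symm]
  smooth ψ hψ v w := contDiffOn_const.mul (hh.smooth ψ hψ v w)

lemma zero : STens (fun _ _ _ => 0 : Tens M) where
  add_left p v v' w := by simp
  smul_left p c v w := by simp
  symm p v w := rfl
  smooth ψ hψ v w := contDiffOn_const

lemma sum {ι : Type*} (s : Finset ι) {H : ι → Tens M} (hH : ∀ i ∈ s, STens (H i)) :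
    STens (fun p v w => ∑ i ∈ s, H i p v w : Tens M) := by
  classical
  induction s using Finset.induction_on with
  | empty => simpa using (zero : STens (fun _ _ _ => 0 : Tens M))
  | insert a s ha ih =>
    have h1 := (hH a (Finset.mem_insert_self a s)).add
      (ih fun i hi => hH i (Finset.mem_insert_of_mem hi))
    simpa [Finset.sum_insert ha] using h1

end STens

/-! ### bilinearity of `coef` -/

section coefLin
variable {h : Tens M} (hh : STens h) (ψ : OpenPartialHomeomorph M E2) (y : E2)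
include hh

lemma coef_add_left (v v' w : E2) :
    coef h ψ (v + v') w y = coef h ψ v w y + coef h ψ v' w y := by
  have h1 : mfderiv 𝓘(ℝ, E2) (𝓡 2) ψ.symm y (v + v') =
    mfderiv 𝓘(ℝ, E2) (𝓡 2) ψ.symm y v + mfderiv 𝓘(ℝ, E2) (𝓡 2) ψ.symm y v' :=
    (mfderiv 𝓘(ℝ, E2) (𝓡 2) ψ.symm y).map_add v v'
  have h2 := hh.add_left (ψ.symm y) (mfderiv 𝓘(ℝ, E2) (𝓡 2) ψ.symm y v)
    (mfderiv 𝓘(ℝ, E2) (𝓡 2) ψ.symm y v') (mfderiv 𝓘(ℝ, E2) (𝓡 2) ψ.symm y w)
  exact (congrArg (fun z => h (ψ.symm y) z (mfderiv 𝓘(ℝ, E2) (𝓡 2) ψ.symm y w)) h1).trans h2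

lemma coef_smul_left (c : ℝ) (v w : E2) : coef h ψ (c • v) w y = c * coef h ψ v w y := by
  have h1 : mfderiv 𝓘(ℝ, E2) (𝓡 2) ψ.symm y (c • v) =
    c • mfderiv 𝓘(ℝ, E2) (𝓡 2) ψ.symm y v :=
    (mfderiv 𝓘(ℝ, E2) (𝓡 2) ψ.symm y).map_smul c v
  have h2 := hh.smul_left (ψ.symm y) c (mfderiv 𝓘(ℝ, E2) (𝓡 2) ψ.symm y v)
    (mfderiv 𝓘(ℝ, E2) (𝓡 2) ψ.symm y w)
  exact (congrArg (fun z => h (ψ.symm y) z (mfderiv 𝓘(ℝ, E2) (𝓡 2) ψ.symm y w)) h1).trans h2

lemma coef_symm (v w : E2) : coef h ψ v w y = coef h ψ w v y := hh.symm _ _ _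

lemma coef_add_right (v w w' : E2) :
    coef h ψ v (w + w') y = coef h ψ v w y + coef h ψ v w' y := by
  rw [coef_symm hh, coef_add_left hh, coef_symm hh ψ y w, coef_symm hh ψ y w']

lemma coef_smul_right (c : ℝ) (v w : E2) : coef h ψ v (c • w) y = c * coef h ψ v w y := by
  rw [coef_symm hh, coef_smul_left hh, coef_symm hh ψ y w]

omit hh in
lemma vec_eq (v : E2) : v = v 0 • bv 0 + v 1 • bv 1 := by
  ext i
  fin_cases i <;> simp [bv]

/-- `coef` in terms of the four coefficients -/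
lemma coef_expand (v w : E2) : coef h ψ v w y =
    ∑ i : Fin 2, ∑ j : Fin 2, v i * w j * coef h ψ (bv i) (bv j) y := by
  conv_lhs => rw [vec_eq v, vec_eq w]
  rw [coef_add_left hh, coef_smul_left hh, coef_smul_left hh, coef_add_right hh,
    coef_add_right hh, coef_smul_right hh, coef_smul_right hh, coef_smul_right hh,
    coef_smul_right hh]
  simp only [Fin.sum_univ_two]
  ring

end coefLin

/-! ### the two basic tensors: `pull f` and `g.inner` -/

section basic
variable [IsManifold (𝓡 2) ∞ M]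

lemma mdiff_symm {ψ : OpenPartialHomeomorph M E2} (hψ : ψ ∈ IsManifold.maximalAtlas (𝓡 2) ∞ M)
    {y : E2} (hy : y ∈ ψ.target) : MDifferentiableAt 𝓘(ℝ, E2) (𝓡 2) ψ.symm y :=
  ((contMDiffOn_symm_of_mem_maximalAtlas hψ).contMDiffAt
    (ψ.open_target.mem_nhds hy)).mdifferentiableAt (by simp)

/-- the derivative of `f` along the chart = derivative of the coordinate representation -/
lemma mfderiv_symm_eq {E : Type*} [NormedAddCommGroup E] [NormedSpace ℝ E] {f : M → E}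
    (hf : ContMDiff (𝓡 2) 𝓘(ℝ, E) ∞ f)
    {ψ : OpenPartialHomeomorph M E2} (hψ : ψ ∈ IsManifold.maximalAtlas (𝓡 2) ∞ M)
    {y : E2} (hy : y ∈ ψ.target) (v : E2) :
    mfderiv (𝓡 2) 𝓘(ℝ, E) f (ψ.symm y) (mfderiv 𝓘(ℝ, E2) (𝓡 2) ψ.symm y v)
      = fderiv ℝ (rep f ψ) y v := by
  have h1 : MDifferentiableAt (𝓡 2) 𝓘(ℝ, E) f (ψ.symm y) := (hf _).mdifferentiableAt (by simp)
  have h2 := mdiff_symm hψ hy
  have h3 : mfderiv 𝓘(ℝ, E2) 𝓘(ℝ, E) (f ∘ ψ.symm) y =
      (mfderiv (𝓡 2) 𝓘(ℝ, E) f (ψ.symm y)).comp (mfderiv 𝓘(ℝ, E2) (𝓡 2) ψ.symm y) :=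
    mfderiv_comp y h1 h2
  have h4 : mfderiv 𝓘(ℝ, E2) 𝓘(ℝ, E) (f ∘ ψ.symm) y = fderiv ℝ (f ∘ ψ.symm) y :=
    mfderiv_eq_fderiv
  have h5 := congrArg (fun L : E2 →L[ℝ] E => L v) (h4.symm.trans h3)
  exact h5.symm

lemma coef_pull {f : M → E4} (hf : ContMDiff (𝓡 2) 𝓘(ℝ, E4) ∞ f)
    {ψ : OpenPartialHomeomorph M E2} (hψ : ψ ∈ IsManifold.maximalAtlas (𝓡 2) ∞ M)
    {y : E2} (hy : y ∈ ψ.target) (v w : E2) :
    coef (pull f) ψ v w y =
      @inner ℝ E4 _ (fderiv ℝ (rep f ψ) y v) (fderiv ℝ (rep f ψ) y w) := by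
  have h1 := mfderiv_symm_eq hf hψ hy v
  have h2 := mfderiv_symm_eq hf hψ hy w
  simp only [coef, pull]
  rw [← h1, ← h2]

theorem STens.pull {f : M → E4} (hf : ContMDiff (𝓡 2) 𝓘(ℝ, E4) ∞ f) : STens (pull f) where
  add_left p v v' w := by
    have h1 : mfderiv (𝓡 2) 𝓘(ℝ, E4) f p (v + v') =
      mfderiv (𝓡 2) 𝓘(ℝ, E4) f p v + mfderiv (𝓡 2) 𝓘(ℝ, E4) f p v' := map_add _ v v'
    simp only [Crest.Agent.R216.pull]
    rw [h1]
    exact inner_add_left (𝕜 := ℝ) (E := E4) _ _ _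
  smul_left p c v w := by
    have h1 : mfderiv (𝓡 2) 𝓘(ℝ, E4) f p (c • v) =
      c • mfderiv (𝓡 2) 𝓘(ℝ, E4) f p v := map_smul _ c v
    simp only [Crest.Agent.R216.pull]
    rw [h1]
    exact real_inner_smul_left (F := E4) _ _ _
  symm p v w := by
    simp only [Crest.Agent.R216.pull]
    exact real_inner_comm (F := E4) _ _
  smooth ψ hψ v w := by
    have h1 : ContDiffOn ℝ ∞ (rep f ψ) ψ.target := rep_contDiffOn hf hψ
    have h2 : ContDiffOn ℝ ∞ (fderiv ℝ (rep f ψ)) ψ.target :=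
      h1.fderiv_of_isOpen ψ.open_target (by simp)
    have h3 : ContDiffOn ℝ ∞ (fun y => @inner ℝ E4 _ (fderiv ℝ (rep f ψ) y v)
        (fderiv ℝ (rep f ψ) y w)) ψ.target :=
      (h2.clm_apply contDiffOn_const).inner ℝ (h2.clm_apply contDiffOn_const)
    exact h3.congr fun y hy => coef_pull hf hψ hy v w

end basic

end Crest.Agent.R216.CoefT
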