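import Crest.Agent.R216.Smooth

/-!
Row 216, module SMOOTH, part 2: the smoothing operators `S`, `R = 1 - S`, `P K = 1 - (1-S)^K`.
-/

set_option autoImplicit false
set_option linter.unusedSectionVars false
set_option linter.unusedTactic false

open scoped ContDiff Convolution
open MeasureTheory Set Metric

namespace Crest.Agent.R216.Smooth

universe u

variable {V : Type u} [NormedAddCommGroup V] [NormedSpace ℝ V] [FiniteDimensional ℝ V]
  [MeasureSpace V] [BorelSpace V] [(volume : Measure V).IsAddHaarMeasure]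
variable {F : Type u} [NormedAddCommGroup F] [NormedSpace ℝ F] [CompleteSpace F]

/-- the bump used for the mollifier -/
noncomputable def bump0 (V : Type u) [NormedAddCommGroup V] : ContDiffBump (0 : V) :=
  ⟨1/2, 1, by norm_num, by norm_num⟩

/-- the mollifier -/
noncomputable def rho (V : Type u) [NormedAddCommGroup V] [NormedSpace ℝ V] [FiniteDimensional ℝ V]
    [MeasureSpace V] : V → ℝ :=
  (bump0 V).normed volume

omit [BorelSpace V] [(volume : Measure V).IsAddHaarMeasure] in
theorem isKer_rho [BorelSpace V] [(volume : Measure V).IsAddHaarMeasure] : IsKer (rho V) := by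
  refine ⟨(bump0 V).contDiff_normed, ?_⟩
  intro y hy
  have h : y ∉ Function.support (rho V) := by
    unfold rho
    rw [ContDiffBump.support_normed_eq]
    simp only [bump0, mem_ball, dist_zero_right, not_lt]
    exact hy.le
  simpa using h

theorem integral_norm_rho : ∫ y, ‖rho V y‖ = 1 := by
  have h : ∀ y, ‖rho V y‖ = rho V y := fun y =>
    Real.norm_of_nonneg ((bump0 V).nonneg_normed y)
  simp_rw [h]
  exact (bump0 V).integral_normed

theorem integral_rho : ∫ y, rho V y = 1 := (bump0 V).integral_normed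

/-- smoothing at scale `t` -/
noncomputable def S (t : ℝ) (g : V → F) : V → F := T (rho V) t g

/-- `R = 1 - S` -/
noncomputable def R (t : ℝ) (g : V → F) : V → F := fun x => g x - S t g x

/-- `(1-S)^K` -/
noncomputable def Rn (K : ℕ) (t : ℝ) (g : V → F) : V → F := (R t)^[K] g

/-- `P K = 1 - (1-S)^K` -/
noncomputable def P (K : ℕ) (t : ℝ) (g : V → F) : V → F := fun x => g x - Rn K t g x

/-- constants -/
noncomputable def cR (V : Type u) [NormedAddCommGroup V] [NormedSpace ℝ V] [FiniteDimensional ℝ V]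
    [MeasureSpace V] (j : ℕ) : ℝ := cst j (rho V)

omit [BorelSpace V] [(volume : Measure V).IsAddHaarMeasure] in
theorem cR_nonneg (j : ℕ) : 0 ≤ cR V j := cst_nonneg _ _

section S
variable {t : ℝ} {g : V → F}

theorem contDiff_S (ht : t ≠ 0) (hg : Continuous g) : ContDiff ℝ ∞ (S t g) :=
  contDiff_T isKer_rho hg ht

theorem S_clm {G : Type*} [NormedAddCommGroup G] [NormedSpace ℝ G] [CompleteSpace G]
    (hg : Continuous g) (L : F →L[ℝ] G) (x : V) :
    T (rho V) t (fun z => L (g z)) x = L (S t g x) :=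
  T_clm isKer_rho hg t L x

theorem fderiv_S (hg : ContDiff ℝ 1 g) : fderiv ℝ (S t g) = S t (fderiv ℝ g) := by
  ext1 x; exact fderiv_T isKer_rho hg t x

theorem contDiff_S_nat {n : ℕ} (ht : t ≠ 0) (hg : ContDiff ℝ n g) : ContDiff ℝ n (S t g) :=
  (contDiff_S ht hg.continuous).of_le (by exact_mod_cast le_top)

theorem contDiff_S_of {n : WithTop ℕ∞} (hn : n ≤ ∞) (ht : t ≠ 0) (hg : ContDiff ℝ n g) :
    ContDiff ℝ n (S t g) :=
  (contDiff_S ht hg.continuous).of_le hn

theorem iteratedFDeriv_S (j : ℕ) (hg : ContDiff ℝ j g) :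
    iteratedFDeriv ℝ j (S t g) = S t (iteratedFDeriv ℝ j g) := by
  induction j with
  | zero =>
    ext1 x
    rw [iteratedFDeriv_zero_eq_comp]
    simp only [Function.comp_apply]
    have h := T_clm (isKer_rho (V := V)) hg.continuous t
      (continuousMultilinearCurryFin0 ℝ V F).symm.toContinuousLinearEquiv.toContinuousLinearMap x
    unfold S
    rw [iteratedFDeriv_zero_eq_comp]
    exact h.symm
  | succ j ih =>
    have hgj : ContDiff ℝ j g := hg.of_le (by exact_mod_cast Nat.le_succ j)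
    have h1 : ContDiff ℝ 1 (iteratedFDeriv ℝ j g) :=
      hg.iteratedFDeriv_right (m := 1) (i := j) (by norm_cast; omega)
    rw [iteratedFDeriv_succ_eq_comp_left, ih hgj, fderiv_S h1]
    ext1 x
    rw [iteratedFDeriv_succ_eq_comp_left]
    simp only [Function.comp_apply]
    have h2 : Continuous (fderiv ℝ (iteratedFDeriv ℝ j g)) := h1.continuous_fderiv (by simp)
    have h := T_clm (F := V →L[ℝ] (V [×j]→L[ℝ] F)) (G := V [×(j+1)]→L[ℝ] F)
      (isKer_rho (V := V)) h2 t
      (continuousMultilinearCurryLeftEquiv ℝ (fun _ : Fin (j + 1) => V)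
        F).symm.toContinuousLinearEquiv.toContinuousLinearMap x
    exact h.symm

theorem norm_S_le (ht : 0 ≤ t) {x : V} {M : ℝ} (hM : ∀ z ∈ closedBall x t, ‖g z‖ ≤ M) :
    ‖S t g x‖ ≤ M := by
  have := norm_T_le (isKer_rho (V := V)) ht hM
  rwa [integral_norm_rho, one_mul] at this

theorem norm_sub_S_le (ht : 0 ≤ t) (hg : Differentiable ℝ g) {x : V} {M : ℝ}
    (hM : ∀ z ∈ closedBall x t, ‖fderiv ℝ g z‖ ≤ M) :
    ‖g x - S t g x‖ ≤ t * M := by
  have hM0 : 0 ≤ M := (norm_nonneg _).trans (hM x (mem_closedBall_self ht))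
  have h0 : g x = ∫ y, rho V y • g x := by
    rw [integral_smul_const, integral_rho, one_smul]
  have h1 : g x - S t g x = ∫ y, rho V y • (g x - g (x - t • y)) := by
    conv_lhs => rw [h0]
    unfold S T
    rw [← integral_sub]
    · simp [smul_sub]
    · exact isKer_rho.integrable.smul_const _
    · exact integrable_T isKer_rho hg.continuous t x
  rw [h1]
  have h2 : t * M = ∫ y, ‖rho V y‖ * (t * M) := by
    rw [integral_mul_const, integral_norm_rho, one_mul]
  rw [h2]
  apply norm_integral_le_of_norm_le (isKer_rho.integrable.norm.mul_const _)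
  refine Filter.Eventually.of_forall fun y => ?_
  rw [norm_smul]
  by_cases hy : 1 < ‖y‖
  · simp [isKer_rho.supp y hy]
  · apply mul_le_mul_of_nonneg_left _ (norm_nonneg _)
    push Not at hy
    have h3 : x - t • y ∈ closedBall x t := by
      simp only [mem_closedBall, dist_eq_norm]
      have : x - t • y - x = -(t • y) := by abel
      rw [this, norm_neg, norm_smul, Real.norm_of_nonneg ht]
      nlinarith
    have h4 := (convex_closedBall x t).norm_image_sub_le_of_norm_fderiv_le
      (fun z _ => hg z) hM h3 (mem_closedBall_self ht)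
    refine h4.trans ?_
    rw [mul_comm]
    apply mul_le_mul_of_nonneg_right _ hM0
    have : x - (x - t • y) = t • y := by abel
    rw [this, norm_smul, Real.norm_of_nonneg ht]
    nlinarith

theorem norm_iteratedFDeriv_S_le (ht : 0 < t) (hg : Continuous g) {x : V} {M : ℝ}
    (hM : ∀ z ∈ closedBall x t, ‖g z‖ ≤ M) (j : ℕ) :
    ‖iteratedFDeriv ℝ j (S t g) x‖ ≤ cR V j * (t⁻¹) ^ j * M :=
  norm_iteratedFDeriv_T_le isKer_rho hg ht hM j

/-- mixed bound: `i` derivatives fall on `g`, `j` on the kernel. -/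
theorem norm_iteratedFDeriv_S_le' (ht : 0 < t) (i j : ℕ) {F : Type u} [NormedAddCommGroup F]
    [NormedSpace ℝ F] [CompleteSpace F] {g : V → F} (hg : ContDiff ℝ i g) {x : V} {M : ℝ}
    (hM : ∀ z ∈ closedBall x t, ‖iteratedFDeriv ℝ i g z‖ ≤ M) :
    ‖iteratedFDeriv ℝ (i + j) (S t g) x‖ ≤ cR V j * (t⁻¹) ^ j * M := by
  induction i generalizing F g with
  | zero =>
    rw [Nat.zero_add]
    exact norm_iteratedFDeriv_S_le ht hg.continuous (fun z hz => by simpa using hM z hz) j
  | succ i ih =>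
    have h1 : i + 1 + j = (i + j) + 1 := by omega
    have hg1 : ContDiff ℝ 1 g := hg.of_le (by norm_cast; omega)
    rw [h1, ← norm_iteratedFDeriv_fderiv, fderiv_S hg1]
    apply ih
    · exact hg.fderiv_right (m := i) (by norm_cast)
    · intro z hz
      rw [norm_iteratedFDeriv_fderiv]
      exact hM z hz

theorem S_congr {h : V → F} (ht : 0 ≤ t) {x : V} (hgh : ∀ z ∈ closedBall x t, g z = h z) :
    S t g x = S t h x := by
  unfold S T
  congr 1
  ext y
  by_cases hy : 1 < ‖y‖
  · simp [isKer_rho.supp y hy]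
  · rw [hgh]
    push Not at hy
    simp only [mem_closedBall, dist_eq_norm]
    have : x - t • y - x = -(t • y) := by abel
    rw [this, norm_neg, norm_smul, Real.norm_of_nonneg ht]
    nlinarith

end S

/-! ### `R` and its iterates -/

section R
variable {t : ℝ}

theorem Rn_zero (g : V → F) : Rn 0 t g = g := rfl

theorem Rn_succ (K : ℕ) (g : V → F) : Rn (K + 1) t g = R t (Rn K t g) := by
  unfold Rn; rw [Function.iterate_succ_apply']

theorem contDiff_R {n : WithTop ℕ∞} (hn : n ≤ ∞) (ht : t ≠ 0) {g : V → F}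
    (hg : ContDiff ℝ n g) : ContDiff ℝ n (R t g) :=
  hg.sub (contDiff_S_of hn ht hg)

theorem contDiff_Rn {n : WithTop ℕ∞} (hn : n ≤ ∞) (ht : t ≠ 0) (K : ℕ) {g : V → F}
    (hg : ContDiff ℝ n g) : ContDiff ℝ n (Rn K t g) := by
  induction K with
  | zero => simpa [Rn_zero] using hg
  | succ K ih => rw [Rn_succ]; exact contDiff_R hn ht ih

theorem contDiff_P {n : WithTop ℕ∞} (hn : n ≤ ∞) (ht : t ≠ 0) (K : ℕ) {g : V → F}
    (hg : ContDiff ℝ n g) : ContDiff ℝ n (P K t g) :=
  hg.sub (contDiff_Rn hn ht K hg)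

theorem fderiv_R (ht : t ≠ 0) {g : V → F} (hg : ContDiff ℝ 1 g) :
    fderiv ℝ (R t g) = R t (fderiv ℝ g) := by
  ext1 x
  have h1 : DifferentiableAt ℝ g x := hg.differentiable (by simp) x
  have h2 : DifferentiableAt ℝ (S t g) x :=
    (contDiff_S ht hg.continuous).differentiable (by simp) x
  change fderiv ℝ (fun x => g x - S t g x) x = _
  rw [fderiv_fun_sub h1 h2, fderiv_S hg]
  rfl

theorem fderiv_Rn (ht : t ≠ 0) (K : ℕ) {g : V → F} (hg : ContDiff ℝ 1 g) :
    fderiv ℝ (Rn K t g) = Rn K t (fderiv ℝ g) := by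
  induction K with
  | zero => rfl
  | succ K ih =>
    rw [Rn_succ, fderiv_R ht (contDiff_Rn (by exact_mod_cast le_top) ht K hg), ih, Rn_succ]

theorem fderiv_P (ht : t ≠ 0) (K : ℕ) {g : V → F} (hg : ContDiff ℝ 1 g) :
    fderiv ℝ (P K t g) = P K t (fderiv ℝ g) := by
  ext1 x
  have h1 : DifferentiableAt ℝ g x := hg.differentiable (by simp) x
  have h2 : DifferentiableAt ℝ (Rn K t g) x :=
    (contDiff_Rn (by exact_mod_cast le_top) ht K hg).differentiable (by simp) x
  change fderiv ℝ (fun x => g x - Rn K t g x) x = _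
  rw [fderiv_fun_sub h1 h2, fderiv_Rn ht K hg]
  rfl

theorem iteratedFDeriv_R (ht : t ≠ 0) (j : ℕ) {g : V → F} (hg : ContDiff ℝ j g) :
    iteratedFDeriv ℝ j (R t g) = R t (iteratedFDeriv ℝ j g) := by
  ext1 x
  have h : R t g = g - S t g := rfl
  have h2 : ContDiffAt ℝ j (S t g) x := (contDiff_S_nat ht hg).contDiffAt
  rw [h, iteratedFDeriv_sub_apply hg.contDiffAt h2, iteratedFDeriv_S j hg]
  rfl

/-- compatibility with continuous linear maps -/
theorem R_clm {G : Type u} [NormedAddCommGroup G] [NormedSpace ℝ G] [CompleteSpace G] {g : V → F}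
    (hg : Continuous g) (L : F →L[ℝ] G) :
    R t (fun z => L (g z)) = fun x => L (R t g x) := by
  ext x
  simp only [R, map_sub]
  congr 1
  exact S_clm hg L x

theorem Rn_clm {G : Type u} [NormedAddCommGroup G] [NormedSpace ℝ G] [CompleteSpace G]
    (ht : t ≠ 0) (K : ℕ) {g : V → F} (hg : Continuous g) (L : F →L[ℝ] G) :
    Rn K t (fun z => L (g z)) = fun x => L (Rn K t g x) := by
  induction K with
  | zero => rfl
  | succ K ih =>
    rw [Rn_succ, ih, R_clm (contDiff_zero.1 (contDiff_Rn (by simp) ht K (contDiff_zero.2 hg))),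
      Rn_succ]

theorem P_clm {G : Type u} [NormedAddCommGroup G] [NormedSpace ℝ G] [CompleteSpace G]
    (ht : t ≠ 0) (K : ℕ) {g : V → F} (hg : Continuous g) (L : F →L[ℝ] G) :
    P K t (fun z => L (g z)) = fun x => L (P K t g x) := by
  ext x
  simp only [P, map_sub, Rn_clm ht K hg L]

/-- directional derivatives commute with `P`. -/
theorem fderiv_P_apply (ht : t ≠ 0) (K : ℕ) {g : V → F} (hg : ContDiff ℝ 1 g) (x v : V) :
    fderiv ℝ (P K t g) x v = P K t (fun z => fderiv ℝ g z v) x := by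
  rw [fderiv_P ht K hg]
  have := P_clm ht K (hg.continuous_fderiv (by simp)) (ContinuousLinearMap.apply ℝ F v)
  exact (congrFun this x).symm

theorem fderiv_Rn_apply (ht : t ≠ 0) (K : ℕ) {g : V → F} (hg : ContDiff ℝ 1 g) (x v : V) :
    fderiv ℝ (Rn K t g) x v = Rn K t (fun z => fderiv ℝ g z v) x := by
  rw [fderiv_Rn ht K hg]
  have := Rn_clm ht K (hg.continuous_fderiv (by simp)) (ContinuousLinearMap.apply ℝ F v)
  exact (congrFun this x).symm

omit [FiniteDimensional ℝ V] [MeasureSpace V] [BorelSpace V]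
  [(volume : Measure V).IsAddHaarMeasure] in
theorem closedBall_step {x z : V} {t : ℝ} {K : ℕ} (hz : z ∈ closedBall x t) :
    closedBall z (K * t) ⊆ closedBall x ((K + 1 : ℕ) * t) := by
  intro w hw
  simp only [mem_closedBall] at *
  push_cast
  have := dist_triangle w z x
  linarith

/-- crude sup bound for `(1-S)^K`. -/
theorem norm_Rn_le (ht : 0 ≤ t) (K : ℕ) {g : V → F} {x : V} {M : ℝ}
    (hM : ∀ z ∈ closedBall x (K * t), ‖g z‖ ≤ M) : ‖Rn K t g x‖ ≤ 2 ^ K * M := by
  induction K generalizing x with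
  | zero => simpa [Rn_zero] using hM x (by simp)
  | succ K ih =>
    rw [Rn_succ]
    have h1 : ∀ z ∈ closedBall x t, ‖Rn K t g z‖ ≤ 2 ^ K * M := fun z hz =>
      ih (fun w hw => hM w (closedBall_step hz hw))
    have h2 : ‖S t (Rn K t g) x‖ ≤ 2 ^ K * M := norm_S_le ht h1
    have h3 := h1 x (mem_closedBall_self ht)
    calc ‖R t (Rn K t g) x‖ ≤ ‖Rn K t g x‖ + ‖S t (Rn K t g) x‖ := norm_sub_le _ _
      _ ≤ 2 ^ (K + 1) * M := by rw [pow_succ]; linarith

/-- derivatives: crude bound for `(1-S)^K`. -/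
theorem norm_iteratedFDeriv_Rn_le_crude (ht : 0 < t) (i K : ℕ) {g : V → F} (hg : ContDiff ℝ i g)
    {x : V} {M : ℝ} (hM : ∀ z ∈ closedBall x (K * t), ‖iteratedFDeriv ℝ i g z‖ ≤ M) :
    ‖iteratedFDeriv ℝ i (Rn K t g) x‖ ≤ 2 ^ K * M := by
  have h : ∀ K : ℕ, iteratedFDeriv ℝ i (Rn K t g) = Rn K t (iteratedFDeriv ℝ i g) := by
    intro K
    induction K with
    | zero => rfl
    | succ K ih =>
      rw [Rn_succ, iteratedFDeriv_R ht.ne' i
        (contDiff_Rn (by exact_mod_cast le_top) ht.ne' K hg), ih, Rn_succ]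
  rw [h K]
  exact norm_Rn_le ht.le K hM

/-- the gain: `(1-S)^K` costs `K` derivatives and gains `t^K`. -/
theorem norm_iteratedFDeriv_Rn_le (ht : 0 < t) (i K : ℕ) {g : V → F}
    (hg : ContDiff ℝ (i + K : ℕ) g) {x : V} {M : ℝ}
    (hM : ∀ z ∈ closedBall x (K * t), ‖iteratedFDeriv ℝ (i + K) g z‖ ≤ M) :
    ‖iteratedFDeriv ℝ i (Rn K t g) x‖ ≤ t ^ K * M := by
  induction K generalizing i x with
  | zero => simpa [Rn_zero] using hM x (by simp)
  | succ K ih =>
    have hgn : ContDiff ℝ ((i + 1) + K : ℕ) g := by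
      convert hg using 2; norm_cast; omega
    have hRK : ContDiff ℝ ((i + 1 : ℕ)) (Rn K t g) :=
      contDiff_Rn (by exact_mod_cast le_top) ht.ne' K (hgn.of_le (by norm_cast; omega))
    have h1 : ∀ z ∈ closedBall x t, ‖fderiv ℝ (iteratedFDeriv ℝ i (Rn K t g)) z‖ ≤ t ^ K * M := by
      intro z hz
      rw [norm_fderiv_iteratedFDeriv]
      apply ih (i + 1) hgn
      intro w hw
      have e : i + 1 + K = i + (K + 1) := by omega
      rw [e]
      exact hM w (closedBall_step hz hw)
    rw [Rn_succ, iteratedFDeriv_R ht.ne' i (hRK.of_le (by norm_cast; omega))]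
    have h2 : Differentiable ℝ (iteratedFDeriv ℝ i (Rn K t g)) :=
      (hRK.iteratedFDeriv_right (m := 1) (i := i) (by norm_cast; omega)).differentiable (by simp)
    refine (norm_sub_S_le ht.le h2 h1).trans (le_of_eq ?_)
    rw [pow_succ]; ring

/-- constants for `P K` -/
noncomputable def cP (V : Type u) [NormedAddCommGroup V] [NormedSpace ℝ V] [FiniteDimensional ℝ V]
    [MeasureSpace V] (K j : ℕ) : ℝ := 2 ^ K * cR V j

omit [BorelSpace V] [(volume : Measure V).IsAddHaarMeasure] in
theorem cP_nonneg (K j : ℕ) : 0 ≤ cP V K j := mul_nonneg (by positivity) (cR_nonneg _)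

theorem P_zero (g : V → F) : P 0 t g = fun _ => 0 := by
  ext x; simp [P, Rn_zero]

theorem P_succ (K : ℕ) (g : V → F) : P (K + 1) t g = fun x => P K t g x + S t (Rn K t g) x := by
  ext x
  simp only [P, Rn_succ, R]
  abel

/-- Main smoothing estimate: `|D^{i+j} P g| ≤ C t^{-j} sup |D^i g|`. -/
theorem norm_iteratedFDeriv_P_le (ht : 0 < t) (K i j : ℕ) {g : V → F} (hg : ContDiff ℝ i g)
    {x : V} {M : ℝ} (hM : ∀ z ∈ closedBall x (K * t), ‖iteratedFDeriv ℝ i g z‖ ≤ M) :
    ‖iteratedFDeriv ℝ (i + j) (P K t g) x‖ ≤ cP V K j * (t⁻¹) ^ j * M := by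
  have hM0 : 0 ≤ M := (norm_nonneg _).trans (hM x (mem_closedBall_self (by positivity)))
  -- stronger: sum_{k<K} 2^k
  have key : ∀ K : ℕ, (∀ z ∈ closedBall x (K * t), ‖iteratedFDeriv ℝ i g z‖ ≤ M) →
      ContDiff ℝ ∞ (P K t g) ∧
      ‖iteratedFDeriv ℝ (i + j) (P K t g) x‖ ≤ (2 ^ K - 1) * (cR V j * (t⁻¹) ^ j * M) := by
    intro K
    induction K with
    | zero =>
      intro _
      rw [P_zero]
      refine ⟨contDiff_const, ?_⟩
      have : iteratedFDeriv ℝ (i + j) (fun _ : V => (0 : F)) x = 0 := by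
        simp
      rw [this]; simp
    | succ K ih =>
      intro hMK
      have hsub : closedBall x (K * t) ⊆ closedBall x ((K + 1 : ℕ) * t) := by
        apply closedBall_subset_closedBall; push_cast; nlinarith
      obtain ⟨h1, h2⟩ := ih (fun z hz => hMK z (hsub hz))
      have hR : ContDiff ℝ i (Rn K t g) := contDiff_Rn (by exact_mod_cast le_top) ht.ne' K hg
      have h3 : ContDiff ℝ ∞ (S t (Rn K t g)) := contDiff_S ht.ne' hR.continuous
      have h4 : ‖iteratedFDeriv ℝ (i + j) (S t (Rn K t g)) x‖ ≤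
          cR V j * (t⁻¹) ^ j * (2 ^ K * M) := by
        apply norm_iteratedFDeriv_S_le' ht i j hR
        intro z hz
        exact norm_iteratedFDeriv_Rn_le_crude ht i K hg
          (fun w hw => hMK w (closedBall_step hz hw))
      rw [P_succ]
      refine ⟨h1.add h3, ?_⟩
      have h5 : iteratedFDeriv ℝ (i + j) (fun x => P K t g x + S t (Rn K t g) x) x =
          iteratedFDeriv ℝ (i + j) (P K t g) x + iteratedFDeriv ℝ (i + j) (S t (Rn K t g)) x := by
        have := iteratedFDeriv_add_apply (𝕜 := ℝ) (i := i + j) (x := x)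
          (h1.of_le (by exact_mod_cast le_top)).contDiffAt
          (h3.of_le (by exact_mod_cast le_top)).contDiffAt
        exact this
      rw [h5]
      calc ‖iteratedFDeriv ℝ (i + j) (P K t g) x + iteratedFDeriv ℝ (i + j) (S t (Rn K t g)) x‖
          ≤ _ := norm_add_le _ _
        _ ≤ (2 ^ K - 1) * (cR V j * (t⁻¹) ^ j * M) + cR V j * (t⁻¹) ^ j * (2 ^ K * M) :=
          add_le_add h2 h4
        _ = (2 ^ (K + 1) - 1) * (cR V j * (t⁻¹) ^ j * M) := by rw [pow_succ]; ring
  refine (key K hM).2.trans ?_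
  have h0 : 0 ≤ cR V j * (t⁻¹) ^ j * M := by
    have := cR_nonneg (V := V) j
    positivity
  unfold cP
  calc (2 ^ K - 1) * (cR V j * (t⁻¹) ^ j * M) ≤ 2 ^ K * (cR V j * (t⁻¹) ^ j * M) := by
        apply mul_le_mul_of_nonneg_right _ h0; linarith
    _ = _ := by ring

/-- `P K t g` is smooth as soon as `g` is continuous. -/
theorem contDiff_P_top (ht : 0 < t) (K : ℕ) {g : V → F} (hg : Continuous g) :
    ContDiff ℝ ∞ (P K t g) := by
  induction K with
  | zero => rw [P_zero]; exact contDiff_const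
  | succ K ih =>
    rw [P_succ]
    have hR : Continuous (Rn K t g) :=
      contDiff_zero.1 (contDiff_Rn (by simp) ht.ne' K (contDiff_zero.2 hg))
    exact ih.add (contDiff_S ht.ne' hR)

/-- locality -/
theorem Rn_congr (ht : 0 ≤ t) (K : ℕ) {g h : V → F} {x : V}
    (hgh : ∀ z ∈ closedBall x (K * t), g z = h z) : Rn K t g x = Rn K t h x := by
  induction K generalizing x with
  | zero => simpa [Rn_zero] using hgh x (by simp)
  | succ K ih =>
    have h1 : ∀ z ∈ closedBall x t, Rn K t g z = Rn K t h z := fun z hz =>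
      ih (fun w hw => hgh w (closedBall_step hz hw))
    rw [Rn_succ, Rn_succ]
    simp only [R]
    rw [h1 x (mem_closedBall_self ht), S_congr ht h1]

theorem P_congr (ht : 0 ≤ t) (K : ℕ) {g h : V → F} {x : V}
    (hgh : ∀ z ∈ closedBall x (K * t), g z = h z) : P K t g x = P K t h x := by
  simp only [P]
  rw [Rn_congr ht K hgh, hgh x (mem_closedBall_self (by positivity))]

theorem P_congr_near (ht : 0 ≤ t) (K : ℕ) {g h : V → F} {x : V} {r : ℝ} (hr : K * t < r)
    (hgh : ∀ z ∈ closedBall x r, g z = h z) : P K t g =ᶠ[nhds x] P K t h := by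
  have hb : ball x (r - K * t) ∈ nhds x := ball_mem_nhds x (by linarith)
  filter_upwards [hb] with z hz
  apply P_congr ht K
  intro w hw
  apply hgh
  simp only [mem_closedBall, mem_ball] at *
  have := dist_triangle w z x
  linarith

theorem Rn_congr_near (ht : 0 ≤ t) (K : ℕ) {g h : V → F} {x : V} {r : ℝ} (hr : K * t < r)
    (hgh : ∀ z ∈ closedBall x r, g z = h z) : Rn K t g =ᶠ[nhds x] Rn K t h := by
  have hb : ball x (r - K * t) ∈ nhds x := ball_mem_nhds x (by linarith)
  filter_upwards [hb] with z hz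
  apply Rn_congr ht K
  intro w hw
  apply hgh
  simp only [mem_closedBall, mem_ball] at *
  have := dist_triangle w z x
  linarith

end R

end Crest.Agent.R216.Smooth
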