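import Crest.Agent.R216.EngDefs
import Crest.Agent.R216.SmoothP

/-!
# Row 216, Theorem E, STAGE: conversions between `iteratedFDeriv` bounds and the classes `B(w)`.
* `B_of_iterated` : bounds of `iteratedFDeriv` give `B(w)`;
* `ev` : evaluation of a function on `Q` along `t = x₁/ε + t₀`, derivative bounds;
* `B_P` : smoothed data are in `B(1)`.
-/

set_option linter.unusedSectionVars false

open Set Topology MeasureTheory Metric
open scoped ContDiff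

namespace Crest.Agent.R216.TE

section basic
variable {E : Type*} [NormedAddCommGroup E] [NormedSpace ℝ E]
variable {V : Type*} [NormedAddCommGroup V] [NormedSpace ℝ V]

lemma norm_iter_fderiv_apply {f : E → V} {x : E} (hf : ContDiffAt ℝ ∞ f x) (n : ℕ) (v : E) :
    ‖iteratedFDeriv ℝ n (fun y => fderiv ℝ f y v) x‖ ≤ ‖v‖ * ‖iteratedFDeriv ℝ (n+1) f x‖ := by
  have h1 : ContDiffAt ℝ ∞ (fderiv ℝ f) x := hf.fderiv_right (by simp)
  have h2 := (ContinuousLinearMap.apply ℝ V v).norm_iteratedFDeriv_comp_left h1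
    (n := n) (by exact_mod_cast le_top)
  rw [norm_iteratedFDeriv_fderiv] at h2
  refine (le_of_eq ?_).trans (h2.trans ?_)
  · rfl
  · gcongr
    refine ContinuousLinearMap.opNorm_le_bound _ (norm_nonneg _) (fun L => ?_)
    simpa [mul_comm] using L.le_opNorm v

end basic

lemma norm_bas (j : Fin 3) : ‖bas j‖ ≤ 1 := by
  fin_cases j <;> simp [bas, Prod.norm_def]

namespace Fam
variable {𝓕 : Fam} {V : Type*} [NormedAddCommGroup V] [NormedSpace ℝ V]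

lemma Bk_of_iterated (k : ℕ) : ∀ {w : 𝓕.I → X2 → ℝ} {u : 𝓕.I → Q → V}, 𝓕.Sm u →
    (∀ j ≤ k, ∃ C, 0 < C ∧ ∀ i, ∀ z ∈ 𝓕.dom i,
      ‖iteratedFDeriv ℝ j (u i) z‖ ≤ C * (𝓕.Lam i ^ j * w i z.1)) → 𝓕.Bk k w u := by
  induction k with
  | zero =>
    intro w u hs h
    obtain ⟨C, hC, h⟩ := h 0 le_rfl
    exact ⟨C, hC, fun i z hz => by simpa using h i z hz⟩
  | succ k ih =>
    intro w u hs h
    refine ⟨?_, fun j => ih (hs.pd j) (fun n hn => ?_)⟩
    · obtain ⟨C, hC, h⟩ := h 0 (by omega)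
      exact ⟨C, hC, fun i z hz => by simpa using h i z hz⟩
    · obtain ⟨C, hC, h⟩ := h (n+1) (by omega)
      refine ⟨C, hC, fun i z hz => ?_⟩
      have h1 : ContDiffAt ℝ ∞ (u i) z := (hs i).contDiffAt ((𝓕.isOpen_dom i).mem_nhds hz)
      have h2 := norm_iter_fderiv_apply h1 n (bas j)
      have h3 := h i z hz
      have h4 : ‖bas j‖ * ‖iteratedFDeriv ℝ (n+1) (u i) z‖ ≤ ‖iteratedFDeriv ℝ (n+1) (u i) z‖ :=
        mul_le_of_le_one_left (norm_nonneg _) (norm_bas j)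
      calc _ ≤ _ := h2
        _ ≤ _ := h4
        _ ≤ _ := h3
        _ = _ := by ring

/-- (C1) -/
lemma B_of_iterated {w : 𝓕.I → X2 → ℝ} {u : 𝓕.I → Q → V} (hs : 𝓕.Sm u)
    (h : ∀ j : ℕ, ∃ C, 0 < C ∧ ∀ i, ∀ z ∈ 𝓕.dom i,
      ‖iteratedFDeriv ℝ j (u i) z‖ ≤ C * (𝓕.Lam i ^ j * w i z.1)) : 𝓕.B w u :=
  ⟨hs, fun k => Bk_of_iterated k hs (fun j _ => h j)⟩

lemma norm_iter_lift {v : X2 → V} {z : Q} (hv : ContDiff ℝ ∞ v) (j : ℕ) :
    ‖iteratedFDeriv ℝ j (lift v) z‖ ≤ ‖iteratedFDeriv ℝ j v z.1‖ := by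
  have h := (ContinuousLinearMap.fst ℝ X2 ℝ).iteratedFDeriv_comp_right (f := v) hv z
    (i := j) (by exact_mod_cast le_top)
  have e : lift v = v ∘ (ContinuousLinearMap.fst ℝ X2 ℝ) := rfl
  rw [e, h]
  refine (ContinuousMultilinearMap.norm_compContinuousLinearMap_le _ _).trans ?_
  have : ∏ _i : Fin j, ‖ContinuousLinearMap.fst ℝ X2 ℝ‖ ≤ 1 := by
    apply Finset.prod_le_one
    · intro i _; exact norm_nonneg _
    · intro i _; exact ContinuousLinearMap.norm_fst_le ℝ X2 ℝ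
  exact mul_le_of_le_one_right (norm_nonneg _) this

/-- (C1) for functions of `x` -/
lemma B_lift_of_iterated {w : 𝓕.I → X2 → ℝ} {v : 𝓕.I → X2 → V} (hs : ∀ i, ContDiff ℝ ∞ (v i))
    (h : ∀ j : ℕ, ∃ C, 0 < C ∧ ∀ i, ∀ x ∈ 𝓕.D i,
      ‖iteratedFDeriv ℝ j (v i) x‖ ≤ C * (𝓕.Lam i ^ j * w i x)) :
    𝓕.B w (fun i => lift (v i)) := by
  refine B_of_iterated (fun i => ?_) (fun j => ?_)
  · exact ((hs i).comp contDiff_fst).contDiffOn
  · obtain ⟨C, hC, h⟩ := h j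
    exact ⟨C, hC, fun i z hz => (norm_iter_lift (hs i) j).trans (h i z.1 hz)⟩

end Fam

/-! ### evaluation at `t = x₁/ε + t₀` -/

/-- the curve `x ↦ (x, x₁ μ + t₀)` -/
def evm (μ t0 : ℝ) (x : X2) : Q := (x, x.1 * μ + t0)

/-- evaluation -/
def ev {V : Type*} (μ t0 : ℝ) (U : Q → V) : X2 → V := fun x => U (evm μ t0 x)

lemma contDiff_evm (μ t0 : ℝ) : ContDiff ℝ ∞ (evm μ t0) := by
  unfold evm; fun_prop

section ev
variable {V : Type*} [NormedAddCommGroup V] [NormedSpace ℝ V]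

lemma hasFDerivAt_evm (μ t0 : ℝ) (x : X2) : HasFDerivAt (evm μ t0)
    ((ContinuousLinearMap.id ℝ X2).prod (μ • ContinuousLinearMap.fst ℝ ℝ ℝ)) x := by
  have h1 : HasFDerivAt (fun x : X2 => x.1 * μ + t0) (μ • ContinuousLinearMap.fst ℝ ℝ ℝ) x := by
    have := ((hasFDerivAt_fst (𝕜 := ℝ) (E := ℝ) (F := ℝ) (p := x)).mul_const μ).add_const t0
    exact this
  exact (hasFDerivAt_id x).prodMk h1

lemma d1_ev {U : Q → V} {μ t0 : ℝ} {x : X2} (hU : DifferentiableAt ℝ U (evm μ t0 x)) :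
    d1 (ev μ t0 U) x = pd 0 U (evm μ t0 x) + μ • pd 2 U (evm μ t0 x) := by
  have h := (hU.hasFDerivAt.comp x (hasFDerivAt_evm μ t0 x)).fderiv
  have e : ev μ t0 U = U ∘ evm μ t0 := rfl
  unfold d1 pd
  rw [e, h]
  simp only [ContinuousLinearMap.comp_apply, ContinuousLinearMap.prod_apply,
    ContinuousLinearMap.id_apply, _root_.smul_apply, ContinuousLinearMap.coe_fst',
    smul_eq_mul, mul_one]
  have : (((1, 0), μ) : Q) = bas 0 + μ • bas 2 := by simp [bas]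
  rw [this, map_add, map_smul]

lemma d2_ev {U : Q → V} {μ t0 : ℝ} {x : X2} (hU : DifferentiableAt ℝ U (evm μ t0 x)) :
    d2 (ev μ t0 U) x = pd 1 U (evm μ t0 x) := by
  have h := (hU.hasFDerivAt.comp x (hasFDerivAt_evm μ t0 x)).fderiv
  have e : ev μ t0 U = U ∘ evm μ t0 := rfl
  unfold d2 pd
  rw [e, h]
  simp only [ContinuousLinearMap.comp_apply, ContinuousLinearMap.prod_apply,
    ContinuousLinearMap.id_apply, _root_.smul_apply, ContinuousLinearMap.coe_fst',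
    smul_eq_mul, mul_zero]
  have : (((0, 1), (0:ℝ)) : Q) = bas 1 := by simp [bas]
  rw [this]

/-- `fderiv` from the two partial derivatives -/
lemma fderiv_eq_d (g : X2 → V) (x : X2) : fderiv ℝ g x =
    (ContinuousLinearMap.smulRightL ℝ X2 V (ContinuousLinearMap.fst ℝ ℝ ℝ)) (d1 g x) +
    (ContinuousLinearMap.smulRightL ℝ X2 V (ContinuousLinearMap.snd ℝ ℝ ℝ)) (d2 g x) := by
  ext v
  · simp [d1]
  · simp [d2]

lemma norm_iter_succ_le {g : X2 → V} {s : Set X2} (hs : IsOpen s) (hg : ContDiffOn ℝ ∞ g s)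
    {x : X2} (hx : x ∈ s) (n : ℕ) :
    ‖iteratedFDeriv ℝ (n+1) g x‖ ≤
      ‖iteratedFDeriv ℝ n (d1 g) x‖ + ‖iteratedFDeriv ℝ n (d2 g) x‖ := by
  have hgx : ContDiffAt ℝ ∞ g x := hg.contDiffAt (hs.mem_nhds hx)
  have h1 : ContDiffAt ℝ ∞ (fderiv ℝ g) x := hgx.fderiv_right (by simp)
  have hd1 : ContDiffAt ℝ ∞ (d1 g) x := h1.clm_apply contDiffAt_const
  have hd2 : ContDiffAt ℝ ∞ (d2 g) x := h1.clm_apply contDiffAt_const
  rw [← norm_iteratedFDeriv_fderiv]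
  have e : fderiv ℝ g = (⇑(ContinuousLinearMap.smulRightL ℝ X2 V
      (ContinuousLinearMap.fst ℝ ℝ ℝ)) ∘ (d1 g)) +
      (⇑(ContinuousLinearMap.smulRightL ℝ X2 V (ContinuousLinearMap.snd ℝ ℝ ℝ)) ∘
        (d2 g)) := by
    funext y; exact fderiv_eq_d g y
  rw [e, iteratedFDeriv_add_apply
    (((ContinuousLinearMap.contDiff _).contDiffAt.comp x hd1).of_le (by exact_mod_cast le_top))
    (((ContinuousLinearMap.contDiff _).contDiffAt.comp x hd2).of_le (by exact_mod_cast le_top))]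
  refine (norm_add_le _ _).trans (add_le_add ?_ ?_)
  · have := (ContinuousLinearMap.smulRightL ℝ X2 V
      (ContinuousLinearMap.fst ℝ ℝ ℝ)).norm_iteratedFDeriv_comp_left hd1
      (n := n) (by exact_mod_cast le_top)
    refine this.trans (mul_le_of_le_one_left (norm_nonneg _) ?_)
    refine ContinuousLinearMap.opNorm_le_bound _ zero_le_one (fun v => ?_)
    have h : ‖ContinuousLinearMap.smulRightL ℝ X2 V (ContinuousLinearMap.fst ℝ ℝ ℝ) v‖ =
      ‖ContinuousLinearMap.fst ℝ ℝ ℝ‖ * ‖v‖ := ContinuousLinearMap.norm_smulRight_apply _ _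
    rw [h, one_mul]
    exact mul_le_of_le_one_left (norm_nonneg _) (ContinuousLinearMap.norm_fst_le ℝ ℝ ℝ)
  · have := (ContinuousLinearMap.smulRightL ℝ X2 V
      (ContinuousLinearMap.snd ℝ ℝ ℝ)).norm_iteratedFDeriv_comp_left hd2
      (n := n) (by exact_mod_cast le_top)
    refine this.trans (mul_le_of_le_one_left (norm_nonneg _) ?_)
    refine ContinuousLinearMap.opNorm_le_bound _ zero_le_one (fun v => ?_)
    have h : ‖ContinuousLinearMap.smulRightL ℝ X2 V (ContinuousLinearMap.snd ℝ ℝ ℝ) v‖ =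
      ‖ContinuousLinearMap.snd ℝ ℝ ℝ‖ * ‖v‖ := ContinuousLinearMap.norm_smulRight_apply _ _
    rw [h, one_mul]
    exact mul_le_of_le_one_left (norm_nonneg _) (ContinuousLinearMap.norm_snd_le ℝ ℝ ℝ)

end ev

namespace Fam
variable {𝓕 : Fam} {V : Type*} [NormedAddCommGroup V] [NormedSpace ℝ V]

/-- (C2) -/
lemma ev_iterated (μ : 𝓕.I → ℝ) (t0 : 𝓕.I → ℝ) (hμ : ∀ i, 1 ≤ μ i) (j : ℕ) :
    ∀ {w : 𝓕.I → X2 → ℝ} {U : 𝓕.I → Q → V}, 𝓕.B w U → (∀ i, ∀ x ∈ 𝓕.D i, 0 ≤ w i x) →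
    ∃ C, 0 < C ∧ ∀ i, ∀ x ∈ 𝓕.D i,
      ‖iteratedFDeriv ℝ j (ev (μ i) (t0 i) (U i)) x‖ ≤ C * ((𝓕.Lam i * μ i) ^ j * w i x) := by
  induction j with
  | zero =>
    intro w U hU hw
    obtain ⟨C, hC, h⟩ := hU.sz
    exact ⟨C, hC, fun i x hx => by
      rw [norm_iteratedFDeriv_zero, pow_zero, one_mul]
      exact h i (evm (μ i) (t0 i) x) hx⟩
  | succ j ih =>
    intro w U hU hw
    have hw' : ∀ i, ∀ x ∈ 𝓕.D i, 0 ≤ 𝓕.Lam i * μ i * w i x := fun i x hx =>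
      mul_nonneg (mul_nonneg (Lam_pos i).le (zero_le_one.trans (hμ i))) (hw i x hx)
    have hA : 𝓕.B (fun i x => 𝓕.Lam i * μ i * w i x)
        (fun i z => Crest.Agent.R216.TE.pd 0 (U i) z + μ i • Crest.Agent.R216.TE.pd 2 (U i) z) := by
      have h0 := (hU.pd 0).le (w' := fun i x => 𝓕.Lam i * μ i * w i x) (fun i x hx => by
        have := mul_nonneg (Lam_pos i).le (hw i x hx)
        nlinarith [hμ i])
      have h2 : 𝓕.B (fun i x => |μ i| * (𝓕.Lam i * w i x))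
          (fun i z => μ i • Crest.Agent.R216.TE.pd 2 (U i) z) :=
        (hU.pd 2).smul_const μ (fun i x hx => mul_nonneg (Lam_pos i).le (hw i x hx))
      refine h0.add (h2.weight_congr (fun i x hx => ?_))
      rw [abs_of_nonneg (zero_le_one.trans (hμ i))]; ring
    have hB : 𝓕.B (fun i x => 𝓕.Lam i * μ i * w i x) (fun i => Crest.Agent.R216.TE.pd 1 (U i)) :=
      (hU.pd 1).le (fun i x hx => by
        have := mul_nonneg (Lam_pos i).le (hw i x hx)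
        nlinarith [hμ i])
    obtain ⟨C1, hC1, h1⟩ := ih hA hw'
    obtain ⟨C2, hC2, h2⟩ := ih hB hw'
    refine ⟨C1 + C2, by positivity, fun i x hx => ?_⟩
    have hsm : ContDiffOn ℝ ∞ (ev (μ i) (t0 i) (U i)) (𝓕.D i) :=
      (hU.smooth i).comp (contDiff_evm _ _).contDiffOn (fun y hy => hy)
    have hdiff : ∀ y ∈ 𝓕.D i, DifferentiableAt ℝ (U i) (evm (μ i) (t0 i) y) := fun y hy =>
      diffAt (𝓕.isOpen_dom i) (hU.smooth i) hy
    have e1 : d1 (ev (μ i) (t0 i) (U i)) =ᶠ[𝓝 x] ev (μ i) (t0 i)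
        (fun z => Crest.Agent.R216.TE.pd 0 (U i) z + μ i • Crest.Agent.R216.TE.pd 2 (U i) z) := by
      filter_upwards [(𝓕.isOpen i).mem_nhds hx] with y hy
      exact d1_ev (hdiff y hy)
    have e2 : d2 (ev (μ i) (t0 i) (U i)) =ᶠ[𝓝 x] ev (μ i) (t0 i)
        (Crest.Agent.R216.TE.pd 1 (U i)) := by
      filter_upwards [(𝓕.isOpen i).mem_nhds hx] with y hy
      exact d2_ev (hdiff y hy)
    refine (norm_iter_succ_le (𝓕.isOpen i) hsm hx j).trans ?_
    rw [(e1.iteratedFDeriv (𝕜 := ℝ) j).eq_of_nhds, (e2.iteratedFDeriv (𝕜 := ℝ) j).eq_of_nhds]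
    have h1' := h1 i x hx
    have h2' := h2 i x hx
    calc _ ≤ _ := add_le_add h1' h2'
      _ = _ := by ring

end Fam

/-! ### smoothed data -/
namespace Fam
variable {𝓕 : Fam} {V : Type} [NormedAddCommGroup V] [NormedSpace ℝ V] [CompleteSpace V]

open Smooth in
/-- (C3) -/
lemma B_P (K : ℕ) (g : 𝓕.I → X2 → V) (hg : ∀ i, Continuous (g i)) (w : 𝓕.I → ℝ)
    (h : ∃ C, 0 < C ∧ ∀ i, ∀ x ∈ 𝓕.D i, ∀ z ∈ closedBall x (K * (𝓕.Lam i)⁻¹),
      ‖g i z‖ ≤ C * w i) :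
    𝓕.B (fun i _ => w i) (fun i => lift (P K (𝓕.Lam i)⁻¹ (g i))) := by
  obtain ⟨C, hC, h⟩ := h
  refine B_lift_of_iterated (fun i => contDiff_P_top (inv_pos.2 (Lam_pos i)) K (hg i))
    (fun j => ?_)
  refine ⟨(cP X2 K j + 1) * C, by have := cP_nonneg (V := X2) K j; positivity,
    fun i x hx => ?_⟩
  have hL := Lam_pos (𝓕 := 𝓕) i
  have h0 := norm_iteratedFDeriv_P_le (inv_pos.2 hL) K 0 j
    (g := g i) (contDiff_zero.2 (hg i)) (x := x) (M := C * w i) (fun z hz => by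
      simpa using h i x hx z hz)
  have h1 : 0 ≤ C * w i := (norm_nonneg _).trans (h i x hx x (mem_closedBall_self (by positivity)))
  have hcp := cP_nonneg (V := X2) K j
  rw [zero_add] at h0
  refine h0.trans ?_
  rw [inv_inv]
  have h2 : 0 ≤ 𝓕.Lam i ^ j := by positivity
  calc cP X2 K j * 𝓕.Lam i ^ j * (C * w i) ≤ (cP X2 K j + 1) * 𝓕.Lam i ^ j * (C * w i) := by
        gcongr; linarith
    _ = _ := by ring

end Fam

end Crest.Agent.R216.TE
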