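import Crest.Agent.R216.MacDefs
import Crest.Agent.R216.Step0
import Crest.Agent.R216.Conv

/-!
# Row 216, Theorem E, MAC-4: the cut-off lemma (helper35).
Frozen statements of `MacIface.lean`; in addition, sharper forms with a factor `a` for STAGE.
-/

open Set Topology
open scoped ContDiff

set_option linter.unusedSectionVars false

namespace Crest.Agent.R216.TE

/-- evaluation at `t = x₁/ε + t0` -/
lemma ev_div {V : Type*} (U : Q → V) (ε t0 : ℝ) :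
    (fun x : X2 => U (x, x.1 / ε + t0)) = ev ε⁻¹ t0 U := by
  funext x; simp only [ev, evm, div_eq_mul_inv]

lemma ev_d1 {V : Type*} [NormedAddCommGroup V] [NormedSpace ℝ V] {D : Set X2} (hD : IsOpen D)
    {U : Q → V} (hU : ContDiffOn ℝ ∞ U {z | z.1 ∈ D}) (ε t0 : ℝ) {x : X2} (hx : x ∈ D) :
    d1 (fun x => U (x, x.1 / ε + t0)) x =
      pd 0 U (x, x.1 / ε + t0) + ε⁻¹ • pd 2 U (x, x.1 / ε + t0) := by
  have ho : IsOpen {z : Q | z.1 ∈ D} := hD.preimage continuous_fst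
  have h : DifferentiableAt ℝ U (evm ε⁻¹ t0 x) := diffAt ho hU (show x ∈ D from hx)
  rw [ev_div, d1_ev h]
  simp only [evm, div_eq_mul_inv]

lemma ev_d2 {V : Type*} [NormedAddCommGroup V] [NormedSpace ℝ V] {D : Set X2} (hD : IsOpen D)
    {U : Q → V} (hU : ContDiffOn ℝ ∞ U {z | z.1 ∈ D}) (ε t0 : ℝ) {x : X2} (hx : x ∈ D) :
    d2 (fun x => U (x, x.1 / ε + t0)) x = pd 1 U (x, x.1 / ε + t0) := by
  have ho : IsOpen {z : Q | z.1 ∈ D} := hD.preimage continuous_fst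
  have h : DifferentiableAt ℝ U (evm ε⁻¹ t0 x) := diffAt ho hU (show x ∈ D from hx)
  rw [ev_div, d2_ev h]
  simp only [evm, div_eq_mul_inv]

/-- a smooth function vanishing off a closed subset of an open set where it is smooth -/
lemma contDiff_of_off {V : Type*} [NormedAddCommGroup V] [NormedSpace ℝ V] {D K : Set X2}
    (hD : IsOpen D) (hK : IsClosed K) (hKD : K ⊆ D) {g : X2 → V} (hg : ContDiffOn ℝ ∞ g D)
    (h0 : ∀ x ∉ K, g x = 0) : ContDiff ℝ ∞ g := by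
  rw [contDiff_iff_contDiffAt]
  intro x
  by_cases hx : x ∈ K
  · exact hg.contDiffAt (hD.mem_nhds (hKD hx))
  · have : ∀ᶠ y in 𝓝 x, y ∉ K := hK.isOpen_compl.mem_nhds hx
    exact contDiffAt_const.congr_of_eventuallyEq (this.mono fun y hy => h0 y hy)

namespace EData
variable {𝓔 : EFam} {d : EData 𝓔} {F : 𝓔.I → Q → E4} {θ : 𝓔.I → X2 → ℝ}

namespace Cut
open S0 Fam

lemma B_rho (hG : d.Good F) (h : d.Hyp) : 𝓔.toFam.B (𝓔.W 1 7 1) (d.rho F) := by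
  have h1 := hG.rho_osc.add (EFam.B_le hG.rho_mean (show 1 ≤ 2 by omega) le_rfl (by omega))
  refine h1.congr (fun i z _ => ?_)
  simp [osc]

lemma B_uu (hG : d.Good F) (h : d.Hyp) : 𝓔.toFam.B (𝓔.W 1 0 0) (uu d F) := by
  refine ((u1B h).add (EFam.B_le (B_rho hG h) le_rfl (by omega) (by omega))).congr (fun i z _ => ?_)
  rw [uu_eq]

lemma B_sub (hG : d.Good F) (h : d.Hyp) :
    𝓔.toFam.B (𝓔.W 1 16 0) (fun i z => F i z - d.f i z.1) := by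
  refine (EFam.B_eps (B_uu hG h)).congr (fun i z _ => ?_)
  show 𝓔.eps i • uu d F i z = F i z - d.f i z.1
  rw [F_eq (d := d) F i z]
  abel

lemma B_A1_sub_f1 (hG : d.Good F) (h : d.Hyp) :
    𝓔.toFam.B (𝓔.W 1 0 0) (fun i z => 𝓔.A1 F i z - d.f1 i z) := by
  have h1 : 𝓔.toFam.B (𝓔.W 1 0 0) (fun i => pd 2 (d.rho F i)) :=
    EFam.B_le (EFam.B_pd (B_rho hG h) 2) le_rfl (by omega) (by omega)
  have h2 : 𝓔.toFam.B (𝓔.W 1 0 0) (fun i z => 𝓔.eps i • pd 0 (uu d F i) z) :=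
    EFam.B_le (EFam.B_eps (EFam.B_pd (B_uu hG h) 0)) le_rfl (by omega) (by omega)
  refine (h.WB.add (h1.add h2)).congr (fun i z hz => ?_)
  show d.Wl i z + (pd 2 (d.rho F i) z + 𝓔.eps i • pd 0 (uu d F i) z) = 𝓔.A1 F i z - d.f1 i z
  rw [A1_eq h hG.sm hz]
  unfold EData.w
  abel

lemma B_A2_sub_f2 (hG : d.Good F) (h : d.Hyp) :
    𝓔.toFam.B (𝓔.W 1 0 0) (fun i z => 𝓔.A2 F i z - d.f2 i z) := by
  have h2 : 𝓔.toFam.B (𝓔.W 1 0 0) (fun i z => 𝓔.eps i • pd 1 (uu d F i) z) :=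
    EFam.B_le (EFam.B_eps (EFam.B_pd (B_uu hG h) 1)) le_rfl (by omega) (by omega)
  refine h2.congr (fun i z hz => ?_)
  show 𝓔.eps i • pd 1 (uu d F i) z = 𝓔.A2 F i z - d.f2 i z
  rw [A2_eq h hG.sm hz]
  abel

end Cut
open Cut

theorem CutHyp.cutU_B (h : d.CutHyp F θ) : 𝓔.toFam.B (𝓔.W 1 16 0) (d.cutU F θ) := by
  have hθ : 𝓔.toFam.B (𝓔.W 0 0 0) (fun i => lift (θ i)) :=
    h.θB.weight_congr (fun i x _ => by simp [EFam.W])
  have := EFam.B_smul hθ (B_sub h.good h.hyp)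
  refine (EFam.B_le this (by omega) (by omega) (by omega)).congr (fun i z _ => rfl)

lemma CutHyp.zero_off (h : d.CutHyp F θ) (i : 𝓔.I) (t0 : ℝ) {x : X2} (hx : x ∉ tsupport (θ i)) :
    d.cutU F θ i (x, x.1 / 𝓔.eps i + t0) = 0 := by
  unfold cutU
  have : θ i x = 0 := image_eq_zero_of_notMem_tsupport hx
  show θ i x • _ = 0
  rw [this, zero_smul]

lemma CutHyp.corr_smoothOn (h : d.CutHyp F θ) (i : 𝓔.I) (t0 : ℝ) :
    ContDiffOn ℝ ∞ (fun x : X2 => d.cutU F θ i (x, x.1 / 𝓔.eps i + t0)) (𝓔.D i) := by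
  have h1 : ContDiff ℝ ∞ (fun x : X2 => ((x, x.1 / 𝓔.eps i + t0) : Q)) := by fun_prop
  exact (h.cutU_B.smooth i).comp h1.contDiffOn (fun y hy => hy)

lemma CutHyp.corr_smooth (h : d.CutHyp F θ) (i : 𝓔.I) (t0 : ℝ) :
    ContDiff ℝ ∞ (fun x : X2 => d.cutU F θ i (x, x.1 / 𝓔.eps i + t0)) :=
  contDiff_of_off (𝓔.isOpen i) (isClosed_tsupport _) (h.θsupp i) (h.corr_smoothOn i t0)
    (fun _ hx => h.zero_off i t0 hx)

theorem CutHyp.smooth (h : d.CutHyp F θ) (i : 𝓔.I) (t0 : ℝ) :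
    ContDiff ℝ ∞ (d.cutMap F θ i t0) := (h.fsm i).add (h.corr_smooth i t0)

/-- off the support of the cut-off nothing is changed -/
theorem CutHyp.eq_off (h : d.CutHyp F θ) (i : 𝓔.I) (t0 : ℝ) {x : X2} (hx : x ∉ tsupport (θ i)) :
    d.cutMap F θ i t0 =ᶠ[𝓝 x] d.f i := by
  have : ∀ᶠ y in 𝓝 x, y ∉ tsupport (θ i) := (isClosed_tsupport _).isOpen_compl.mem_nhds hx
  filter_upwards [this] with y hy
  show d.f i y + d.cutU F θ i (y, y.1 / 𝓔.eps i + t0) = d.f i y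
  rw [h.zero_off i t0 hy, add_zero]

/-- first derivatives on `D i` -/
theorem CutHyp.d1_eq (h : d.CutHyp F θ) (i : 𝓔.I) (t0 : ℝ) {x : X2} (hx : x ∈ 𝓔.D i) :
    d1 (d.cutMap F θ i t0) x =
      d1 (d.f i) x + 𝓔.A1 (d.cutU F θ) i (x, x.1 / 𝓔.eps i + t0) := by
  have hf : DifferentiableAt ℝ (d.f i) x := (h.fsm i).differentiable (by simp) x
  have hc : DifferentiableAt ℝ (fun x : X2 => d.cutU F θ i (x, x.1 / 𝓔.eps i + t0)) x :=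
    (h.corr_smooth i t0).differentiable (by simp) x
  have e : d1 (d.cutMap F θ i t0) x = d1 (d.f i) x +
      d1 (fun x : X2 => d.cutU F θ i (x, x.1 / 𝓔.eps i + t0)) x := by
    unfold d1 cutMap
    rw [fderiv_fun_add hf hc]; rfl
  rw [e, ev_d1 (𝓔.isOpen i) (h.cutU_B.smooth i) _ _ hx]
  rfl

theorem CutHyp.d2_eq (h : d.CutHyp F θ) (i : 𝓔.I) (t0 : ℝ) {x : X2} (hx : x ∈ 𝓔.D i) :
    d2 (d.cutMap F θ i t0) x =
      d2 (d.f i) x + 𝓔.A2 (d.cutU F θ) i (x, x.1 / 𝓔.eps i + t0) := by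
  have hf : DifferentiableAt ℝ (d.f i) x := (h.fsm i).differentiable (by simp) x
  have hc : DifferentiableAt ℝ (fun x : X2 => d.cutU F θ i (x, x.1 / 𝓔.eps i + t0)) x :=
    (h.corr_smooth i t0).differentiable (by simp) x
  have e : d2 (d.cutMap F θ i t0) x = d2 (d.f i) x +
      d2 (fun x : X2 => d.cutU F θ i (x, x.1 / 𝓔.eps i + t0)) x := by
    unfold d2 cutMap
    rw [fderiv_fun_add hf hc]; rfl
  rw [e, ev_d2 (𝓔.isOpen i) (h.cutU_B.smooth i) _ _ hx]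
  rfl

namespace Cut
open S0 Fam

lemma dsub (h : d.CutHyp F θ) {i : 𝓔.I} {z : Q} (hz : z ∈ 𝓔.toFam.dom i) :
    DifferentiableAt ℝ (fun z : Q => F i z - d.f i z.1) z :=
  (dF h.good.sm hz).sub (dF h.hyp.fsm hz)

lemma dθ (h : d.CutHyp F θ) (i : 𝓔.I) (z : Q) : DifferentiableAt ℝ (fun z : Q => θ i z.1) z :=
  DifferentiableAt.comp (g := θ i) z ((h.θsm i).differentiable (by simp) _) differentiableAt_fst

/-- `A1 (θ(F-f)) = θ (A1 F - f₁) + θ₁ (F - f)` -/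
lemma A1_cutU (h : d.CutHyp F θ) {i : 𝓔.I} {z : Q} (hz : z ∈ 𝓔.toFam.dom i) :
    𝓔.A1 (d.cutU F θ) i z = θ i z.1 • (𝓔.A1 F i z - d.f1 i z)
      + pd 0 (lift (θ i)) z • (F i z - d.f i z.1) := by
  have hd := dsub h hz
  have ht := dθ h i z
  have e0 : pd 0 (d.cutU F θ i) z = θ i z.1 • pd 0 (fun z : Q => F i z - d.f i z.1) z
      + pd 0 (lift (θ i)) z • (F i z - d.f i z.1) := pd_smul 0 ht hd
  have e2 : pd 2 (d.cutU F θ i) z = θ i z.1 • pd 2 (fun z : Q => F i z - d.f i z.1) z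
      + pd 2 (lift (θ i)) z • (F i z - d.f i z.1) := pd_smul 2 ht hd
  have s0 : pd 0 (fun z : Q => F i z - d.f i z.1) z = pd 0 (F i) z - d.f1 i z := by
    have := pd_sub 0 (dF h.good.sm hz) (dF h.hyp.fsm hz)
    rw [pd0_f] at this
    exact this
  have s2 : pd 2 (fun z : Q => F i z - d.f i z.1) z = pd 2 (F i) z := by
    have := pd_sub 2 (dF h.good.sm hz) (dF h.hyp.fsm hz)
    rw [pd2_TI (TI.lift _), sub_zero] at this
    exact this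
  unfold EFam.A1
  rw [e0, e2, s0, s2, pd2_TI (TI.lift _), zero_smul, add_zero, smul_comm (𝓔.eps i)⁻¹ (θ i z.1)]
  simp only [smul_sub, smul_add]
  abel

lemma A2_cutU (h : d.CutHyp F θ) {i : 𝓔.I} {z : Q} (hz : z ∈ 𝓔.toFam.dom i) :
    𝓔.A2 (d.cutU F θ) i z = θ i z.1 • (𝓔.A2 F i z - d.f2 i z)
      + pd 1 (lift (θ i)) z • (F i z - d.f i z.1) := by
  have hd := dsub h hz
  have ht := dθ h i z
  have e0 : pd 1 (d.cutU F θ i) z = θ i z.1 • pd 1 (fun z : Q => F i z - d.f i z.1) z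
      + pd 1 (lift (θ i)) z • (F i z - d.f i z.1) := pd_smul 1 ht hd
  have s0 : pd 1 (fun z : Q => F i z - d.f i z.1) z = pd 1 (F i) z - d.f2 i z := by
    have := pd_sub 1 (dF h.good.sm hz) (dF h.hyp.fsm hz)
    rw [pd1_f] at this
    exact this
  unfold EFam.A2
  rw [e0, s0]

/-- at a point where `θ = 1` the derivative of `θ` vanishes -/
lemma fderiv_θ (h : d.CutHyp F θ) {i : 𝓔.I} {x : X2} (hx : θ i x = 1) :
    fderiv ℝ (θ i) x = 0 := by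
  have : IsLocalMax (θ i) x := Filter.Eventually.of_forall (fun y => by
    rw [hx]; exact h.θ_le i y)
  exact this.fderiv_eq_zero

lemma pdθ0 (h : d.CutHyp F θ) {i : 𝓔.I} {z : Q} (hx : θ i z.1 = 1) : pd 0 (lift (θ i)) z = 0 := by
  rw [pd0_lift, d1, fderiv_θ h hx]; rfl

lemma pdθ1 (h : d.CutHyp F θ) {i : 𝓔.I} {z : Q} (hx : θ i z.1 = 1) : pd 1 (lift (θ i)) z = 0 := by
  rw [pd1_lift, d2, fderiv_θ h hx]; rfl

lemma A1_one (h : d.CutHyp F θ) {i : 𝓔.I} {t0 : ℝ} {x : X2} (hx : x ∈ 𝓔.D i) (h1 : θ i x = 1) :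
    d1 (d.cutMap F θ i t0) x = 𝓔.A1 F i (x, x.1 / 𝓔.eps i + t0) := by
  rw [h.d1_eq i t0 hx, A1_cutU h (show (x, x.1 / 𝓔.eps i + t0) ∈ 𝓔.toFam.dom i from hx),
    pdθ0 h h1]
  show d1 (d.f i) x + (θ i x • (_ - d1 (d.f i) x) + _) = _
  rw [h1, one_smul, zero_smul, add_zero, add_sub_cancel]

lemma A2_one (h : d.CutHyp F θ) {i : 𝓔.I} {t0 : ℝ} {x : X2} (hx : x ∈ 𝓔.D i) (h1 : θ i x = 1) :
    d2 (d.cutMap F θ i t0) x = 𝓔.A2 F i (x, x.1 / 𝓔.eps i + t0) := by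
  rw [h.d2_eq i t0 hx, A2_cutU h (show (x, x.1 / 𝓔.eps i + t0) ∈ 𝓔.toFam.dom i from hx),
    pdθ1 h h1]
  show d2 (d.f i) x + (θ i x • (_ - d2 (d.f i) x) + _) = _
  rw [h1, one_smul, zero_smul, add_zero, add_sub_cancel]

/-- `A1 (θ(F-f))`, `A2 (θ(F-f))` are of class `B(a)` (no loss of `Λ`) -/
lemma B_A1_cutU (h : d.CutHyp F θ) : 𝓔.toFam.B (𝓔.W 1 0 0) (𝓔.A1 (d.cutU F θ)) := by
  have hθ : 𝓔.toFam.B (𝓔.W 0 0 0) (fun i => lift (θ i)) :=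
    h.θB.weight_congr (fun i x _ => by simp [EFam.W])
  have t1 := EFam.B_smul hθ (B_A1_sub_f1 h.good h.hyp)
  have t2 := EFam.B_smul (EFam.B_pd hθ 0) (B_sub h.good h.hyp)
  refine ((EFam.B_le t1 (by omega) (by omega) (by omega)).add
    (EFam.B_le (j' := 1) (m' := 0) (l' := 0) t2 (by omega) (by omega) (by omega))).congr
    (fun i z hz => ?_)
  rw [A1_cutU h hz]; rfl

lemma B_A2_cutU (h : d.CutHyp F θ) : 𝓔.toFam.B (𝓔.W 1 0 0) (𝓔.A2 (d.cutU F θ)) := by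
  have hθ : 𝓔.toFam.B (𝓔.W 0 0 0) (fun i => lift (θ i)) :=
    h.θB.weight_congr (fun i x _ => by simp [EFam.W])
  have t1 := EFam.B_smul hθ (B_A2_sub_f2 h.good h.hyp)
  have t2 := EFam.B_smul (EFam.B_pd hθ 1) (B_sub h.good h.hyp)
  refine ((EFam.B_le t1 (by omega) (by omega) (by omega)).add
    (EFam.B_le (j' := 1) (m' := 0) (l' := 0) t2 (by omega) (by omega) (by omega))).congr
    (fun i z hz => ?_)
  rw [A2_cutU h hz]; rfl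

/-- size of an error from its `osc`/`mean` classes -/
lemma err_size {E : 𝓔.I → Q → ℝ} {m1 m2 m : ℕ}
    (ho : 𝓔.toFam.B (𝓔.W 1 m1 0) (fun i => osc (E i)))
    (hm : 𝓔.toFam.B (𝓔.W 2 m2 0) (fun i => mean (E i))) (h1 : m ≤ m1) (h2 : m ≤ m2) :
    ∃ C : ℝ, 0 < C ∧ ∀ i, ∀ z ∈ 𝓔.toFam.dom i, |E i z| ≤ C * (𝓔.a i z.1 * 𝓔.η i ^ m) := by
  have t1 : 𝓔.toFam.B (𝓔.W 1 m 0) (fun i => osc (E i)) :=
    EFam.B_le ho le_rfl h1 (by omega)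
  have t2 : 𝓔.toFam.B (𝓔.W 1 m 0) (fun i => mean (E i)) :=
    EFam.B_le hm (by omega) h2 (by omega)
  obtain ⟨C, hC, hb⟩ := (t1.add t2).sz
  refine ⟨C, hC, fun i z hz => ?_⟩
  have := hb i z hz
  simp only [osc, sub_add_cancel, Real.norm_eq_abs, EFam.W, pow_one, pow_zero, mul_one] at this
  exact this

end Cut
open Cut

/-- metric where `θ = 1`, with a factor `a` -/
theorem CutHyp.metric_one' (h : d.CutHyp F θ) {n : ℕ} (hE : d.Err0 n F) : ∃ C : ℝ, 0 < C ∧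
    ∀ (i : 𝓔.I) (t0 : ℝ) (x : X2), x ∈ 𝓔.D i → θ i x = 1 →
      |inner ℝ (d1 (d.cutMap F θ i t0) x) (d1 (d.cutMap F θ i t0) x)
        - (inner ℝ (d1 (d.f i) x) (d1 (d.f i) x) + 𝓔.a i x ^ 2 + d.G11 i x)|
          ≤ C * (𝓔.a i x * 𝓔.η i ^ (15 + n)) ∧
      |inner ℝ (d1 (d.cutMap F θ i t0) x) (d2 (d.cutMap F θ i t0) x)
        - (inner ℝ (d1 (d.f i) x) (d2 (d.f i) x) + d.G12 i x)| ≤ C * (𝓔.a i x * 𝓔.η i ^ (15 + n)) ∧
      |inner ℝ (d2 (d.cutMap F θ i t0) x) (d2 (d.cutMap F θ i t0) x)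
        - (inner ℝ (d2 (d.f i) x) (d2 (d.f i) x) + d.G22 i x)|
          ≤ C * (𝓔.a i x * 𝓔.η i ^ (15 + n)) := by
  obtain ⟨C1, hC1, b1⟩ := err_size hE.o11 hE.m11 (m := 15 + n) (by omega) (by omega)
  obtain ⟨C2, hC2, b2⟩ := err_size hE.o12 hE.m12 (m := 15 + n) (by omega) (by omega)
  obtain ⟨C3, hC3, b3⟩ := err_size hE.o22 hE.m22 (m := 15 + n) (by omega) (by omega)
  refine ⟨C1 + C2 + C3, by positivity, fun i t0 x hx h1 => ?_⟩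
  have hz : (x, x.1 / 𝓔.eps i + t0) ∈ 𝓔.toFam.dom i := hx
  have hw : 0 ≤ 𝓔.a i x * 𝓔.η i ^ (15 + n) :=
    mul_nonneg (𝓔.a_pos i x hx).le (pow_nonneg (𝓔.η_pos i).le _)
  have c1 : C1 * (𝓔.a i x * 𝓔.η i ^ (15 + n)) ≤ (C1 + C2 + C3) * (𝓔.a i x * 𝓔.η i ^ (15 + n)) :=
    mul_le_mul_of_nonneg_right (by linarith) hw
  have c2 : C2 * (𝓔.a i x * 𝓔.η i ^ (15 + n)) ≤ (C1 + C2 + C3) * (𝓔.a i x * 𝓔.η i ^ (15 + n)) :=
    mul_le_mul_of_nonneg_right (by linarith) hw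
  have c3 : C3 * (𝓔.a i x * 𝓔.η i ^ (15 + n)) ≤ (C1 + C2 + C3) * (𝓔.a i x * 𝓔.η i ^ (15 + n)) :=
    mul_le_mul_of_nonneg_right (by linarith) hw
  rw [A1_one h hx h1, A2_one h hx h1]
  exact ⟨(b1 i _ hz).trans c1, (b2 i _ hz).trans c2, (b3 i _ hz).trans c3⟩

/-- metric where `θ = 1` -/
theorem CutHyp.metric_one (h : d.CutHyp F θ) {n : ℕ} (hE : d.Err0 n F) : ∃ C : ℝ, 0 < C ∧
    ∀ (i : 𝓔.I) (t0 : ℝ) (x : X2), x ∈ 𝓔.D i → θ i x = 1 →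
      |inner ℝ (d1 (d.cutMap F θ i t0) x) (d1 (d.cutMap F θ i t0) x)
        - (inner ℝ (d1 (d.f i) x) (d1 (d.f i) x) + 𝓔.a i x ^ 2 + d.G11 i x)| ≤ C * 𝓔.η i ^ (15 + n) ∧
      |inner ℝ (d1 (d.cutMap F θ i t0) x) (d2 (d.cutMap F θ i t0) x)
        - (inner ℝ (d1 (d.f i) x) (d2 (d.f i) x) + d.G12 i x)| ≤ C * 𝓔.η i ^ (15 + n) ∧
      |inner ℝ (d2 (d.cutMap F θ i t0) x) (d2 (d.cutMap F θ i t0) x)
        - (inner ℝ (d2 (d.f i) x) (d2 (d.f i) x) + d.G22 i x)| ≤ C * 𝓔.η i ^ (15 + n) := by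
  obtain ⟨C, hC, b⟩ := h.metric_one' hE
  obtain ⟨A, hA, ha⟩ := 𝓔.a_le
  refine ⟨C * A, by positivity, fun i t0 x hx h1 => ?_⟩
  have key : C * (𝓔.a i x * 𝓔.η i ^ (15 + n)) ≤ C * A * 𝓔.η i ^ (15 + n) := by
    rw [← mul_assoc]
    exact mul_le_mul_of_nonneg_right (mul_le_mul_of_nonneg_left (ha i x hx) hC.le)
      (pow_nonneg (𝓔.η_pos i).le _)
  obtain ⟨h1, h2, h3⟩ := b i t0 x hx h1
  exact ⟨h1.trans key, h2.trans key, h3.trans key⟩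

/-- metric everywhere on `D i` (used where `θ < 1`, the amplitude is tiny there) -/
theorem CutHyp.metric_crude (h : d.CutHyp F θ) : ∃ C : ℝ, 0 < C ∧
    ∀ (i : 𝓔.I) (t0 : ℝ) (x : X2), x ∈ 𝓔.D i →
      |inner ℝ (d1 (d.cutMap F θ i t0) x) (d1 (d.cutMap F θ i t0) x)
        - inner ℝ (d1 (d.f i) x) (d1 (d.f i) x)| ≤ C * 𝓔.a i x ∧
      |inner ℝ (d1 (d.cutMap F θ i t0) x) (d2 (d.cutMap F θ i t0) x)
        - inner ℝ (d1 (d.f i) x) (d2 (d.f i) x)| ≤ C * 𝓔.a i x ∧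
      |inner ℝ (d2 (d.cutMap F θ i t0) x) (d2 (d.cutMap F θ i t0) x)
        - inner ℝ (d2 (d.f i) x) (d2 (d.f i) x)| ≤ C * 𝓔.a i x := by
  have q1 := B_A1_cutU h
  have q2 := B_A2_cutU h
  have f1B := h.hyp.f1B
  have f2B := h.hyp.f2B
  have key : ∀ {f g F' G' : 𝓔.I → Q → E4}, 𝓔.toFam.B (𝓔.W 0 0 0) f → 𝓔.toFam.B (𝓔.W 0 0 0) g →
      𝓔.toFam.B (𝓔.W 1 0 0) F' → 𝓔.toFam.B (𝓔.W 1 0 0) G' →
      ∃ C : ℝ, 0 < C ∧ ∀ i, ∀ z ∈ 𝓔.toFam.dom i,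
        |inner ℝ (f i z + F' i z) (g i z + G' i z) - inner ℝ (f i z) (g i z)|
          ≤ C * 𝓔.a i z.1 := by
    intro f g F' G' hf hg hF hG
    have t1 := EFam.B_inner hf hG
    have t2 := EFam.B_inner hF hg
    have t3 : 𝓔.toFam.B (𝓔.W 1 0 0) _ :=
      EFam.B_le (EFam.B_inner hF hG) (by omega) (by omega) (by omega)
    obtain ⟨C, hC, hb⟩ := ((t1.add t2).add t3).sz
    refine ⟨C, hC, fun i z hz => ?_⟩
    have := hb i z hz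
    simp only [Real.norm_eq_abs, EFam.W, pow_zero, mul_one, zero_add, pow_one, add_zero] at this
    refine le_trans (le_of_eq ?_) this
    congr 1
    rw [inner_add_left, inner_add_right, inner_add_right]
    ring
  obtain ⟨C1, hC1, b1⟩ := key f1B f1B q1 q1
  obtain ⟨C2, hC2, b2⟩ := key f1B f2B q1 q2
  obtain ⟨C3, hC3, b3⟩ := key f2B f2B q2 q2
  refine ⟨C1 + C2 + C3, by positivity, fun i t0 x hx => ?_⟩
  have hz : (x, x.1 / 𝓔.eps i + t0) ∈ 𝓔.toFam.dom i := hx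
  have hw : 0 ≤ 𝓔.a i x := (𝓔.a_pos i x hx).le
  rw [h.d1_eq i t0 hx, h.d2_eq i t0 hx]
  exact ⟨(b1 i _ hz).trans (mul_le_mul_of_nonneg_right (by linarith) hw),
    (b2 i _ hz).trans (mul_le_mul_of_nonneg_right (by linarith) hw),
    (b3 i _ hz).trans (mul_le_mul_of_nonneg_right (by linarith) hw)⟩

/-! ### extra forms for STAGE -/

/-- first derivatives of the correction are `≤ C a` on `D i` -/
theorem CutHyp.corr_crude (h : d.CutHyp F θ) : ∃ C : ℝ, 0 < C ∧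
    ∀ (i : 𝓔.I) (t0 : ℝ) (x : X2), x ∈ 𝓔.D i →
      ‖d1 (d.cutMap F θ i t0) x - d1 (d.f i) x‖ ≤ C * 𝓔.a i x ∧
      ‖d2 (d.cutMap F θ i t0) x - d2 (d.f i) x‖ ≤ C * 𝓔.a i x := by
  obtain ⟨C1, hC1, b1⟩ := (B_A1_cutU h).sz
  obtain ⟨C2, hC2, b2⟩ := (B_A2_cutU h).sz
  refine ⟨C1 + C2, by positivity, fun i t0 x hx => ?_⟩
  have hz : (x, x.1 / 𝓔.eps i + t0) ∈ 𝓔.toFam.dom i := hx
  have hw : 0 ≤ 𝓔.a i x := (𝓔.a_pos i x hx).le
  have e1 := b1 i _ hz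
  have e2 := b2 i _ hz
  simp only [EFam.W, pow_zero, mul_one, pow_one] at e1 e2
  rw [h.d1_eq i t0 hx, h.d2_eq i t0 hx, add_sub_cancel_left, add_sub_cancel_left]
  exact ⟨e1.trans (mul_le_mul_of_nonneg_right (by linarith) hw),
    e2.trans (mul_le_mul_of_nonneg_right (by linarith) hw)⟩

/-- all derivatives of the correction -/
theorem CutHyp.corr_iter (h : d.CutHyp F θ) (t0 : 𝓔.I → ℝ) (j : ℕ) : ∃ C : ℝ, 0 < C ∧
    ∀ (i : 𝓔.I) (x : X2), x ∈ 𝓔.D i →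
      ‖iteratedFDeriv ℝ j (fun x : X2 => d.cutU F θ i (x, x.1 / 𝓔.eps i + t0 i)) x‖
        ≤ C * ((𝓔.Lam i * (𝓔.eps i)⁻¹) ^ j * (𝓔.a i x * 𝓔.eps i)) := by
  have hμ : ∀ i, 1 ≤ (𝓔.eps i)⁻¹ := fun i =>
    (one_le_inv₀ (EFam.eps_pos i)).2 (EFam.eps_le_one i)
  obtain ⟨C, hC, b⟩ := Fam.ev_iterated (𝓕 := 𝓔.toFam) (fun i => (𝓔.eps i)⁻¹) t0 hμ j h.cutU_B
    (EFam.W_nn _ _ _)
  refine ⟨C, hC, fun i x hx => ?_⟩
  rw [ev_div]
  refine (b i x hx).trans (le_of_eq ?_)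
  simp only [EFam.W, pow_one, pow_zero, mul_one, EFam.eps]

end EData

end Crest.Agent.R216.TE
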