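import Crest.Agent.R216.DDefs

/-! Row 216 (D), module D0: basic lemmas on charts (owner: helper86; proofs by helper359). -/

set_option autoImplicit false
open scoped Manifold ContDiff Topology
open Set Metric Function

namespace Crest.Agent.R216.D

set_option linter.unusedSectionVars false

variable {M : Type*} [TopologicalSpace M] [ChartedSpace E2 M] [IsManifold (𝓡 2) ∞ M]

/-- chart expression of a smooth map is smooth -/
theorem contDiffOn_chart {V : Type*} [NormedAddCommGroup V] [NormedSpace ℝ V] {f : M → V}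
    (hf : ContMDiff (𝓡 2) 𝓘(ℝ, V) ∞ f) {c : OpenPartialHomeomorph M E2}
    (hc : c ∈ IsManifold.maximalAtlas (𝓡 2) ∞ M) : ContDiffOn ℝ ∞ (f ∘ c.symm) c.target := by
  rw [← contMDiffOn_iff_contDiffOn]
  exact hf.comp_contMDiffOn (contMDiffOn_symm_of_mem_maximalAtlas hc)

theorem trans_mem_maximalAtlas {c : OpenPartialHomeomorph M E2}
    (hc : c ∈ IsManifold.maximalAtlas (𝓡 2) ∞ M) {T : OpenPartialHomeomorph E2 E2}
    (hT : T ∈ contDiffGroupoid ∞ (𝓡 2)) : c ≫ₕ T ∈ IsManifold.maximalAtlas (𝓡 2) ∞ M := by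
  intro e' he'
  obtain ⟨h1, h2⟩ := hc e' he'
  constructor
  · rw [OpenPartialHomeomorph.trans_symm_eq_symm_trans_symm, OpenPartialHomeomorph.trans_assoc]
    exact (contDiffGroupoid ∞ (𝓡 2)).trans ((contDiffGroupoid ∞ (𝓡 2)).symm hT) h1
  · rw [← OpenPartialHomeomorph.trans_assoc]
    exact (contDiffGroupoid ∞ (𝓡 2)).trans h2 hT

/-- the affine homeomorphism `y ↦ k • (y - p)` -/
noncomputable def affHomeo (p : E2) (k : ℝ) (hk : k ≠ 0) : E2 ≃ₜ E2 where
  toFun y := k • (y - p)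
  invFun z := k⁻¹ • z + p
  left_inv y := by simp [smul_smul, inv_mul_cancel₀ hk]
  right_inv z := by simp [smul_smul, mul_inv_cancel₀ hk]
  continuous_toFun := by fun_prop
  continuous_invFun := by fun_prop

theorem affHomeo_mem_groupoid (p : E2) (k : ℝ) (hk : k ≠ 0) :
    (affHomeo p k hk).toOpenPartialHomeomorph ∈ contDiffGroupoid ∞ (𝓡 2) := by
  rw [contDiffGroupoid, mem_groupoid_of_pregroupoid]
  constructor
  · show ContDiffOn ℝ ∞ _ _
    have : ContDiff ℝ ∞ (fun y : E2 => k • (y - p)) := by fun_prop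
    exact this.contDiffOn
  · show ContDiffOn ℝ ∞ _ _
    have : ContDiff ℝ ∞ (fun z : E2 => k⁻¹ • z + p) := by fun_prop
    exact this.contDiffOn

/-- affine rescaling of a chart -/
theorem exists_centered_chart (x : M) :
    ∃ c ∈ IsManifold.maximalAtlas (𝓡 2) ∞ M, closedBall (0 : E2) 10 ⊆ c.target ∧
      x ∈ c.source ∧ c x = 0 := by
  set c0 := chartAt E2 x with hc0
  have hx : x ∈ c0.source := mem_chart_source E2 x
  obtain ⟨r, hr, hball⟩ := Metric.isOpen_iff.1 c0.open_target (c0 x) (c0.map_source hx)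
  have hk : (20 / r : ℝ) ≠ 0 := by positivity
  refine ⟨c0 ≫ₕ (affHomeo (c0 x) (20 / r) hk).toOpenPartialHomeomorph,
    trans_mem_maximalAtlas (IsManifold.chart_mem_maximalAtlas x) (affHomeo_mem_groupoid _ _ _),
    ?_, ?_, ?_⟩
  · intro y hy
    rw [OpenPartialHomeomorph.trans_target]
    refine ⟨by simp, ?_⟩
    show (20 / r)⁻¹ • y + c0 x ∈ c0.target
    apply hball
    rw [mem_ball, dist_eq_norm, add_sub_cancel_right, norm_smul, Real.norm_eq_abs,
      abs_of_pos (by positivity)]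
    rw [mem_closedBall_zero_iff] at hy
    calc (20 / r)⁻¹ * ‖y‖ ≤ (20 / r)⁻¹ * 10 := by gcongr
      _ = r / 2 := by field_simp; norm_num
      _ < r := by linarith
  · rw [OpenPartialHomeomorph.trans_source]
    exact ⟨hx, by simp⟩
  · show (20 / r) • (c0 x - c0 x) = 0
    simp

theorem exists_ballAtlas [T2Space M] [CompactSpace M] : Nonempty (BallAtlas M) := by
  choose c hc hbig hsrc h0 using fun x : M => exists_centered_chart x
  have hnhd : ∀ x ∈ (univ : Set M), (c x).source ∩ (c x) ⁻¹' ball (0 : E2) 1 ∈ 𝓝 x := by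
    intro x _
    apply ((c x).isOpen_inter_preimage isOpen_ball).mem_nhds
    refine ⟨hsrc x, ?_⟩
    show c x x ∈ ball (0 : E2) 1
    rw [h0]; simp
  obtain ⟨T, -, hT⟩ := isCompact_univ.elim_nhds_subcover _ hnhd
  refine ⟨{ n := T.card, c := fun i => c (T.equivFin.symm i), mem := fun i => hc _,
            big := fun i => hbig _, cover := ?_ }⟩
  intro x
  have := hT (mem_univ x)
  simp only [mem_iUnion] at this
  obtain ⟨y, hy, h1, h2⟩ := this
  refine ⟨T.equivFin ⟨y, hy⟩, ?_, ?_⟩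
  · simpa using h1
  · simpa using h2

theorem contMDiff_extend0 [T2Space M] {V : Type*} [NormedAddCommGroup V] [NormedSpace ℝ V]
    {c : OpenPartialHomeomorph M E2} (hc : c ∈ IsManifold.maximalAtlas (𝓡 2) ∞ M)
    {h : E2 → V} (hh : ContDiff ℝ ∞ h) {K : Set E2} (hK : IsCompact K) (hKt : K ⊆ c.target)
    (hs : tsupport h ⊆ K) : ContMDiff (𝓡 2) 𝓘(ℝ, V) ∞ (extend0 c h) := by
  intro x
  by_cases hx : x ∈ c.source
  · have h1 : ContMDiffAt (𝓡 2) 𝓘(ℝ, V) ∞ (h ∘ c) x := by
      have := contMDiffAt_of_mem_maximalAtlas hc hx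
      exact (hh.contMDiff.contMDiffAt).comp x this
    apply h1.congr_of_eventuallyEq
    filter_upwards [c.open_source.mem_nhds hx] with y hy
    simp [extend0, hy]
  · -- near `x` the extension vanishes
    have hKc : IsClosed (c.symm '' K) :=
      (hK.image_of_continuousOn (c.continuousOn_symm.mono hKt)).isClosed
    have hxK : x ∉ c.symm '' K := by
      rintro ⟨y, hy, rfl⟩
      exact hx (c.map_target (hKt hy))
    have h0 : extend0 c h =ᶠ[𝓝 x] fun _ => (0 : V) := by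
      filter_upwards [hKc.isOpen_compl.mem_nhds hxK] with y hy
      by_cases hyc : y ∈ c.source
      · simp only [extend0, hyc, if_true]
        by_contra hne
        apply hy
        refine ⟨c y, hs (subset_tsupport _ hne), c.left_inv hyc⟩
      · simp [extend0, hyc]
    exact (contMDiffAt_const (c := (0 : V))).congr_of_eventuallyEq h0

theorem mdifferentiableAt_chart_symm {c : OpenPartialHomeomorph M E2}
    (hc : c ∈ IsManifold.maximalAtlas (𝓡 2) ∞ M) {u : E2} (hu : u ∈ c.target) :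
    MDifferentiableAt (𝓡 2) (𝓡 2) c.symm u :=
  (contMDiffAt_symm_of_mem_maximalAtlas hc hu).mdifferentiableAt (by simp)

theorem mdifferentiableAt_chart {c : OpenPartialHomeomorph M E2}
    (hc : c ∈ IsManifold.maximalAtlas (𝓡 2) ∞ M) {x : M} (hx : x ∈ c.source) :
    MDifferentiableAt (𝓡 2) (𝓡 2) c x :=
  (contMDiffAt_of_mem_maximalAtlas hc hx).mdifferentiableAt (by simp)

/-- the derivative in a chart -/
theorem mfderiv_chart {V : Type*} [NormedAddCommGroup V] [NormedSpace ℝ V] {f : M → V}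
    (hf : ContMDiff (𝓡 2) 𝓘(ℝ, V) ∞ f) {c : OpenPartialHomeomorph M E2}
    (hc : c ∈ IsManifold.maximalAtlas (𝓡 2) ∞ M) {u : E2} (hu : u ∈ c.target) (v : E2) :
    mfderiv (𝓡 2) 𝓘(ℝ, V) f (c.symm u) (mfderiv (𝓡 2) (𝓡 2) c.symm u v)
      = fderiv ℝ (f ∘ c.symm) u v := by
  have h1 : MDifferentiableAt (𝓡 2) 𝓘(ℝ, V) f (c.symm u) :=
    (hf.contMDiffAt).mdifferentiableAt (by simp)
  have h2 := mdifferentiableAt_chart_symm hc hu
  have h3 := mfderiv_comp u h1 h2
  rw [← mfderiv_eq_fderiv, h3]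
  rfl

theorem bijective_mfderiv_chart_symm {c : OpenPartialHomeomorph M E2}
    (hc : c ∈ IsManifold.maximalAtlas (𝓡 2) ∞ M) {u : E2} (hu : u ∈ c.target) :
    Bijective (mfderiv (𝓡 2) (𝓡 2) c.symm u) := by
  have hx : c.symm u ∈ c.source := c.map_target hu
  have h1 := mdifferentiableAt_chart_symm hc hu
  have h2 := mdifferentiableAt_chart hc hx
  have h2' : MDifferentiableAt (𝓡 2) (𝓡 2) c (c.symm u) := h2
  have hcu : c (c.symm u) = u := c.right_inv hu
  have h3 : (mfderiv (𝓡 2) (𝓡 2) c (c.symm u)).comp (mfderiv (𝓡 2) (𝓡 2) c.symm u)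
      = ContinuousLinearMap.id ℝ _ := by
    rw [← mfderiv_comp u h2' h1]
    have : (c ∘ c.symm) =ᶠ[𝓝 u] id := by
      filter_upwards [c.open_target.mem_nhds hu] with y hy
      exact c.right_inv hy
    rw [this.mfderiv_eq]
    exact mfderiv_id
  have h1' : MDifferentiableAt (𝓡 2) (𝓡 2) c.symm (c (c.symm u)) := by rw [hcu]; exact h1
  have h4 : (mfderiv (𝓡 2) (𝓡 2) c.symm (c (c.symm u))).comp (mfderiv (𝓡 2) (𝓡 2) c (c.symm u))
      = ContinuousLinearMap.id ℝ _ := by
    rw [← mfderiv_comp (c.symm u) h1' h2']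
    have : (c.symm ∘ c) =ᶠ[𝓝 (c.symm u)] id := by
      filter_upwards [c.open_source.mem_nhds hx] with y hy
      exact c.left_inv hy
    rw [this.mfderiv_eq]
    exact mfderiv_id
  constructor
  · intro v w hvw
    have := congrArg (mfderiv (𝓡 2) (𝓡 2) c (c.symm u)) hvw
    exact (DFunLike.congr_fun h3 v).symm.trans (this.trans (DFunLike.congr_fun h3 w))
  · intro w
    refine ⟨mfderiv (𝓡 2) (𝓡 2) c (c.symm u) w, ?_⟩
    have e := DFunLike.congr_fun h4 w
    rw [hcu] at e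
    exact e

theorem mem_sing_iff {G : M → E3} (hG : ContMDiff (𝓡 2) 𝓘(ℝ, E3) ∞ G)
    {c : OpenPartialHomeomorph M E2} (hc : c ∈ IsManifold.maximalAtlas (𝓡 2) ∞ M)
    {u : E2} (hu : u ∈ c.target) :
    c.symm u ∈ sing G ↔ ∃ e : E2, e ≠ 0 ∧ fderiv ℝ (G ∘ c.symm) u e = 0 := by
  have hb := bijective_mfderiv_chart_symm hc hu
  constructor
  · rintro ⟨v, hv, h0⟩
    obtain ⟨e, he⟩ := hb.2 v
    refine ⟨e, ?_, ?_⟩
    · rintro rfl
      exact hv (by rw [← he]; exact map_zero _)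
    · refine (mfderiv_chart hG hc hu e).symm.trans ?_
      rw [he]
      exact h0
  · rintro ⟨e, he, h0⟩
    refine ⟨mfderiv (𝓡 2) (𝓡 2) c.symm u e, ?_, ?_⟩
    · intro h
      exact he (hb.1 (by rw [h]; exact (map_zero _).symm))
    · exact (mfderiv_chart hG hc hu e).trans h0

theorem Formal.mem_sing_iff (F : Formal M)
    {c : OpenPartialHomeomorph M E2} (hc : c ∈ IsManifold.maximalAtlas (𝓡 2) ∞ M)
    {u : E2} (hu : u ∈ c.target) :
    c.symm u ∈ F.sing ↔ ∃ e : E2, e ≠ 0 ∧ F.mat c u e = 0 := by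
  have hb := bijective_mfderiv_chart_symm hc hu
  constructor
  · rintro ⟨v, hv, h0⟩
    obtain ⟨e, he⟩ := hb.2 v
    refine ⟨e, ?_, ?_⟩
    · rintro rfl
      exact hv (by rw [← he]; exact map_zero _)
    · rw [← he] at h0
      have h1 := mfderiv_chart F.hι hc hu e
      show F.Ψ (c.symm u) (fderiv ℝ (F.ι ∘ c.symm) u e) = 0
      rw [← h1]
      exact h0
  · rintro ⟨e, he, h0⟩
    refine ⟨mfderiv (𝓡 2) (𝓡 2) c.symm u e, ?_, ?_⟩
    · intro h
      exact he (hb.1 (by rw [h]; exact (map_zero _).symm))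
    · have h1 := mfderiv_chart F.hι hc hu e
      have h0' : F.Ψ (c.symm u) (fderiv ℝ (F.ι ∘ c.symm) u e) = 0 := h0
      rw [← h1] at h0'
      exact h0'

theorem Formal.contDiffOn_mat (F : Formal M)
    {c : OpenPartialHomeomorph M E2} (hc : c ∈ IsManifold.maximalAtlas (𝓡 2) ∞ M) :
    ContDiffOn ℝ ∞ (F.mat c) c.target := by
  have h1 : ContDiffOn ℝ ∞ (F.Ψ ∘ c.symm) c.target := contDiffOn_chart F.hΨ hc
  have h2 : ContDiffOn ℝ ∞ (F.ι ∘ c.symm) c.target := contDiffOn_chart F.hι hc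
  have h3 : ContDiffOn ℝ ∞ (fderiv ℝ (F.ι ∘ c.symm)) c.target := by
    apply h2.fderiv_of_isOpen c.open_target
    simp
  exact h1.clm_comp h3

end Crest.Agent.R216.D
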