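import Crest.Agent.R216.D1Defs

/-! Row 216 (D), module D1: Lemma N (bad parameters have small Hausdorff dimension)
(owner: helper359). -/

set_option autoImplicit false
open scoped ContDiff Topology ENNReal
open Set Metric Function Module

namespace Crest.Agent.R216.D

section LemmaN

variable {X V Y : Type*} [NormedAddCommGroup X] [NormedSpace ℝ X] [FiniteDimensional ℝ X]
  [NormedAddCommGroup V] [NormedSpace ℝ V] [FiniteDimensional ℝ V]
  [NormedAddCommGroup Y] [NormedSpace ℝ Y] [FiniteDimensional ℝ Y]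

/-- local form of Lemma N -/
theorem dimH_bad_local {O : Set X} (hO : IsOpen O) {T : X → V →L[ℝ] Y}
    (hT : ContDiffOn ℝ 1 T O) {p0 : X} (hp0 : p0 ∈ O) (hs : Surjective (T p0))
    (hdim : finrank ℝ X < finrank ℝ Y) :
    ∃ U ∈ 𝓝 p0, dimH {A : V | ∃ p ∈ U, T p A = 0} ≤ ((finrank ℝ V - 1 : ℕ) : ℝ≥0∞) := by
  classical
  obtain ⟨r, hr⟩ := (T p0).exists_rightInverse_of_surjective (LinearMap.range_eq_top.2 hs)
  have : CompleteSpace Y := FiniteDimensional.complete ℝ Y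
  -- `R p = T p ∘ r : Y → Y`, a unit at `p0`
  set R : X → Y →L[ℝ] Y := fun p => (T p).comp r with hR
  have hRc : ContDiffOn ℝ 1 R O := hT.clm_comp contDiffOn_const
  have hR0 : R p0 = 1 := hr
  have hopen : IsOpen (O ∩ R ⁻¹' {x | IsUnit x}) :=
    hRc.continuousOn.isOpen_inter_preimage hO Units.isOpen
  have hmem : p0 ∈ O ∩ R ⁻¹' {x | IsUnit x} := ⟨hp0, by
    show IsUnit (R p0); rw [hR0]; exact isUnit_one⟩
  obtain ⟨ε, hε, hball⟩ := Metric.isOpen_iff.1 hopen p0 hmem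
  set K0 : Submodule ℝ V := (T p0).ker with hK0
  set Φ : X × K0 → V := fun q =>
    (q.2 : V) - r (Ring.inverse (R q.1) (T q.1 (q.2 : V))) with hΦ
  have hinv : ContDiffOn ℝ 1 (fun p => Ring.inverse (R p)) (ball p0 ε) := by
    intro p hp
    obtain ⟨hpO, hu⟩ := hball hp
    obtain ⟨u, hu⟩ := hu
    have h1 : ContDiffAt ℝ 1 Ring.inverse (R p) := by
      rw [← hu]; exact contDiffAt_ringInverse ℝ u
    exact h1.comp_contDiffWithinAt p
      ((hRc.contDiffAt (hO.mem_nhds hpO)).contDiffWithinAt)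
  have hΦc : ContDiffOn ℝ 1 Φ (ball p0 ε ×ˢ univ) := by
    have h2 : ContDiffOn ℝ 1 (fun q : X × K0 => (q.2 : V)) (ball p0 ε ×ˢ univ) :=
      (K0.subtypeL.contDiff.comp contDiff_snd).contDiffOn
    have hTb : ContDiffOn ℝ 1 T (ball p0 ε) := hT.mono fun p hp => (hball hp).1
    have h3 : ContDiffOn ℝ 1 (fun q : X × K0 => T q.1) (ball p0 ε ×ˢ univ) :=
      hTb.comp contDiff_fst.contDiffOn (fun q hq => hq.1)
    have h4 : ContDiffOn ℝ 1 (fun q : X × K0 => Ring.inverse (R q.1)) (ball p0 ε ×ˢ univ) :=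
      hinv.comp contDiff_fst.contDiffOn (fun q hq => hq.1)
    exact h2.sub (r.contDiff.comp_contDiffOn (h4.clm_apply (h3.clm_apply h2)))
  refine ⟨ball p0 ε, ball_mem_nhds p0 hε, ?_⟩
  have hsub : {A : V | ∃ p ∈ ball p0 ε, T p A = 0} ⊆ Φ '' (ball p0 ε ×ˢ univ) := by
    rintro A ⟨p, hp, hA⟩
    obtain ⟨hpO, u, hu⟩ := hball hp
    set a : V := A - r (T p0 A) with ha
    have haK : a ∈ K0 := by
      show T p0 a = 0
      rw [ha, map_sub]
      have : T p0 (r (T p0 A)) = T p0 A := by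
        have := DFunLike.congr_fun hr (T p0 A)
        exact this
      rw [this, sub_self]
    refine ⟨(p, ⟨a, haK⟩), ⟨hp, mem_univ _⟩, ?_⟩
    show a - r (Ring.inverse (R p) (T p a)) = A
    have h1 : T p a = - R p (T p0 A) := by
      rw [ha, map_sub, hA, zero_sub]; rfl
    have h2 : Ring.inverse (R p) (R p (T p0 A)) = T p0 A := by
      have h3 : Ring.inverse (R p) * R p = 1 := by
        rw [← hu, Ring.inverse_unit]
        exact u.inv_mul
      exact DFunLike.congr_fun h3 (T p0 A)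
    rw [h1, map_neg, h2, map_neg, sub_neg_eq_add, ha, sub_add_cancel]
  have hconv : Convex ℝ (ball p0 ε ×ˢ (univ : Set K0)) := (convex_ball p0 ε).prod convex_univ
  calc dimH {A : V | ∃ p ∈ ball p0 ε, T p A = 0}
      ≤ dimH (Φ '' (ball p0 ε ×ˢ univ)) := dimH_mono hsub
    _ ≤ dimH (ball p0 ε ×ˢ (univ : Set K0)) := hΦc.dimH_image_le hconv Subset.rfl
    _ ≤ dimH (univ : Set (X × K0)) := dimH_mono (subset_univ _)
    _ = (finrank ℝ (X × K0) : ℝ≥0∞) := Real.dimH_univ_eq_finrank _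
    _ ≤ ((finrank ℝ V - 1 : ℕ) : ℝ≥0∞) := by
        have h5 : finrank ℝ (LinearMap.range (T p0 : V →ₗ[ℝ] Y)) + finrank ℝ K0 = finrank ℝ V :=
          LinearMap.finrank_range_add_finrank_ker (T p0 : V →ₗ[ℝ] Y)
        have h6 : finrank ℝ (LinearMap.range (T p0 : V →ₗ[ℝ] Y)) = finrank ℝ Y := by
          rw [LinearMap.range_eq_top.2 hs, finrank_top]
        rw [Module.finrank_prod]
        norm_cast
        omega

/-- **Lemma N.** If `T p : V → Y` is surjective for all `p` in the open set `O ⊆ X` and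
`dim X < dim Y`, then the set of `A` with `T p A = 0` for some `p ∈ O` has Hausdorff dimension
at most `dim V - 1`. -/
theorem dimH_bad {O : Set X} (hO : IsOpen O) {T : X → V →L[ℝ] Y}
    (hT : ContDiffOn ℝ 1 T O) (hs : ∀ p ∈ O, Surjective (T p))
    (hdim : finrank ℝ X < finrank ℝ Y) :
    dimH {A : V | ∃ p ∈ O, T p A = 0} ≤ ((finrank ℝ V - 1 : ℕ) : ℝ≥0∞) := by
  classical
  have h : ∀ p : O, ∃ U ∈ 𝓝 (p : X),
      dimH {A : V | ∃ p ∈ U, T p A = 0} ≤ ((finrank ℝ V - 1 : ℕ) : ℝ≥0∞) :=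
    fun p => dimH_bad_local hO hT p.2 (hs p p.2) hdim
  choose U hU hUd using h
  obtain ⟨S, hS, hcov⟩ := TopologicalSpace.countable_cover_nhds
    (f := fun p : O => (Subtype.val ⁻¹' U p : Set O)) (fun p => by
      exact preimage_coe_mem_nhds_subtype.2 (mem_nhdsWithin_of_mem_nhds (hU p)))
  have hsub : {A : V | ∃ p ∈ O, T p A = 0} ⊆ ⋃ q ∈ S, {A : V | ∃ p ∈ U q, T p A = 0} := by
    rintro A ⟨p, hp, hA⟩
    have : (⟨p, hp⟩ : O) ∈ ⋃ q ∈ S, (Subtype.val ⁻¹' U q : Set O) := by rw [hcov]; trivial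
    simp only [mem_iUnion] at this ⊢
    obtain ⟨q, hq, hpq⟩ := this
    exact ⟨q, hq, p, hpq, hA⟩
  refine (dimH_mono hsub).trans ?_
  rw [dimH_bUnion hS]
  exact iSup₂_le fun q _ => hUd q

end LemmaN

/-- **Null set lemma.** A parametrised family of surjective linear systems with more equations
than parameters has solutions only for a small set of `P`. -/
theorem dimH_bad_le {Y V F : Type*} [NormedAddCommGroup Y] [NormedSpace ℝ Y] [FiniteDimensional ℝ Y]
    [NormedAddCommGroup V] [NormedSpace ℝ V] [FiniteDimensional ℝ V]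
    [NormedAddCommGroup F] [NormedSpace ℝ F] [FiniteDimensional ℝ F]
    {Ω : Set Y} (hΩ : IsOpen Ω) {T : Y → V →L[ℝ] F} (hT : ContDiffOn ℝ 1 T Ω)
    (hsurj : ∀ y ∈ Ω, Surjective (T y))
    (hdim : Module.finrank ℝ Y < Module.finrank ℝ F) :
    dimH {P : V | ∃ y ∈ Ω, T y P = 0} ≤ (Module.finrank ℝ V - 1 : ℕ) :=
  dimH_bad hΩ hT hsurj hdim

end Crest.Agent.R216.D
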