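import Crest.Agent.R216.D1Defs
import Crest.Agent.R216.D1Null

/-! Row 216 (D), module D1: degenerate cross-caps are not generic (helper30). -/

set_option autoImplicit false
set_option maxSynthPendingDepth 3
set_option linter.unusedSectionVars false
open scoped Manifold ContDiff Topology
open Set Metric Function

namespace Crest.Agent.R216.D

namespace Cap

/-- rotation by a right angle -/
noncomputable def J : E2 →L[ℝ] E2 := LinearMap.toContinuousLinearMap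
  { toFun := fun e => !₂[-e 1, e 0]
    map_add' := by
      intro x y; ext i; fin_cases i
      · simp [add_comm]
      · simp
    map_smul' := by
      intro c x; ext i; fin_cases i
      · simp
      · simp }

@[simp] theorem J_zero (e : E2) : J e 0 = -e 1 := rfl
@[simp] theorem J_one (e : E2) : J e 1 = e 0 := rfl

theorem normsq_ne {e : E2} (he : e ≠ 0) : e 0 ^ 2 + e 1 ^ 2 ≠ 0 := by
  intro h0
  apply he
  have h1 : e 0 = 0 := by nlinarith [sq_nonneg (e 0), sq_nonneg (e 1)]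
  have h2 : e 1 = 0 := by nlinarith [sq_nonneg (e 0), sq_nonneg (e 1)]
  ext i
  fin_cases i
  · simpa using h1
  · simpa using h2

/-- decomposition in the frame `e, J e` -/
theorem exists_decomp {e : E2} (he : e ≠ 0) (w : E2) : ∃ a o : ℝ, w = a • e + o • J e := by
  have hN := normsq_ne he
  refine ⟨(w 0 * e 0 + w 1 * e 1) / (e 0 ^ 2 + e 1 ^ 2),
    (-w 0 * e 1 + w 1 * e 0) / (e 0 ^ 2 + e 1 ^ 2), ?_⟩
  ext i
  fin_cases i
  · simp
    field_simp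
    ring
  · simp
    field_simp
    ring

/-- a linear functional with prescribed coefficients -/
noncomputable def fn (a b : ℝ) : E2 →L[ℝ] ℝ :=
  a • EuclideanSpace.proj 0 + b • EuclideanSpace.proj 1

@[simp] theorem fn_apply (a b : ℝ) (v : E2) : fn a b v = a * v 0 + b * v 1 := by
  simp [fn]

theorem exists_fn_ne {δ e : E2} (hδ : δ ≠ 0) (he : e ≠ 0) :
    ∃ n : E2 →L[ℝ] ℝ, n δ ≠ 0 ∧ n e ≠ 0 := by
  by_cases h : δ 0 * e 0 + δ 1 * e 1 = 0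
  · refine ⟨fn (δ 0 + e 0) (δ 1 + e 1), ?_, ?_⟩
    · have := normsq_ne hδ
      rw [fn_apply]
      intro h0; apply this; linear_combination h0 - h
    · have := normsq_ne he
      rw [fn_apply]
      intro h0; apply this; linear_combination h0 - h
  · refine ⟨fn (δ 0) (δ 1), ?_, ?_⟩
    · have := normsq_ne hδ
      rw [fn_apply]
      intro h0; apply this; linear_combination h0
    · rw [fn_apply]; exact h

theorem exists_fn_frame {e : E2} (he : e ≠ 0) :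
    ∃ n₁ n₂ : E2 →L[ℝ] ℝ, n₁ e = 1 ∧ n₁ (J e) = 0 ∧ n₂ e = 0 ∧ n₂ (J e) = 1 := by
  have hN := normsq_ne he
  refine ⟨fn (e 0 / (e 0 ^ 2 + e 1 ^ 2)) (e 1 / (e 0 ^ 2 + e 1 ^ 2)),
    fn (-e 1 / (e 0 ^ 2 + e 1 ^ 2)) (e 0 / (e 0 ^ 2 + e 1 ^ 2)), ?_, ?_, ?_, ?_⟩
  · rw [fn_apply]; field_simp
  · rw [fn_apply]; simp; field_simp; ring
  · rw [fn_apply]; field_simp; ring
  · rw [fn_apply]; simp; field_simp; ring

section

variable {W V : Type*} [NormedAddCommGroup W] [NormedSpace ℝ W] [FiniteDimensional ℝ W]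
  [NormedAddCommGroup V] [NormedSpace ℝ V] [FiniteDimensional ℝ V]

/-- the family pulled back to the plane -/
def Qg (𝒬 : CubFam W V) (γ : E2 → W) (u : E2) : V →L[ℝ] E3 := 𝒬.q (γ u)

theorem Qg_contDiffOn (𝒬 : CubFam W V) {γ : E2 → W} {Ω : Set E2} (hγ : Piece γ Ω) :
    ContDiffOn ℝ ∞ (Qg 𝒬 γ) Ω := 𝒬.smooth.comp_contDiffOn hγ.smooth

theorem dQg_contDiffOn (𝒬 : CubFam W V) {γ : E2 → W} {Ω : Set E2} (hγ : Piece γ Ω) :
    ContDiffOn ℝ ∞ (fderiv ℝ (Qg 𝒬 γ)) Ω :=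
  (Qg_contDiffOn 𝒬 hγ).fderiv_of_isOpen hγ.isOpen (by simp)

theorem ddQg_contDiffOn (𝒬 : CubFam W V) {γ : E2 → W} {Ω : Set E2} (hγ : Piece γ Ω) :
    ContDiffOn ℝ ∞ (fderiv ℝ (fderiv ℝ (Qg 𝒬 γ))) Ω :=
  (dQg_contDiffOn 𝒬 hγ).fderiv_of_isOpen hγ.isOpen (by simp)

/-- first derivative for a fixed parameter -/
theorem fderiv_q (𝒬 : CubFam W V) {γ : E2 → W} {Ω : Set E2} (hγ : Piece γ Ω) (C : V) {u : E2}
    (hu : u ∈ Ω) : fderiv ℝ (fun u => 𝒬.q (γ u) C) u =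
      (ContinuousLinearMap.apply ℝ E3 C).comp (fderiv ℝ (Qg 𝒬 γ) u) := by
  have h1 : HasFDerivAt (Qg 𝒬 γ) (fderiv ℝ (Qg 𝒬 γ) u) u :=
    (((Qg_contDiffOn 𝒬 hγ).contDiffAt (hγ.isOpen.mem_nhds hu)).differentiableAt
      (by simp)).hasFDerivAt
  exact ((ContinuousLinearMap.apply ℝ E3 C).hasFDerivAt.comp u h1).fderiv

/-- second derivative for a fixed parameter -/
theorem fderiv_fderiv_q (𝒬 : CubFam W V) {γ : E2 → W} {Ω : Set E2} (hγ : Piece γ Ω) (C : V)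
    {u : E2} (hu : u ∈ Ω) (δ a : E2) : fderiv ℝ (fderiv ℝ (fun u => 𝒬.q (γ u) C)) u δ a =
      fderiv ℝ (fderiv ℝ (Qg 𝒬 γ)) u δ a C := by
  have h0 : fderiv ℝ (fun u => 𝒬.q (γ u) C) =ᶠ[𝓝 u] fun u =>
      (ContinuousLinearMap.compL ℝ E2 (V →L[ℝ] E3) E3 (ContinuousLinearMap.apply ℝ E3 C))
        (fderiv ℝ (Qg 𝒬 γ) u) := by
    filter_upwards [hγ.isOpen.mem_nhds hu] with v hv
    rw [fderiv_q 𝒬 hγ C hv]; rfl
  have h1 : HasFDerivAt (fderiv ℝ (Qg 𝒬 γ)) (fderiv ℝ (fderiv ℝ (Qg 𝒬 γ)) u) u :=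
    (((dQg_contDiffOn 𝒬 hγ).contDiffAt (hγ.isOpen.mem_nhds hu)).differentiableAt
      (by simp)).hasFDerivAt
  have h2 := ((ContinuousLinearMap.compL ℝ E2 (V →L[ℝ] E3) E3
    (ContinuousLinearMap.apply ℝ E3 C)).hasFDerivAt.comp u h1)
  rw [h0.fderiv_eq]
  have h3 := h2.fderiv
  have h4 : fderiv ℝ (fun u => (ContinuousLinearMap.compL ℝ E2 (V →L[ℝ] E3) E3
      (ContinuousLinearMap.apply ℝ E3 C)) (fderiv ℝ (Qg 𝒬 γ) u)) u = _ := h3
  rw [h4]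
  rfl

/-- a linear functional on `W` inducing a given covector -/
theorem exists_functional {γ : E2 → W} {u : E2} (hinj : Injective (fderiv ℝ γ u))
    (n : E2 →L[ℝ] ℝ) : ∃ l : W →L[ℝ] ℝ, ∀ a, l (fderiv ℝ γ u a) = n a := by
  obtain ⟨g, hg⟩ := LinearMap.exists_leftInverse_of_injective (fderiv ℝ γ u : E2 →ₗ[ℝ] W)
    (LinearMap.ker_eq_bot.2 hinj)
  refine ⟨n.comp (LinearMap.toContinuousLinearMap g), fun a => ?_⟩
  have := LinearMap.congr_fun hg a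
  simp only [ContinuousLinearMap.comp_apply, LinearMap.coe_toContinuousLinearMap']
  congr 1

/-- affine functions: first derivative -/
theorem exists_lin (𝒬 : CubFam W V) {γ : E2 → W} {Ω : Set E2} (hγ : Piece γ Ω) {u : E2}
    (hu : u ∈ Ω) (n : E2 →L[ℝ] ℝ) (r : E3) :
    ∃ C : V, ∀ a, fderiv ℝ (Qg 𝒬 γ) u a C = n a • r := by
  obtain ⟨l, hl⟩ := exists_functional (hγ.inj u hu) n
  obtain ⟨C, hC⟩ := 𝒬.prod3 l 0 0 (-l (γ u)) 1 1 r
  refine ⟨C, fun a => ?_⟩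
  have h1 := DFunLike.congr_fun (fderiv_q 𝒬 hγ C hu) a
  have h2 : (fun v => 𝒬.q (γ v) C) = fun v => (l (γ v) + -l (γ u)) • r := by
    funext v; rw [hC]; simp
  have hγd : HasFDerivAt γ (fderiv ℝ γ u) u :=
    ((hγ.smooth.contDiffAt (hγ.isOpen.mem_nhds hu)).differentiableAt (by simp)).hasFDerivAt
  have h3 : HasFDerivAt (fun v => (l (γ v) + -l (γ u)) • r)
      ((l.comp (fderiv ℝ γ u)).smulRight r) u :=
    ((l.hasFDerivAt.comp u hγd).add_const _).smul_const r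
  rw [h2, h3.fderiv] at h1
  rw [← hl a]
  exact h1.symm

/-- squares: first and second derivative -/
theorem exists_sq (𝒬 : CubFam W V) {γ : E2 → W} {Ω : Set E2} (hγ : Piece γ Ω) {u : E2}
    (hu : u ∈ Ω) (n : E2 →L[ℝ] ℝ) (r : E3) :
    ∃ C : V, (∀ a, fderiv ℝ (Qg 𝒬 γ) u a C = 0) ∧
      ∀ δ a, fderiv ℝ (fderiv ℝ (Qg 𝒬 γ)) u δ a C = (2 * n δ * n a) • r := by
  obtain ⟨l, hl⟩ := exists_functional (hγ.inj u hu) n
  obtain ⟨C, hC⟩ := 𝒬.prod3 l l 0 (-l (γ u)) (-l (γ u)) 1 r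
  set φ : E2 → ℝ := fun v => l (γ v) + -l (γ u) with hφ
  have hφs : ContDiffOn ℝ ∞ φ Ω := (l.contDiff.comp_contDiffOn hγ.smooth).add contDiffOn_const
  have hφu : φ u = 0 := by simp [hφ]
  have hγd : HasFDerivAt γ (fderiv ℝ γ u) u :=
    ((hγ.smooth.contDiffAt (hγ.isOpen.mem_nhds hu)).differentiableAt (by simp)).hasFDerivAt
  have hφd : HasFDerivAt φ (l.comp (fderiv ℝ γ u)) u :=
    (l.hasFDerivAt.comp u hγd).add_const _
  have hφ' : fderiv ℝ φ u = n := by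
    ext1 a
    rw [hφd.fderiv]
    exact hl a
  have h2 : (fun v => 𝒬.q (γ v) C) = fun v => (φ v * φ v) • r := by
    funext v; rw [hC]; simp [hφ]
  have h3 : ∀ v ∈ Ω, fderiv ℝ (fun v => (φ v * φ v) • r) v =
      (2 * φ v) • (ContinuousLinearMap.smulRightL ℝ E2 E3 (fderiv ℝ φ v)) r := by
    intro v hv
    have h4 : HasFDerivAt φ (fderiv ℝ φ v) v :=
      ((hφs.contDiffAt (hγ.isOpen.mem_nhds hv)).differentiableAt (by simp)).hasFDerivAt
    have h5 := (h4.mul h4).smul_const r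
    have h6 : fderiv ℝ (fun v => (φ v * φ v) • r) v = _ := h5.fderiv
    rw [h6]
    ext1 a
    simp [smul_smul, ← add_smul]
    congr 1
    ring
  refine ⟨C, fun a => ?_, fun δ a => ?_⟩
  · have h1 := DFunLike.congr_fun (fderiv_q 𝒬 hγ C hu) a
    rw [h2, h3 u hu, hφu] at h1
    simp only [mul_zero, zero_smul] at h1
    exact h1.symm
  · have h1 := fderiv_fderiv_q 𝒬 hγ C hu δ a
    rw [h2] at h1
    have h4 : fderiv ℝ (fun v => (φ v * φ v) • r) =ᶠ[𝓝 u] fun v =>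
        (2 * φ v) • (ContinuousLinearMap.smulRightL ℝ E2 E3 (fderiv ℝ φ v)) r := by
      filter_upwards [hγ.isOpen.mem_nhds hu] with v hv using h3 v hv
    have hdφ : DifferentiableAt ℝ (fderiv ℝ φ) u :=
      ((hφs.fderiv_of_isOpen hγ.isOpen (m := ∞) (by simp)).contDiffAt
        (hγ.isOpen.mem_nhds hu)).differentiableAt (by simp)
    have h5 : HasFDerivAt (fun v => (ContinuousLinearMap.smulRightL ℝ E2 E3 (fderiv ℝ φ v)) r) _ u :=
      (((ContinuousLinearMap.smulRightL ℝ E2 E3).flip r).hasFDerivAt.comp u hdφ.hasFDerivAt)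
    have h6 : HasFDerivAt (fun v => 2 * φ v) ((2 : ℝ) • (l.comp (fderiv ℝ γ u))) u :=
      hφd.const_mul 2
    have h7 := h6.smul h5
    rw [h4.fderiv_eq] at h1
    have h8 := h7.fderiv
    have h9 : fderiv ℝ (fun v => (2 * φ v) •
        (ContinuousLinearMap.smulRightL ℝ E2 E3 (fderiv ℝ φ v)) r) u = _ := h8
    rw [h9, hφu] at h1
    rw [← h1, hφ']
    have h10 : l (fderiv ℝ γ u δ) = n δ := hl δ
    simp [smul_smul, h10]

/-- the joint condition map -/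
noncomputable def TT (𝒬 : CubFam W V) (γ : E2 → W) (u e δ : E2) (o : ℝ) : V →L[ℝ] (E3 × E3) :=
  (ContinuousLinearMap.inl ℝ E3 E3).comp (fderiv ℝ (Qg 𝒬 γ) u e) +
  (ContinuousLinearMap.inr ℝ E3 E3).comp
    (fderiv ℝ (fderiv ℝ (Qg 𝒬 γ)) u δ e + o • fderiv ℝ (Qg 𝒬 γ) u (J e))

theorem TT_apply (𝒬 : CubFam W V) (γ : E2 → W) (u e δ : E2) (o : ℝ) (C : V) :
    TT 𝒬 γ u e δ o C = (fderiv ℝ (Qg 𝒬 γ) u e C,
      fderiv ℝ (fderiv ℝ (Qg 𝒬 γ)) u δ e C + o • fderiv ℝ (Qg 𝒬 γ) u (J e) C) := by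
  simp [TT]

theorem TT_surjective (𝒬 : CubFam W V) {γ : E2 → W} {Ω : Set E2} (hγ : Piece γ Ω) {u : E2}
    (hu : u ∈ Ω) {e δ : E2} {o : ℝ} (he : e ≠ 0) (hδo : δ ≠ 0 ∨ o ≠ 0) :
    Surjective (TT 𝒬 γ u e δ o) := by
  rintro ⟨r₁, r₂⟩
  by_cases hδ : δ = 0
  · have ho : o ≠ 0 := by
      rcases hδo with h | h
      · exact absurd hδ h
      · exact h
    obtain ⟨n₁, n₂, h1, h2, h3, h4⟩ := exists_fn_frame he
    obtain ⟨C₁, hC₁⟩ := exists_lin 𝒬 hγ hu n₁ r₁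
    obtain ⟨C₂, hC₂⟩ := exists_lin 𝒬 hγ hu n₂ (o⁻¹ • r₂)
    refine ⟨C₁ + C₂, ?_⟩
    rw [TT_apply, hδ]
    simp only [map_add, hC₁, hC₂, h1, h2, h3, h4, map_zero, zero_apply,
      zero_smul, one_smul, add_zero, zero_add, smul_smul, zero_mul, one_mul, mul_inv_cancel₀ ho]
  · obtain ⟨n, hnδ, hne⟩ := exists_fn_ne hδ he
    obtain ⟨C₁, hC₁⟩ := exists_lin 𝒬 hγ hu n ((n e)⁻¹ • r₁)
    set x : E3 := fderiv ℝ (fderiv ℝ (Qg 𝒬 γ)) u δ e C₁ + o • fderiv ℝ (Qg 𝒬 γ) u (J e) C₁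
      with hx
    obtain ⟨C₂, hC₂, hC₂'⟩ := exists_sq 𝒬 hγ hu n ((2 * n δ * n e)⁻¹ • (r₂ - x))
    refine ⟨C₁ + C₂, ?_⟩
    have hne' : 2 * n δ * n e ≠ 0 := by positivity
    rw [TT_apply]
    ext1
    · simp only [map_add, hC₁, hC₂, smul_smul, mul_inv_cancel₀ hne, one_smul, add_zero]
    · simp only [map_add, hC₂, hC₂', smul_smul, mul_inv_cancel₀ hne', one_smul, add_zero]
      have : fderiv ℝ (fderiv ℝ (Qg 𝒬 γ)) u δ e C₁ + (r₂ - x) +
          o • fderiv ℝ (Qg 𝒬 γ) u (J e) C₁ = x + (r₂ - x) := by rw [hx]; abel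
      rw [this]; abel

/-- affine charts for the direction `e` -/
noncomputable def eM (i : Fin 2) (s : ℝ) : E2 := if i = 0 then !₂[1, s] else !₂[s, 1]

/-- affine charts for `(δ, o)` -/
noncomputable def dM (j : Fin 3) (p : ℝ × ℝ) : E2 × ℝ :=
  if j = 0 then (!₂[1, p.1], p.2) else if j = 1 then (!₂[p.1, 1], p.2) else (!₂[p.1, p.2], 1)

theorem eM_ne (i : Fin 2) (s : ℝ) : eM i s ≠ 0 := by
  intro h
  fin_cases i
  · have := congrArg (fun v : E2 => v 0) h; simp [eM] at this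
  · have := congrArg (fun v : E2 => v 1) h; simp [eM] at this

theorem dM_ne (j : Fin 3) (p : ℝ × ℝ) : (dM j p).1 ≠ 0 ∨ (dM j p).2 ≠ 0 := by
  fin_cases j
  · left; intro h
    have := congrArg (fun v : E2 => v 0) h; simp [dM] at this
  · left; intro h
    have := congrArg (fun v : E2 => v 1) h; simp [dM] at this
  · right; simp [dM]

theorem contDiff_vec2 {X : Type*} [NormedAddCommGroup X] [NormedSpace ℝ X] {f g : X → ℝ}
    (hf : ContDiff ℝ ∞ f) (hg : ContDiff ℝ ∞ g) : ContDiff ℝ ∞ (fun x => (!₂[f x, g x] : E2)) := by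
  rw [contDiff_euclidean]
  intro i
  fin_cases i
  · simpa using hf
  · simpa using hg

theorem eM_contDiff (i : Fin 2) : ContDiff ℝ ∞ (eM i) := by
  fin_cases i
  · exact contDiff_vec2 contDiff_const contDiff_id
  · exact contDiff_vec2 contDiff_id contDiff_const

theorem dM_contDiff (j : Fin 3) : ContDiff ℝ ∞ (dM j) := by
  fin_cases j
  · exact (contDiff_vec2 contDiff_const contDiff_fst).prodMk contDiff_snd
  · exact (contDiff_vec2 contDiff_fst contDiff_const).prodMk contDiff_snd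
  · exact (contDiff_vec2 contDiff_fst contDiff_snd).prodMk contDiff_const

theorem exists_eM {e : E2} (he : e ≠ 0) : ∃ (i : Fin 2) (s c : ℝ), c ≠ 0 ∧ eM i s = c • e := by
  by_cases h : e 0 = 0
  · have h1 : e 1 ≠ 0 := by
      intro h1; apply he; ext i; fin_cases i
      · simpa using h
      · simpa using h1
    refine ⟨1, e 0 / e 1, (e 1)⁻¹, inv_ne_zero h1, ?_⟩
    ext i; fin_cases i
    · simp [eM]; field_simp
    · simp [eM]; field_simp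
  · refine ⟨0, e 1 / e 0, (e 0)⁻¹, inv_ne_zero h, ?_⟩
    ext i; fin_cases i
    · simp [eM]; field_simp
    · simp [eM]; field_simp

theorem exists_dM {δ : E2} {o : ℝ} (h : δ ≠ 0 ∨ o ≠ 0) :
    ∃ (j : Fin 3) (p : ℝ × ℝ) (c : ℝ), c ≠ 0 ∧ dM j p = (c • δ, c * o) := by
  by_cases ho : o = 0
  · have hδ : δ ≠ 0 := by
      rcases h with h | h
      · exact h
      · exact absurd ho h
    by_cases h0 : δ 0 = 0
    · have h1 : δ 1 ≠ 0 := by
        intro h1; apply hδ; ext i; fin_cases i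
        · simpa using h0
        · simpa using h1
      refine ⟨1, (δ 0 / δ 1, 0), (δ 1)⁻¹, inv_ne_zero h1, ?_⟩
      ext1
      · ext i; fin_cases i
        · simp [dM]; field_simp
        · simp [dM]; field_simp
      · simp [dM, ho]
    · refine ⟨0, (δ 1 / δ 0, 0), (δ 0)⁻¹, inv_ne_zero h0, ?_⟩
      ext1
      · ext i; fin_cases i
        · simp [dM]; field_simp
        · simp [dM]; field_simp
      · simp [dM, ho]
  · refine ⟨2, (δ 0 / o, δ 1 / o), o⁻¹, inv_ne_zero ho, ?_⟩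
    ext1
    · ext i; fin_cases i
      · simp [dM]; field_simp
      · simp [dM]; field_simp
    · simp [dM]; field_simp

/-- the family in affine charts -/
noncomputable def TTc (𝒬 : CubFam W V) (γ : E2 → W) (i : Fin 2) (j : Fin 3)
    (y : E2 × ℝ × (ℝ × ℝ)) : V →L[ℝ] (E3 × E3) :=
  TT 𝒬 γ y.1 (eM i y.2.1) (dM j y.2.2).1 (dM j y.2.2).2

theorem TTc_contDiffOn (𝒬 : CubFam W V) {γ : E2 → W} {Ω : Set E2} (hγ : Piece γ Ω)
    (i : Fin 2) (j : Fin 3) : ContDiffOn ℝ 1 (TTc 𝒬 γ i j) (Ω ×ˢ univ) := by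
  have hD : ContDiffOn ℝ ∞ (fun y : E2 × ℝ × (ℝ × ℝ) => fderiv ℝ (Qg 𝒬 γ) y.1) (Ω ×ˢ univ) :=
    (dQg_contDiffOn 𝒬 hγ).comp contDiff_fst.contDiffOn (fun y hy => hy.1)
  have hDD : ContDiffOn ℝ ∞ (fun y : E2 × ℝ × (ℝ × ℝ) => fderiv ℝ (fderiv ℝ (Qg 𝒬 γ)) y.1)
      (Ω ×ˢ univ) :=
    (ddQg_contDiffOn 𝒬 hγ).comp contDiff_fst.contDiffOn (fun y hy => hy.1)
  have he : ContDiffOn ℝ ∞ (fun y : E2 × ℝ × (ℝ × ℝ) => eM i y.2.1) (Ω ×ˢ univ) :=
    ((eM_contDiff i).comp (contDiff_fst.comp contDiff_snd)).contDiffOn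
  have hd : ContDiffOn ℝ ∞ (fun y : E2 × ℝ × (ℝ × ℝ) => dM j y.2.2) (Ω ×ˢ univ) :=
    ((dM_contDiff j).comp (contDiff_snd.comp contDiff_snd)).contDiffOn
  have hd1 : ContDiffOn ℝ ∞ (fun y : E2 × ℝ × (ℝ × ℝ) => (dM j y.2.2).1) (Ω ×ˢ univ) :=
    contDiff_fst.comp_contDiffOn hd
  have hd2 : ContDiffOn ℝ ∞ (fun y : E2 × ℝ × (ℝ × ℝ) => (dM j y.2.2).2) (Ω ×ˢ univ) :=
    contDiff_snd.comp_contDiffOn hd
  have hJ : ContDiffOn ℝ ∞ (fun y : E2 × ℝ × (ℝ × ℝ) => J (eM i y.2.1)) (Ω ×ˢ univ) :=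
    J.contDiff.comp_contDiffOn he
  have h1 := hD.clm_apply he
  have h2 := (hDD.clm_apply hd1).clm_apply he
  have h3 := hd2.smul (hD.clm_apply hJ)
  have h4 : ContDiffOn ℝ ∞ (TTc 𝒬 γ i j) (Ω ×ˢ univ) :=
    (contDiffOn_const.clm_comp h1).add (contDiffOn_const.clm_comp (h2.add h3))
  exact h4.of_le ENat.LEInfty.out

end

end Cap

theorem dimH_badCap_le {W V : Type*} [NormedAddCommGroup W] [NormedSpace ℝ W]
    [FiniteDimensional ℝ W] [NormedAddCommGroup V] [NormedSpace ℝ V] [FiniteDimensional ℝ V]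
    (𝒬 : CubFam W V) {γ : E2 → W} {Ω : Set E2} (hγ : Piece γ Ω) :
    dimH (badCap 𝒬 γ Ω) ≤ (Module.finrank ℝ V - 1 : ℕ) := by
  have hsub : badCap 𝒬 γ Ω ⊆ ⋃ k : Fin 2 × Fin 3,
      {C : V | ∃ y ∈ Ω ×ˢ (univ : Set (ℝ × (ℝ × ℝ))), Cap.TTc 𝒬 γ k.1 k.2 y C = 0} := by
    rintro C ⟨u, hu, hnd⟩
    simp only [Nondeg] at hnd
    push Not at hnd
    obtain ⟨e, he, h0, δ, w, hw, hne⟩ := hnd
    obtain ⟨a, o, hdec⟩ := Cap.exists_decomp he w
    rw [Cap.fderiv_q 𝒬 hγ C hu] at h0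
    rw [Cap.fderiv_fderiv_q 𝒬 hγ C hu, Cap.fderiv_q 𝒬 hγ C hu] at hw
    simp only [ContinuousLinearMap.comp_apply, ContinuousLinearMap.apply_apply] at h0 hw
    have hδo : δ ≠ 0 ∨ o ≠ 0 := by
      by_contra hcon
      push Not at hcon
      obtain ⟨h1, h2⟩ := hcon
      exact hne h1 a (by rw [hdec, h2]; simp)
    obtain ⟨i, s, c, hc, hes⟩ := Cap.exists_eM he
    obtain ⟨j, p, c', hc', hdp⟩ := Cap.exists_dM hδo
    simp only [mem_iUnion]
    refine ⟨(i, j), (u, s, p), ⟨hu, mem_univ _⟩, ?_⟩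
    simp only [Cap.TTc]
    rw [Cap.TT_apply, hes, hdp]
    rw [hdec] at hw
    have hw' : fderiv ℝ (fderiv ℝ (Cap.Qg 𝒬 γ)) u δ e C
        + o • fderiv ℝ (Cap.Qg 𝒬 γ) u (Cap.J e) C = 0 := by
      have : fderiv ℝ (Cap.Qg 𝒬 γ) u (a • e + o • Cap.J e) C
          = o • fderiv ℝ (Cap.Qg 𝒬 γ) u (Cap.J e) C := by
        simp [h0]
      rw [this] at hw
      exact hw
    ext1
    · simp [h0]
    · simp only [map_smul, smul_apply, Prod.snd_zero, smul_smul]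
      have : (c' * c) • (fderiv ℝ (fderiv ℝ (Cap.Qg 𝒬 γ)) u δ e C
        + o • fderiv ℝ (Cap.Qg 𝒬 γ) u (Cap.J e) C) = 0 := by rw [hw', smul_zero]
      rw [← this, smul_add, smul_smul]
      congr 2 <;> ring
  refine (dimH_mono hsub).trans ?_
  rw [dimH_iUnion]
  refine iSup_le fun k => ?_
  refine dimH_bad (hγ.isOpen.prod isOpen_univ) (Cap.TTc_contDiffOn 𝒬 hγ k.1 k.2) ?_ ?_
  · rintro y ⟨hy, -⟩
    exact Cap.TT_surjective 𝒬 hγ hy (Cap.eM_ne _ _) (Cap.dM_ne _ _)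
  · simp

end Crest.Agent.R216.D
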