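import Crest.Agent.R216.D1Defs
import Crest.Agent.R216.D1Null
import Crest.Agent.R216.D4MatA

/-! Row 216 (D), module D1: nontransversal double points are not generic (helper359). -/

set_option autoImplicit false
open scoped Manifold ContDiff Topology
open Set Metric Function

namespace Crest.Agent.R216.D

namespace Dbl

set_option linter.unusedSectionVars false

theorem exists_polar (x y : ℝ) : ∃ r t : ℝ, 0 ≤ r ∧ r ^ 2 = x ^ 2 + y ^ 2 ∧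
    x = r * Real.cos t ∧ y = r * Real.sin t := by
  refine ⟨‖(⟨x, y⟩ : ℂ)‖, Complex.arg ⟨x, y⟩, norm_nonneg _, ?_, ?_, ?_⟩
  · rw [Complex.sq_norm, Complex.normSq_mk]; ring
  · have := Complex.norm_mul_cos_arg (⟨x, y⟩ : ℂ)
    exact this.symm
  · have := Complex.norm_mul_sin_arg (⟨x, y⟩ : ℂ)
    exact this.symm

/-- spherical coordinates on `S²` -/
noncomputable def lam (a b : ℝ) : E3 :=
  !₂[Real.cos a * Real.cos b, Real.cos a * Real.sin b, Real.sin a]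

theorem contDiff_lam : ContDiff ℝ ∞ (fun p : ℝ × ℝ => lam p.1 p.2) := by
  rw [contDiff_euclidean]
  intro i
  fin_cases i
  · exact (Real.contDiff_cos.comp contDiff_fst).mul (Real.contDiff_cos.comp contDiff_snd)
  · exact (Real.contDiff_cos.comp contDiff_fst).mul (Real.contDiff_sin.comp contDiff_snd)
  · exact Real.contDiff_sin.comp contDiff_fst

theorem inner_lam (a b : ℝ) : inner ℝ (lam a b) (lam a b) = 1 := by
  have h1 := Real.sin_sq_add_cos_sq a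
  have h2 := Real.sin_sq_add_cos_sq b
  have : inner ℝ (lam a b) (lam a b) = (Real.cos a * Real.cos b) ^ 2
      + (Real.cos a * Real.sin b) ^ 2 + (Real.sin a) ^ 2 := by
    have e : ∀ x y : E3, inner ℝ x y = x 0 * y 0 + x 1 * y 1 + x 2 * y 2 := by
      intro x y
      simp [PiLp.inner_apply, Fin.sum_univ_three]
      ring
    rw [e]
    simp [lam]
    ring
  rw [this]
  linear_combination (Real.cos a) ^ 2 * h2 + h1

theorem exists_lam {l : E3} (hl : l ≠ 0) : ∃ r a b : ℝ, 0 < r ∧ l = r • lam a b := by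
  obtain ⟨ρ, b, hρ, hρ2, h0, h1⟩ := exists_polar (l 0) (l 1)
  obtain ⟨r, a, hr, hr2, ha, h2⟩ := exists_polar ρ (l 2)
  have heq : l = r • lam a b := by
    ext i
    fin_cases i
    · simp only [lam]
      show l 0 = r * (Real.cos a * Real.cos b)
      rw [h0, ha]; ring
    · simp only [lam]
      show l 1 = r * (Real.cos a * Real.sin b)
      rw [h1, ha]; ring
    · simp only [lam]
      show l 2 = r * Real.sin a
      exact h2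
  refine ⟨r, a, b, lt_of_le_of_ne hr ?_, heq⟩
  rintro rfl
  exact hl (by rw [heq, zero_smul])

variable {W V : Type*} [NormedAddCommGroup W] [InnerProductSpace ℝ W]
    [FiniteDimensional ℝ W] [NormedAddCommGroup V] [NormedSpace ℝ V] [FiniteDimensional ℝ V]
    (𝒬 : CubFam W V)

theorem contDiffOn_Q {γ : E2 → W} {Ω : Set E2} (h : Piece γ Ω) :
    ContDiffOn ℝ ∞ (fun u => 𝒬.q (γ u)) Ω :=
  𝒬.smooth.comp_contDiffOn h.smooth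

theorem differentiableAt_Q {γ : E2 → W} {Ω : Set E2} (h : Piece γ Ω) {u : E2} (hu : u ∈ Ω) :
    DifferentiableAt ℝ (fun u => 𝒬.q (γ u)) u :=
  ((contDiffOn_Q 𝒬 h).contDiffAt (h.isOpen.mem_nhds hu)).differentiableAt (by simp)

theorem differentiableAt_γ {γ : E2 → W} {Ω : Set E2} (h : Piece γ Ω) {u : E2} (hu : u ∈ Ω) :
    DifferentiableAt ℝ γ u :=
  (h.smooth.contDiffAt (h.isOpen.mem_nhds hu)).differentiableAt (by simp)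

theorem fderiv_Q_apply {γ : E2 → W} {Ω : Set E2} (h : Piece γ Ω) {u : E2} (hu : u ∈ Ω)
    (C : V) (w : E2) :
    fderiv ℝ (fun u => 𝒬.q (γ u) C) u w = fderiv ℝ (fun u => 𝒬.q (γ u)) u w C := by
  have h1 := (differentiableAt_Q 𝒬 h hu).hasFDerivAt.clm_apply (hasFDerivAt_const C u)
  rw [h1.fderiv]
  simp

/-- first derivative of a product of three affine functions -/
theorem fderiv_prod3 {γ : E2 → W} {Ω : Set E2} (h : Piece γ Ω) {u : E2} (hu : u ∈ Ω)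
    {l₁ l₂ l₃ : W →L[ℝ] ℝ} {t₁ t₂ t₃ : ℝ} {r : E3} {C : V}
    (hC : ∀ z : W, 𝒬.q z C = ((l₁ z + t₁) * (l₂ z + t₂) * (l₃ z + t₃)) • r) (w : E2) :
    fderiv ℝ (fun u => 𝒬.q (γ u)) u w C =
      (l₁ (fderiv ℝ γ u w) * (l₂ (γ u) + t₂) * (l₃ (γ u) + t₃)
        + (l₁ (γ u) + t₁) * l₂ (fderiv ℝ γ u w) * (l₃ (γ u) + t₃)
        + (l₁ (γ u) + t₁) * (l₂ (γ u) + t₂) * l₃ (fderiv ℝ γ u w)) • r := by
  rw [← fderiv_Q_apply 𝒬 h hu]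
  have hγ := (differentiableAt_γ h hu).hasFDerivAt
  have e : (fun u => 𝒬.q (γ u) C)
      = fun u => ((l₁ (γ u) + t₁) * (l₂ (γ u) + t₂) * (l₃ (γ u) + t₃)) • r := by
    funext x; exact hC _
  have a1 : HasFDerivAt (fun x => l₁ (γ x) + t₁) (l₁.comp (fderiv ℝ γ u)) u :=
    (l₁.hasFDerivAt.comp u hγ).add_const t₁
  have a2 : HasFDerivAt (fun x => l₂ (γ x) + t₂) (l₂.comp (fderiv ℝ γ u)) u :=
    (l₂.hasFDerivAt.comp u hγ).add_const t₂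
  have a3 : HasFDerivAt (fun x => l₃ (γ x) + t₃) (l₃.comp (fderiv ℝ γ u)) u :=
    (l₃.hasFDerivAt.comp u hγ).add_const t₃
  have a4 : HasFDerivAt
      (fun u => ((l₁ (γ u) + t₁) * (l₂ (γ u) + t₂) * (l₃ (γ u) + t₃)) • r) _ u :=
    ((a1.mul a2).mul a3).smul_const r
  rw [e, a4.fderiv]
  simp only [ContinuousLinearMap.smulRight_apply, add_apply, smul_apply,
    ContinuousLinearMap.comp_apply, smul_eq_mul, Pi.mul_apply]
  congr 1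
  ring

/-- functional with prescribed values -/
theorem exists_functional {γ : E2 → W} {Ω : Set E2} (h : Piece γ Ω) {u : E2} (hu : u ∈ Ω)
    (β₁ β₂ : ℝ) : ∃ M : W →L[ℝ] ℝ, M (fderiv ℝ γ u u1) = β₁ ∧ M (fderiv ℝ γ u u2) = β₂ := by
  obtain ⟨G, hG⟩ := LinearMap.exists_leftInverse_of_injective (fderiv ℝ γ u : E2 →ₗ[ℝ] W)
    (LinearMap.ker_eq_bot.2 (h.inj u hu))
  set φ : E2 →ₗ[ℝ] ℝ := β₁ • (EuclideanSpace.proj (0 : Fin 2) : E2 →L[ℝ] ℝ).toLinearMap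
    + β₂ • (EuclideanSpace.proj (1 : Fin 2) : E2 →L[ℝ] ℝ).toLinearMap with hφ
  refine ⟨LinearMap.toContinuousLinearMap (φ.comp G), ?_, ?_⟩
  · have h1 : G (fderiv ℝ γ u u1) = u1 := DFunLike.congr_fun hG u1
    show φ (G (fderiv ℝ γ u u1)) = β₁
    rw [h1]
    simp [hφ, u1]
  · have h1 : G (fderiv ℝ γ u u2) = u2 := DFunLike.congr_fun hG u2
    show φ (G (fderiv ℝ γ u u2)) = β₂
    rw [h1]
    simp [hφ, u2]

/-- the seven linear conditions -/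
noncomputable def TT (γ₁ γ₂ : E2 → W) (p : (E2 × E2) × (ℝ × ℝ)) :
    V →L[ℝ] E3 × ((ℝ × ℝ) × (ℝ × ℝ)) :=
  (𝒬.q (γ₁ p.1.1) - 𝒬.q (γ₂ p.1.2)).prod
    ((((innerSL ℝ (lam p.2.1 p.2.2)).comp (fderiv ℝ (fun u => 𝒬.q (γ₁ u)) p.1.1 u1)).prod
      ((innerSL ℝ (lam p.2.1 p.2.2)).comp (fderiv ℝ (fun u => 𝒬.q (γ₁ u)) p.1.1 u2))).prod
    (((innerSL ℝ (lam p.2.1 p.2.2)).comp (fderiv ℝ (fun u => 𝒬.q (γ₂ u)) p.1.2 u1)).prod
      ((innerSL ℝ (lam p.2.1 p.2.2)).comp (fderiv ℝ (fun u => 𝒬.q (γ₂ u)) p.1.2 u2))))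

theorem TT_apply (γ₁ γ₂ : E2 → W) (p : (E2 × E2) × (ℝ × ℝ)) (C : V) :
    TT 𝒬 γ₁ γ₂ p C = (𝒬.q (γ₁ p.1.1) C - 𝒬.q (γ₂ p.1.2) C,
      ((inner ℝ (lam p.2.1 p.2.2) (fderiv ℝ (fun u => 𝒬.q (γ₁ u)) p.1.1 u1 C),
        inner ℝ (lam p.2.1 p.2.2) (fderiv ℝ (fun u => 𝒬.q (γ₁ u)) p.1.1 u2 C)),
       (inner ℝ (lam p.2.1 p.2.2) (fderiv ℝ (fun u => 𝒬.q (γ₂ u)) p.1.2 u1 C),
        inner ℝ (lam p.2.1 p.2.2) (fderiv ℝ (fun u => 𝒬.q (γ₂ u)) p.1.2 u2 C)))) := by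
  simp [TT]

/-- the domain -/
def dom (γ₁ γ₂ : E2 → W) (Ω₁ Ω₂ : Set E2) : Set ((E2 × E2) × (ℝ × ℝ)) :=
  {p | p.1.1 ∈ Ω₁ ∧ p.1.2 ∈ Ω₂ ∧ γ₁ p.1.1 ≠ γ₂ p.1.2}

theorem isOpen_dom {γ₁ γ₂ : E2 → W} {Ω₁ Ω₂ : Set E2} (h₁ : Piece γ₁ Ω₁) (h₂ : Piece γ₂ Ω₂) :
    IsOpen (dom γ₁ γ₂ Ω₁ Ω₂) := by
  set S : Set ((E2 × E2) × (ℝ × ℝ)) := {p | p.1.1 ∈ Ω₁ ∧ p.1.2 ∈ Ω₂} with hS
  have hSo : IsOpen S :=
    (h₁.isOpen.preimage (continuous_fst.comp continuous_fst)).inter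
      (h₂.isOpen.preimage (continuous_snd.comp continuous_fst))
  have hc1 : ContinuousOn (fun p : (E2 × E2) × (ℝ × ℝ) => γ₁ p.1.1) S :=
    h₁.smooth.continuousOn.comp (continuous_fst.comp continuous_fst).continuousOn
      (fun p hp => hp.1)
  have hc2 : ContinuousOn (fun p : (E2 × E2) × (ℝ × ℝ) => γ₂ p.1.2) S :=
    h₂.smooth.continuousOn.comp (continuous_snd.comp continuous_fst).continuousOn
      (fun p hp => hp.2)
  have h := (hc1.sub hc2).isOpen_inter_preimage hSo (isOpen_compl_singleton (x := (0 : W)))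
  convert h using 1
  ext p
  constructor
  · rintro ⟨h1, h2, h3⟩
    exact ⟨⟨h1, h2⟩, sub_ne_zero.2 h3⟩
  · rintro ⟨⟨h1, h2⟩, h3⟩
    exact ⟨h1, h2, sub_ne_zero.1 h3⟩

theorem contDiffOn_TT {γ₁ γ₂ : E2 → W} {Ω₁ Ω₂ : Set E2} (h₁ : Piece γ₁ Ω₁) (h₂ : Piece γ₂ Ω₂) :
    ContDiffOn ℝ 1 (TT 𝒬 γ₁ γ₂) (dom γ₁ γ₂ Ω₁ Ω₂) := by
  rw [contDiffOn_clm_apply]
  intro C
  simp only [TT_apply]
  have f1 : ContDiffOn ℝ 1 (fun p : (E2 × E2) × (ℝ × ℝ) => p.1.1) (dom γ₁ γ₂ Ω₁ Ω₂) :=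
    (contDiff_fst.comp contDiff_fst).contDiffOn
  have f2 : ContDiffOn ℝ 1 (fun p : (E2 × E2) × (ℝ × ℝ) => p.1.2) (dom γ₁ γ₂ Ω₁ Ω₂) :=
    (contDiff_snd.comp contDiff_fst).contDiffOn
  have f3 : ContDiffOn ℝ 1 (fun p : (E2 × E2) × (ℝ × ℝ) => lam p.2.1 p.2.2)
      (dom γ₁ γ₂ Ω₁ Ω₂) :=
    ((contDiff_lam.of_le (by norm_cast)).comp contDiff_snd).contDiffOn
  have q1 : ContDiffOn ℝ 1 (fun u => 𝒬.q (γ₁ u)) Ω₁ := (contDiffOn_Q 𝒬 h₁).of_le (by norm_cast)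
  have q2 : ContDiffOn ℝ 1 (fun u => 𝒬.q (γ₂ u)) Ω₂ := (contDiffOn_Q 𝒬 h₂).of_le (by norm_cast)
  have d1 : ContDiffOn ℝ 1 (fderiv ℝ (fun u => 𝒬.q (γ₁ u))) Ω₁ :=
    (contDiffOn_Q 𝒬 h₁).fderiv_of_isOpen h₁.isOpen (by norm_cast)
  have d2 : ContDiffOn ℝ 1 (fderiv ℝ (fun u => 𝒬.q (γ₂ u))) Ω₂ :=
    (contDiffOn_Q 𝒬 h₂).fderiv_of_isOpen h₂.isOpen (by norm_cast)
  have g1 : ContDiffOn ℝ 1 (fun p : (E2 × E2) × (ℝ × ℝ) => 𝒬.q (γ₁ p.1.1) C)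
      (dom γ₁ γ₂ Ω₁ Ω₂) :=
    (q1.comp f1 (fun p hp => hp.1)).clm_apply contDiffOn_const
  have g2 : ContDiffOn ℝ 1 (fun p : (E2 × E2) × (ℝ × ℝ) => 𝒬.q (γ₂ p.1.2) C)
      (dom γ₁ γ₂ Ω₁ Ω₂) :=
    (q2.comp f2 (fun p hp => hp.2.1)).clm_apply contDiffOn_const
  have k1 : ∀ w : E2, ContDiffOn ℝ 1 (fun p : (E2 × E2) × (ℝ × ℝ) =>
      inner ℝ (lam p.2.1 p.2.2) (fderiv ℝ (fun u => 𝒬.q (γ₁ u)) p.1.1 w C))
      (dom γ₁ γ₂ Ω₁ Ω₂) := fun w =>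
    f3.inner ℝ (((d1.comp f1 (fun p hp => hp.1)).clm_apply contDiffOn_const).clm_apply
      contDiffOn_const)
  have k2 : ∀ w : E2, ContDiffOn ℝ 1 (fun p : (E2 × E2) × (ℝ × ℝ) =>
      inner ℝ (lam p.2.1 p.2.2) (fderiv ℝ (fun u => 𝒬.q (γ₂ u)) p.1.2 w C))
      (dom γ₁ γ₂ Ω₁ Ω₂) := fun w =>
    f3.inner ℝ (((d2.comp f2 (fun p hp => hp.2.1)).clm_apply contDiffOn_const).clm_apply
      contDiffOn_const)
  exact (g1.sub g2).prodMk (((k1 u1).prodMk (k1 u2)).prodMk ((k2 u1).prodMk (k2 u2)))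

theorem surjective_TT {γ₁ γ₂ : E2 → W} {Ω₁ Ω₂ : Set E2} (h₁ : Piece γ₁ Ω₁) (h₂ : Piece γ₂ Ω₂)
    {p : (E2 × E2) × (ℝ × ℝ)} (hp : p ∈ dom γ₁ γ₂ Ω₁ Ω₂) : Surjective (TT 𝒬 γ₁ γ₂ p) := by
  obtain ⟨⟨u, v⟩, a, b⟩ := p
  obtain ⟨hu, hv, hne⟩ := hp
  dsimp only at hu hv hne
  rintro ⟨r, ⟨β₁, β₂⟩, δ₁, δ₂⟩
  set x := γ₁ u with hx
  set y := γ₂ v with hy
  set d := x - y with hd
  have hn : inner ℝ d d ≠ 0 := by
    rw [real_inner_self_eq_norm_sq]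
    exact pow_ne_zero 2 (norm_ne_zero_iff.2 (sub_ne_zero.2 hne))
  set l : W →L[ℝ] ℝ := (inner ℝ d d)⁻¹ • innerSL ℝ d with hl
  set t : ℝ := - l y with ht
  have hlx : l x + t = 1 := by
    have : l x - l y = 1 := by
      rw [← map_sub, ← hd, hl]
      simp only [smul_apply, innerSL_apply_apply, smul_eq_mul]
      exact inv_mul_cancel₀ hn
    rw [ht]; linarith
  have hly : l y + t = 0 := by rw [ht]; ring
  obtain ⟨M₁, hM₁, hM₁'⟩ := exists_functional h₁ hu β₁ β₂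
  obtain ⟨M₂, hM₂, hM₂'⟩ := exists_functional h₂ hv δ₁ δ₂
  obtain ⟨C1, hC1⟩ := 𝒬.prod3 l l (-(2 : ℝ) • l) t t (3 - 2 * t) r
  obtain ⟨C2, hC2⟩ := 𝒬.prod3 M₁ l l (-(M₁ x)) t t (lam a b)
  obtain ⟨C3, hC3⟩ := 𝒬.prod3 M₂ (-l) (-l) (-(M₂ y)) (1 - t) (1 - t) (lam a b)
  have hs2 : (-(2 : ℝ) • l) x + (3 - 2 * t) = 1 := by
    simp only [smul_apply, smul_eq_mul]
    linear_combination (-2) * hlx
  have hs2' : (-(2 : ℝ) • l) y + (3 - 2 * t) = 3 := by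
    simp only [smul_apply, smul_eq_mul]
    linear_combination (-2) * hly
  have hs3 : (-l) x + (1 - t) = 0 := by
    show -(l x) + (1 - t) = 0
    linear_combination (-1) * hlx
  have hs3' : (-l) y + (1 - t) = 1 := by
    show -(l y) + (1 - t) = 1
    linear_combination (-1) * hly
  have hM1x : M₁ x + -(M₁ x) = 0 := by ring
  have hM2y : M₂ y + -(M₂ y) = 0 := by ring
  refine ⟨C1 + C2 + C3, ?_⟩
  rw [TT_apply]
  have hlam := inner_lam a b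
  -- values
  have v1 : 𝒬.q x (C1 + C2 + C3) = r := by
    rw [map_add, map_add, hC1, hC2, hC3, hlx, hs2, hM1x, hs3]
    simp
  have v2 : 𝒬.q y (C1 + C2 + C3) = 0 := by
    rw [map_add, map_add, hC1, hC2, hC3, hly, hM2y]
    simp
  -- derivatives
  have w1 : ∀ w : E2, inner ℝ (lam a b) (fderiv ℝ (fun u => 𝒬.q (γ₁ u)) u w (C1 + C2 + C3))
      = M₁ (fderiv ℝ γ₁ u w) := by
    intro w
    rw [map_add, map_add, fderiv_prod3 𝒬 h₁ hu hC1 w, fderiv_prod3 𝒬 h₁ hu hC2 w,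
      fderiv_prod3 𝒬 h₁ hu hC3 w, ← hx, hlx, hs2, hM1x, hs3, inner_add_right, inner_add_right,
      inner_smul_right, inner_smul_right, inner_smul_right, hlam]
    simp only [smul_apply, smul_eq_mul]
    ring
  have w2 : ∀ w : E2, inner ℝ (lam a b) (fderiv ℝ (fun u => 𝒬.q (γ₂ u)) v w (C1 + C2 + C3))
      = M₂ (fderiv ℝ γ₂ v w) := by
    intro w
    rw [map_add, map_add, fderiv_prod3 𝒬 h₂ hv hC1 w, fderiv_prod3 𝒬 h₂ hv hC2 w,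
      fderiv_prod3 𝒬 h₂ hv hC3 w, ← hy, hly, hs2', hM2y, hs3', inner_add_right, inner_add_right,
      inner_smul_right, inner_smul_right, inner_smul_right, hlam]
    ring
  simp only [← hx, ← hy, v1, v2, w1, w2, hM₁, hM₁', hM₂, hM₂', sub_zero]

end Dbl

open Dbl in
theorem dimH_badDbl_le {W V : Type*} [NormedAddCommGroup W] [InnerProductSpace ℝ W]
    [FiniteDimensional ℝ W] [NormedAddCommGroup V] [NormedSpace ℝ V] [FiniteDimensional ℝ V]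
    (𝒬 : CubFam W V) {γ₁ γ₂ : E2 → W} {Ω₁ Ω₂ : Set E2} (h₁ : Piece γ₁ Ω₁) (h₂ : Piece γ₂ Ω₂) :
    dimH (badDbl 𝒬 γ₁ γ₂ Ω₁ Ω₂) ≤ (Module.finrank ℝ V - 1 : ℕ) := by
  have hmain := dimH_bad (isOpen_dom h₁ h₂) (contDiffOn_TT 𝒬 h₁ h₂)
    (fun p hp => surjective_TT 𝒬 h₁ h₂ hp) (by simp)
  refine (dimH_mono ?_).trans hmain
  rintro C ⟨u, hu, v, hv, hne, heq, l, hl, hl1, hl2⟩
  obtain ⟨r, a, b, hr, rfl⟩ := exists_lam hl
  refine ⟨((u, v), (a, b)), ⟨hu, hv, hne⟩, ?_⟩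
  have key : ∀ z : E3, inner ℝ (r • lam a b) z = 0 → inner ℝ (lam a b) z = 0 := by
    intro z hz
    rw [inner_smul_left] at hz
    exact (mul_eq_zero.1 hz).resolve_left (by simpa using hr.ne')
  have k1 : ∀ w, inner ℝ (lam a b) (fderiv ℝ (fun u => 𝒬.q (γ₁ u)) u w C) = 0 := by
    intro w
    rw [← fderiv_Q_apply 𝒬 h₁ hu]
    exact key _ (hl1 w)
  have k2 : ∀ w, inner ℝ (lam a b) (fderiv ℝ (fun u => 𝒬.q (γ₂ u)) v w C) = 0 := by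
    intro w
    rw [← fderiv_Q_apply 𝒬 h₂ hv]
    exact key _ (hl2 w)
  rw [TT_apply]
  simp only [k1, k2, heq, sub_self]
  rfl

end Crest.Agent.R216.D
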