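import Crest.Agent.R216.D1Defs

/-! Row 216 (D), module D1: the cubic family exists (owner: helper86). -/

set_option autoImplicit false
open scoped Manifold ContDiff Topology
open Set Metric Function

namespace Crest.Agent.R216.D

/-- index set of the homogeneous coordinates of `(1, z)` -/
abbrev CubIdx (N : ℕ) := Option (Fin N) × Option (Fin N) × Option (Fin N)

/-- the parameter space -/
abbrev CubV (N : ℕ) := CubIdx N → E3

/-- homogeneous coordinates -/
noncomputable def hco {N : ℕ} (z : EuclideanSpace ℝ (Fin N)) : Option (Fin N) → ℝ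
  | none => 1
  | some i => z i

lemma contDiff_hco {N : ℕ} (i : Option (Fin N)) :
    ContDiff ℝ ∞ (fun z : EuclideanSpace ℝ (Fin N) => hco z i) := by
  cases i with
  | none => exact contDiff_const
  | some i =>
    show ContDiff ℝ ∞ (fun z : EuclideanSpace ℝ (Fin N) => z i)
    fun_prop

lemma hco_affine {N : ℕ} (l : EuclideanSpace ℝ (Fin N) →L[ℝ] ℝ) (t : ℝ) :
    ∃ α : Option (Fin N) → ℝ, ∀ z, l z + t = ∑ i, α i * hco z i := by
  refine ⟨fun i => match i with | none => t | some i => l (EuclideanSpace.single i 1), fun z => ?_⟩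
  rw [Fintype.sum_option]
  simp only [hco, mul_one]
  rw [add_comm]
  congr 1
  have hz : z = ∑ i, z i • EuclideanSpace.single i (1 : ℝ) := by
    ext j
    simp [Finset.sum_apply, Pi.single_apply]
  conv_lhs => rw [hz]
  rw [map_sum]
  refine Finset.sum_congr rfl fun i _ => ?_
  rw [map_smul, smul_eq_mul, mul_comm]

/-- the evaluation functional -/
noncomputable def cubq (N : ℕ) (z : EuclideanSpace ℝ (Fin N)) : CubV N →L[ℝ] E3 :=
  ∑ k : CubIdx N, (hco z k.1 * hco z k.2.1 * hco z k.2.2) •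
    (ContinuousLinearMap.proj k : CubV N →L[ℝ] E3)

lemma cubq_prod {N : ℕ} (α β γ : Option (Fin N) → ℝ) (w : E3) (z : EuclideanSpace ℝ (Fin N)) :
    cubq N z (fun k : CubIdx N => (α k.1 * β k.2.1 * γ k.2.2) • w)
      = ((∑ i, α i * hco z i) * (∑ i, β i * hco z i) * (∑ i, γ i * hco z i)) • w := by
  have h1 : cubq N z (fun k : CubIdx N => (α k.1 * β k.2.1 * γ k.2.2) • w)
      = ∑ k : CubIdx N, ((α k.1 * hco z k.1) * (β k.2.1 * hco z k.2.1) * (γ k.2.2 * hco z k.2.2)) • w := by
    simp only [cubq, sum_apply, smul_apply, ContinuousLinearMap.proj_apply, smul_smul]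
    refine Finset.sum_congr rfl fun k _ => ?_
    congr 1
    ring
  rw [h1, ← Finset.sum_smul]
  congr 1
  rw [Fintype.sum_prod_type, Finset.sum_mul_sum, Finset.sum_mul]
  refine Finset.sum_congr rfl fun i _ => ?_
  rw [Fintype.sum_prod_type, Finset.sum_mul]
  refine Finset.sum_congr rfl fun j _ => ?_
  rw [Finset.mul_sum]

theorem exists_cubFam (N : ℕ) : Nonempty (CubFam (EuclideanSpace ℝ (Fin N)) (CubV N)) := by
  refine ⟨⟨cubq N, ?_, ?_⟩⟩
  · unfold cubq
    exact ContDiff.sum fun k _ =>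
      (((contDiff_hco _).mul (contDiff_hco _)).mul (contDiff_hco _)).smul contDiff_const
  · intro l₁ l₂ l₃ t₁ t₂ t₃ r
    obtain ⟨α, hα⟩ := hco_affine l₁ t₁
    obtain ⟨β, hβ⟩ := hco_affine l₂ t₂
    obtain ⟨γ, hγ⟩ := hco_affine l₃ t₃
    refine ⟨fun k => (α k.1 * β k.2.1 * γ k.2.2) • r, fun z => ?_⟩
    rw [cubq_prod, hα, hβ, hγ]

theorem finrank_CubV_pos (N : ℕ) : 0 < Module.finrank ℝ (CubV N) := by
  have : Nontrivial (CubV N) := inferInstance
  exact Module.finrank_pos

end Crest.Agent.R216.D
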