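import Crest.Agent.R216.D0
import Crest.Agent.R216.D1Cap
import Crest.Agent.R216.D1Dbl
import Crest.Agent.R216.D1Fam

/-! Row 216 (D), module D1: existence of a generic map `G = P ∘ ι : M → ℝ³`
(assembly: helper86).  `P` = polynomial of degree `≤ 3` on `ℝ^N`, `ι` = Mathlib's embedding. -/

set_option autoImplicit false
open scoped Manifold ContDiff Topology
open Set Metric Function

namespace Crest.Agent.R216.D

variable {M : Type*} [TopologicalSpace M] [T2Space M] [CompactSpace M] [ChartedSpace E2 M]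
  [IsManifold (𝓡 2) ∞ M]

omit [T2Space M] [CompactSpace M] in
lemma injective_dchart {V : Type*} [NormedAddCommGroup V] [NormedSpace ℝ V] {ι : M → V}
    (hι : ContMDiff (𝓡 2) 𝓘(ℝ, V) ∞ ι) (himm : ∀ x, Injective (mfderiv (𝓡 2) 𝓘(ℝ, V) ι x))
    {c : OpenPartialHomeomorph M E2} (hc : c ∈ IsManifold.maximalAtlas (𝓡 2) ∞ M) {u : E2}
    (hu : u ∈ c.target) : Injective (fderiv ℝ (ι ∘ c.symm) u) := by
  intro v w hvw
  rw [← mfderiv_chart hι hc hu, ← mfderiv_chart hι hc hu] at hvw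
  exact (bijective_mfderiv_chart_symm hc hu).1 (himm _ hvw)

/-- a proper subspace of `E3` is annihilated by a nonzero vector -/
lemma exists_normal_of_not_surj (L L' : E2 →L[ℝ] E3) (h : ¬ ∀ y : E3, ∃ a b : E2, L a - L' b = y) :
    ∃ l : E3, l ≠ 0 ∧ (∀ a, inner ℝ l (L a) = 0) ∧ ∀ b, inner ℝ l (L' b) = 0 := by
  set S : Submodule ℝ E3 := LinearMap.range (L : E2 →ₗ[ℝ] E3) ⊔ LinearMap.range (L' : E2 →ₗ[ℝ] E3) with hS
  have hne : S ≠ ⊤ := by
    intro htop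
    apply h
    intro y
    have hy : y ∈ S := by rw [htop]; trivial
    obtain ⟨p, ⟨a, ha⟩, q, ⟨b, hb⟩, hpq⟩ := Submodule.mem_sup.1 hy
    refine ⟨a, -b, ?_⟩
    rw [map_neg, sub_neg_eq_add, ← hpq, ← ha, ← hb]
    rfl
  have hne' : Sᗮ ≠ ⊥ := by
    intro hbot
    exact hne ((Submodule.orthogonal_eq_bot_iff).1 hbot)
  obtain ⟨l, hl, hl0⟩ := Submodule.exists_mem_ne_zero_of_ne_bot hne'
  refine ⟨l, hl0, fun a => ?_, fun b => ?_⟩
  · have := hl (L a) (Submodule.mem_sup_left ⟨a, rfl⟩)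
    rw [real_inner_comm]; exact this
  · have := hl (L' b) (Submodule.mem_sup_right ⟨b, rfl⟩)
    rw [real_inner_comm]; exact this

theorem exists_generic (𝒜 : BallAtlas M) :
    ∃ (F : Formal M) (G : M → E3), ContMDiff (𝓡 2) 𝓘(ℝ, E3) ∞ G ∧
      (∀ i, ∀ u ∈ (𝒜.c i).target, fderiv ℝ (G ∘ (𝒜.c i).symm) u = F.mat (𝒜.c i) u) ∧
      Transverse 𝒜 G ∧
      (∀ i, ∀ u ∈ (𝒜.c i).target, Nondeg (fderiv ℝ (G ∘ (𝒜.c i).symm)) u) := by
  obtain ⟨N, ι, hι, hemb, himm⟩ := exists_embedding_euclidean_of_compact (I := 𝓡 2) (M := M)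
  obtain ⟨𝒬⟩ := exists_cubFam N
  set γ : Fin 𝒜.n → E2 → EuclideanSpace ℝ (Fin N) := fun i => ι ∘ (𝒜.c i).symm with hγ
  have hγs : ∀ i, ContDiffOn ℝ ∞ (γ i) (𝒜.c i).target := fun i => contDiffOn_chart hι (𝒜.mem i)
  have hpiece : ∀ i, Piece (γ i) (𝒜.c i).target := fun i =>
    ⟨(𝒜.c i).open_target, hγs i, fun u hu => injective_dchart hι himm (𝒜.mem i) hu⟩
  set bad : Set (CubV N) := (⋃ i, badCap 𝒬 (γ i) (𝒜.c i).target) ∪
    ⋃ i, ⋃ j, badDbl 𝒬 (γ i) (γ j) (𝒜.c i).target (𝒜.c j).target with hbad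
  have hdim : dimH bad ≤ ((Module.finrank ℝ (CubV N) - 1 : ℕ) : ENNReal) := by
    rw [hbad, dimH_union, dimH_iUnion, dimH_iUnion]
    refine max_le (iSup_le fun i => dimH_badCap_le 𝒬 (hpiece i)) (iSup_le fun i => ?_)
    rw [dimH_iUnion]
    exact iSup_le fun j => dimH_badDbl_le 𝒬 (hpiece i) (hpiece j)
  have hlt : dimH bad < (Module.finrank ℝ (CubV N) : ENNReal) := by
    refine hdim.trans_lt ?_
    have := finrank_CubV_pos N
    exact_mod_cast Nat.sub_lt this one_pos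
  obtain ⟨C, hC⟩ := (dense_compl_of_dimH_lt_finrank hlt).nonempty
  have hP : ContDiff ℝ ∞ (fun z => 𝒬.q z C) := 𝒬.smooth.clm_apply contDiff_const
  have hPd : ContDiff ℝ ∞ (fderiv ℝ (fun z => 𝒬.q z C)) := hP.fderiv_right (by simp)
  have hG : ContMDiff (𝓡 2) 𝓘(ℝ, E3) ∞ (fun x => 𝒬.q (ι x) C) := hP.contMDiff.comp hι
  let F : Formal M := ⟨N, ι, hι, himm, fun x => fderiv ℝ (fun z => 𝒬.q z C) (ι x),
    hPd.contMDiff.comp hι⟩
  have hcap : ∀ i, ∀ u ∈ (𝒜.c i).target,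
      Nondeg (fderiv ℝ ((fun x => 𝒬.q (ι x) C) ∘ (𝒜.c i).symm)) u := by
    intro i u hu
    by_contra hcon
    exact hC (Or.inl (mem_iUnion.2 ⟨i, u, hu, hcon⟩))
  refine ⟨F, fun x => 𝒬.q (ι x) C, hG, ?_, ?_, hcap⟩
  · intro i u hu
    have h1 : DifferentiableAt ℝ (γ i) u :=
      ((hγs i).contDiffAt ((𝒜.c i).open_target.mem_nhds hu)).differentiableAt (by simp)
    have h2 : DifferentiableAt ℝ (fun z => 𝒬.q z C) (γ i u) := hP.differentiable (by simp) _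
    have h3 := fderiv_comp u h2 h1
    exact h3
  · intro i j u hu v hv hne heq
    by_contra hcon
    obtain ⟨l, hl0, hl1, hl2⟩ := exists_normal_of_not_surj _ _ hcon
    refine hC (Or.inr (mem_iUnion.2 ⟨i, mem_iUnion.2 ⟨j, u, hu, v, hv, ?_, heq, l, hl0, hl1, hl2⟩⟩))
    intro h
    exact hne (hemb.injective h)

end Crest.Agent.R216.D
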