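import Crest.Agent.R216.DDefs

/-! Row 216 (D), module D1: definitions for the existence of a generic map (helper30).

`G = P ∘ ι` where `P` runs through a finite dimensional space `V` of maps `W = ℝ^N → ℝ³` which
contains all products of three affine functions times vectors. -/

set_option autoImplicit false
open scoped Manifold ContDiff Topology
open Set Metric Function

namespace Crest.Agent.R216.D

/-- A finite dimensional family of maps `W → ℝ³`, linear in the parameter `C : V`,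
containing all (products of three affine functions) times vectors. -/
structure CubFam (W V : Type*) [NormedAddCommGroup W] [NormedSpace ℝ W]
    [NormedAddCommGroup V] [NormedSpace ℝ V] where
  q : W → V →L[ℝ] E3
  smooth : ContDiff ℝ ∞ q
  prod3 : ∀ (l₁ l₂ l₃ : W →L[ℝ] ℝ) (t₁ t₂ t₃ : ℝ) (r : E3), ∃ C : V, ∀ z : W,
    q z C = ((l₁ z + t₁) * (l₂ z + t₂) * (l₃ z + t₃)) • r

/-- an immersed planar piece in `W` -/
structure Piece {W : Type*} [NormedAddCommGroup W] [NormedSpace ℝ W] (γ : E2 → W) (Ω : Set E2) :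
    Prop where
  isOpen : IsOpen Ω
  smooth : ContDiffOn ℝ ∞ γ Ω
  inj : ∀ u ∈ Ω, Injective (fderiv ℝ γ u)

section bad

variable {W V : Type*} [NormedAddCommGroup W] [NormedSpace ℝ W]
    [NormedAddCommGroup V] [NormedSpace ℝ V]

/-- bad parameters: degenerate cross-caps (including rank zero points) -/
def badCap (𝒬 : CubFam W V) (γ : E2 → W) (Ω : Set E2) : Set V :=
  {C | ∃ u ∈ Ω, ¬ Nondeg (fderiv ℝ (fun u => 𝒬.q (γ u) C)) u}

/-- bad parameters: nontransversal double points off the diagonal -/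
def badDbl (𝒬 : CubFam W V) (γ₁ γ₂ : E2 → W) (Ω₁ Ω₂ : Set E2) : Set V :=
  {C | ∃ u ∈ Ω₁, ∃ v ∈ Ω₂, γ₁ u ≠ γ₂ v ∧ 𝒬.q (γ₁ u) C = 𝒬.q (γ₂ v) C ∧
    ∃ l : E3, l ≠ 0 ∧ (∀ a, inner ℝ l (fderiv ℝ (fun u => 𝒬.q (γ₁ u) C) u a) = 0) ∧
      ∀ b, inner ℝ l (fderiv ℝ (fun v => 𝒬.q (γ₂ v) C) v b) = 0}

end bad

/-! Frozen statements (proved in other modules):

* `D1Null.lean` (helper359): `dimH_bad`, the null set lemma.
* `D1Fam.lean` (helper86 or assembly): `exists_cubFam (N) : ∃ V ..., Nonempty (CubFam (EuclideanSpace ℝ (Fin N)) V)`,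
* `D1Cap.lean` (helper30): `dimH_badCap_le`.
* `D1Dbl.lean` (helper359): `dimH_badDbl_le`.
-/

end Crest.Agent.R216.D
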