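import Mathlib

/-!
Row 216, part (D), D3 (helper30): germs of topological curves inside a set.
-/

namespace Crest.Agent.R216.D3

open Set Filter Topology Metric

/-- `S` is, near `p`, a topological curve through `p`: there are a continuous parametrisation `e`
with `e 0 = p` and a continuous left inverse `τ` defined near `p`. -/
def LC {X : Type*} [TopologicalSpace X] (S : Set X) (p : X) : Prop :=
  ∃ (e : ℝ → X) (τ : X → ℝ), e 0 = p ∧ (∀ᶠ t in 𝓝 (0 : ℝ), ContinuousAt e t) ∧
    (∀ᶠ q in 𝓝 p, ContinuousAt τ q) ∧ (∀ᶠ t in 𝓝 (0 : ℝ), e t ∈ S ∧ τ (e t) = t) ∧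
    (∀ᶠ q in 𝓝 p, q ∈ S → e (τ q) = q)

theorem LC.mem {X : Type*} [TopologicalSpace X] {S : Set X} {p : X} (h : LC S p) : p ∈ S := by
  obtain ⟨e, τ, h0, _, _, h3, _⟩ := h
  have := h3.self_of_nhds.1
  rwa [h0] at this

theorem LC.congr {X : Type*} [TopologicalSpace X] {S T : Set X} {p : X} (h : LC S p)
    (hST : ∀ᶠ q in 𝓝 p, q ∈ S ↔ q ∈ T) : LC T p := by
  obtain ⟨e, τ, h0, h1, h2, h3, h4⟩ := h
  have he : Tendsto e (𝓝 0) (𝓝 p) := by
    have := h1.self_of_nhds
    rw [ContinuousAt, h0] at this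
    exact this
  refine ⟨e, τ, h0, h1, h2, ?_, ?_⟩
  · filter_upwards [h3, he.eventually hST] with t ht1 ht2
    exact ⟨ht2.1 ht1.1, ht1.2⟩
  · filter_upwards [h4, hST] with q hq1 hq2 hq3
    exact hq1 (hq2.2 hq3)

/-- Transport by an open partial homeomorphism. -/
theorem LC.of_chart {X Y : Type*} [TopologicalSpace X] [TopologicalSpace Y]
    (φ : OpenPartialHomeomorph X Y) {S : Set X} {T : Set Y} {p : X} (hp : p ∈ φ.source)
    (hST : ∀ᶠ q in 𝓝 p, q ∈ S ↔ φ q ∈ T) (h : LC T (φ p)) : LC S p := by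
  obtain ⟨e, τ, h0, h1, h2, h3, h4⟩ := h
  have he : Tendsto e (𝓝 0) (𝓝 (φ p)) := by
    have := h1.self_of_nhds
    rw [ContinuousAt, h0] at this
    exact this
  have hφ : Tendsto φ (𝓝 p) (𝓝 (φ p)) := φ.continuousAt hp
  have hφs : Tendsto φ.symm (𝓝 (φ p)) (𝓝 p) := φ.tendsto_symm hp
  have htgt : ∀ᶠ y in 𝓝 (φ p), y ∈ φ.target := φ.open_target.mem_nhds (φ.map_source hp)
  refine ⟨fun t => φ.symm (e t), fun q => τ (φ q), ?_, ?_, ?_, ?_, ?_⟩
  · simp only [h0]; exact φ.left_inv hp
  · filter_upwards [h1, he.eventually htgt] with t ht1 ht2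
    exact (φ.continuousAt_symm ht2).comp ht1
  · filter_upwards [hφ.eventually h2, φ.open_source.mem_nhds hp] with q hq1 hq2
    exact ContinuousAt.comp (g := τ) hq1 (φ.continuousAt hq2)
  · filter_upwards [h3, he.eventually htgt, (hφs.comp he).eventually hST] with t ht1 ht2 ht3
    simp only [Function.comp] at ht3
    rw [φ.right_inv ht2] at ht3
    refine ⟨ht3.2 ht1.1, ?_⟩
    rw [φ.right_inv ht2]; exact ht1.2
  · filter_upwards [hφ.eventually h4, φ.open_source.mem_nhds hp, hST] with q hq1 hq2 hq3 hq4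
    rw [hq1 (hq3.1 hq4)]
    exact φ.left_inv hq2

/-- A set which is near `p` a topological curve contains the image of an open embedding of `ℝ`. -/
theorem LC.exists_isOpenEmbedding {X : Type*} [TopologicalSpace X] {S : Set X} {p : X}
    (h : LC S p) : ∃ e : ℝ → S, IsOpenEmbedding e ∧ (⟨p, h.mem⟩ : S) ∈ range e := by
  have hpS := h.mem
  obtain ⟨e, τ, h0, h1, h2, h3, h4⟩ := h
  have he : Tendsto e (𝓝 0) (𝓝 p) := by
    have := h1.self_of_nhds
    rw [ContinuousAt, h0] at this
    exact this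
  -- a good open neighbourhood of `p`
  obtain ⟨N, hN, hNo, hpN⟩ := eventually_nhds_iff.1 (h2.and h4)
  obtain ⟨δ, hδ, hball⟩ := Metric.eventually_nhds_iff_ball.1
    ((h1.and h3).and (he.eventually (hNo.mem_nhds hpN)))
  have hb1 : ∀ t ∈ ball (0 : ℝ) δ, ContinuousAt e t := fun t ht => (hball t ht).1.1
  have hb2 : ∀ t ∈ ball (0 : ℝ) δ, e t ∈ S := fun t ht => (hball t ht).1.2.1
  have hb3 : ∀ t ∈ ball (0 : ℝ) δ, τ (e t) = t := fun t ht => (hball t ht).1.2.2
  have hb4 : ∀ t ∈ ball (0 : ℝ) δ, e t ∈ N := fun t ht => (hball t ht).2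
  classical
  let O : Set X := {q | q ∈ N ∧ τ q ∈ ball (0 : ℝ) δ}
  have hO : IsOpen O := by
    have hc : ContinuousOn τ N := fun q hq => (hN q hq).1.continuousWithinAt
    exact hc.isOpen_inter_preimage hNo isOpen_ball
  let φ : OpenPartialHomeomorph ℝ S :=
    { toFun := fun t => if ht : t ∈ ball (0 : ℝ) δ then ⟨e t, hb2 t ht⟩ else ⟨p, hpS⟩
      invFun := fun q => τ q
      source := ball 0 δ
      target := {q : S | (q : X) ∈ O}
      map_source' := by
        intro t ht
        simp only [mem_ofPred_eq, dif_pos ht]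
        refine ⟨hb4 t ht, ?_⟩
        rw [hb3 t ht]; exact ht
      map_target' := by
        intro q hq
        exact hq.2
      left_inv' := by
        intro t ht
        simp only [dif_pos ht]
        exact hb3 t ht
      right_inv' := by
        intro q hq
        have hq2 : τ q ∈ ball (0 : ℝ) δ := hq.2
        rw [dif_pos hq2]
        exact Subtype.ext ((hN q hq.1).2 q.2)
      open_source := isOpen_ball
      open_target := hO.preimage continuous_subtype_val
      continuousOn_toFun := by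
        rw [Topology.IsInducing.subtypeVal.continuousOn_iff]
        have : ContinuousOn e (ball (0 : ℝ) δ) := fun t ht => (hb1 t ht).continuousWithinAt
        refine this.congr ?_
        intro t ht
        simp only [Function.comp, dif_pos ht]
      continuousOn_invFun := by
        intro q hq
        have : ContinuousAt τ q := (hN q hq.1).1
        exact (ContinuousAt.comp (g := τ) (f := fun q : S => (q : X)) this
          continuous_subtype_val.continuousAt).continuousWithinAt }
  let ψ : OpenPartialHomeomorph ℝ S := (OpenPartialHomeomorph.univBall (0 : ℝ) δ).trans φ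
  have hsrc : ψ.source = univ := by
    ext t
    simp only [ψ, OpenPartialHomeomorph.trans_source, OpenPartialHomeomorph.univBall_source,
      univ_inter, mem_preimage, mem_univ, iff_true]
    have : OpenPartialHomeomorph.univBall (0 : ℝ) δ t ∈
        (OpenPartialHomeomorph.univBall (0 : ℝ) δ).target :=
      (OpenPartialHomeomorph.univBall (0 : ℝ) δ).map_source (by simp)
    rw [OpenPartialHomeomorph.univBall_target _ hδ] at this
    exact this
  refine ⟨ψ, ψ.isOpenEmbedding hsrc, 0, ?_⟩
  simp only [ψ, OpenPartialHomeomorph.coe_trans, Function.comp,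
    OpenPartialHomeomorph.univBall_apply_zero]
  have h00 : (0 : ℝ) ∈ ball (0 : ℝ) δ := mem_ball_self hδ
  change (if ht : (0 : ℝ) ∈ ball (0 : ℝ) δ then (⟨e 0, hb2 0 ht⟩ : S) else ⟨p, hpS⟩) = _
  rw [dif_pos h00]
  exact Subtype.ext h0

end Crest.Agent.R216.D3
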