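import Mathlib

/-!
# Row 216, part (D), planar cancellation of zeros

`cancel_pair`: a pair of non-degenerate zeros of opposite sign in `ball 0 (R/8)` of a smooth map
`h : ball 0 R → ℂ` can be removed without changing `h` outside `ball 0 (3R/4)`, and without
changing the other zeros (which are arbitrary) or their signs.
-/

set_option autoImplicit false

open Metric Set
open scoped ContDiff ComplexConjugate Topology

namespace Crest.Agent.R216.D4

/-- complex-linear part of a real-linear map of `ℂ` -/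
noncomputable def cl (L : ℂ →L[ℝ] ℂ) : ℂ := (L 1 - Complex.I * L Complex.I) / 2

/-- complex-antilinear part of a real-linear map of `ℂ` -/
noncomputable def ca (L : ℂ →L[ℝ] ℂ) : ℂ := (L 1 + Complex.I * L Complex.I) / 2

lemma apply_eq (L : ℂ →L[ℝ] ℂ) (w : ℂ) : L w = cl L * w + ca L * conj w := by
  have hw : w = (w.re : ℝ) • (1 : ℂ) + (w.im : ℝ) • Complex.I := by
    apply Complex.ext <;> simp
  have h1 : L w = (w.re : ℂ) * L 1 + (w.im : ℂ) * L Complex.I := by
    conv_lhs => rw [hw]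
    rw [map_add, map_smul, map_smul]
    simp
  have h2 : w = (w.re : ℂ) + (w.im : ℂ) * Complex.I := (Complex.re_add_im w).symm
  have h3 : conj w = (w.re : ℂ) - (w.im : ℂ) * Complex.I := by
    apply Complex.ext <;> simp
  rw [h1, h3]
  conv_rhs => rw [h2]
  simp only [cl, ca, Complex.add_re, Complex.ofReal_re, Complex.mul_re, Complex.I_re, mul_zero,
    Complex.ofReal_im, Complex.I_im, mul_one, sub_self, add_zero, Complex.add_im, Complex.mul_im,
    zero_add]
  have hI : Complex.I * Complex.I = -1 := Complex.I_mul_I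
  linear_combination (w.im : ℂ) * L Complex.I * hI

lemma det_eq (L : ℂ →L[ℝ] ℂ) : L.det = ‖cl L‖ ^ 2 - ‖ca L‖ ^ 2 := by
  have h0 : L.det = LinearMap.det (L : ℂ →ₗ[ℝ] ℂ) := rfl
  rw [h0, ← LinearMap.det_toMatrix Complex.basisOneI, Matrix.det_fin_two]
  simp only [LinearMap.toMatrix_apply, Complex.coe_basisOneI, Complex.coe_basisOneI_repr,
    Matrix.cons_val_zero, Matrix.cons_val_one, ContinuousLinearMap.coe_coe]
  rw [← Complex.normSq_eq_norm_sq, ← Complex.normSq_eq_norm_sq, Complex.normSq_apply,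
    Complex.normSq_apply]
  simp [cl, ca]
  ring

/-- smooth radial cut-off in the plane: `1` on `closedBall c r`, `0` off `ball c r'` -/
lemma exists_cutoff (c : ℂ) {r r' : ℝ} (hr : 0 < r) (hr' : r < r') :
    ∃ χ : ℂ → ℝ, ContDiff ℝ ∞ χ ∧ (∀ z, 0 ≤ χ z ∧ χ z ≤ 1) ∧
      (∀ z, dist z c ≤ r → χ z = 1) ∧ (∀ z, r' ≤ dist z c → χ z = 0) := by
  let f : ContDiffBump c := ⟨r, r', hr, hr'⟩
  refine ⟨f, f.contDiff, fun z => ⟨f.nonneg, f.le_one⟩, fun z hz => ?_, fun z hz => ?_⟩
  · exact f.one_of_mem_closedBall (by simpa [Metric.mem_closedBall] using hz)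
  · exact f.zero_of_le_dist hz

/-- **Normalisation of a non-degenerate zero.** -/
lemma normalise {h : ℂ → ℂ} {z0 : ℂ} {ε : ℝ} (hε : 0 < ε) (hh : ContDiffOn ℝ ∞ h (ball z0 ε))
    (h0 : h z0 = 0) (hdet : (fderiv ℝ h z0).det ≠ 0) :
    ∃ (h' : ℂ → ℂ) (c : ℂ) (δ : ℝ), c ≠ 0 ∧ 0 < δ ∧ δ < ε ∧ ContDiffOn ℝ ∞ h' (ball z0 ε) ∧
      (∀ z, δ ≤ dist z z0 → h' z = h z) ∧
      (∀ z, dist z z0 ≤ δ → z ≠ z0 → h' z ≠ 0 ∧ h z ≠ 0) ∧
      ∃ δ' > 0, ∀ z, dist z z0 < δ' →
        h' z = if 0 < (fderiv ℝ h z0).det then c * (z - z0) else c * conj (z - z0) := by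
  set L := fderiv ℝ h z0 with hL
  set α := cl L with hα
  set β := ca L with hβ
  -- Taylor
  have hdiff : DifferentiableAt ℝ h z0 := by
    have := (hh.differentiableOn (by simp)) z0 (mem_ball_self hε)
    exact this.differentiableAt (isOpen_ball.mem_nhds (mem_ball_self hε))
  have hT : (fun z => h z - h z0 - L (z - z0)) =o[𝓝 z0] fun z => z - z0 :=
    hdiff.hasFDerivAt.isLittleO
  have hdet' : ‖α‖ ^ 2 - ‖β‖ ^ 2 ≠ 0 := by rw [← det_eq]; exact hdet
  have hne : ‖α‖ ≠ ‖β‖ := by
    intro h; apply hdet'; rw [h]; ring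
  set m : ℝ := |‖α‖ - ‖β‖| / 2 with hm
  have hmpos : 0 < m := by
    have : 0 < |‖α‖ - ‖β‖| := abs_pos.mpr (sub_ne_zero.mpr hne)
    positivity
  have hT2 := hT.def hmpos
  obtain ⟨δ0, hδ0, hball⟩ := Metric.eventually_nhds_iff.1 hT2
  -- remainder
  set r : ℂ → ℂ := fun z => h z - L (z - z0) with hr
  have hrbd : ∀ z, dist z z0 < δ0 → ‖r z‖ ≤ m * ‖z - z0‖ := by
    intro z hz
    have := hball hz
    simpa [hr, h0] using this
  set δ : ℝ := min (δ0 / 2) (ε / 2) with hδ
  have hδpos : 0 < δ := by positivity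
  have hδlt : δ < ε := lt_of_le_of_lt (min_le_right _ _) (by linarith)
  have hδ0' : δ < δ0 := lt_of_le_of_lt (min_le_left _ _) (by linarith)
  obtain ⟨χ, hχs, hχ01, hχ1, hχ0⟩ := exists_cutoff z0 (r := δ / 2) (r' := δ) (by positivity)
    (by linarith)
  have hheq : ∀ z, h z = α * (z - z0) + β * conj (z - z0) + r z := by
    intro z
    have := apply_eq L (z - z0)
    simp only [hr]
    rw [this]; ring
  have hlow : ∀ z, dist z z0 ≤ δ → z ≠ z0 → ∀ s t : ℝ, 0 ≤ s → s ≤ 1 → 0 ≤ t → t ≤ 1 →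
      (‖α‖ > ‖β‖ → α * (z - z0) + s * (β * conj (z - z0)) + t * r z ≠ 0) ∧
      (‖α‖ < ‖β‖ → s * (α * (z - z0)) + β * conj (z - z0) + t * r z ≠ 0) := by
    intro z hz hzne s t hs0 hs1 ht0 ht1
    have hw : 0 < ‖z - z0‖ := norm_pos_iff.mpr (sub_ne_zero.mpr hzne)
    have hrz : ‖(t : ℂ) * r z‖ ≤ m * ‖z - z0‖ := by
      rw [norm_mul, Complex.norm_real, Real.norm_of_nonneg ht0]
      calc t * ‖r z‖ ≤ 1 * ‖r z‖ := by gcongr
        _ = ‖r z‖ := one_mul _
        _ ≤ _ := hrbd z (lt_of_le_of_lt hz hδ0')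
    constructor
    · intro hab h00
      have h1 : ‖α * (z - z0)‖ ≤ ‖(s : ℂ) * (β * conj (z - z0))‖ + ‖(t : ℂ) * r z‖ := by
        have : α * (z - z0) = -((s : ℂ) * (β * conj (z - z0)) + (t : ℂ) * r z) := by
          linear_combination h00
        rw [this, norm_neg]; exact norm_add_le _ _
      have h2 : ‖(s : ℂ) * (β * conj (z - z0))‖ ≤ ‖β‖ * ‖z - z0‖ := by
        rw [norm_mul, norm_mul, Complex.norm_real, Real.norm_of_nonneg hs0, RCLike.norm_conj]
        calc s * (‖β‖ * ‖z - z0‖) ≤ 1 * (‖β‖ * ‖z - z0‖) := by gcongr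
          _ = _ := one_mul _
      rw [norm_mul] at h1
      have hm' : m = (‖α‖ - ‖β‖) / 2 := by
        rw [hm, abs_of_pos (by linarith)]
      nlinarith
    · intro hab h00
      have h1 : ‖β * conj (z - z0)‖ ≤ ‖(s : ℂ) * (α * (z - z0))‖ + ‖(t : ℂ) * r z‖ := by
        have : β * conj (z - z0) = -((s : ℂ) * (α * (z - z0)) + (t : ℂ) * r z) := by
          linear_combination h00
        rw [this, norm_neg]; exact norm_add_le _ _
      have h2 : ‖(s : ℂ) * (α * (z - z0))‖ ≤ ‖α‖ * ‖z - z0‖ := by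
        rw [norm_mul, norm_mul, Complex.norm_real, Real.norm_of_nonneg hs0]
        calc s * (‖α‖ * ‖z - z0‖) ≤ 1 * (‖α‖ * ‖z - z0‖) := by gcongr
          _ = _ := one_mul _
      rw [norm_mul, RCLike.norm_conj] at h1
      have hm' : m = (‖β‖ - ‖α‖) / 2 := by
        rw [hm, abs_of_neg (by linarith)]; ring
      nlinarith
  have hrs : ContDiffOn ℝ ∞ r (ball z0 ε) := by
    apply hh.sub
    apply ContDiff.contDiffOn
    fun_prop
  have hχc : ContDiff ℝ ∞ fun z : ℂ => (1 - (χ z : ℂ)) := by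
    have h1 : ContDiff ℝ ∞ fun z => ((χ z : ℝ) : ℂ) :=
      Complex.ofRealCLM.contDiff.comp hχs
    exact contDiff_const.sub h1
  rcases lt_or_gt_of_ne hne with hlt | hgt
  · -- det < 0
    have hneg : ¬ 0 < L.det := by
      rw [det_eq]; nlinarith [norm_nonneg α, norm_nonneg β]
    refine ⟨fun z => (1 - (χ z : ℂ)) * (α * (z - z0)) + β * conj (z - z0) + (1 - (χ z : ℂ)) * r z,
      β, δ, ?_, hδpos, hδlt, ?_, ?_, ?_, δ / 2, by positivity, ?_⟩
    · intro hb; rw [hb] at hlt; simp at hlt; exact absurd hlt (not_lt.mpr (norm_nonneg _))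
    · apply ContDiffOn.add
      · apply ContDiff.contDiffOn
        apply ContDiff.add
        · exact hχc.mul (by fun_prop)
        · apply ContDiff.mul contDiff_const
          exact Complex.conjCLE.contDiff.comp (by fun_prop)
      · exact hχc.contDiffOn.mul hrs
    · intro z hz
      simp only [hχ0 z hz]
      rw [hheq z]; push_cast; ring
    · intro z hz hzne
      refine ⟨?_, ?_⟩
      · have := (hlow z hz hzne (1 - χ z) (1 - χ z) (by linarith [(hχ01 z).2])
          (by linarith [(hχ01 z).1]) (by linarith [(hχ01 z).2]) (by linarith [(hχ01 z).1])).2 hlt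
        intro h00; apply this
        rw [← h00]; push_cast; ring
      · have := (hlow z hz hzne 1 1 (by norm_num) le_rfl (by norm_num) le_rfl).2 hlt
        intro h00; apply this
        rw [← h00, hheq z]; push_cast; ring
    · intro z hz
      rw [if_neg hneg]
      simp only [hχ1 z hz.le]; push_cast; ring
  · -- det > 0
    have hpos : 0 < L.det := by
      rw [det_eq]; nlinarith [norm_nonneg α, norm_nonneg β]
    refine ⟨fun z => α * (z - z0) + (1 - (χ z : ℂ)) * (β * conj (z - z0)) + (1 - (χ z : ℂ)) * r z,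
      α, δ, ?_, hδpos, hδlt, ?_, ?_, ?_, δ / 2, by positivity, ?_⟩
    · intro hb; rw [hb] at hgt; simp at hgt; exact absurd hgt (not_lt.mpr (norm_nonneg _))
    · apply ContDiffOn.add
      · apply ContDiff.contDiffOn
        apply ContDiff.add
        · fun_prop
        · apply hχc.mul
          apply ContDiff.mul contDiff_const
          exact Complex.conjCLE.contDiff.comp (by fun_prop)
      · exact hχc.contDiffOn.mul hrs
    · intro z hz
      simp only [hχ0 z hz]
      rw [hheq z]; push_cast; ring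
    · intro z hz hzne
      refine ⟨?_, ?_⟩
      · have := (hlow z hz hzne (1 - χ z) (1 - χ z) (by linarith [(hχ01 z).2])
          (by linarith [(hχ01 z).1]) (by linarith [(hχ01 z).2]) (by linarith [(hχ01 z).1])).1 hgt
        intro h00; apply this
        rw [← h00]; push_cast; ring
      · have := (hlow z hz hzne 1 1 (by norm_num) le_rfl (by norm_num) le_rfl).1 hgt
        intro h00; apply this
        rw [← h00, hheq z]; push_cast; ring
    · intro z hz
      rw [if_pos hpos]
      simp only [hχ1 z hz.le]; push_cast; ring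


lemma det_mul (q : ℂ) (L L' : ℂ →L[ℝ] ℂ) (h : ∀ w, L' w = q * L w) :
    L'.det = ‖q‖ ^ 2 * L.det := by
  rw [det_eq, det_eq]
  have h1 : cl L' = q * cl L := by simp only [cl, h]; ring
  have h2 : ca L' = q * ca L := by simp only [ca, h]; ring
  rw [h1, h2, norm_mul, norm_mul]; ring

lemma contDiff_sub_const (a : ℂ) : ContDiff ℝ ∞ fun z : ℂ => z - a := by fun_prop

/-- Division of complex valued functions, smooth over the reals. -/
lemma contDiffAt_div_real {f g : ℂ → ℂ} {z : ℂ} (hf : ContDiffAt ℝ ∞ f z)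
    (hg : ContDiffAt ℝ ∞ g z) (h : g z ≠ 0) : ContDiffAt ℝ ∞ (fun y => f y / g y) z := by
  have h1 : ContDiffAt ℝ ∞ (fun y => (g y)⁻¹) z := by
    have h2 : ContDiffAt ℝ ∞ (fun w : ℂ => w⁻¹) (g z) :=
      (contDiffAt_inv ℂ h).restrict_scalars ℝ
    exact h2.comp z hg
  simpa only [div_eq_mul_inv] using hf.mul h1

lemma contDiff_conj_sub (a : ℂ) : ContDiff ℝ ∞ fun z : ℂ => conj (z - a) :=
  Complex.conjCLE.contDiff.comp (contDiff_sub_const a)

/-- **Cancellation of one pair of zeros of opposite sign.** -/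
theorem cancel_pair {h : ℂ → ℂ} {R : ℝ} (hR : 0 < R) (hh : ContDiffOn ℝ ∞ h (ball 0 R))
    {z1 z2 : ℂ} (hz1 : ‖z1‖ < R / 8) (hz2 : ‖z2‖ < R / 8) (h1 : h z1 = 0) (h2 : h z2 = 0)
    (hd1 : 0 < (fderiv ℝ h z1).det) (hd2 : (fderiv ℝ h z2).det < 0) :
    ∃ h' : ℂ → ℂ, ContDiffOn ℝ ∞ h' (ball 0 R) ∧ (∀ z, 3 * R / 4 ≤ ‖z‖ → h' z = h z) ∧
      (∀ z ∈ ball (0 : ℂ) R, h' z = 0 ↔ h z = 0 ∧ z ≠ z1 ∧ z ≠ z2) ∧
      (∀ z ∈ ball (0 : ℂ) R, h' z = 0 → ∃ c > 0,
        (fderiv ℝ h' z).det = c * (fderiv ℝ h z).det) := by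
  have hne : z1 ≠ z2 := by rintro rfl; linarith
  have hd : 0 < dist z1 z2 := dist_pos.mpr hne
  -- first normalisation
  set ε : ℝ := min (R / 2) (dist z1 z2) with hε
  have hεpos : 0 < ε := by positivity
  have hsub1 : ball z1 ε ⊆ ball 0 R := by
    intro z hz
    rw [mem_ball, dist_zero_right]
    have h3 : dist z z1 < R / 2 := lt_of_lt_of_le hz (min_le_left _ _)
    have h4 : ‖z‖ ≤ ‖z - z1‖ + ‖z1‖ := by
      calc ‖z‖ = ‖(z - z1) + z1‖ := by ring_nf
        _ ≤ _ := norm_add_le _ _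
    rw [dist_eq_norm] at h3; linarith
  have hsub2 : ball z2 ε ⊆ ball 0 R := by
    intro z hz
    rw [mem_ball, dist_zero_right]
    have h3 : dist z z2 < R / 2 := lt_of_lt_of_le hz (min_le_left _ _)
    have h4 : ‖z‖ ≤ ‖z - z2‖ + ‖z2‖ := by
      calc ‖z‖ = ‖(z - z2) + z2‖ := by ring_nf
        _ ≤ _ := norm_add_le _ _
    rw [dist_eq_norm] at h3; linarith
  obtain ⟨g, c1, δ1, hc1, hδ1, hδ1ε, hg, hgeq, hgne, δ1', hδ1', hgn⟩ :=
    normalise hεpos (hh.mono hsub1) h1 hd1.ne'
  -- glue: `f1 = g` on `ball z1 ε`, `h` elsewhere; since `g` may be arbitrary outside, cut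
  classical
  set f1 : ℂ → ℂ := fun z => if dist z z1 < ε then g z else h z with hf1
  have hf1eq : ∀ z, δ1 ≤ dist z z1 → f1 z = h z := by
    intro z hz
    simp only [hf1]
    split_ifs with hzz
    · exact hgeq z hz
    · rfl
  have hf1near : ∀ z, dist z z1 < ε → f1 =ᶠ[𝓝 z] g := by
    intro z hz
    have : ball z1 ε ∈ 𝓝 z := isOpen_ball.mem_nhds hz
    filter_upwards [this] with y hy
    simp only [hf1]; rw [if_pos (mem_ball.1 hy)]
  have hf1far : ∀ z, δ1 < dist z z1 → f1 =ᶠ[𝓝 z] h := by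
    intro z hz
    have : {y : ℂ | δ1 < dist y z1} ∈ 𝓝 z :=
      (isOpen_lt continuous_const (continuous_id.dist continuous_const)).mem_nhds hz
    filter_upwards [this] with y hy
    exact hf1eq y hy.le
  have hhAt : ∀ z ∈ ball (0 : ℂ) R, ContDiffAt ℝ ∞ h z := fun z hz =>
    (hh z hz).contDiffAt (isOpen_ball.mem_nhds hz)
  have hf1At : ∀ z ∈ ball (0 : ℂ) R, ContDiffAt ℝ ∞ f1 z := by
    intro z hz
    rcases lt_or_ge (dist z z1) ε with hlt | hge
    · exact ((hg z hlt).contDiffAt (isOpen_ball.mem_nhds hlt)).congr_of_eventuallyEq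
        (hf1near z hlt)
    · exact (hhAt z hz).congr_of_eventuallyEq (hf1far z (lt_of_lt_of_le hδ1ε hge))
  -- zeros of f1
  have hf1zero : ∀ z, f1 z = 0 ↔ h z = 0 := by
    intro z
    rcases lt_or_ge δ1 (dist z z1) with hlt | hge
    · rw [hf1eq z hlt.le]
    · by_cases hzz : z = z1
      · subst hzz
        constructor
        · intro _; exact h1
        · intro _
          simp only [hf1]; rw [if_pos (by simpa using hεpos)]
          rw [hgn _ (by simpa using hδ1')]
          simp [hd1]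
      · have := hgne z hge hzz
        constructor
        · intro h00
          simp only [hf1] at h00
          rw [if_pos (lt_of_le_of_lt hge hδ1ε)] at h00
          exact absurd h00 this.1
        · intro h00; exact absurd h00 this.2
  -- second normalisation
  have hz2far : δ1 < dist z2 z1 := by
    by_contra hcon
    push Not at hcon
    exact (hgne z2 hcon hne.symm).2 h2
  have hf12 : f1 =ᶠ[𝓝 z2] h := hf1far z2 hz2far
  have hfd2 : fderiv ℝ f1 z2 = fderiv ℝ h z2 := hf12.fderiv_eq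
  have hf1on : ContDiffOn ℝ ∞ f1 (ball 0 R) := fun z hz => (hf1At z hz).contDiffWithinAt
  obtain ⟨k, c2, δ2, hc2, hδ2, hδ2ε, hk, hkeq, hkne, δ2', hδ2', hkn⟩ :=
    normalise hεpos (hf1on.mono hsub2) ((hf1zero z2).2 h2) (by rw [hfd2]; exact hd2.ne)
  set f2 : ℂ → ℂ := fun z => if dist z z2 < ε then k z else f1 z with hf2
  have hf2eq : ∀ z, δ2 ≤ dist z z2 → f2 z = f1 z := by
    intro z hz
    simp only [hf2]
    split_ifs with hzz
    · exact hkeq z hz
    · rfl
  have hf2near : ∀ z, dist z z2 < ε → f2 =ᶠ[𝓝 z] k := by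
    intro z hz
    have : ball z2 ε ∈ 𝓝 z := isOpen_ball.mem_nhds hz
    filter_upwards [this] with y hy
    simp only [hf2]; rw [if_pos (mem_ball.1 hy)]
  have hf2far : ∀ z, δ2 < dist z z2 → f2 =ᶠ[𝓝 z] f1 := by
    intro z hz
    have : {y : ℂ | δ2 < dist y z2} ∈ 𝓝 z :=
      (isOpen_lt continuous_const (continuous_id.dist continuous_const)).mem_nhds hz
    filter_upwards [this] with y hy
    exact hf2eq y hy.le
  have hf2At : ∀ z ∈ ball (0 : ℂ) R, ContDiffAt ℝ ∞ f2 z := by
    intro z hz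
    rcases lt_or_ge (dist z z2) ε with hlt | hge
    · exact ((hk z hlt).contDiffAt (isOpen_ball.mem_nhds hlt)).congr_of_eventuallyEq
        (hf2near z hlt)
    · exact (hf1At z hz).congr_of_eventuallyEq (hf2far z (lt_of_lt_of_le hδ2ε hge))
  have hf2zero : ∀ z, f2 z = 0 ↔ f1 z = 0 := by
    intro z
    rcases lt_or_ge δ2 (dist z z2) with hlt | hge
    · rw [hf2eq z hlt.le]
    · by_cases hzz : z = z2
      · subst hzz
        constructor
        · intro _; exact (hf1zero _).2 h2
        · intro _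
          simp only [hf2]; rw [if_pos (by simpa using hεpos)]
          rw [hkn _ (by simpa using hδ2')]
          simp
      · have := hkne z hge hzz
        constructor
        · intro h00
          simp only [hf2] at h00
          rw [if_pos (lt_of_le_of_lt hge hδ2ε)] at h00
          exact absurd h00 this.1
        · intro h00; exact absurd h00 this.2
  have hz1far : δ2 < dist z1 z2 := lt_of_lt_of_le hδ2ε (min_le_right _ _)
  -- normal forms of f2
  have hn1 : ∀ᶠ z in 𝓝 z1, f2 z = c1 * (z - z1) := by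
    have e1 := hf2far z1 hz1far
    have e2 := hf1near z1 (by simpa using hεpos)
    have e3 : ball z1 δ1' ∈ 𝓝 z1 := ball_mem_nhds _ hδ1'
    filter_upwards [e1, e2, e3] with z a b c
    rw [a, b, hgn z c, if_pos hd1]
  have hn2 : ∀ᶠ z in 𝓝 z2, f2 z = c2 * conj (z - z2) := by
    have e2 := hf2near z2 (by simpa using hεpos)
    have e3 : ball z2 δ2' ∈ 𝓝 z2 := ball_mem_nhds _ hδ2'
    filter_upwards [e2, e3] with z b c
    rw [b, hkn z c, if_neg (by rw [hfd2]; linarith)]
  -- the factor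
  obtain ⟨χ, hχs, hχ01, hχ1, hχ0⟩ := exists_cutoff 0 (r := R / 2) (r' := 3 * R / 4)
    (by positivity) (by linarith)
  have hχc : ContDiff ℝ ∞ fun z => ((χ z : ℝ) : ℂ) := Complex.ofRealCLM.contDiff.comp hχs
  set σ : ℂ → ℂ := fun z => (z - z1) * conj (z - z2) with hσ
  set τ : ℂ → ℂ := fun z => (1 - (χ z : ℂ)) * σ z + (χ z : ℂ) * ((R ^ 2 : ℝ) : ℂ) with hτ
  have hσs : ContDiff ℝ ∞ σ := (contDiff_sub_const z1).mul (contDiff_conj_sub z2)
  have hτs : ContDiff ℝ ∞ τ := ((contDiff_const.sub hχc).mul hσs).add (hχc.mul contDiff_const)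
  have hτne : ∀ z, τ z ≠ 0 := by
    intro z
    rcases le_or_gt (dist z 0) (R / 2) with hle | hgt
    · simp only [hτ, hχ1 z hle]
      have : ((R ^ 2 : ℝ) : ℂ) ≠ 0 := by exact_mod_cast (by positivity : R ^ 2 ≠ 0)
      simpa using this
    · rw [dist_zero_right] at hgt
      -- real part of σ z is positive
      have hre : 0 < (σ z).re := by
        have e1 : σ z = (‖z‖ ^ 2 : ℝ) - z1 * conj z - z * conj z2 + z1 * conj z2 := by
          simp only [hσ, map_sub]
          have : ((‖z‖ ^ 2 : ℝ) : ℂ) = z * conj z := by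
            rw [Complex.mul_conj, Complex.normSq_eq_norm_sq]
          rw [this]; ring
        have b1 : |(z1 * conj z).re| ≤ ‖z1‖ * ‖z‖ := by
          calc |(z1 * conj z).re| ≤ ‖z1 * conj z‖ := Complex.abs_re_le_norm _
            _ = _ := by rw [norm_mul, RCLike.norm_conj]
        have b2 : |(z * conj z2).re| ≤ ‖z‖ * ‖z2‖ := by
          calc |(z * conj z2).re| ≤ ‖z * conj z2‖ := Complex.abs_re_le_norm _
            _ = _ := by rw [norm_mul, RCLike.norm_conj]
        have b3 : |(z1 * conj z2).re| ≤ ‖z1‖ * ‖z2‖ := by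
          calc |(z1 * conj z2).re| ≤ ‖z1 * conj z2‖ := Complex.abs_re_le_norm _
            _ = _ := by rw [norm_mul, RCLike.norm_conj]
        have e2 : (σ z).re = ‖z‖ ^ 2 - (z1 * conj z).re - (z * conj z2).re
            + (z1 * conj z2).re := by
          rw [e1]; simp only [Complex.add_re, Complex.sub_re, Complex.ofReal_re]
        rw [e2]
        have := abs_le.1 b1
        have := abs_le.1 b2
        have := abs_le.1 b3
        have n1 := norm_nonneg z1
        have n2 := norm_nonneg z2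
        have p1 : ‖z1‖ * ‖z‖ ≤ R / 8 * ‖z‖ := by gcongr
        have p2 : ‖z‖ * ‖z2‖ ≤ ‖z‖ * (R / 8) := by gcongr
        have p3 : ‖z1‖ * ‖z2‖ ≤ R / 8 * (R / 8) := by gcongr
        have p4 : R / 2 * ‖z‖ ≤ ‖z‖ ^ 2 := by nlinarith [norm_nonneg z]
        nlinarith
      intro h00
      have h01 : (τ z).re = 0 := by rw [h00]; rfl
      have h02 : (τ z).re = (1 - χ z) * (σ z).re + χ z * R ^ 2 := by
        simp only [hτ, Complex.add_re, Complex.mul_re, Complex.sub_re, Complex.one_re,
          Complex.ofReal_re, Complex.sub_im, Complex.one_im, Complex.ofReal_im]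
        ring
      rw [h02] at h01
      have c1' := (hχ01 z).1
      have c2' := (hχ01 z).2
      rcases eq_or_lt_of_le c1' with he | hl
      · rw [← he] at h01; simp at h01; linarith
      · have : 0 < χ z * R ^ 2 := by positivity
        have : 0 ≤ (1 - χ z) * (σ z).re := mul_nonneg (by linarith) hre.le
        linarith
  have hσne : ∀ z, z ≠ z1 → z ≠ z2 → σ z ≠ 0 := by
    intro z h3 h4
    simp only [hσ]
    refine mul_ne_zero (sub_ne_zero.mpr h3) ?_
    rw [Ne, map_eq_zero]; exact sub_ne_zero.mpr h4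
  -- final function
  set F : ℂ → ℂ := fun z => if z = z1 then c1 * τ z / conj (z - z2)
    else if z = z2 then c2 * τ z / (z - z1) else f2 z * τ z / σ z with hF
  have hF1 : ∀ᶠ z in 𝓝 z1, F z = c1 * τ z / conj (z - z2) := by
    have e1 : {z : ℂ | z ≠ z2} ∈ 𝓝 z1 := isOpen_ne.mem_nhds hne
    filter_upwards [hn1, e1] with z a b
    simp only [hF]
    by_cases hz : z = z1
    · rw [if_pos hz]
    · rw [if_neg hz, if_neg b, a]
      have hz' : z - z1 ≠ 0 := sub_ne_zero.mpr hz
      have hz'' : conj (z - z2) ≠ 0 := by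
        rw [Ne, map_eq_zero]; exact sub_ne_zero.mpr b
      simp only [hσ]
      field_simp
  have hF2 : ∀ᶠ z in 𝓝 z2, F z = c2 * τ z / (z - z1) := by
    have e1 : {z : ℂ | z ≠ z1} ∈ 𝓝 z2 := isOpen_ne.mem_nhds hne.symm
    filter_upwards [hn2, e1] with z a b
    simp only [hF]
    rw [if_neg b]
    by_cases hz : z = z2
    · rw [if_pos hz]
    · rw [if_neg hz, a]
      have hz' : z - z1 ≠ 0 := sub_ne_zero.mpr b
      have hz'' : conj (z - z2) ≠ 0 := by
        rw [Ne, map_eq_zero]; exact sub_ne_zero.mpr hz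
      simp only [hσ]
      field_simp
  have hF3 : ∀ z, z ≠ z1 → z ≠ z2 → ∀ᶠ y in 𝓝 z, F y = f2 y * τ y / σ y := by
    intro z h3 h4
    filter_upwards [isOpen_ne.mem_nhds h3, isOpen_ne.mem_nhds h4] with y a b
    simp only [hF]; rw [if_neg a, if_neg b]
  refine ⟨F, ?_, ?_, ?_, ?_⟩
  · intro z hz
    apply ContDiffAt.contDiffWithinAt
    by_cases e1 : z = z1
    · subst e1
      refine ContDiffAt.congr_of_eventuallyEq ?_ hF1
      refine contDiffAt_div_real (contDiffAt_const.mul hτs.contDiffAt)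
        (contDiff_conj_sub z2).contDiffAt ?_
      rw [Ne, map_eq_zero]; exact sub_ne_zero.mpr hne
    · by_cases e2 : z = z2
      · subst e2
        refine ContDiffAt.congr_of_eventuallyEq ?_ hF2
        exact contDiffAt_div_real (contDiffAt_const.mul hτs.contDiffAt)
          (contDiff_sub_const z1).contDiffAt (sub_ne_zero.mpr e1)
      · refine ContDiffAt.congr_of_eventuallyEq ?_ (hF3 z e1 e2)
        exact contDiffAt_div_real ((hf2At z hz).mul hτs.contDiffAt) hσs.contDiffAt (hσne z e1 e2)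
  · intro z hz
    have hz1' : z ≠ z1 := by rintro rfl; linarith
    have hz2' : z ≠ z2 := by rintro rfl; linarith
    have hχz : χ z = 0 := hχ0 z (by rw [dist_zero_right]; exact hz)
    have hτz : τ z = σ z := by simp only [hτ, hχz]; push_cast; ring
    simp only [hF]
    rw [if_neg hz1', if_neg hz2', hτz, mul_div_assoc, div_self (hσne z hz1' hz2'), mul_one]
    have hd1' : δ1 ≤ dist z z1 := by
      have a1 : dist z z1 ≥ ‖z‖ - ‖z1‖ := by
        rw [dist_eq_norm]; exact norm_sub_norm_le _ _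
      have a2 : ε ≤ R / 2 := min_le_left _ _
      linarith
    have hd2' : δ2 ≤ dist z z2 := by
      have a1 : dist z z2 ≥ ‖z‖ - ‖z2‖ := by
        rw [dist_eq_norm]; exact norm_sub_norm_le _ _
      have a2 : ε ≤ R / 2 := min_le_left _ _
      linarith
    rw [hf2eq z hd2', hf1eq z hd1']
  · intro z hz
    by_cases e1 : z = z1
    · subst e1
      have hv : F z ≠ 0 := by
        rw [hF1.self_of_nhds]
        refine div_ne_zero (mul_ne_zero hc1 (hτne _)) ?_
        rw [Ne, map_eq_zero]; exact sub_ne_zero.mpr hne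
      simp [hv]
    · by_cases e2 : z = z2
      · subst e2
        have hv : F z ≠ 0 := by
          rw [hF2.self_of_nhds]
          exact div_ne_zero (mul_ne_zero hc2 (hτne _)) (sub_ne_zero.mpr e1)
        simp [hv]
      · have hv : F z = f2 z * τ z / σ z := (hF3 z e1 e2).self_of_nhds
        rw [hv, div_eq_zero_iff, mul_eq_zero]
        constructor
        · rintro ((h00 | h00) | h00)
          · exact ⟨(hf1zero z).1 ((hf2zero z).1 h00), e1, e2⟩
          · exact absurd h00 (hτne z)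
          · exact absurd h00 (hσne z e1 e2)
        · rintro ⟨h00, _, _⟩
          exact Or.inl (Or.inl ((hf2zero z).2 ((hf1zero z).2 h00)))
  · intro z hz hFz
    -- z is another zero of h
    have e1 : z ≠ z1 := by
      rintro rfl
      rw [hF1.self_of_nhds] at hFz
      refine absurd hFz (div_ne_zero (mul_ne_zero hc1 (hτne _)) ?_)
      rw [Ne, map_eq_zero]; exact sub_ne_zero.mpr hne
    have e2 : z ≠ z2 := by
      rintro rfl
      rw [hF2.self_of_nhds] at hFz
      exact absurd hFz (div_ne_zero (mul_ne_zero hc2 (hτne _)) (sub_ne_zero.mpr e1))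
    have hf2z : f2 z = 0 := by
      have hv : F z = f2 z * τ z / σ z := (hF3 z e1 e2).self_of_nhds
      rw [hv, div_eq_zero_iff, mul_eq_zero] at hFz
      rcases hFz with (h00 | h00) | h00
      · exact h00
      · exact absurd h00 (hτne z)
      · exact absurd h00 (hσne z e1 e2)
    have hf1z : f1 z = 0 := (hf2zero z).1 hf2z
    have hhz : h z = 0 := (hf1zero z).1 hf1z
    have far1 : δ1 < dist z z1 := by
      by_contra hcon; push Not at hcon
      exact (hgne z hcon e1).2 hhz
    have far2 : δ2 < dist z z2 := by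
      by_contra hcon; push Not at hcon
      exact (hkne z hcon e2).2 hf1z
    have hev : F =ᶠ[𝓝 z] fun y => (τ y / σ y) * h y := by
      filter_upwards [hF3 z e1 e2, hf2far z far2, hf1far z far1] with y a b c
      rw [a, b, c]; ring
    have hq : ContDiffAt ℝ ∞ (fun y => τ y / σ y) z :=
      contDiffAt_div_real hτs.contDiffAt hσs.contDiffAt (hσne z e1 e2)
    have hqd : HasFDerivAt (fun y => τ y / σ y) (fderiv ℝ (fun y => τ y / σ y) z) z :=
      (hq.differentiableAt (by simp)).hasFDerivAt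
    have hhd : HasFDerivAt h (fderiv ℝ h z) z :=
      ((hhAt z hz).differentiableAt (by simp)).hasFDerivAt
    have hprod : HasFDerivAt (fun y => τ y / σ y * h y)
        ((τ z / σ z) • (fderiv ℝ h z) + h z • (fderiv ℝ (fun y => τ y / σ y) z)) z := by
      have := hqd.mul hhd
      exact this
    refine ⟨‖τ z / σ z‖ ^ 2, ?_, ?_⟩
    · have : τ z / σ z ≠ 0 := div_ne_zero (hτne z) (hσne z e1 e2)
      positivity
    · apply det_mul
      intro w
      rw [hev.fderiv_eq, hprod.fderiv]
      simp [hhz]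

end Crest.Agent.R216.D4
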