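import Crest.Agent.R216.D4Frame
import Crest.Agent.R216.D4Planar

/-! Row 216 (D), module D4: sections of `a^⊥` as complex valued functions (owner: helper505). -/

set_option autoImplicit false
open scoped Manifold ContDiff Topology
open Set Metric Function

namespace Crest.Agent.R216.D

lemma toC_u1 : toC u1 = 1 := by
  simp [toC, u1, Complex.coe_orthonormalBasisOneI]

lemma toC_u2 : toC u2 = Complex.I := by
  simp [toC, u2, Complex.coe_orthonormalBasisOneI]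

lemma det_eq' (L : ℂ →L[ℝ] ℂ) :
    L.det = (L 1).re * (L Complex.I).im - (L 1).im * (L Complex.I).re := by
  have h0 : L.det = LinearMap.det (L : ℂ →ₗ[ℝ] ℂ) := rfl
  rw [h0, ← LinearMap.det_toMatrix Complex.basisOneI, Matrix.det_fin_two]
  simp only [LinearMap.toMatrix_apply, Complex.coe_basisOneI, Complex.coe_basisOneI_repr,
    Matrix.cons_val_zero, Matrix.cons_val_one, ContinuousLinearMap.coe_coe]
  ring

lemma injective_iff_det (L : ℂ →L[ℝ] ℂ) : Injective L ↔ L.det ≠ 0 := by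
  have h0 : L.det = LinearMap.det (L : ℂ →ₗ[ℝ] ℂ) := rfl
  rw [h0, ← isUnit_iff_ne_zero, ← LinearMap.isUnit_iff_isUnit_det, LinearMap.isUnit_iff_ker_eq_bot,
    LinearMap.ker_eq_bot]
  rfl

/-- the complex coordinate of the section `b` in the frame `n, a × n / |a|` -/
noncomputable def coord (a b n : E2 → E3) (w : ℂ) : ℂ :=
  ⟨inner ℝ (b (toC.symm w)) (n (toC.symm w)) / ‖n (toC.symm w)‖ ^ 2,
    inner ℝ (b (toC.symm w)) (cr (a (toC.symm w)) (n (toC.symm w)))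
      / (‖a (toC.symm w)‖ * ‖n (toC.symm w)‖ ^ 2)⟩

lemma contDiffOn_cr {s : Set E2} {a b : E2 → E3} (ha : ContDiffOn ℝ ∞ a s)
    (hb : ContDiffOn ℝ ∞ b s) : ContDiffOn ℝ ∞ (fun u => cr (a u) (b u)) s := by
  rw [contDiffOn_euclidean] at ha hb ⊢
  intro i
  fin_cases i
  · exact ((ha 1).mul (hb 2)).sub ((ha 2).mul (hb 1))
  · exact ((ha 2).mul (hb 0)).sub ((ha 0).mul (hb 2))
  · exact ((ha 0).mul (hb 1)).sub ((ha 1).mul (hb 0))

lemma contDiffOn_act {s : Set E2} {a n : E2 → E3} {q : E2 → ℂ} (ha : ContDiffOn ℝ ∞ a s)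
    (ha0 : ∀ u ∈ s, a u ≠ 0)
    (hq : ContDiffOn ℝ ∞ q s) (hn : ContDiffOn ℝ ∞ n s) :
    ContDiffOn ℝ ∞ (fun u => act (a u) (q u) (n u)) s := by
  have hre : ContDiffOn ℝ ∞ (fun u => (q u).re) s := Complex.reCLM.contDiff.comp_contDiffOn hq
  have him : ContDiffOn ℝ ∞ (fun u => (q u).im) s := Complex.imCLM.contDiff.comp_contDiffOn hq
  have hna : ContDiffOn ℝ ∞ (fun u => ‖a u‖) s := ha.norm ℝ ha0
  have h2 : ContDiffOn ℝ ∞ (fun u => (q u).im / ‖a u‖) s :=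
    him.div hna fun u hu => norm_ne_zero_iff.mpr (ha0 u hu)
  exact (hre.smul hn).add (h2.smul (contDiffOn_cr ha hn))

lemma contDiffOn_coord {a b n : E2 → E3} (ha : ContDiffOn ℝ ∞ a (ball 0 9))
    (hb : ContDiffOn ℝ ∞ b (ball 0 9)) (hn : ContDiffOn ℝ ∞ n (ball 0 9))
    (ha0 : ∀ u ∈ ball (0 : E2) 9, a u ≠ 0) (hn0 : ∀ u ∈ ball (0 : E2) 9, n u ≠ 0) :
    ContDiffOn ℝ ∞ (coord a b n) (ball 0 9) := by
  have hna : ContDiffOn ℝ ∞ (fun u => ‖a u‖) (ball 0 9) := ha.norm ℝ ha0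
  have h1 : ContDiffOn ℝ ∞ (fun u => inner ℝ (b u) (n u) / ‖n u‖ ^ 2) (ball 0 9) :=
    (hb.inner ℝ hn).div (hn.norm_sq ℝ) fun u hu => pow_ne_zero 2 (norm_ne_zero_iff.mpr (hn0 u hu))
  have h2 : ContDiffOn ℝ ∞ (fun u => inner ℝ (b u) (cr (a u) (n u)) / (‖a u‖ * ‖n u‖ ^ 2))
      (ball 0 9) :=
    (hb.inner ℝ (contDiffOn_cr ha hn)).div (hna.mul (hn.norm_sq ℝ)) fun u hu =>
      mul_ne_zero (norm_ne_zero_iff.mpr (ha0 u hu))
        (pow_ne_zero 2 (norm_ne_zero_iff.mpr (hn0 u hu)))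
  have h3 : ContDiffOn ℝ ∞ (fun u => (inner ℝ (b u) (n u) / ‖n u‖ ^ 2) • (1 : ℂ)
      + (inner ℝ (b u) (cr (a u) (n u)) / (‖a u‖ * ‖n u‖ ^ 2)) • Complex.I) (ball 0 9) :=
    (h1.smul contDiffOn_const).add (h2.smul contDiffOn_const)
  have h4 : ContDiffOn ℝ ∞ (fun w : ℂ => toC.symm w) (ball 0 9) :=
    toC.symm.toContinuousLinearEquiv.contDiff.contDiffOn
  have h5 : MapsTo (fun w : ℂ => toC.symm w) (ball 0 9) (ball 0 9) := by
    intro w hw
    rw [mem_ball_zero_iff] at hw ⊢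
    rwa [LinearIsometryEquiv.norm_map]
  refine (h3.comp h4 h5).congr fun w _ => ?_
  simp only [coord, Function.comp]
  apply Complex.ext
  · simp only [Complex.add_re, Complex.smul_re, Complex.one_re, Complex.I_re, smul_eq_mul,
      mul_one, mul_zero, add_zero]
  · simp only [Complex.add_im, Complex.smul_im, Complex.one_im, Complex.I_im, smul_eq_mul,
      mul_one, mul_zero, zero_add]

lemma act_coord {a b n : E2 → E3} {w : ℂ} (hab : inner ℝ (a (toC.symm w)) (b (toC.symm w)) = 0)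
    (han : inner ℝ (a (toC.symm w)) (n (toC.symm w)) = 0) (ha : a (toC.symm w) ≠ 0)
    (hn : n (toC.symm w) ≠ 0) :
    act (a (toC.symm w)) (coord a b n w) (n (toC.symm w)) = b (toC.symm w) :=
  decomp _ _ _ hab han ha hn

/-- the derivative of a section at a zero -/
lemma fderiv_act {a b n : E2 → E3} {H : ℂ → ℂ} {u : E2} (ha : DifferentiableAt ℝ a u)
    (ha0 : a u ≠ 0) (hn : DifferentiableAt ℝ n u)
    (hH : DifferentiableAt ℝ H (toC u)) (hz : H (toC u) = 0)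
    (hb : b =ᶠ[𝓝 u] fun v => act (a v) (H (toC v)) (n v)) (δ : E2) :
    fderiv ℝ b u δ = act (a u) (fderiv ℝ H (toC u) (toC δ)) (n u) := by
  rw [hb.fderiv_eq]
  have hq : HasFDerivAt (fun v => H (toC v))
      ((fderiv ℝ H (toC u)).comp (toC.toContinuousLinearEquiv : E2 →L[ℝ] ℂ)) u :=
    hH.hasFDerivAt.comp u (toC.toContinuousLinearEquiv : E2 →L[ℝ] ℂ).hasFDerivAt
  set Q : E2 →L[ℝ] ℂ :=
    (fderiv ℝ H (toC u)).comp (toC.toContinuousLinearEquiv : E2 →L[ℝ] ℂ) with hQ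
  have hre : HasFDerivAt (fun v => (H (toC v)).re) (Complex.reCLM.comp Q) u :=
    Complex.reCLM.hasFDerivAt.comp u hq
  have him : HasFDerivAt (fun v => (H (toC v)).im) (Complex.imCLM.comp Q) u :=
    Complex.imCLM.hasFDerivAt.comp u hq
  have hna : DifferentiableAt ℝ (fun v => ‖a v‖⁻¹) u :=
    (ha.norm ℝ ha0).inv (norm_ne_zero_iff.mpr ha0)
  have hcr : DifferentiableAt ℝ (fun v => cr (a v) (n v)) u := by
    rw [differentiableAt_euclidean] at ha hn ⊢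
    intro i
    fin_cases i
    · exact ((ha 1).mul (hn 2)).sub ((ha 2).mul (hn 1))
    · exact ((ha 2).mul (hn 0)).sub ((ha 0).mul (hn 2))
    · exact ((ha 0).mul (hn 1)).sub ((ha 1).mul (hn 0))
  have hc : DifferentiableAt ℝ (fun v => ‖a v‖⁻¹ • cr (a v) (n v)) u := hna.smul hcr
  have h1 : HasFDerivAt (fun v => (H (toC v)).re • n v)
      ((H (toC u)).re • fderiv ℝ n u + (Complex.reCLM.comp Q).smulRight (n u)) u :=
    hre.smul hn.hasFDerivAt
  have h2 : HasFDerivAt (fun v => (H (toC v)).im • (‖a v‖⁻¹ • cr (a v) (n v)))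
      ((H (toC u)).im • fderiv ℝ (fun v => ‖a v‖⁻¹ • cr (a v) (n v)) u
        + (Complex.imCLM.comp Q).smulRight (‖a u‖⁻¹ • cr (a u) (n u))) u :=
    him.smul hc.hasFDerivAt
  have h3 := h1.add h2
  have h4 : (fun v => act (a v) (H (toC v)) (n v)) = ((fun v => (H (toC v)).re • n v)
      + fun v => (H (toC v)).im • (‖a v‖⁻¹ • cr (a v) (n v))) := by
    funext v
    simp only [act, smul_smul, div_eq_mul_inv, Pi.add_apply]
  rw [h4, h3.fderiv]
  simp [hz, act, smul_smul, div_eq_mul_inv, hQ]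

end Crest.Agent.R216.D
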