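import Crest.Agent.R216.D4Coord

/-! Row 216 (D), module D4: gluing a modified coordinate function (owner: helper505). -/

set_option autoImplicit false
open scoped Manifold ContDiff Topology
open Set Metric Function

namespace Crest.Agent.R216.D

lemma toC_mem {u : E2} {r : ℝ} (hu : u ∈ ball (0 : E2) r) : toC u ∈ ball (0 : ℂ) r := by
  rw [mem_ball_zero_iff] at hu ⊢
  rwa [LinearIsometryEquiv.norm_map]

lemma det_comp (a b n : E2 → E3) {H : ℂ → ℂ} {u : E2} (ha : DifferentiableAt ℝ a u)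
    (ha0 : a u ≠ 0) (hn : DifferentiableAt ℝ n u) (han : inner ℝ (a u) (n u) = 0)
    (hH : DifferentiableAt ℝ H (toC u)) (hz : H (toC u) = 0)
    (hb : b =ᶠ[𝓝 u] fun v => act (a v) (H (toC v)) (n v)) :
    sgnAt a b u = (fderiv ℝ H (toC u)).det * (‖a u‖ * ‖n u‖ ^ 2) := by
  unfold sgnAt
  rw [fderiv_act ha ha0 hn hH hz hb, fderiv_act ha ha0 hn hH hz hb, inner_cr_act _ _ _ _ han ha0,
    det_eq', toC_u1, toC_u2]

lemma inj_comp (a b n : E2 → E3) {H : ℂ → ℂ} {u : E2} (ha : DifferentiableAt ℝ a u)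
    (ha0 : a u ≠ 0) (hn : DifferentiableAt ℝ n u) (han : inner ℝ (a u) (n u) = 0)
    (hn0 : n u ≠ 0)
    (hH : DifferentiableAt ℝ H (toC u)) (hz : H (toC u) = 0)
    (hb : b =ᶠ[𝓝 u] fun v => act (a v) (H (toC v)) (n v)) :
    Injective (fderiv ℝ b u) ↔ (fderiv ℝ H (toC u)).det ≠ 0 := by
  rw [← injective_iff_det]
  constructor
  · intro hi
    refine (injective_iff_map_eq_zero _).2 fun w hw => ?_
    have h1 : fderiv ℝ b u (toC.symm w) = 0 := by
      rw [fderiv_act ha ha0 hn hH hz hb, LinearIsometryEquiv.apply_symm_apply, hw, act_zero]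
    have h2 := (injective_iff_map_eq_zero _).1 hi _ h1
    rwa [LinearIsometryEquiv.map_eq_zero_iff] at h2
  · intro hi
    refine (injective_iff_map_eq_zero _).2 fun δ hδ => ?_
    rw [fderiv_act ha ha0 hn hH hz hb, act_eq_zero_iff han ha0 hn0] at hδ
    have h2 := (injective_iff_map_eq_zero _).1 hi _ hδ
    rwa [LinearIsometryEquiv.map_eq_zero_iff] at h2

section
variable {T : Set E2} {a b n : E2 → E3}

lemma coord_near (hball : closedBall (0 : E2) 10 ⊆ T) (h : Sec T a b)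
    (han : ∀ u ∈ ball (0 : E2) 10, inner ℝ (a u) (n u) = 0)
    (hn0 : ∀ u ∈ ball (0 : E2) 9, n u ≠ 0) {u : E2} (hu : u ∈ ball (0 : E2) 9) :
    act (a u) (coord a b n (toC u)) (n u) = b u := by
  have hu10 : u ∈ ball (0 : E2) 10 := ball_subset_ball (by norm_num) hu
  have huT : u ∈ T := hball (ball_subset_closedBall hu10)
  have := act_coord (a := a) (b := b) (n := n) (w := toC u)
  rw [LinearIsometryEquiv.symm_apply_apply] at this
  exact this (h.hab u huT) (han u hu10) (h.ha0 u huT) (hn0 u hu)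

lemma coord_smooth (hball : closedBall (0 : E2) 10 ⊆ T) (h : Sec T a b)
    (hn : ContDiffOn ℝ ∞ n (ball 0 10)) (hn0 : ∀ u ∈ ball (0 : E2) 9, n u ≠ 0) :
    ContDiffOn ℝ ∞ (coord a b n) (ball 0 9) := by
  have hs : ball (0 : E2) 9 ⊆ ball 0 10 := ball_subset_ball (by norm_num)
  have hsT : ball (0 : E2) 9 ⊆ T := fun u hu => hball (ball_subset_closedBall (hs hu))
  exact contDiffOn_coord (h.ha.mono hsT) (h.hb.mono hsT) (hn.mono hs)
    (fun u hu => h.ha0 u (hsT hu)) hn0

lemma coord_zero_iff (hball : closedBall (0 : E2) 10 ⊆ T) (h : Sec T a b)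
    (han : ∀ u ∈ ball (0 : E2) 10, inner ℝ (a u) (n u) = 0)
    (hn0 : ∀ u ∈ ball (0 : E2) 9, n u ≠ 0) {u : E2} (hu : u ∈ ball (0 : E2) 9) :
    coord a b n (toC u) = 0 ↔ b u = 0 := by
  have hu10 : u ∈ ball (0 : E2) 10 := ball_subset_ball (by norm_num) hu
  have huT : u ∈ T := hball (ball_subset_closedBall hu10)
  rw [← coord_near hball h han hn0 hu, act_eq_zero_iff (han u hu10) (h.ha0 u huT) (hn0 u hu)]

/-- data at a point of the disc -/
lemma coord_data (hT : IsOpen T) (hball : closedBall (0 : E2) 10 ⊆ T) (h : Sec T a b)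
    (hn : ContDiffOn ℝ ∞ n (ball 0 10))
    (han : ∀ u ∈ ball (0 : E2) 10, inner ℝ (a u) (n u) = 0)
    (hn0 : ∀ u ∈ ball (0 : E2) 9, n u ≠ 0) {u : E2} (hu : u ∈ ball (0 : E2) 9) (hbu : b u = 0) :
    sgnAt a b u = (fderiv ℝ (coord a b n) (toC u)).det * (‖a u‖ * ‖n u‖ ^ 2) ∧
      (fderiv ℝ (coord a b n) (toC u)).det ≠ 0 := by
  have hu10 : u ∈ ball (0 : E2) 10 := ball_subset_ball (by norm_num) hu
  have huT : u ∈ T := hball (ball_subset_closedBall hu10)
  have hda : DifferentiableAt ℝ a u :=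
    ((h.ha u huT).contDiffAt (hT.mem_nhds huT)).differentiableAt (by simp)
  have hdn : DifferentiableAt ℝ n u :=
    ((hn u hu10).contDiffAt (isOpen_ball.mem_nhds hu10)).differentiableAt (by simp)
  have hdc : DifferentiableAt ℝ (coord a b n) (toC u) :=
    ((coord_smooth hball h hn hn0 _ (toC_mem hu)).contDiffAt
      (isOpen_ball.mem_nhds (toC_mem hu))).differentiableAt (by simp)
  have hz : coord a b n (toC u) = 0 := (coord_zero_iff hball h han hn0 hu).2 hbu
  have hev : b =ᶠ[𝓝 u] fun v => act (a v) (coord a b n (toC v)) (n v) := by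
    filter_upwards [isOpen_ball.mem_nhds hu] with v hv
    exact (coord_near hball h han hn0 hv).symm
  exact ⟨det_comp a b n hda (h.ha0 u huT) hdn (han u hu10) hdc hz hev,
    (inj_comp a b n hda (h.ha0 u huT) hdn (han u hu10) (hn0 u hu) hdc hz hev).1
      (h.simple u huT hbu)⟩

/-- replace the coordinate function inside the disc -/
theorem sec_glue (hT : IsOpen T) (hball : closedBall (0 : E2) 10 ⊆ T) (h : Sec T a b)
    (hn : ContDiffOn ℝ ∞ n (ball 0 10))
    (han : ∀ u ∈ ball (0 : E2) 10, inner ℝ (a u) (n u) = 0)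
    (hn0 : ∀ u ∈ ball (0 : E2) 9, n u ≠ 0) {H' : ℂ → ℂ} (hH' : ContDiffOn ℝ ∞ H' (ball 0 9))
    (hfar : ∀ w, 3 * 9 / 4 ≤ ‖w‖ → H' w = coord a b n w)
    (hdet : ∀ w ∈ ball (0 : ℂ) 9, H' w = 0 → (fderiv ℝ H' w).det ≠ 0) :
    ∃ b' : E2 → E3, Sec T a b' ∧ (∀ u, 9 ≤ ‖u‖ → b' u = b u) ∧
      ∀ u ∈ ball (0 : E2) 9, b' u = 0 ↔ H' (toC u) = 0 := by
  classical
  set b' : E2 → E3 := fun u => if ‖u‖ < 9 then act (a u) (H' (toC u)) (n u) else b u with hb'
  have hs : ball (0 : E2) 9 ⊆ ball 0 10 := ball_subset_ball (by norm_num)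
  have hsT : ball (0 : E2) 9 ⊆ T := fun u hu => hball (ball_subset_closedBall (hs hu))
  have near : ∀ u ∈ ball (0 : E2) 9, b' =ᶠ[𝓝 u] fun v => act (a v) (H' (toC v)) (n v) := by
    intro u hu
    filter_upwards [isOpen_ball.mem_nhds hu] with v hv
    simp only [hb']
    rw [if_pos (by simpa using hv)]
  have far' : ∀ u : E2, 3 * 9 / 4 < ‖u‖ → b' u = b u := by
    intro u hu
    simp only [hb']
    split_ifs with h9
    · rw [hfar _ (by rw [LinearIsometryEquiv.norm_map]; exact hu.le)]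
      exact coord_near hball h han hn0 (by simpa using h9)
    · rfl
  have far : ∀ u : E2, 3 * 9 / 4 < ‖u‖ → b' =ᶠ[𝓝 u] b := by
    intro u hu
    have : {v : E2 | 3 * 9 / 4 < ‖v‖} ∈ 𝓝 u :=
      (isOpen_lt continuous_const continuous_norm).mem_nhds hu
    filter_upwards [this] with v hv
    exact far' v hv
  have hb'9 : ∀ u ∈ ball (0 : E2) 9, b' u = act (a u) (H' (toC u)) (n u) := by
    intro u hu
    exact (near u hu).self_of_nhds
  have hact : ContDiffOn ℝ ∞ (fun v => act (a v) (H' (toC v)) (n v)) (ball 0 9) := by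
    refine contDiffOn_act (h.ha.mono hsT) (fun u hu => h.ha0 u (hsT hu)) ?_ (hn.mono hs)
    exact hH'.comp toC.toContinuousLinearEquiv.contDiff.contDiffOn fun u hu => toC_mem hu
  refine ⟨b', ⟨h.ha, h.ha0, ?_, ?_, ?_⟩, ?_, ?_⟩
  · intro u hu
    apply ContDiffAt.contDiffWithinAt
    rcases lt_or_ge ‖u‖ 9 with h9 | h9
    · have hu9 : u ∈ ball (0 : E2) 9 := by simpa using h9
      exact ((hact u hu9).contDiffAt (isOpen_ball.mem_nhds hu9)).congr_of_eventuallyEq (near u hu9)
    · exact ((h.hb u hu).contDiffAt (hT.mem_nhds hu)).congr_of_eventuallyEq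
        (far u (by linarith))
  · intro u hu
    rcases lt_or_ge ‖u‖ 9 with h9 | h9
    · have hu9 : u ∈ ball (0 : E2) 9 := by simpa using h9
      rw [hb'9 u hu9]
      exact inner_act _ _ _ (han u (hs hu9))
    · rw [far' u (by linarith)]; exact h.hab u hu
  · intro u hu h0
    rcases lt_or_ge ‖u‖ 9 with h9 | h9
    · have hu9 : u ∈ ball (0 : E2) 9 := by simpa using h9
      have hz : H' (toC u) = 0 := by
        rw [hb'9 u hu9] at h0
        exact (act_eq_zero_iff (han u (hs hu9)) (h.ha0 u hu) (hn0 u hu9)).1 h0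
      have hda : DifferentiableAt ℝ a u :=
        ((h.ha u hu).contDiffAt (hT.mem_nhds hu)).differentiableAt (by simp)
      have hdn : DifferentiableAt ℝ n u :=
        ((hn u (hs hu9)).contDiffAt (isOpen_ball.mem_nhds (hs hu9))).differentiableAt (by simp)
      have hdc : DifferentiableAt ℝ H' (toC u) :=
        ((hH' _ (toC_mem hu9)).contDiffAt
          (isOpen_ball.mem_nhds (toC_mem hu9))).differentiableAt (by simp)
      exact (inj_comp a b' n hda (h.ha0 u hu) hdn (han u (hs hu9)) (hn0 u hu9) hdc hz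
        (near u hu9)).2 (hdet _ (toC_mem hu9) hz)
    · rw [(far u (by linarith)).fderiv_eq]
      exact h.simple u hu (by rw [← far' u (by linarith)]; exact h0)
  · intro u hu
    exact far' u (by linarith)
  · intro u hu
    rw [hb'9 u hu, act_eq_zero_iff (han u (hs hu)) (h.ha0 u (hsT hu)) (hn0 u hu)]

end

end Crest.Agent.R216.D
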