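import Crest.Agent.R216.D4Planar

/-!
# Row 216, part (D), planar moving of zeros (owner: helper505)
-/

set_option autoImplicit false

open Metric Set
open scoped ContDiff ComplexConjugate Topology

namespace Crest.Agent.R216.D4

lemma det_id_mul (q : ℂ) (L' : ℂ →L[ℝ] ℂ) (h : ∀ w, L' w = q * w) :
    L'.det = ‖q‖ ^ 2 := by
  have := det_mul q (ContinuousLinearMap.id ℝ ℂ) L' (by simpa using h)
  rw [this]
  have h0 : (ContinuousLinearMap.id ℝ ℂ).det = LinearMap.det (LinearMap.id : ℂ →ₗ[ℝ] ℂ) := rfl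
  rw [h0, LinearMap.det_id, mul_one]

theorem move_zero_pos {h : ℂ → ℂ} {R : ℝ} (hR : 0 < R) (hh : ContDiffOn ℝ ∞ h (ball 0 R))
    {z1 z2 : ℂ} (hz1 : ‖z1‖ < R / 8) (hz2 : ‖z2‖ < R / 8) (h1 : h z1 = 0)
    (hd1 : 0 < (fderiv ℝ h z1).det) (h2 : h z2 ≠ 0) :
    ∃ h' : ℂ → ℂ, ContDiffOn ℝ ∞ h' (ball 0 R) ∧ (∀ z, 3 * R / 4 ≤ ‖z‖ → h' z = h z) ∧
      (∀ z ∈ ball (0 : ℂ) R, h' z = 0 ↔ (h z = 0 ∧ z ≠ z1) ∨ z = z2) ∧
      (∀ z ∈ ball (0 : ℂ) R, h' z = 0 → z ≠ z2 → ∃ c > 0,
        (fderiv ℝ h' z).det = c * (fderiv ℝ h z).det) ∧ (fderiv ℝ h' z2).det ≠ 0 := by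
  have hne : z1 ≠ z2 := by rintro rfl; exact h2 h1
  have hd : 0 < dist z1 z2 := dist_pos.mpr hne
  set ε : ℝ := min (R / 2) (dist z1 z2) with hε
  have hεpos : 0 < ε := by positivity
  have hsub1 : ball z1 ε ⊆ ball 0 R := by
    intro z hz
    rw [mem_ball, dist_zero_right]
    have h3 : dist z z1 < R / 2 := lt_of_lt_of_le hz (min_le_left _ _)
    have h4 : ‖z‖ ≤ ‖z - z1‖ + ‖z1‖ := by
      calc ‖z‖ = ‖(z - z1) + z1‖ := by ring_nf
        _ ≤ _ := norm_add_le _ _
    rw [dist_eq_norm] at h3; linarith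
  obtain ⟨g, c1, δ1, hc1, hδ1, hδ1ε, hg, hgeq, hgne, δ1', hδ1', hgn⟩ :=
    normalise hεpos (hh.mono hsub1) h1 hd1.ne'
  classical
  set f1 : ℂ → ℂ := fun z => if dist z z1 < ε then g z else h z with hf1
  have hf1eq : ∀ z, δ1 ≤ dist z z1 → f1 z = h z := by
    intro z hz
    simp only [hf1]
    split_ifs with hzz
    · exact hgeq z hz
    · rfl
  have hf1near : ∀ z, dist z z1 < ε → f1 =ᶠ[𝓝 z] g := by
    intro z hz
    have : ball z1 ε ∈ 𝓝 z := isOpen_ball.mem_nhds hz
    filter_upwards [this] with y hy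
    simp only [hf1]; rw [if_pos (mem_ball.1 hy)]
  have hf1far : ∀ z, δ1 < dist z z1 → f1 =ᶠ[𝓝 z] h := by
    intro z hz
    have : {y : ℂ | δ1 < dist y z1} ∈ 𝓝 z :=
      (isOpen_lt continuous_const (continuous_id.dist continuous_const)).mem_nhds hz
    filter_upwards [this] with y hy
    exact hf1eq y hy.le
  have hhAt : ∀ z ∈ ball (0 : ℂ) R, ContDiffAt ℝ ∞ h z := fun z hz =>
    (hh z hz).contDiffAt (isOpen_ball.mem_nhds hz)
  have hf1At : ∀ z ∈ ball (0 : ℂ) R, ContDiffAt ℝ ∞ f1 z := by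
    intro z hz
    rcases lt_or_ge (dist z z1) ε with hlt | hge
    · exact ((hg z hlt).contDiffAt (isOpen_ball.mem_nhds hlt)).congr_of_eventuallyEq
        (hf1near z hlt)
    · exact (hhAt z hz).congr_of_eventuallyEq (hf1far z (lt_of_lt_of_le hδ1ε hge))
  have hf1zero : ∀ z, f1 z = 0 ↔ h z = 0 := by
    intro z
    rcases lt_or_ge δ1 (dist z z1) with hlt | hge
    · rw [hf1eq z hlt.le]
    · by_cases hzz : z = z1
      · subst hzz
        constructor
        · intro _; exact h1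
        · intro _
          simp only [hf1]; rw [if_pos (by simpa using hεpos)]
          rw [hgn _ (by simpa using hδ1')]
          simp [hd1]
      · have := hgne z hge hzz
        constructor
        · intro h00
          simp only [hf1] at h00
          rw [if_pos (lt_of_le_of_lt hge hδ1ε)] at h00
          exact absurd h00 this.1
        · intro h00; exact absurd h00 this.2
  have hn1 : ∀ᶠ z in 𝓝 z1, f1 z = c1 * (z - z1) := by
    have e2 := hf1near z1 (by simpa using hεpos)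
    have e3 : ball z1 δ1' ∈ 𝓝 z1 := ball_mem_nhds _ hδ1'
    filter_upwards [e2, e3] with z b c
    rw [b, hgn z c, if_pos hd1]
  obtain ⟨χ, hχs, hχ01, hχ1, hχ0⟩ := exists_cutoff 0 (r := R / 2) (r' := 3 * R / 4)
    (by positivity) (by linarith)
  have hχc : ContDiff ℝ ∞ fun z => ((χ z : ℝ) : ℂ) := Complex.ofRealCLM.contDiff.comp hχs
  set σ : ℂ → ℂ := fun z => z - z1 with hσ
  set τ : ℂ → ℂ := fun z => (z - z1) + (χ z : ℂ) * (z1 - z2) with hτ
  have hσs : ContDiff ℝ ∞ σ := contDiff_sub_const z1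
  have hτs : ContDiff ℝ ∞ τ := (contDiff_sub_const z1).add (hχc.mul contDiff_const)
  have hR2 : ∀ z : ℂ, ‖z‖ < R / 8 → dist z 0 ≤ R / 2 := by
    intro z hz; rw [dist_zero_right]; linarith
  have hτ1 : ∀ z, dist z 0 ≤ R / 2 → τ z = z - z2 := by
    intro z hz
    simp only [hτ, hχ1 z hz]; push_cast; ring
  have hτzero : ∀ z, τ z = 0 ↔ z = z2 := by
    intro z
    rcases le_or_gt (dist z 0) (R / 2) with hle | hgt
    · rw [hτ1 z hle, sub_eq_zero]
    · rw [dist_zero_right] at hgt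
      constructor
      · intro h00
        exfalso
        have e1 : z - z1 = -((χ z : ℂ) * (z1 - z2)) := by
          simp only [hτ] at h00
          linear_combination h00
        have e2 : ‖z - z1‖ ≤ ‖z1 - z2‖ := by
          rw [e1, norm_neg, norm_mul, Complex.norm_real, Real.norm_of_nonneg (hχ01 z).1]
          calc χ z * ‖z1 - z2‖ ≤ 1 * ‖z1 - z2‖ := by gcongr; exact (hχ01 z).2
            _ = _ := one_mul _
        have e3 : ‖z‖ - ‖z1‖ ≤ ‖z - z1‖ := norm_sub_norm_le _ _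
        have e4 : ‖z1 - z2‖ ≤ ‖z1‖ + ‖z2‖ := norm_sub_le _ _
        linarith
      · rintro rfl
        linarith
  have hσne : ∀ z, z ≠ z1 → σ z ≠ 0 := fun z h3 => sub_ne_zero.mpr h3
  set F : ℂ → ℂ := fun z => if z = z1 then c1 * τ z else f1 z * τ z / σ z with hF
  have hF1 : ∀ᶠ z in 𝓝 z1, F z = c1 * τ z := by
    filter_upwards [hn1] with z a
    simp only [hF]
    by_cases hz : z = z1
    · rw [if_pos hz]
    · rw [if_neg hz, a]
      have hz' : z - z1 ≠ 0 := sub_ne_zero.mpr hz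
      simp only [hσ]
      field_simp
  have hF3 : ∀ z, z ≠ z1 → ∀ᶠ y in 𝓝 z, F y = f1 y * τ y / σ y := by
    intro z h3
    filter_upwards [isOpen_ne.mem_nhds h3] with y a
    simp only [hF]; rw [if_neg a]
  refine ⟨F, ?_, ?_, ?_, ?_, ?_⟩
  · intro z hz
    apply ContDiffAt.contDiffWithinAt
    by_cases e1 : z = z1
    · subst e1
      exact ContDiffAt.congr_of_eventuallyEq (contDiffAt_const.mul hτs.contDiffAt) hF1
    · refine ContDiffAt.congr_of_eventuallyEq ?_ (hF3 z e1)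
      exact contDiffAt_div_real ((hf1At z hz).mul hτs.contDiffAt) hσs.contDiffAt (hσne z e1)
  · intro z hz
    have hz1' : z ≠ z1 := by rintro rfl; linarith
    have hχz : χ z = 0 := hχ0 z (by rw [dist_zero_right]; exact hz)
    have hτz : τ z = σ z := by simp only [hτ, hσ, hχz]; push_cast; ring
    simp only [hF]
    rw [if_neg hz1', hτz, mul_div_assoc, div_self (hσne z hz1'), mul_one]
    have hd1' : δ1 ≤ dist z z1 := by
      have a1 : dist z z1 ≥ ‖z‖ - ‖z1‖ := by
        rw [dist_eq_norm]; exact norm_sub_norm_le _ _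
      have a2 : ε ≤ R / 2 := min_le_left _ _
      linarith
    rw [hf1eq z hd1']
  · intro z hz
    by_cases e1 : z = z1
    · subst e1
      have hv : F z ≠ 0 := by
        rw [hF1.self_of_nhds]
        exact mul_ne_zero hc1 fun h0 => hne ((hτzero _).1 h0)
      simp [hv, hne]
    · have hv : F z = f1 z * τ z / σ z := (hF3 z e1).self_of_nhds
      rw [hv, div_eq_zero_iff, mul_eq_zero, hf1zero, hτzero]
      constructor
      · rintro ((h00 | h00) | h00)
        · exact Or.inl ⟨h00, e1⟩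
        · exact Or.inr h00
        · exact absurd h00 (hσne z e1)
      · rintro (⟨h00, _⟩ | h00)
        · exact Or.inl (Or.inl h00)
        · exact Or.inl (Or.inr h00)
  · intro z hz hFz e2
    have e1 : z ≠ z1 := by
      rintro rfl
      rw [hF1.self_of_nhds] at hFz
      exact absurd hFz (mul_ne_zero hc1 fun h0 => hne ((hτzero _).1 h0))
    have hv : F z = f1 z * τ z / σ z := (hF3 z e1).self_of_nhds
    have hf1z : f1 z = 0 := by
      rw [hv, div_eq_zero_iff, mul_eq_zero] at hFz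
      rcases hFz with (h00 | h00) | h00
      · exact h00
      · exact absurd ((hτzero z).1 h00) e2
      · exact absurd h00 (hσne z e1)
    have hhz : h z = 0 := (hf1zero z).1 hf1z
    have far1 : δ1 < dist z z1 := by
      by_contra hcon; push Not at hcon
      exact (hgne z hcon e1).2 hhz
    have hev : F =ᶠ[𝓝 z] fun y => (τ y / σ y) * h y := by
      filter_upwards [hF3 z e1, hf1far z far1] with y a c
      rw [a, c]; ring
    have hq : ContDiffAt ℝ ∞ (fun y => τ y / σ y) z :=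
      contDiffAt_div_real hτs.contDiffAt hσs.contDiffAt (hσne z e1)
    have hqd : HasFDerivAt (fun y => τ y / σ y) (fderiv ℝ (fun y => τ y / σ y) z) z :=
      (hq.differentiableAt (by simp)).hasFDerivAt
    have hhd : HasFDerivAt h (fderiv ℝ h z) z :=
      ((hhAt z hz).differentiableAt (by simp)).hasFDerivAt
    have hprod : HasFDerivAt (fun y => τ y / σ y * h y)
        ((τ z / σ z) • (fderiv ℝ h z) + h z • (fderiv ℝ (fun y => τ y / σ y) z)) z := by
      have := hqd.mul hhd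
      exact this
    refine ⟨‖τ z / σ z‖ ^ 2, ?_, ?_⟩
    · have : τ z / σ z ≠ 0 := div_ne_zero (fun h0 => e2 ((hτzero z).1 h0)) (hσne z e1)
      positivity
    · apply det_mul
      intro w
      rw [hev.fderiv_eq, hprod.fderiv]
      simp [hhz]
  · -- the new zero
    have hz2R : z2 ∈ ball (0 : ℂ) R := by
      rw [mem_ball_zero_iff]; linarith
    have hev : F =ᶠ[𝓝 z2] fun y => (f1 y / σ y) * (y - z2) := by
      have : {y : ℂ | dist y 0 < R / 2} ∈ 𝓝 z2 :=
        (isOpen_lt (continuous_id.dist continuous_const) continuous_const).mem_nhds (by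
          simp only [mem_ofPred_eq, id, dist_zero_right]; linarith)
      filter_upwards [hF3 z2 hne.symm, this] with y a b
      rw [a, hτ1 y (le_of_lt b)]; ring
    have hq : ContDiffAt ℝ ∞ (fun y => f1 y / σ y) z2 :=
      contDiffAt_div_real (hf1At z2 hz2R) hσs.contDiffAt (hσne z2 hne.symm)
    have hqd : HasFDerivAt (fun y => f1 y / σ y) (fderiv ℝ (fun y => f1 y / σ y) z2) z2 :=
      (hq.differentiableAt (by simp)).hasFDerivAt
    have hid : HasFDerivAt (fun y : ℂ => y - z2) (ContinuousLinearMap.id ℝ ℂ) z2 :=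
      (hasFDerivAt_id z2).sub_const z2
    have hprod : HasFDerivAt (fun y => f1 y / σ y * (y - z2))
        ((f1 z2 / σ z2) • (ContinuousLinearMap.id ℝ ℂ)
          + (z2 - z2) • (fderiv ℝ (fun y => f1 y / σ y) z2)) z2 := by
      have := hqd.mul hid
      exact this
    have hq0 : f1 z2 / σ z2 ≠ 0 :=
      div_ne_zero (fun h0 => h2 ((hf1zero z2).1 h0)) (hσne z2 hne.symm)
    rw [det_id_mul (f1 z2 / σ z2) _ (by
      intro w
      rw [hev.fderiv_eq, hprod.fderiv]
      simp)]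
    positivity

lemma det_conj (L : ℂ →L[ℝ] ℂ) :
    ((Complex.conjCLE : ℂ →L[ℝ] ℂ).comp L).det = - L.det := by
  rw [det_eq, det_eq]
  have c2 : conj (2 : ℂ) = 2 := map_ofNat _ 2
  have e : ∀ w, ((Complex.conjCLE : ℂ →L[ℝ] ℂ).comp L) w = conj (L w) := fun w => rfl
  have h1 : cl ((Complex.conjCLE : ℂ →L[ℝ] ℂ).comp L) = conj (ca L) := by
    simp only [cl, ca, e, map_div₀, map_add, map_mul, Complex.conj_I, c2]
    ring
  have h2 : ca ((Complex.conjCLE : ℂ →L[ℝ] ℂ).comp L) = conj (cl L) := by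
    simp only [cl, ca, e, map_div₀, map_sub, map_mul, Complex.conj_I, c2]
    ring
  rw [h1, h2, RCLike.norm_conj, RCLike.norm_conj]; ring

theorem move_zero {h : ℂ → ℂ} {R : ℝ} (hR : 0 < R) (hh : ContDiffOn ℝ ∞ h (ball 0 R))
    {z1 z2 : ℂ} (hz1 : ‖z1‖ < R / 8) (hz2 : ‖z2‖ < R / 8) (h1 : h z1 = 0)
    (hd1 : (fderiv ℝ h z1).det ≠ 0) (h2 : h z2 ≠ 0) :
    ∃ h' : ℂ → ℂ, ContDiffOn ℝ ∞ h' (ball 0 R) ∧ (∀ z, 3 * R / 4 ≤ ‖z‖ → h' z = h z) ∧
      (∀ z ∈ ball (0 : ℂ) R, h' z = 0 ↔ (h z = 0 ∧ z ≠ z1) ∨ z = z2) ∧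
      (∀ z ∈ ball (0 : ℂ) R, h' z = 0 → z ≠ z2 → ∃ c > 0,
        (fderiv ℝ h' z).det = c * (fderiv ℝ h z).det) ∧ (fderiv ℝ h' z2).det ≠ 0 := by
  rcases lt_or_gt_of_ne hd1 with hneg | hpos
  · have hconj : ContDiff ℝ ∞ (Complex.conjCLE : ℂ → ℂ) := Complex.conjCLE.contDiff
    have hz1R : z1 ∈ ball (0 : ℂ) R := by rw [mem_ball_zero_iff]; linarith
    have hz2R : z2 ∈ ball (0 : ℂ) R := by rw [mem_ball_zero_iff]; linarith
    have fd : ∀ (k : ℂ → ℂ) (z : ℂ), fderiv ℝ (fun y => Complex.conjCLE (k y)) z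
        = (Complex.conjCLE : ℂ →L[ℝ] ℂ).comp (fderiv ℝ k z) := fun k z =>
      Complex.conjCLE.comp_fderiv
    obtain ⟨k, hk1, hk2, hk3, hk4, hk5⟩ := move_zero_pos (h := fun y => Complex.conjCLE (h y)) hR
      (hconj.comp_contDiffOn hh) hz1 hz2 (by simp [h1]) (by rw [fd, det_conj]; linarith)
      (by simpa using h2)
    refine ⟨fun y => Complex.conjCLE (k y), hconj.comp_contDiffOn hk1, ?_, ?_, ?_, ?_⟩
    · intro z hz
      simp only [hk2 z hz]
      simp
    · intro z hz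
      have := hk3 z hz
      simpa using this
    · intro z hz h0 hne
      have h0' : k z = 0 := by simpa using h0
      obtain ⟨c, hc, hcd⟩ := hk4 z hz h0' hne
      refine ⟨c, hc, ?_⟩
      rw [fd, det_conj, hcd, fd, det_conj]; ring
    · rw [fd, det_conj]
      exact neg_ne_zero.mpr hk5
  · exact move_zero_pos hR hh hz1 hz2 h1 hpos h2

end Crest.Agent.R216.D4
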