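import Crest.Agent.R216.D4Glue
import Crest.Agent.R216.D4Move

/-! Row 216 (D), module D4Sec: moving and cancelling zeros of sections of `a^⊥`
over a disc (owner: helper505).  FROZEN statements `sec_jump`, `sec_cancel`.

Proof: trivialise `a^⊥` over the disc (`D4Frame.exists_perp`), pass to the coordinate function
(`D4Coord`), apply the planar lemmas (`D4Planar.cancel_pair`, `D4Move.move_zero`), glue back
(`D4Glue.sec_glue`). -/

set_option autoImplicit false
set_option linter.unusedVariables false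
open scoped Manifold ContDiff Topology
open Set Metric Function

namespace Crest.Agent.R216.D

theorem sec_cancel {T : Set E2} (hT : IsOpen T) (hball : closedBall (0 : E2) 10 ⊆ T)
    {a b : E2 → E3} (h : Sec T a b) (hfin : {u ∈ T | b u = 0}.Finite) {z z' : E2}
    (hz : z ∈ ball (0 : E2) 1) (hz' : z' ∈ ball (0 : E2) 1) (hbz : b z = 0) (hbz' : b z' = 0)
    (hs : 0 < sgnAt a b z) (hs' : sgnAt a b z' < 0) :
    ∃ b' : E2 → E3, Sec T a b' ∧ (∀ u, 9 ≤ ‖u‖ → b' u = b u) ∧
      ∀ u ∈ T, b' u = 0 ↔ b u = 0 ∧ u ≠ z ∧ u ≠ z' := by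
  have hs10 : ball (0 : E2) 10 ⊆ T := fun u hu => hball (ball_subset_closedBall hu)
  obtain ⟨n, hn, han, hn0⟩ := exists_perp (h.ha.mono hs10) fun u hu => h.ha0 u (hs10 hu)
  have hz9 : z ∈ ball (0 : E2) 9 := ball_subset_ball (by norm_num) hz
  have hz'9 : z' ∈ ball (0 : E2) 9 := ball_subset_ball (by norm_num) hz'
  have hs9 : ball (0 : E2) 9 ⊆ T := fun u hu => hs10 (ball_subset_ball (by norm_num) hu)
  have hpos : ∀ u ∈ ball (0 : E2) 9, 0 < ‖a u‖ * ‖n u‖ ^ 2 := by
    intro u hu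
    have h1 := norm_pos_iff.mpr (h.ha0 u (hs9 hu))
    have h2 := norm_pos_iff.mpr (hn0 u hu)
    positivity
  have d1 := coord_data hT hball h hn han hn0 hz9 hbz
  have d2 := coord_data hT hball h hn han hn0 hz'9 hbz'
  have hp1 : 0 < (fderiv ℝ (coord a b n) (toC z)).det := by
    rw [d1.1] at hs
    exact (mul_pos_iff_of_pos_right (hpos z hz9)).1 hs
  have hp2 : (fderiv ℝ (coord a b n) (toC z')).det < 0 := by
    rw [d2.1] at hs'
    by_contra hcon
    push Not at hcon
    exact absurd (mul_nonneg hcon (hpos z' hz'9).le) (not_le.mpr hs')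
  have hn1 : ‖toC z‖ < 9 / 8 := by
    rw [LinearIsometryEquiv.norm_map]
    have : ‖z‖ < 1 := by simpa using hz
    linarith
  have hn2 : ‖toC z'‖ < 9 / 8 := by
    rw [LinearIsometryEquiv.norm_map]
    have : ‖z'‖ < 1 := by simpa using hz'
    linarith
  obtain ⟨H', hH', hfar, hzero, hdet⟩ := D4.cancel_pair (by norm_num : (0 : ℝ) < 9)
    (coord_smooth hball h hn hn0) hn1 hn2 ((coord_zero_iff hball h han hn0 hz9).2 hbz)
    ((coord_zero_iff hball h han hn0 hz'9).2 hbz') hp1 hp2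
  have hmemC : ∀ w ∈ ball (0 : ℂ) 9, toC.symm w ∈ ball (0 : E2) 9 := by
    intro w hw
    rw [mem_ball_zero_iff] at hw ⊢
    rwa [LinearIsometryEquiv.norm_map]
  obtain ⟨b', hb', hb'9, hb'z⟩ := sec_glue hT hball h hn han hn0 hH' hfar (by
    intro w hw h0
    obtain ⟨c, hc, hcd⟩ := hdet w hw h0
    rw [hcd]
    refine mul_ne_zero hc.ne' ?_
    have h1 := ((hzero w hw).1 h0).1
    have h2 : coord a b n (toC (toC.symm w)) = 0 := by
      rw [LinearIsometryEquiv.apply_symm_apply]; exact h1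
    have h3 := (coord_zero_iff hball h han hn0 (hmemC w hw)).1 h2
    have h4 := (coord_data hT hball h hn han hn0 (hmemC w hw) h3).2
    rwa [LinearIsometryEquiv.apply_symm_apply] at h4)
  refine ⟨b', hb', hb'9, fun u hu => ?_⟩
  rcases lt_or_ge ‖u‖ 9 with h9 | h9
  · have hu9 : u ∈ ball (0 : E2) 9 := by simpa using h9
    rw [hb'z u hu9, hzero _ (toC_mem hu9), coord_zero_iff hball h han hn0 hu9,
      toC.injective.ne_iff, toC.injective.ne_iff]
  · rw [hb'9 u h9]
    have e1 : u ≠ z := by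
      rintro rfl
      have : ‖u‖ < 9 := by simpa using hz9
      linarith
    have e2 : u ≠ z' := by
      rintro rfl
      have : ‖u‖ < 9 := by simpa using hz'9
      linarith
    simp [e1, e2]

theorem sec_jump {T : Set E2} (hT : IsOpen T) (hball : closedBall (0 : E2) 10 ⊆ T)
    {a b : E2 → E3} (h : Sec T a b) (hfin : {u ∈ T | b u = 0}.Finite) {z z'' : E2}
    (hz : z ∈ ball (0 : E2) 1) (hz'' : z'' ∈ ball (0 : E2) 1) (hbz : b z = 0) (hbz'' : b z'' ≠ 0) :
    ∃ b' : E2 → E3, Sec T a b' ∧ (∀ u, 9 ≤ ‖u‖ → b' u = b u) ∧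
      ∀ u ∈ T, b' u = 0 ↔ (b u = 0 ∧ u ≠ z) ∨ u = z'' := by
  have hs10 : ball (0 : E2) 10 ⊆ T := fun u hu => hball (ball_subset_closedBall hu)
  obtain ⟨n, hn, han, hn0⟩ := exists_perp (h.ha.mono hs10) fun u hu => h.ha0 u (hs10 hu)
  have hz9 : z ∈ ball (0 : E2) 9 := ball_subset_ball (by norm_num) hz
  have hz''9 : z'' ∈ ball (0 : E2) 9 := ball_subset_ball (by norm_num) hz''
  have d1 := coord_data hT hball h hn han hn0 hz9 hbz
  have hn1 : ‖toC z‖ < 9 / 8 := by
    rw [LinearIsometryEquiv.norm_map]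
    have : ‖z‖ < 1 := by simpa using hz
    linarith
  have hn2 : ‖toC z''‖ < 9 / 8 := by
    rw [LinearIsometryEquiv.norm_map]
    have : ‖z''‖ < 1 := by simpa using hz''
    linarith
  obtain ⟨H', hH', hfar, hzero, hdet, hdet2⟩ := D4.move_zero (by norm_num : (0 : ℝ) < 9)
    (coord_smooth hball h hn hn0) hn1 hn2 ((coord_zero_iff hball h han hn0 hz9).2 hbz) d1.2
    (fun h0 => hbz'' ((coord_zero_iff hball h han hn0 hz''9).1 h0))
  have hmemC : ∀ w ∈ ball (0 : ℂ) 9, toC.symm w ∈ ball (0 : E2) 9 := by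
    intro w hw
    rw [mem_ball_zero_iff] at hw ⊢
    rwa [LinearIsometryEquiv.norm_map]
  obtain ⟨b', hb', hb'9, hb'z⟩ := sec_glue hT hball h hn han hn0 hH' hfar (by
    intro w hw h0
    by_cases hwz : w = toC z''
    · rw [hwz]; exact hdet2
    obtain ⟨c, hc, hcd⟩ := hdet w hw h0 hwz
    rw [hcd]
    refine mul_ne_zero hc.ne' ?_
    have h1 : coord a b n w = 0 := by
      rcases (hzero w hw).1 h0 with h1 | h1
      · exact h1.1
      · exact absurd h1 hwz
    have h2 : coord a b n (toC (toC.symm w)) = 0 := by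
      rw [LinearIsometryEquiv.apply_symm_apply]; exact h1
    have h3 := (coord_zero_iff hball h han hn0 (hmemC w hw)).1 h2
    have h4 := (coord_data hT hball h hn han hn0 (hmemC w hw) h3).2
    rwa [LinearIsometryEquiv.apply_symm_apply] at h4)
  refine ⟨b', hb', hb'9, fun u hu => ?_⟩
  rcases lt_or_ge ‖u‖ 9 with h9 | h9
  · have hu9 : u ∈ ball (0 : E2) 9 := by simpa using h9
    rw [hb'z u hu9, hzero _ (toC_mem hu9), coord_zero_iff hball h han hn0 hu9,
      toC.injective.ne_iff, toC.injective.eq_iff]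
  · rw [hb'9 u h9]
    have e1 : u ≠ z := by
      rintro rfl
      have : ‖u‖ < 9 := by simpa using hz9
      linarith
    have e2 : u ≠ z'' := by
      rintro rfl
      have : ‖u‖ < 9 := by simpa using hz''9
      linarith
    simp [e1, e2]

end Crest.Agent.R216.D
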