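import Crest.Agent.R216.DecIface

/-!
Row 216 (S0335), part (6), module DC1: planar linear algebra.

* `exists_angles`: every positive definite symmetric form is a positive combination of squares of
  three pairwise independent unit covectors.
* `cr`: Cramer coefficients; `cr_spec`: `T = ∑ c_m w_m ⊗ w_m`.
-/

set_option autoImplicit false
open scoped Manifold ContDiff Topology
open Set

noncomputable section
namespace Crest.Agent.R216.DC

/-- (a) positive decomposition with three directions -/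
theorem exists_angles {a c d : ℝ} (hd : 0 < d) (hdet : c ^ 2 < a * d) :
    ∃ A C : Fin 3 → ℝ, (∀ m, 0 < C m) ∧ (∀ i j, i ≠ j → Real.sin (A i - A j) ≠ 0) ∧
      ∑ m, C m * (Real.cos (A m) * Real.cos (A m)) = a ∧
      ∑ m, C m * (Real.cos (A m) * Real.sin (A m)) = c ∧
      ∑ m, C m * (Real.sin (A m) * Real.sin (A m)) = d := by
  obtain ⟨e, he, hed⟩ : ∃ e : ℝ, 0 < e ∧ d * e ^ 2 < a - c ^ 2 / d := by
    have h1 : 0 < a - c ^ 2 / d := by
      rw [sub_pos, div_lt_iff₀ hd]; exact hdet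
    refine ⟨Real.sqrt ((a - c ^ 2 / d) / (2 * d)), Real.sqrt_pos.2 (by positivity), ?_⟩
    rw [Real.sq_sqrt (by positivity)]
    have : d * ((a - c ^ 2 / d) / (2 * d)) = (a - c ^ 2 / d) / 2 := by field_simp
    rw [this]; linarith
  -- polar coordinates of `(x, 1)`
  have polar : ∀ x : ℝ, ∃ t ρ : ℝ, 0 < ρ ∧ x = ρ * Real.cos t ∧ 1 = ρ * Real.sin t := by
    intro x
    set z : ℂ := ⟨x, 1⟩ with hz
    have hz0 : z ≠ 0 := by
      intro h
      have := congrArg Complex.im h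
      simp [hz] at this
    refine ⟨z.arg, ‖z‖, norm_pos_iff.2 hz0, ?_, ?_⟩
    · rw [Complex.norm_mul_cos_arg]
    · rw [Complex.norm_mul_sin_arg]
  obtain ⟨t1, ρ1, hρ1, hx1, hy1⟩ := polar (c / d + e)
  obtain ⟨t2, ρ2, hρ2, hx2, hy2⟩ := polar (c / d - e)
  have hsin12 : ρ1 * ρ2 * Real.sin (t1 - t2) = -(2 * e) := by
    rw [Real.sin_sub]
    calc ρ1 * ρ2 * (Real.sin t1 * Real.cos t2 - Real.cos t1 * Real.sin t2)
        = (ρ1 * Real.sin t1) * (ρ2 * Real.cos t2) - (ρ1 * Real.cos t1) * (ρ2 * Real.sin t2) := by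
          ring
      _ = -(2 * e) := by rw [← hx1, ← hx2, ← hy1, ← hy2]; ring
  have hs12 : Real.sin (t1 - t2) ≠ 0 := by
    intro h; rw [h, mul_zero] at hsin12; linarith
  have hs1 : Real.sin t1 ≠ 0 := by
    intro h; rw [h, mul_zero] at hy1; norm_num at hy1
  have hs2 : Real.sin t2 ≠ 0 := by
    intro h; rw [h, mul_zero] at hy2; norm_num at hy2
  refine ⟨![t1, t2, 0], ![d / 2 * ρ1 ^ 2, d / 2 * ρ2 ^ 2, a - c ^ 2 / d - d * e ^ 2], ?_, ?_,
    ?_, ?_, ?_⟩
  · intro m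
    fin_cases m
    · simp; positivity
    · simp; positivity
    · simp; linarith
  · intro i j hij
    fin_cases i <;> fin_cases j <;> simp at hij ⊢
    · exact hs12
    · exact hs1
    · rw [← neg_sub, Real.sin_neg]; simpa using hs12
    · exact hs2
    · exact hs1
    · exact hs2
  · simp only [Fin.sum_univ_three, Matrix.cons_val_zero, Matrix.cons_val_one, Matrix.cons_val_two,
      Matrix.head_cons, Matrix.tail_cons, Real.cos_zero]
    have : d / 2 * ρ1 ^ 2 * (Real.cos t1 * Real.cos t1) + d / 2 * ρ2 ^ 2 *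
        (Real.cos t2 * Real.cos t2) + (a - c ^ 2 / d - d * e ^ 2) * (1 * 1) =
        d / 2 * (ρ1 * Real.cos t1) ^ 2 + d / 2 * (ρ2 * Real.cos t2) ^ 2 +
          (a - c ^ 2 / d - d * e ^ 2) := by ring
    rw [this, ← hx1, ← hx2]
    field_simp
    ring
  · simp only [Fin.sum_univ_three, Matrix.cons_val_zero, Matrix.cons_val_one, Matrix.cons_val_two,
      Matrix.head_cons, Matrix.tail_cons, Real.cos_zero, Real.sin_zero]
    have : d / 2 * ρ1 ^ 2 * (Real.cos t1 * Real.sin t1) + d / 2 * ρ2 ^ 2 *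
        (Real.cos t2 * Real.sin t2) + (a - c ^ 2 / d - d * e ^ 2) * (1 * 0) =
        d / 2 * (ρ1 * Real.cos t1) * (ρ1 * Real.sin t1) +
          d / 2 * (ρ2 * Real.cos t2) * (ρ2 * Real.sin t2) := by ring
    rw [this, ← hx1, ← hx2, ← hy1, ← hy2]
    field_simp
    ring
  · simp only [Fin.sum_univ_three, Matrix.cons_val_zero, Matrix.cons_val_one, Matrix.cons_val_two,
      Matrix.head_cons, Matrix.tail_cons, Real.sin_zero]
    have : d / 2 * ρ1 ^ 2 * (Real.sin t1 * Real.sin t1) + d / 2 * ρ2 ^ 2 *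
        (Real.sin t2 * Real.sin t2) + (a - c ^ 2 / d - d * e ^ 2) * (0 * 0) =
        d / 2 * (ρ1 * Real.sin t1) ^ 2 + d / 2 * (ρ2 * Real.sin t2) ^ 2 := by ring
    rw [this, ← hy1, ← hy2]
    ring

/-- `w_i ∧ w_j` for `w_m = (p m, q m)` -/
def wd (p q : Fin 3 → ℝ) (i j : Fin 3) : ℝ := p i * q j - q i * p j

/-- (b) Cramer coefficient `c_m = T(J w_j, J w_k) / ((w_m ∧ w_j)(w_m ∧ w_k))`, `j = m+1`,
`k = m+2`; `T = (a, c; c, d)`. -/
def cr (p q : Fin 3 → ℝ) (a c d : ℝ) (m : Fin 3) : ℝ :=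
  (a * (q (m + 1) * q (m + 2)) - c * (q (m + 1) * p (m + 2) + p (m + 1) * q (m + 2)) +
    d * (p (m + 1) * p (m + 2))) / (wd p q m (m + 1) * wd p q m (m + 2))

lemma wd_swap (p q : Fin 3 → ℝ) (i j : Fin 3) : wd p q j i = -wd p q i j := by
  unfold wd; ring

private lemma cramer_aux {n0 n1 n2 D01 D02 D12 x0 x1 x2 s : ℝ} (h01 : D01 ≠ 0) (h02 : D02 ≠ 0)
    (h12 : D12 ≠ 0)
    (h : n0 * x0 * D12 - n1 * x1 * D02 + n2 * x2 * D01 = s * (D01 * D02 * D12)) :
    n0 / (D01 * D02) * x0 + n1 / (D12 * -D01) * x1 + n2 / (-D02 * -D12) * x2 = s := by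
  have e : n0 / (D01 * D02) * x0 + n1 / (D12 * -D01) * x1 + n2 / (-D02 * -D12) * x2 =
      (n0 * x0 * D12 - n1 * x1 * D02 + n2 * x2 * D01) / (D01 * D02 * D12) := by
    field_simp
    ring
  rw [e, h, mul_div_assoc, div_self (mul_ne_zero (mul_ne_zero h01 h02) h12), mul_one]

/-- the decomposition identity -/
theorem cr_spec {p q : Fin 3 → ℝ} (h : ∀ i j, i ≠ j → wd p q i j ≠ 0) (a c d : ℝ) :
    ∑ m, cr p q a c d m * (p m * p m) = a ∧ ∑ m, cr p q a c d m * (p m * q m) = c ∧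
      ∑ m, cr p q a c d m * (q m * q m) = d := by
  have h01 := h 0 1 (by decide)
  have h02 := h 0 2 (by decide)
  have h12 := h 1 2 (by decide)
  have e1 : ((1 : Fin 3) + 1) = 2 := rfl
  have e2 : ((1 : Fin 3) + 2) = 0 := rfl
  have e3 : ((2 : Fin 3) + 1) = 0 := rfl
  have e4 : ((2 : Fin 3) + 2) = 1 := rfl
  have e5 : ((0 : Fin 3) + 1) = 1 := rfl
  have e6 : ((0 : Fin 3) + 2) = 2 := rfl
  simp only [Fin.sum_univ_three, cr, e1, e2, e3, e4, e5, e6, wd_swap p q 0 1, wd_swap p q 0 2,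
    wd_swap p q 1 2]
  refine ⟨?_, ?_, ?_⟩
  · refine cramer_aux h01 h02 h12 ?_
    unfold wd
    ring
  · refine cramer_aux h01 h02 h12 ?_
    unfold wd
    ring
  · refine cramer_aux h01 h02 h12 ?_
    unfold wd
    ring

/-- uniqueness of the coefficients -/
theorem cr_unique {p q : Fin 3 → ℝ} (h : ∀ i j, i ≠ j → wd p q i j ≠ 0) {a c d : ℝ}
    {C : Fin 3 → ℝ} (h1 : ∑ m, C m * (p m * p m) = a) (h2 : ∑ m, C m * (p m * q m) = c)
    (h3 : ∑ m, C m * (q m * q m) = d) (m : Fin 3) : C m = cr p q a c d m := by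
  have n1 : m ≠ m + 1 := by fin_cases m <;> decide
  have n2 : m ≠ m + 2 := by fin_cases m <;> decide
  subst h1 h2 h3
  unfold cr
  rw [eq_div_iff (mul_ne_zero (h _ _ n1) (h _ _ n2))]
  unfold wd
  fin_cases m
  · simp only [Fin.zero_eta, Fin.isValue, Fin.sum_univ_three]
    have e5 : ((0 : Fin 3) + 1) = 1 := rfl
    have e6 : ((0 : Fin 3) + 2) = 2 := rfl
    simp only [e5, e6]
    ring
  · simp only [Fin.mk_one, Fin.isValue, Fin.sum_univ_three]
    have e1 : ((1 : Fin 3) + 1) = 2 := rfl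
    have e2 : ((1 : Fin 3) + 2) = 0 := rfl
    simp only [e1, e2]
    ring
  · simp only [Fin.reduceFinMk, Fin.isValue, Fin.sum_univ_three]
    have e3 : ((2 : Fin 3) + 1) = 0 := rfl
    have e4 : ((2 : Fin 3) + 2) = 1 := rfl
    simp only [e3, e4]
    ring

/-- the coefficients are linear in `T` -/
lemma cr_add (p q : Fin 3 → ℝ) (a c d a' c' d' : ℝ) (m : Fin 3) :
    cr p q (a + a') (c + c') (d + d') m = cr p q a c d m + cr p q a' c' d' m := by
  unfold cr; ring

lemma cr_smul (p q : Fin 3 → ℝ) (s a c d : ℝ) (m : Fin 3) :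
    cr p q (s * a) (s * c) (s * d) m = s * cr p q a c d m := by
  unfold cr; ring

/-- smoothness of the coefficients -/
lemma cr_contDiffAt {E : Type*} [NormedAddCommGroup E] [NormedSpace ℝ E] {n : WithTop ℕ∞}
    {p q : E → Fin 3 → ℝ} {a c d : E → ℝ} {x : E}
    (hp : ∀ m, ContDiffAt ℝ n (fun y => p y m) x) (hq : ∀ m, ContDiffAt ℝ n (fun y => q y m) x)
    (ha : ContDiffAt ℝ n a x) (hc : ContDiffAt ℝ n c x) (hd : ContDiffAt ℝ n d x)
    (h : ∀ i j, i ≠ j → wd (p x) (q x) i j ≠ 0) (m : Fin 3) :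
    ContDiffAt ℝ n (fun y => cr (p y) (q y) (a y) (c y) (d y) m) x := by
  unfold cr
  have hw : ∀ i j, ContDiffAt ℝ n (fun y => wd (p y) (q y) i j) x := fun i j =>
    ((hp i).mul (hq j)).sub ((hq i).mul (hp j))
  refine ContDiffAt.div ?_ ((hw _ _).mul (hw _ _)) ?_
  · exact ((ha.mul ((hq _).mul (hq _))).sub (hc.mul (((hq _).mul (hp _)).add
      ((hp _).mul (hq _))))).add (hd.mul ((hp _).mul (hp _)))
  · refine mul_ne_zero (h _ _ ?_) (h _ _ ?_)
    · fin_cases m <;> decide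
    · fin_cases m <;> decide

/-- continuity of the coefficients -/
lemma cr_continuousAt {E : Type*} [TopologicalSpace E]
    {p q : E → Fin 3 → ℝ} {a c d : E → ℝ} {x : E}
    (hp : ∀ m, ContinuousAt (fun y => p y m) x) (hq : ∀ m, ContinuousAt (fun y => q y m) x)
    (ha : ContinuousAt a x) (hc : ContinuousAt c x) (hd : ContinuousAt d x)
    (h : ∀ i j, i ≠ j → wd (p x) (q x) i j ≠ 0) (m : Fin 3) :
    ContinuousAt (fun y => cr (p y) (q y) (a y) (c y) (d y) m) x := by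
  unfold cr
  have hw : ∀ i j, ContinuousAt (fun y => wd (p y) (q y) i j) x := fun i j =>
    ((hp i).mul (hq j)).sub ((hq i).mul (hp j))
  refine ContinuousAt.div ?_ ((hw _ _).mul (hw _ _)) ?_
  · exact ((ha.mul ((hq _).mul (hq _))).sub (hc.mul (((hq _).mul (hp _)).add
      ((hp _).mul (hq _))))).add (hd.mul ((hp _).mul (hp _)))
  · refine mul_ne_zero (h _ _ ?_) (h _ _ ?_)
    · fin_cases m <;> decide
    · fin_cases m <;> decide

end Crest.Agent.R216.DC

/-! ### The frozen statements -/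

namespace Crest.Agent.R216.Dec
open Crest.Agent.R216.DC

namespace DC1h

lemma bv_00 : (bv 0) 0 = (1 : ℝ) := by simp [bv]
lemma bv_01 : (bv 0) 1 = (0 : ℝ) := by simp [bv]
lemma bv_10 : (bv 1) 0 = (0 : ℝ) := by simp [bv]
lemma bv_11 : (bv 1) 1 = (1 : ℝ) := by simp [bv]

lemma comb_zero (x y : ℝ) : (x • bv 0 + y • bv 1) 0 = x := by
  simp [bv_00, bv_10]

lemma comb_one (x y : ℝ) : (x • bv 0 + y • bv 1) 1 = y := by
  simp [bv_01, bv_11]

lemma rot_zero (a : ℝ) (z : E2) : rot a z 0 = Real.cos a * z 0 - Real.sin a * z 1 :=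
  comb_zero _ _

lemma rot_one (a : ℝ) (z : E2) : rot a z 1 = Real.sin a * z 0 + Real.cos a * z 1 :=
  comb_one _ _

lemma cov_zero (k a : ℝ) (z : E2) : cov k a z 0 =
    Real.cos a + k * (Real.sin a * z 0 + Real.cos a * z 1) * Real.sin a := by
  unfold cov dph
  rw [rot_zero, rot_one, rot_one, bv_00, bv_01]
  ring

lemma cov_one (k a : ℝ) (z : E2) : cov k a z 1 =
    -Real.sin a + k * (Real.sin a * z 0 + Real.cos a * z 1) * Real.cos a := by
  unfold cov dph
  rw [rot_zero, rot_one, rot_one, bv_10, bv_11]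
  ring

lemma dph_eq_cov (k a : ℝ) (z v : E2) : dph k a z v = cov k a z 0 * v 0 + cov k a z 1 * v 1 := by
  rw [cov_zero, cov_one]
  unfold dph
  rw [rot_zero, rot_one, rot_one]
  ring

lemma bil_eq (b : Fin 2 → Fin 2 → ℝ) (v w : E2) :
    bil b v w = b 0 0 * v 0 * w 0 + b 0 1 * v 0 * w 1 + (b 1 0 * v 1 * w 0 + b 1 1 * v 1 * w 1) := by
  unfold bil
  simp [Fin.sum_univ_two]

lemma cC_eq (c : Fin 3 → Fin 2 → ℝ) (b : Fin 2 → Fin 2 → ℝ) (m : Fin 3) :
    cC c b m = (b 0 0 * c (m + 1) 1 * c (m + 2) 1 - b 0 1 * c (m + 1) 1 * c (m + 2) 0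
      - b 1 0 * c (m + 1) 0 * c (m + 2) 1 + b 1 1 * c (m + 1) 0 * c (m + 2) 0)
      / (wedge (c m) (c (m + 1)) * wedge (c m) (c (m + 2))) := by
  unfold cC
  rw [bil_eq, comb_zero, comb_zero, comb_one, comb_one]
  congr 1
  ring

lemma cC_eq_cr (c : Fin 3 → Fin 2 → ℝ) (b : Fin 2 → Fin 2 → ℝ) (hb : b 0 1 = b 1 0) (m : Fin 3) :
    cC c b m = cr (fun l => c l 0) (fun l => c l 1) (b 0 0) (b 0 1) (b 1 1) m := by
  rw [cC_eq, ← hb]
  unfold cr wd wedge
  congr 1
  ring

lemma wedge_swap (x y : Fin 2 → ℝ) : wedge y x = -wedge x y := by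
  unfold wedge; ring

lemma wedge_ne {c : Fin 3 → Fin 2 → ℝ} (h : ∀ m, wedge (c m) (c (m + 1)) ≠ 0) :
    ∀ i j, i ≠ j → wedge (c i) (c j) ≠ 0 := by
  have h0 := h 0
  have h1 := h 1
  have h2 := h 2
  have e1 : ((1 : Fin 3) + 1) = 2 := rfl
  have e3 : ((2 : Fin 3) + 1) = 0 := rfl
  have e5 : ((0 : Fin 3) + 1) = 1 := rfl
  rw [e5] at h0
  rw [e1] at h1
  rw [e3] at h2
  intro i j hij
  fin_cases i <;> fin_cases j <;> simp only [Fin.zero_eta, Fin.mk_one, Fin.reduceFinMk,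
    Fin.isValue, ne_eq, not_true_eq_false] at hij ⊢
  · exact h0
  · rw [wedge_swap]; exact neg_ne_zero.2 h2
  · rw [wedge_swap]; exact neg_ne_zero.2 h0
  · exact h1
  · exact h2
  · rw [wedge_swap]; exact neg_ne_zero.2 h1

end DC1h
open DC1h

/-- DC1a -/
theorem dc1a : DC1a := by
  intro b hs h00 hdet
  have hd : 0 < b 1 1 := by
    by_contra hcon
    push Not at hcon
    nlinarith [sq_nonneg (b 0 1), mul_nonneg h00.le (neg_nonneg.2 hcon)]
  obtain ⟨A, C, hC, hA, s1, s2, s3⟩ := exists_angles (a := b 0 0) (c := b 0 1) (d := b 1 1) hd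
    (by linarith)
  refine ⟨fun m => -A m, fun k m => ?_⟩
  have c0 : ∀ l, cov k (-A l) 0 0 = Real.cos (A l) := by
    intro l; rw [cov_zero]; simp
  have c1 : ∀ l, cov k (-A l) 0 1 = Real.sin (A l) := by
    intro l; rw [cov_one]; simp
  have hw : ∀ i j, i ≠ j → wd (fun l => Real.cos (A l)) (fun l => Real.sin (A l)) i j ≠ 0 := by
    intro i j hij
    have := hA j i hij.symm
    rw [Real.sin_sub] at this
    unfold wd
    intro h
    apply this
    linarith
  constructor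
  · have hne : m ≠ m + 1 := by fin_cases m <;> decide
    have := hw m (m + 1) hne
    unfold wd at this
    unfold wedge
    rw [c0, c1, c0, c1]
    intro h
    apply this
    linarith
  · rw [cC_eq_cr _ _ hs]
    simp only [c0, c1]
    rw [← cr_unique hw s1 s2 s3 m]
    exact hC m

/-- DC1b -/
theorem dc1b : DC1b := by
  intro c b hs hw i j
  have hw' : ∀ i j, i ≠ j → wd (fun l => c l 0) (fun l => c l 1) i j ≠ 0 := by
    intro i j hij
    have := wedge_ne hw i j hij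
    unfold wedge at this
    unfold wd
    exact this
  obtain ⟨s1, s2, s3⟩ := cr_spec hw' (b 0 0) (b 0 1) (b 1 1)
  simp only [cC_eq_cr _ _ hs]
  fin_cases i <;> fin_cases j
  · simp only [Fin.zero_eta, Fin.isValue, mul_assoc]
    exact s1.symm
  · simp only [Fin.zero_eta, Fin.mk_one, Fin.isValue, mul_assoc]
    exact s2.symm
  · simp only [Fin.zero_eta, Fin.mk_one, Fin.isValue, mul_assoc]
    rw [← hs]
    refine s2.symm.trans (Finset.sum_congr rfl fun m _ => ?_)
    rw [mul_comm (c m 0)]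
  · simp only [Fin.mk_one, Fin.isValue, mul_assoc]
    exact s3.symm

/-- DC1c -/
theorem dc1c : DC1c := by
  intro k α z b m hw
  have hne := wedge_ne (c := fun l => cov k (α l) z) hw
  have n1 : m ≠ m + 1 := by fin_cases m <;> decide
  have n2 : m ≠ m + 2 := by fin_cases m <;> decide
  have hc : ∀ (l : Fin 3) (i : Fin 2), Continuous (fun q : (Fin 3 → ℝ) × E2 × (Fin 2 → Fin 2 → ℝ) =>
      cov k (q.1 l) q.2.1 i) := by
    intro l i
    have ha : Continuous (fun q : (Fin 3 → ℝ) × E2 × (Fin 2 → Fin 2 → ℝ) => q.1 l) :=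
      (continuous_apply l).comp continuous_fst
    have hz : ∀ i : Fin 2, Continuous (fun q : (Fin 3 → ℝ) × E2 × (Fin 2 → Fin 2 → ℝ) => q.2.1 i) :=
      fun i => (EuclideanSpace.proj (𝕜 := ℝ) i).continuous.comp
        (continuous_fst.comp continuous_snd)
    have hsn := Real.continuous_sin.comp ha
    have hcs := Real.continuous_cos.comp ha
    have hmid := continuous_const (y := k) |>.mul ((hsn.mul (hz 0)).add (hcs.mul (hz 1)))
    fin_cases i
    · simp only [Fin.zero_eta, Fin.isValue, cov_zero]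
      exact hcs.add (hmid.mul hsn)
    · simp only [Fin.mk_one, Fin.isValue, cov_one]
      exact hsn.neg.add (hmid.mul hcs)
  have hb : ∀ i j : Fin 2, Continuous (fun q : (Fin 3 → ℝ) × E2 × (Fin 2 → Fin 2 → ℝ) =>
      q.2.2 i j) := fun i j =>
    (continuous_apply j).comp ((continuous_apply i).comp (continuous_snd.comp continuous_snd))
  have hwc : ∀ l l' : Fin 3, Continuous (fun q : (Fin 3 → ℝ) × E2 × (Fin 2 → Fin 2 → ℝ) =>
      wedge (cov k (q.1 l) q.2.1) (cov k (q.1 l') q.2.1)) := fun l l' =>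
    ((hc l 0).mul (hc l' 1)).sub ((hc l 1).mul (hc l' 0))
  simp only [cC_eq]
  refine ContinuousAt.div ?_ ((hwc m (m + 1)).mul (hwc m (m + 2))).continuousAt ?_
  · exact (((((hb 0 0).mul (hc _ 1)).mul (hc _ 1)).sub (((hb 0 1).mul (hc _ 1)).mul (hc _ 0))).sub
      (((hb 1 0).mul (hc _ 0)).mul (hc _ 1))).add
      (((hb 1 1).mul (hc _ 0)).mul (hc _ 0)) |>.continuousAt
  · exact mul_ne_zero (hne _ _ n1) (hne _ _ n2)

/-- DC1d -/
theorem dc1d : DC1d := by
  intro k α b z m hw hb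
  have hne := wedge_ne (c := fun l => cov k (α l) z) hw
  have n1 : m ≠ m + 1 := by fin_cases m <;> decide
  have n2 : m ≠ m + 2 := by fin_cases m <;> decide
  have hz : ∀ i : Fin 2, ContDiff ℝ ∞ (fun z : E2 => z i) :=
    fun i => (EuclideanSpace.proj (𝕜 := ℝ) i).contDiff
  have hc : ∀ (l : Fin 3) (i : Fin 2), ContDiff ℝ ∞ (fun z : E2 => cov k (α l) z i) := by
    intro l i
    have hmid := contDiff_const (c := k) |>.mul (((contDiff_const (c := Real.sin (α l))).mul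
      (hz 0)).add ((contDiff_const (c := Real.cos (α l))).mul (hz 1)))
    fin_cases i
    · simp only [Fin.zero_eta, Fin.isValue, cov_zero]
      exact contDiff_const.add (hmid.mul contDiff_const)
    · simp only [Fin.mk_one, Fin.isValue, cov_one]
      exact contDiff_const.add (hmid.mul contDiff_const)
  have hwc : ∀ l l' : Fin 3, ContDiff ℝ ∞ (fun z : E2 =>
      wedge (cov k (α l) z) (cov k (α l') z)) := fun l l' =>
    ((hc l 0).mul (hc l' 1)).sub ((hc l 1).mul (hc l' 0))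
  simp only [cC_eq]
  refine ContDiffAt.div ?_ ((hwc m (m + 1)).mul (hwc m (m + 2))).contDiffAt ?_
  · exact (((((hb 0 0).mul (hc _ 1).contDiffAt).mul (hc _ 1).contDiffAt).sub
      (((hb 0 1).mul (hc _ 1).contDiffAt).mul (hc _ 0).contDiffAt)).sub
      (((hb 1 0).mul (hc _ 0).contDiffAt).mul (hc _ 1).contDiffAt)).add
      (((hb 1 1).mul (hc _ 0).contDiffAt).mul (hc _ 0).contDiffAt)
  · exact mul_ne_zero (hne _ _ n1) (hne _ _ n2)

end Crest.Agent.R216.Dec
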