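import Crest.Agent.R216.DecIface

/-!
Row 216 (S0335), part (6), module DC2 (helper674): stage construction, `dc2a`, `dc2b`, `dc2d`,
`dc2f` of `DecIface.lean` (at the end of the file), and also `dc2c`, `dc2e`-type formulas.

From a chart `w` of `M` (any affine normalisation is absorbed in `w`, see `affChart`), a curvature
parameter `κ`, an angle `α` and a radius `r` we build the `Stage` `mkStage` with chart
`Th κ ∘ rotE α ∘ w` and support the disc `‖w p‖ < r` (independent of `κ`, `α`).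
-/

set_option autoImplicit false
set_option linter.unusedSectionVars false
open scoped Manifold ContDiff Topology
open Set Metric

noncomputable section
namespace Crest.Agent.R216
namespace DC2

/-! ### planar maps -/

lemma e2_ext {x y : E2} (h0 : x 0 = y 0) (h1 : x 1 = y 1) : x = y := by
  ext i; fin_cases i <;> assumption

lemma norm_sq_E2 (x : E2) : ‖x‖ ^ 2 = x 0 ^ 2 + x 1 ^ 2 := by
  rw [EuclideanSpace.norm_sq_eq]; simp [Fin.sum_univ_two]

lemma inner_E2 (x y : E2) : inner ℝ x y = x 0 * y 0 + x 1 * y 1 := by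
  simp [PiLp.inner_apply, Fin.sum_univ_two]; ring

@[simp] lemma bv00 : (bv 0) 0 = 1 := by simp [bv]
@[simp] lemma bv01 : (bv 0) 1 = 0 := by simp [bv]
@[simp] lemma bv10 : (bv 1) 0 = 0 := by simp [bv]
@[simp] lemma bv11 : (bv 1) 1 = 1 := by simp [bv]

/-- parabolic shear -/
def Th (κ : ℝ) (z : E2) : E2 := !₂[z 0 + κ * z 1 ^ 2 / 2, z 1]
/-- inverse of the parabolic shear -/
def ThI (κ : ℝ) (y : E2) : E2 := !₂[y 0 - κ * y 1 ^ 2 / 2, y 1]

@[simp] lemma Th_zero (κ : ℝ) (z : E2) : Th κ z 0 = z 0 + κ * z 1 ^ 2 / 2 := rfl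
@[simp] lemma Th_one (κ : ℝ) (z : E2) : Th κ z 1 = z 1 := rfl
@[simp] lemma ThI_zero (κ : ℝ) (z : E2) : ThI κ z 0 = z 0 - κ * z 1 ^ 2 / 2 := rfl
@[simp] lemma ThI_one (κ : ℝ) (z : E2) : ThI κ z 1 = z 1 := rfl

@[simp] lemma ThI_Th (κ : ℝ) (z : E2) : ThI κ (Th κ z) = z := by
  apply e2_ext <;> simp
@[simp] lemma Th_ThI (κ : ℝ) (z : E2) : Th κ (ThI κ z) = z := by
  apply e2_ext <;> simp

/-- unit vector of angle `a` -/
def uu (a : ℝ) : E2 := !₂[Real.cos a, Real.sin a]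
/-- unit vector of angle `a + π/2` -/
def uu' (a : ℝ) : E2 := !₂[-Real.sin a, Real.cos a]

@[simp] lemma uu_zero (a : ℝ) : uu a 0 = Real.cos a := rfl
@[simp] lemma uu_one (a : ℝ) : uu a 1 = Real.sin a := rfl
@[simp] lemma uu'_zero (a : ℝ) : uu' a 0 = -Real.sin a := rfl
@[simp] lemma uu'_one (a : ℝ) : uu' a 1 = Real.cos a := rfl

/-- `z ↦ (⟨u,z⟩, ⟨u',z⟩)` as a linear isometry equivalence -/
def rotE (a : ℝ) : E2 ≃ₗᵢ[ℝ] E2 where
  toFun z := !₂[Real.cos a * z 0 + Real.sin a * z 1, -Real.sin a * z 0 + Real.cos a * z 1]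
  invFun y := !₂[Real.cos a * y 0 - Real.sin a * y 1, Real.sin a * y 0 + Real.cos a * y 1]
  map_add' x y := by apply e2_ext <;> simp <;> ring
  map_smul' c x := by apply e2_ext <;> simp <;> ring
  left_inv z := by
    have h := Real.sin_sq_add_cos_sq a
    apply e2_ext
    · simp; linear_combination (z 0) * h
    · simp; linear_combination (z 1) * h
  right_inv z := by
    have h := Real.sin_sq_add_cos_sq a
    apply e2_ext
    · simp; linear_combination (z 0) * h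
    · simp; linear_combination (z 1) * h
  norm_map' z := by
    have h := Real.sin_sq_add_cos_sq a
    have : ‖(!₂[Real.cos a * z 0 + Real.sin a * z 1, -Real.sin a * z 0 + Real.cos a * z 1] : E2)‖ ^ 2
        = ‖z‖ ^ 2 := by
      rw [norm_sq_E2, norm_sq_E2]; simp
      linear_combination (z 0 ^ 2 + z 1 ^ 2) * h
    exact (sq_eq_sq₀ (norm_nonneg _) (norm_nonneg _)).1 this

@[simp] lemma rotE_zero (a : ℝ) (z : E2) :
    rotE a z 0 = Real.cos a * z 0 + Real.sin a * z 1 := rfl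
@[simp] lemma rotE_one (a : ℝ) (z : E2) :
    rotE a z 1 = -Real.sin a * z 0 + Real.cos a * z 1 := rfl
@[simp] lemma rotE_symm_zero (a : ℝ) (z : E2) :
    (rotE a).symm z 0 = Real.cos a * z 0 - Real.sin a * z 1 := rfl
@[simp] lemma rotE_symm_one (a : ℝ) (z : E2) :
    (rotE a).symm z 1 = Real.sin a * z 0 + Real.cos a * z 1 := rfl

lemma rotE_zero_inner (a : ℝ) (z : E2) : rotE a z 0 = inner ℝ (uu a) z := by
  rw [inner_E2]; simp
lemma rotE_one_inner (a : ℝ) (z : E2) : rotE a z 1 = inner ℝ (uu' a) z := by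
  rw [inner_E2]; simp

lemma rotE_symm_eq (a : ℝ) (y : E2) : (rotE a).symm y = y 0 • uu a + y 1 • uu' a := by
  apply e2_ext <;> simp <;> ring

lemma norm_uu (a : ℝ) : ‖uu a‖ = 1 := by
  have : ‖uu a‖ ^ 2 = 1 ^ 2 := by
    rw [norm_sq_E2]; simp
  exact (sq_eq_sq₀ (norm_nonneg _) zero_le_one).1 this
lemma norm_uu' (a : ℝ) : ‖uu' a‖ = 1 := by
  have : ‖uu' a‖ ^ 2 = 1 ^ 2 := by
    rw [norm_sq_E2]; simp
  exact (sq_eq_sq₀ (norm_nonneg _) zero_le_one).1 this
lemma inner_uu_uu' (a : ℝ) : inner ℝ (uu a) (uu' a) = 0 := by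
  rw [inner_E2]; simp; ring

lemma contDiff_coord (i : Fin 2) : ContDiff ℝ ∞ (fun y : E2 => y i) :=
  (EuclideanSpace.proj i : E2 →L[ℝ] ℝ).contDiff

lemma ThI_eq (κ : ℝ) (y : E2) : ThI κ y = y - (κ / 2 * y 1 ^ 2) • bv 0 := by
  apply e2_ext <;> simp; ring
lemma Th_eq (κ : ℝ) (y : E2) : Th κ y = y + (κ / 2 * y 1 ^ 2) • bv 0 := by
  apply e2_ext <;> simp; ring

lemma contDiff_Th (κ : ℝ) : ContDiff ℝ ∞ (Th κ) := by
  have e : Th κ = fun y : E2 => y + (κ / 2 * y 1 ^ 2) • bv 0 := by funext y; exact Th_eq κ y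
  rw [e]
  exact contDiff_id.add ((contDiff_const.mul ((contDiff_coord 1).pow 2)).smul contDiff_const)

lemma contDiff_ThI (κ : ℝ) : ContDiff ℝ ∞ (ThI κ) := by
  have e : ThI κ = fun y : E2 => y - (κ / 2 * y 1 ^ 2) • bv 0 := by funext y; exact ThI_eq κ y
  rw [e]
  exact contDiff_id.sub ((contDiff_const.mul ((contDiff_coord 1).pow 2)).smul contDiff_const)

/-- derivative of `ThI κ` at `y` -/
def dThI (κ : ℝ) (y : E2) : E2 →L[ℝ] E2 :=
  ContinuousLinearMap.id ℝ E2 -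
    (κ * y 1) • ((EuclideanSpace.proj (1 : Fin 2) : E2 →L[ℝ] ℝ).smulRight (bv 0))

lemma dThI_apply (κ : ℝ) (y v : E2) : dThI κ y v = v - (κ * y 1 * v 1) • bv 0 := by
  simp [dThI, smul_smul]

/-- derivative of `Th κ` at `z` -/
def dTh (κ : ℝ) (z : E2) : E2 →L[ℝ] E2 :=
  ContinuousLinearMap.id ℝ E2 +
    (κ * z 1) • ((EuclideanSpace.proj (1 : Fin 2) : E2 →L[ℝ] ℝ).smulRight (bv 0))

lemma dTh_apply (κ : ℝ) (z v : E2) : dTh κ z v = v + (κ * z 1 * v 1) • bv 0 := by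
  simp [dTh, smul_smul]

lemma hasFDerivAt_sq1 (y : E2) : HasFDerivAt (fun y : E2 => y 1 ^ 2)
    ((2 * y 1) • (EuclideanSpace.proj (1 : Fin 2) : E2 →L[ℝ] ℝ)) y := by
  have h : HasFDerivAt (fun y : E2 => y 1) (EuclideanSpace.proj (1 : Fin 2) : E2 →L[ℝ] ℝ) y :=
    (EuclideanSpace.proj (1 : Fin 2) : E2 →L[ℝ] ℝ).hasFDerivAt
  have := h.pow 2
  simpa using this

lemma hasFDerivAt_shear (c : ℝ) (y : E2) :
    HasFDerivAt (fun y : E2 => (c / 2 * y 1 ^ 2) • bv 0)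
      ((c * y 1) • ((EuclideanSpace.proj (1 : Fin 2) : E2 →L[ℝ] ℝ).smulRight (bv 0))) y := by
  have h := ((hasFDerivAt_sq1 y).const_mul (c / 2)).smul_const (bv 0)
  refine h.congr_fderiv ?_
  apply ContinuousLinearMap.ext
  intro v
  have e : (EuclideanSpace.proj (1 : Fin 2) : E2 →L[ℝ] ℝ) v = v 1 := rfl
  simp only [ContinuousLinearMap.smulRight_apply, _root_.smul_apply, e, smul_smul,
    smul_eq_mul]
  congr 1
  ring

lemma hasFDerivAt_ThI (κ : ℝ) (y : E2) : HasFDerivAt (ThI κ) (dThI κ y) y := by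
  have e : ThI κ = fun y : E2 => y - (κ / 2 * y 1 ^ 2) • bv 0 := by funext y; exact ThI_eq κ y
  rw [e]
  exact (hasFDerivAt_id y).sub (hasFDerivAt_shear κ y)

lemma hasFDerivAt_Th (κ : ℝ) (y : E2) : HasFDerivAt (Th κ) (dTh κ y) y := by
  have e : Th κ = fun y : E2 => y + (κ / 2 * y 1 ^ 2) • bv 0 := by funext y; exact Th_eq κ y
  rw [e]
  exact (hasFDerivAt_id y).add (hasFDerivAt_shear κ y)

/-- `Th κ` as a homeomorphism -/
def ThH (κ : ℝ) : E2 ≃ₜ E2 where
  toFun := Th κ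
  invFun := ThI κ
  left_inv := ThI_Th κ
  right_inv := Th_ThI κ
  continuous_toFun := (contDiff_Th κ).continuous
  continuous_invFun := (contDiff_ThI κ).continuous

/-! ### the planar change of coordinates `par = Th κ ∘ rotE α` and its inverse `sg` -/

/-- `par κ α x = Th κ (rotE α x)` -/
def par (κ α : ℝ) (x : E2) : E2 := Th κ (rotE α x)
/-- inverse of `par` -/
def sg (κ α : ℝ) (y : E2) : E2 := (rotE α).symm (ThI κ y)

@[simp] lemma sg_par (κ α : ℝ) (x : E2) : sg κ α (par κ α x) = x := by simp [sg, par]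
@[simp] lemma par_sg (κ α : ℝ) (y : E2) : par κ α (sg κ α y) = y := by simp [sg, par]

lemma norm_sg (κ α : ℝ) (y : E2) : ‖sg κ α y‖ = ‖ThI κ y‖ := by simp [sg]
lemma ThI_par (κ α : ℝ) (x : E2) : ThI κ (par κ α x) = rotE α x := by simp [par]
lemma norm_ThI_par (κ α : ℝ) (x : E2) : ‖ThI κ (par κ α x)‖ = ‖x‖ := by rw [ThI_par]; simp

lemma contDiff_par (κ α : ℝ) : ContDiff ℝ ∞ (par κ α) :=
  (contDiff_Th _).comp (rotE _).contDiff
lemma contDiff_sg (κ α : ℝ) : ContDiff ℝ ∞ (sg κ α) :=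
  (rotE α).symm.contDiff.comp (contDiff_ThI _)

/-- the phase function -/
lemma par_zero (κ α : ℝ) (x : E2) :
    par κ α x 0 = inner ℝ (uu α) x + κ * (inner ℝ (uu' α) x) ^ 2 / 2 := by
  simp only [par, Th_zero, rotE_zero_inner, rotE_one_inner]
lemma par_one (κ α : ℝ) (x : E2) : par κ α x 1 = inner ℝ (uu' α) x := by
  simp only [par, Th_one, rotE_one_inner]
lemma sg_eq (κ α : ℝ) (y : E2) :
    sg κ α y = (y 0 - κ * y 1 ^ 2 / 2) • uu α + y 1 • uu' α := by
  rw [sg, rotE_symm_eq]; rfl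

/-- the planar coordinate change as a homeomorphism -/
def parH (κ α : ℝ) : E2 ≃ₜ E2 where
  toFun := par κ α
  invFun := sg κ α
  left_inv := sg_par κ α
  right_inv := par_sg κ α
  continuous_toFun := (contDiff_par κ α).continuous
  continuous_invFun := (contDiff_sg κ α).continuous

/-- the covector `dph = u + κ ⟨u', z⟩ u'` of the phase at `z` -/
def dph (κ α : ℝ) (z : E2) : E2 := uu α + (κ * inner ℝ (uu' α) z) • uu' α
/-- the level direction `dlev = u' - κ ⟨u', z⟩ u` at `z` -/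
def dlev (κ α : ℝ) (z : E2) : E2 := uu' α - (κ * inner ℝ (uu' α) z) • uu α

lemma inner_dph_dlev (κ α : ℝ) (z : E2) : inner ℝ (dph κ α z) (dlev κ α z) = 0 := by
  have h1 : inner ℝ (uu α) (uu α) = (1 : ℝ) := by rw [real_inner_self_eq_norm_sq, norm_uu]; norm_num
  have h2 : inner ℝ (uu' α) (uu' α) = (1 : ℝ) := by
    rw [real_inner_self_eq_norm_sq, norm_uu']; norm_num
  have h3 := inner_uu_uu' α
  have h4 : inner ℝ (uu' α) (uu α) = (0 : ℝ) := by rw [real_inner_comm]; exact h3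
  rw [dph, dlev]
  simp only [inner_add_left, inner_sub_right, inner_smul_left, inner_smul_right, h1, h2, h3, h4]
  simp

lemma hasFDerivAt_par (κ α : ℝ) (x : E2) : HasFDerivAt (par κ α)
    ((dTh κ (rotE α x)).comp ((rotE α).toContinuousLinearEquiv : E2 →L[ℝ] E2)) x :=
  (hasFDerivAt_Th κ (rotE α x)).comp x
    (((rotE α).toContinuousLinearEquiv : E2 →L[ℝ] E2).hasFDerivAt (x := x))

lemma hasFDerivAt_sg (κ α : ℝ) (y : E2) : HasFDerivAt (sg κ α)
    (((rotE α).symm.toContinuousLinearEquiv : E2 →L[ℝ] E2).comp (dThI κ y)) y :=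
  (((rotE α).symm.toContinuousLinearEquiv : E2 →L[ℝ] E2).hasFDerivAt (x := ThI κ y)).comp y
    (hasFDerivAt_ThI κ y)

lemma fderiv_par (κ α : ℝ) (x v : E2) : fderiv ℝ (par κ α) x v
    = rotE α v + (κ * inner ℝ (uu' α) x * inner ℝ (uu' α) v) • bv 0 := by
  rw [(hasFDerivAt_par κ α x).fderiv]
  have h : ((dTh κ (rotE α x)).comp ((rotE α).toContinuousLinearEquiv : E2 →L[ℝ] E2)) v
      = dTh κ (rotE α x) (rotE α v) := rfl
  rw [h, dTh_apply, rotE_one_inner, rotE_one_inner]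

lemma fderiv_par_zero (κ α : ℝ) (x v : E2) :
    fderiv ℝ (par κ α) x v 0 = inner ℝ (dph κ α x) v := by
  rw [fderiv_par, dph, inner_add_left, inner_smul_left]
  simp only [PiLp.add_apply, PiLp.smul_apply, bv00, rotE_zero_inner]
  simp
lemma fderiv_par_one (κ α : ℝ) (x v : E2) :
    fderiv ℝ (par κ α) x v 1 = inner ℝ (uu' α) v := by
  rw [fderiv_par]
  simp only [PiLp.add_apply, PiLp.smul_apply, bv01, rotE_one_inner]
  simp

lemma fderiv_sg (κ α : ℝ) (y v : E2) : fderiv ℝ (sg κ α) y v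
    = (v 0 - κ * y 1 * v 1) • uu α + v 1 • uu' α := by
  rw [(hasFDerivAt_sg κ α y).fderiv]
  have h : (((rotE α).symm.toContinuousLinearEquiv : E2 →L[ℝ] E2).comp (dThI κ y)) v
      = (rotE α).symm (dThI κ y v) := rfl
  rw [h, rotE_symm_eq, dThI_apply]
  simp

lemma fderiv_sg_bv0 (κ α : ℝ) (y : E2) : fderiv ℝ (sg κ α) y (bv 0) = uu α := by
  rw [fderiv_sg]; simp
lemma fderiv_sg_bv1 (κ α : ℝ) (y : E2) :
    fderiv ℝ (sg κ α) y (bv 1) = uu' α - (κ * y 1) • uu α := by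
  rw [fderiv_sg]; simp; abel
lemma fderiv_sg_bv1_par (κ α : ℝ) (x : E2) :
    fderiv ℝ (sg κ α) (par κ α x) (bv 1) = dlev κ α x := by
  rw [fderiv_sg_bv1, par_one, dlev]

/-- second derivative of `sg` -/
lemma fderiv_fderiv_sg (κ α : ℝ) (y v w : E2) :
    fderiv ℝ (fderiv ℝ (sg κ α)) y v w = -(κ * v 1 * w 1) • uu α := by
  have h0 : ContDiff ℝ 1 (fderiv ℝ (sg κ α)) :=
    ((contDiff_sg κ α).of_le (m := 2) ENat.LEInfty.out).fderiv_right (m := 1) (by norm_num)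
  have h1 : fderiv ℝ (fderiv ℝ (sg κ α)) y v w
      = fderiv ℝ (fun y => fderiv ℝ (sg κ α) y w) y v := by
    have := (h0.differentiable (by norm_num) y).hasFDerivAt.clm_apply (hasFDerivAt_const w y)
    rw [this.fderiv]; simp
  rw [h1]
  have e : (fun y : E2 => fderiv ℝ (sg κ α) y w)
      = fun y : E2 => (w 0 • uu α + w 1 • uu' α) - (y 1) • ((κ * w 1) • uu α) := by
    funext y
    rw [fderiv_sg]
    rw [smul_smul, sub_smul]
    have : κ * y 1 * w 1 = y 1 * (κ * w 1) := by ring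
    rw [this]; abel
  rw [e]
  have h2 : HasFDerivAt (fun y : E2 => (w 0 • uu α + w 1 • uu' α) - (y 1) • ((κ * w 1) • uu α))
      (-((EuclideanSpace.proj (1 : Fin 2) : E2 →L[ℝ] ℝ).smulRight ((κ * w 1) • uu α))) y := by
    have h3 : HasFDerivAt (fun y : E2 => y 1) (EuclideanSpace.proj (1 : Fin 2) : E2 →L[ℝ] ℝ) y :=
      (EuclideanSpace.proj (1 : Fin 2) : E2 →L[ℝ] ℝ).hasFDerivAt
    exact (h3.smul_const _).const_sub _
  rw [h2.fderiv]
  simp only [_root_.neg_apply, ContinuousLinearMap.smulRight_apply, smul_smul, neg_smul]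
  congr 2
  have : (EuclideanSpace.proj (1 : Fin 2) : E2 →L[ℝ] ℝ) v = v 1 := rfl
  rw [this]; ring

/-- `sg_22 = - κ sg_1` -/
lemma fderiv_fderiv_sg_bv1 (κ α : ℝ) (y : E2) :
    fderiv ℝ (fderiv ℝ (sg κ α)) y (bv 1) (bv 1) = -(κ • fderiv ℝ (sg κ α) y (bv 0)) := by
  rw [fderiv_fderiv_sg, fderiv_sg_bv0]; simp

/-! ### the disc function -/

/-- the disc function in the coordinates of the stage -/
def uf (κ r : ℝ) (y : E2) : ℝ := r ^ 2 - ‖ThI κ y‖ ^ 2

lemma uf_eq (κ r : ℝ) (y : E2) :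
    uf κ r y = r ^ 2 - ((y 0 - κ * y 1 ^ 2 / 2) ^ 2 + y 1 ^ 2) := by
  rw [uf, norm_sq_E2]; rfl

lemma contDiff_uf (κ r : ℝ) : ContDiff ℝ ∞ (uf κ r) :=
  contDiff_const.sub ((contDiff_norm_sq ℝ).comp (contDiff_ThI _))

lemma uf_par (κ α r : ℝ) (x : E2) : uf κ r (par κ α x) = r ^ 2 - ‖x‖ ^ 2 := by
  rw [uf, norm_ThI_par]
lemma uf_sg (κ α r : ℝ) (y : E2) : uf κ r y = r ^ 2 - ‖sg κ α y‖ ^ 2 := by
  rw [uf, norm_sg]

lemma uf_pos_iff {κ r : ℝ} (hr : 0 < r) (y : E2) : 0 < uf κ r y ↔ ‖ThI κ y‖ < r := by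
  rw [uf, sub_pos, sq_lt_sq₀ (norm_nonneg _) hr.le]

lemma setOf_uf_pos {κ r : ℝ} (hr : 0 < r) :
    {y | 0 < uf κ r y} = (ThH κ).symm ⁻¹' ball 0 r := by
  ext y
  rw [mem_ofPred_eq, uf_pos_iff hr, mem_preimage, mem_ball_zero_iff]; rfl

lemma closure_uf_pos {κ r : ℝ} (hr : 0 < r) :
    closure {y | 0 < uf κ r y} = {y | ‖ThI κ y‖ ≤ r} := by
  rw [setOf_uf_pos hr, ← (ThH κ).symm.preimage_closure, closure_ball _ hr.ne']
  ext y
  rw [mem_preimage, mem_closedBall_zero_iff]; rfl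

lemma frontier_uf_pos {κ r : ℝ} (hr : 0 < r) :
    frontier {y | 0 < uf κ r y} = {y | ‖ThI κ y‖ = r} := by
  rw [setOf_uf_pos hr, ← (ThH κ).symm.preimage_frontier, frontier_ball _ hr.ne']
  ext y
  rw [mem_preimage, mem_sphere_zero_iff_norm]; rfl

lemma isCompact_closure_uf_pos {κ r : ℝ} (hr : 0 < r) :
    IsCompact (closure {y | 0 < uf κ r y}) := by
  have h : closure {y | 0 < uf κ r y} = Th κ '' closedBall 0 r := by
    rw [closure_uf_pos hr]
    ext y
    constructor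
    · intro hy
      exact ⟨ThI κ y, by simpa using hy, by simp⟩
    · rintro ⟨z, hz, rfl⟩
      simpa using hz
  rw [h]
  exact (isCompact_closedBall _ _).image (contDiff_Th _).continuous

lemma star_aux {κ r a s t : ℝ} (hr : 0 < r) (hκ : 0 ≤ κ) (hκr : κ * r ≤ 1 / 2)
    (ht : 0 ≤ t) (hts : t ≤ s) (h : (a - κ * s / 2) ^ 2 + s < r ^ 2) :
    (a - κ * t / 2) ^ 2 + t ≤ (a - κ * s / 2) ^ 2 + s := by
  have hs : s < r ^ 2 := by nlinarith [sq_nonneg (a - κ * s / 2)]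
  have hb : a - κ * s / 2 < r := by
    have hs0 : 0 ≤ s := ht.trans hts
    exact lt_of_pow_lt_pow_left₀ 2 hr.le (by nlinarith)
  have hκr0 : 0 ≤ κ * r := mul_nonneg hκ hr.le
  have h1 : κ * (a - κ * s / 2) ≤ 1 / 2 := by
    calc κ * (a - κ * s / 2) ≤ κ * r := mul_le_mul_of_nonneg_left hb.le hκ
      _ ≤ 1 / 2 := hκr
  have h2 : κ ^ 2 * s ≤ 1 / 4 := by
    calc κ ^ 2 * s ≤ κ ^ 2 * r ^ 2 := mul_le_mul_of_nonneg_left hs.le (sq_nonneg _)
      _ = (κ * r) ^ 2 := by ring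
      _ ≤ (1 / 2) ^ 2 := by gcongr
      _ = 1 / 4 := by norm_num
  have h3 : 0 ≤ κ ^ 2 * t := by positivity
  have key : (a - κ * s / 2) ^ 2 + s - ((a - κ * t / 2) ^ 2 + t)
      = (s - t) * (1 - κ * (a - κ * s / 2) - κ ^ 2 * s / 4 + κ ^ 2 * t / 4) := by ring
  have h4 : 0 ≤ (s - t) * (1 - κ * (a - κ * s / 2) - κ ^ 2 * s / 4 + κ ^ 2 * t / 4) :=
    mul_nonneg (by linarith) (by linarith)
  linarith

/-- star-shapedness of the superlevel sets of the disc function -/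
lemma uf_star {κ r : ℝ} (hr : 0 < r) (hκ : 0 ≤ κ) (hκr : κ * r ≤ 1 / 2) :
    ∀ s : ℝ, 0 ≤ s → ∀ y : E2, s < uf κ r y → ∀ θ : ℝ, 0 ≤ θ → θ ≤ 1 →
      s < uf κ r (y 0 • bv 0 + (θ * y 1) • bv 1) := by
  intro s hs y hy θ h0 h1
  have e0 : (y 0 • bv 0 + (θ * y 1) • bv 1) 0 = y 0 := by simp
  have e1 : (y 0 • bv 0 + (θ * y 1) • bv 1) 1 = θ * y 1 := by simp
  rw [uf_eq] at hy ⊢
  rw [e0, e1]
  have h2 : θ ^ 2 ≤ 1 := pow_le_one₀ h0 h1
  have := star_aux (a := y 0) (s := y 1 ^ 2) (t := (θ * y 1) ^ 2) hr hκ hκr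
    (sq_nonneg _) (by rw [mul_pow]; nlinarith [sq_nonneg (y 1)]) (by linarith)
  linarith

/-! ### charts -/

variable {M : Type*} [TopologicalSpace M] [ChartedSpace E2 M]

lemma trans_mem_maxAtlas {c : OpenPartialHomeomorph M E2}
    (hc : c ∈ IsManifold.maximalAtlas (𝓡 2) ∞ M) {H : E2 ≃ₜ E2}
    (h1 : ContDiff ℝ ∞ H) (h2 : ContDiff ℝ ∞ H.symm) :
    c ≫ₕ H.toOpenPartialHomeomorph ∈ IsManifold.maximalAtlas (𝓡 2) ∞ M := by
  have hT : H.toOpenPartialHomeomorph ∈ contDiffGroupoid ∞ (𝓡 2) := by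
    rw [contDiffGroupoid, mem_groupoid_of_pregroupoid]
    constructor
    · show ContDiffOn ℝ ∞ _ _
      exact h1.contDiffOn
    · show ContDiffOn ℝ ∞ _ _
      exact h2.contDiffOn
  intro e' he'
  obtain ⟨h3, h4⟩ := hc e' he'
  constructor
  · rw [OpenPartialHomeomorph.trans_symm_eq_symm_trans_symm, OpenPartialHomeomorph.trans_assoc]
    exact (contDiffGroupoid ∞ (𝓡 2)).trans ((contDiffGroupoid ∞ (𝓡 2)).symm hT) h3
  · rw [← OpenPartialHomeomorph.trans_assoc]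
    exact (contDiffGroupoid ∞ (𝓡 2)).trans h4 hT

/-- affine homeomorphism `x ↦ L (x - x0)` -/
def affH (x0 : E2) (L : E2 ≃L[ℝ] E2) : E2 ≃ₜ E2 where
  toFun x := L (x - x0)
  invFun z := x0 + L.symm z
  left_inv x := by simp
  right_inv z := by simp
  continuous_toFun := by fun_prop
  continuous_invFun := by fun_prop

/-- the affinely normalised chart `p ↦ L (χ p - x0)` -/
def affChart (χ : OpenPartialHomeomorph M E2) (x0 : E2) (L : E2 ≃L[ℝ] E2) :
    OpenPartialHomeomorph M E2 := χ ≫ₕ (affH x0 L).toOpenPartialHomeomorph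

@[simp] lemma affChart_apply (χ : OpenPartialHomeomorph M E2) (x0 : E2) (L : E2 ≃L[ℝ] E2) (p : M) :
    affChart χ x0 L p = L (χ p - x0) := rfl
@[simp] lemma affChart_symm_apply (χ : OpenPartialHomeomorph M E2) (x0 : E2) (L : E2 ≃L[ℝ] E2)
    (z : E2) : (affChart χ x0 L).symm z = χ.symm (x0 + L.symm z) := rfl
@[simp] lemma affChart_source (χ : OpenPartialHomeomorph M E2) (x0 : E2) (L : E2 ≃L[ℝ] E2) :
    (affChart χ x0 L).source = χ.source := by simp [affChart]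
lemma affChart_target (χ : OpenPartialHomeomorph M E2) (x0 : E2) (L : E2 ≃L[ℝ] E2) :
    (affChart χ x0 L).target = {z | x0 + L.symm z ∈ χ.target} := by
  rw [affChart, OpenPartialHomeomorph.trans_target]
  simp
  rfl
lemma affChart_mem {χ : OpenPartialHomeomorph M E2}
    (hχ : χ ∈ IsManifold.maximalAtlas (𝓡 2) ∞ M) (x0 : E2) (L : E2 ≃L[ℝ] E2) :
    affChart χ x0 L ∈ IsManifold.maximalAtlas (𝓡 2) ∞ M := by
  apply trans_mem_maxAtlas hχ
  · show ContDiff ℝ ∞ (fun x => L (x - x0))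
    exact L.contDiff.comp (contDiff_id.sub contDiff_const)
  · show ContDiff ℝ ∞ (fun z => x0 + L.symm z)
    exact contDiff_const.add L.symm.contDiff

/-- the chart of the stage -/
def psi (w : OpenPartialHomeomorph M E2) (κ α : ℝ) : OpenPartialHomeomorph M E2 :=
  w ≫ₕ (parH κ α).toOpenPartialHomeomorph

@[simp] lemma psi_source (w : OpenPartialHomeomorph M E2) (κ α : ℝ) :
    (psi w κ α).source = w.source := by simp [psi]
lemma psi_target (w : OpenPartialHomeomorph M E2) (κ α : ℝ) :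
    (psi w κ α).target = sg κ α ⁻¹' w.target := by
  rw [psi, OpenPartialHomeomorph.trans_target]
  simp
  rfl
@[simp] lemma psi_apply (w : OpenPartialHomeomorph M E2) (κ α : ℝ) (p : M) :
    psi w κ α p = par κ α (w p) := rfl
@[simp] lemma psi_symm_apply (w : OpenPartialHomeomorph M E2) (κ α : ℝ) (y : E2) :
    (psi w κ α).symm y = w.symm (sg κ α y) := rfl
lemma psi_mem {w : OpenPartialHomeomorph M E2}
    (hw : w ∈ IsManifold.maximalAtlas (𝓡 2) ∞ M) (κ α : ℝ) :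
    psi w κ α ∈ IsManifold.maximalAtlas (𝓡 2) ∞ M :=
  trans_mem_maxAtlas hw (contDiff_par κ α) (contDiff_sg κ α)

/-- **the stage** with chart `par κ α ∘ w` and disc `‖w p‖ < r`. -/
def mkStage (w : OpenPartialHomeomorph M E2) (hw : w ∈ IsManifold.maximalAtlas (𝓡 2) ∞ M)
    (κ α r : ℝ) (hr : 0 < r) (hκ : 0 ≤ κ) (hκr : κ * r ≤ 1 / 2)
    (hsub : closedBall 0 r ⊆ w.target) : Stage M where
  ψ := psi w κ α
  hψ := psi_mem hw κ α
  u := uf κ r
  hu := contDiff_uf κ r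
  cpt := isCompact_closure_uf_pos hr
  sub := by
    rw [closure_uf_pos hr, psi_target]
    intro y hy
    apply hsub
    rw [mem_closedBall_zero_iff, norm_sg]; exact hy
  star := uf_star hr hκ hκr

section stage

variable {w : OpenPartialHomeomorph M E2} {hw : w ∈ IsManifold.maximalAtlas (𝓡 2) ∞ M}
  {κ α r : ℝ} {hr : 0 < r} {hκ : 0 ≤ κ} {hκr : κ * r ≤ 1 / 2} {hsub : closedBall 0 r ⊆ w.target}

@[simp] lemma mkStage_ψ : (mkStage w hw κ α r hr hκ hκr hsub).ψ = psi w κ α := rfl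
@[simp] lemma mkStage_u : (mkStage w hw κ α r hr hκ hκr hsub).u = uf κ r := rfl

lemma mkStage_U : (mkStage w hw κ α r hr hκ hκr hsub).U = sg κ α ⁻¹' ball 0 r := by
  ext y
  rw [mem_preimage, mem_ball_zero_iff, norm_sg]
  exact uf_pos_iff hr y
lemma closure_mkStage_U :
    closure (mkStage w hw κ α r hr hκ hκr hsub).U = sg κ α ⁻¹' closedBall 0 r := by
  have h : closure (mkStage w hw κ α r hr hκ hκr hsub).U = {y | ‖ThI κ y‖ ≤ r} :=
    closure_uf_pos hr
  rw [h]; ext y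
  rw [mem_preimage, mem_closedBall_zero_iff, norm_sg]; rfl
lemma mkStage_C : (mkStage w hw κ α r hr hκ hκr hsub).C = sg κ α ⁻¹' sphere 0 r := by
  have h : (mkStage w hw κ α r hr hκ hκr hsub).C = {y | ‖ThI κ y‖ = r} := frontier_uf_pos hr
  rw [h]; ext y
  rw [mem_preimage, mem_sphere_zero_iff_norm, norm_sg]; rfl

lemma image_psi_symm (w : OpenPartialHomeomorph M E2) (κ α : ℝ) (s : Set E2) :
    (psi w κ α).symm '' (sg κ α ⁻¹' s) = w.symm '' s := by
  ext p
  constructor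
  · rintro ⟨y, hy, rfl⟩; exact ⟨sg κ α y, hy, rfl⟩
  · rintro ⟨x, hx, rfl⟩; exact ⟨par κ α x, by simpa using hx, by simp⟩

lemma mkStage_V : (mkStage w hw κ α r hr hκ hκr hsub).V = w.symm '' ball 0 r := by
  rw [Stage.V, mkStage_U]; exact image_psi_symm w κ α _
lemma mkStage_circ : (mkStage w hw κ α r hr hκ hκr hsub).circ = w.symm '' sphere 0 r := by
  rw [Stage.circ, mkStage_C]; exact image_psi_symm w κ α _

lemma symm_image_eq {s : Set E2} (hs : s ⊆ w.target) :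
    w.symm '' s = {p | p ∈ w.source ∧ w p ∈ s} := by
  ext p
  constructor
  · rintro ⟨x, hx, rfl⟩
    refine ⟨w.map_target (hs hx), ?_⟩
    rw [w.right_inv (hs hx)]; exact hx
  · rintro ⟨h1, h2⟩
    exact ⟨w p, h2, w.left_inv h1⟩

include hsub in
lemma mkStage_V' : (mkStage w hw κ α r hr hκ hκr hsub).V = {p | p ∈ w.source ∧ ‖w p‖ < r} := by
  rw [mkStage_V, symm_image_eq (ball_subset_closedBall.trans hsub)]
  ext p; simp
include hsub in
lemma mkStage_circ' :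
    (mkStage w hw κ α r hr hκ hκr hsub).circ = {p | p ∈ w.source ∧ ‖w p‖ = r} := by
  rw [mkStage_circ, symm_image_eq (sphere_subset_closedBall.trans hsub)]
  ext p; simp

lemma not_mem_V_of_mem_circ {p : M} (h : p ∈ (mkStage w hw κ α r hr hκ hκr hsub).circ) :
    p ∉ (mkStage w hw κ α r hr hκ hκr hsub).V := by
  rw [mkStage_circ'] at h
  rw [mkStage_V']
  rintro ⟨-, h2⟩
  exact absurd h.2 h2.ne

lemma isOpen_mkStage_V : IsOpen (mkStage w hw κ α r hr hκ hκr hsub).V := by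
  rw [mkStage_V]
  exact w.symm.isOpen_image_of_subset_source isOpen_ball (ball_subset_closedBall.trans hsub)

/-- level line in the coordinates of the stage -/
lemma psi_symm_line (w : OpenPartialHomeomorph M E2) (κ α a b : ℝ) :
    (psi w κ α).symm (a • bv 0 + b • bv 1)
      = w.symm ((a - κ * b ^ 2 / 2) • uu α + b • uu' α) := by
  rw [psi_symm_apply, sg_eq]; simp

/-! ### differential of the phase and level direction -/

lemma mdifferentiableAt_w (hw : w ∈ IsManifold.maximalAtlas (𝓡 2) ∞ M) [IsManifold (𝓡 2) ∞ M]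
    {p : M} (hp : p ∈ w.source) : MDifferentiableAt (𝓡 2) (𝓡 2) w p :=
  (contMDiffAt_of_mem_maximalAtlas hw hp).mdifferentiableAt (by simp)

lemma mdifferentiableAt_symm {c : OpenPartialHomeomorph M E2}
    (hc : c ∈ IsManifold.maximalAtlas (𝓡 2) ∞ M) [IsManifold (𝓡 2) ∞ M]
    {y : E2} (hy : y ∈ c.target) : MDifferentiableAt (𝓡 2) (𝓡 2) c.symm y :=
  (contMDiffAt_symm_of_mem_maximalAtlas hc hy).mdifferentiableAt (by simp)

/-- differential of the chart of the stage -/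
lemma mfderiv_psi [IsManifold (𝓡 2) ∞ M] (hw : w ∈ IsManifold.maximalAtlas (𝓡 2) ∞ M)
    {p : M} (hp : p ∈ w.source) (v : TangentSpace (𝓡 2) p) :
    (mfderiv (𝓡 2) 𝓘(ℝ, E2) (psi w κ α) p v : E2)
      = fderiv ℝ (par κ α) (w p) (mfderiv (𝓡 2) 𝓘(ℝ, E2) w p v : E2) := by
  have h1 : MDifferentiableAt (𝓡 2) (𝓡 2) w p := mdifferentiableAt_w hw hp
  have h2 : DifferentiableAt ℝ (par κ α) (w p) :=
    (contDiff_par κ α).differentiable (by simp) _
  have h3 := mfderiv_comp p h2.mdifferentiableAt h1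
  have h4 : (psi w κ α : M → E2) = par κ α ∘ w := rfl
  rw [h4]
  have h5 := congrArg (fun T : TangentSpace (𝓡 2) p →L[ℝ] TangentSpace 𝓘(ℝ, E2) (par κ α (w p))
    => T v) h3
  simp only [mfderiv_eq_fderiv] at h5
  exact h5

/-- **`dphi` of the stage** -/
theorem mkStage_dphi [IsManifold (𝓡 2) ∞ M] {p : M} (hp : p ∈ w.source)
    (v : TangentSpace (𝓡 2) p) :
    (mkStage w hw κ α r hr hκ hκr hsub).dphi p v
      = inner ℝ (dph κ α (w p)) (mfderiv (𝓡 2) 𝓘(ℝ, E2) w p v : E2) := by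
  have h : (mkStage w hw κ α r hr hκ hκr hsub).dphi p v
      = (fun z : E2 => z 0) (mfderiv (𝓡 2) 𝓘(ℝ, E2) (psi w κ α) p v) := rfl
  have h' := congrArg (fun z : E2 => z 0) (mfderiv_psi (κ := κ) (α := α) hw hp v)
  exact h.trans (h'.trans (fderiv_par_zero κ α (w p) _))

/-- **level direction of the stage**, seen in the chart `w` -/
theorem mfderiv_w_lev [IsManifold (𝓡 2) ∞ M] {p : M} (hp : p ∈ w.source) :
    (mfderiv (𝓡 2) 𝓘(ℝ, E2) w p ((mkStage w hw κ α r hr hκ hκr hsub).lev p) : E2)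
      = dlev κ α (w p) := by
  set y : E2 := psi w κ α p with hy
  have hyt : y ∈ (psi w κ α).target := (psi w κ α).map_source (by simpa using hp)
  have hpy : (psi w κ α).symm y = p := (psi w κ α).left_inv (by simpa using hp)
  have h1 : MDifferentiableAt (𝓡 2) (𝓡 2) (psi w κ α).symm y :=
    mdifferentiableAt_symm (psi_mem hw κ α) hyt
  have h2 : MDifferentiableAt (𝓡 2) (𝓡 2) w ((psi w κ α).symm y) := by
    rw [hpy]; exact mdifferentiableAt_w hw hp
  have h3 := mfderiv_comp y h2 h1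
  have h4 : (w ∘ (psi w κ α).symm : E2 → E2) =ᶠ[𝓝 y] sg κ α := by
    filter_upwards [(psi w κ α).open_target.mem_nhds hyt] with x hx
    rw [psi_target] at hx
    simp only [Function.comp_apply, psi_symm_apply]
    exact w.right_inv hx
  have h5 : mfderiv (𝓡 2) (𝓡 2) (w ∘ (psi w κ α).symm) y
      = (mfderiv (𝓡 2) (𝓡 2) (sg κ α) y :) := h4.mfderiv_eq
  rw [h5] at h3
  have h6 := congrArg (fun T : E2 →L[ℝ] E2 => T (bv 1)) h3
  have h7 : (mfderiv (𝓡 2) (𝓡 2) (sg κ α) y : E2 →L[ℝ] E2) (bv 1) = dlev κ α (w p) := by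
    have e : (mfderiv (𝓡 2) (𝓡 2) (sg κ α) y : E2 →L[ℝ] E2) = fderiv ℝ (sg κ α) y :=
      mfderiv_eq_fderiv
    exact (congrArg (fun T : E2 →L[ℝ] E2 => T (bv 1)) e).trans (fderiv_sg_bv1_par κ α (w p))
  let g : M → (E2 →L[ℝ] E2) := fun q => (mfderiv (𝓡 2) (𝓡 2) w q : E2 →L[ℝ] E2)
  have h8 : g ((psi w κ α).symm y) = g p := congrArg g hpy
  have h9 : g ((psi w κ α).symm y)
      ((mfderiv (𝓡 2) (𝓡 2) (psi w κ α).symm y : E2 →L[ℝ] E2) (bv 1)) = dlev κ α (w p) := by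
    rw [← h7]; exact h6.symm
  rw [h8] at h9
  exact h9

end stage

/-! ### translation to the names of `DecDefs.lean` (angles change sign: `rot a = rotE (-a)`) -/

open Dec

lemma comb_zero (a b : ℝ) : (a • bv 0 + b • bv 1 : E2) 0 = a := by simp
lemma comb_one (a b : ℝ) : (a • bv 0 + b • bv 1 : E2) 1 = b := by simp

lemma rot_eq (a : ℝ) (z : E2) : rot a z = rotE (-a) z := by
  apply e2_ext
  · rw [rot, comb_zero, rotE_zero]; simp [sub_eq_add_neg]
  · rw [rot, comb_one, rotE_one]; simp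

lemma rot_neg_eq (a : ℝ) (z : E2) : rot (-a) z = (rotE (-a)).symm z := by
  apply e2_ext
  · rw [rot, comb_zero, rotE_symm_zero]
  · rw [rot, comb_one, rotE_symm_one]

lemma theta_eq (k : ℝ) (z : E2) : theta k z = Th k z := by
  apply e2_ext
  · rw [theta, comb_zero, Th_zero]
  · rw [theta, comb_one, Th_one]

lemma thetaInv_eq (k : ℝ) (z : E2) : thetaInv k z = ThI k z := by
  apply e2_ext
  · rw [thetaInv, comb_zero, ThI_zero]
  · rw [thetaInv, comb_one, ThI_one]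

lemma phs_eq (k a : ℝ) (z : E2) : phs k a z = par k (-a) z := by
  rw [phs, theta_eq, rot_eq, par]

lemma phsInv_eq (k a : ℝ) (y : E2) : phsInv k a y = sg k (-a) y := by
  rw [phsInv, thetaInv_eq, rot_neg_eq, sg]

lemma phsInv_phs (k a : ℝ) (z : E2) : phsInv k a (phs k a z) = z := by
  rw [phsInv_eq, phs_eq, sg_par]

lemma phs_phsInv (k a : ℝ) (y : E2) : phs k a (phsInv k a y) = y := by
  rw [phsInv_eq, phs_eq, par_sg]

lemma norm_phsInv (k a : ℝ) (y : E2) : ‖phsInv k a y‖ = ‖thetaInv k y‖ := by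
  rw [phsInv_eq, thetaInv_eq, norm_sg]

lemma contDiff_phs (k a : ℝ) : ContDiff ℝ ∞ (phs k a) := by
  have h : phs k a = par k (-a) := funext (phs_eq k a)
  rw [h]; exact contDiff_par _ _

lemma contDiff_phsInv (k a : ℝ) : ContDiff ℝ ∞ (phsInv k a) := by
  have h : phsInv k a = sg k (-a) := funext (phsInv_eq k a)
  rw [h]; exact contDiff_sg _ _

lemma discU_eq (k r : ℝ) : discU k r = uf k r := by
  funext y
  rw [discU, uf, thetaInv_eq]

lemma discU_phs (k a r : ℝ) (z : E2) : discU k r (phs k a z) = r ^ 2 - ‖z‖ ^ 2 := by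
  rw [discU_eq, phs_eq, uf_par]

lemma uu_neg (a : ℝ) : uu (-a) = dnor a := by
  rw [dnor, rot_neg_eq, rotE_symm_eq]; simp

lemma dph_eq (k a : ℝ) (z v : E2) : Dec.dph k a z v = inner ℝ (dph k (-a) z) v := by
  rw [Dec.dph, rot_eq, rot_eq, rotE_zero_inner, rotE_one_inner, rotE_one_inner, dph,
    inner_add_left, inner_smul_left]
  simp

lemma dlev_eq (k a : ℝ) (z : E2) : Dec.dlev k a z = dlev k (-a) z := by
  rw [Dec.dlev, rot_neg_eq, rotE_symm_eq, rot_eq, rotE_one_inner, dlev]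
  simp; abel

/-- The stage of a patch with phase angle `a` and radius `r`. -/
def stg (P : Patch M) (a r : ℝ) (hr : 0 < r) (hr2 : r < 2 * P.R) : Stage M :=
  mkStage P.w P.hw P.κ (-a) r hr P.hκ.le
    ((mul_le_mul_of_nonneg_left hr2.le P.hκ.le).trans P.hκR)
    ((closedBall_subset_closedBall hr2.le).trans P.sub)

lemma isStage_stg (P : Patch M) (a r : ℝ) (hr : 0 < r) (hr2 : r < 2 * P.R) :
    IsStage P a r (stg P a r hr hr2) where
  src := by simp [stg]
  tgt y := by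
    rw [stg, mkStage_ψ, psi_target, mem_preimage, phsInv_eq]
  app p := by
    rw [stg, mkStage_ψ, psi_apply, phs_eq]
  symm y := by
    rw [stg, mkStage_ψ, psi_symm_apply, phsInv_eq]
  u := by rw [stg, mkStage_u, discU_eq]

/-- the homeomorphism `phs` -/
def phsH (k a : ℝ) : E2 ≃ₜ E2 := parH k (-a)

section isStage

variable {P : Patch M} {a r : ℝ} {S : Stage M}

lemma IsStage_U (hr : 0 < r) (h : IsStage P a r S) : S.U = {y | ‖thetaInv P.κ y‖ < r} := by
  ext y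
  have e : (y ∈ S.U) = (0 < S.u y) := rfl
  rw [e, h.u, discU_eq, mem_ofPred_eq, uf_pos_iff hr, thetaInv_eq]

lemma IsStage_closure_U (hr : 0 < r) (h : IsStage P a r S) :
    closure S.U = {y | ‖thetaInv P.κ y‖ ≤ r} := by
  have e : S.U = {y | 0 < uf P.κ r y} := by
    ext y
    have e : (y ∈ S.U) = (0 < S.u y) := rfl
    rw [e, h.u, discU_eq]; rfl
  rw [e, closure_uf_pos hr]
  ext y
  rw [mem_ofPred_eq, mem_ofPred_eq, thetaInv_eq]

lemma IsStage_C (hr : 0 < r) (h : IsStage P a r S) :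
    S.C = {y | ‖thetaInv P.κ y‖ = r} := by
  have e : S.C = frontier {y | 0 < uf P.κ r y} := by
    have e : S.U = {y | 0 < uf P.κ r y} := by
      ext y
      have e : (y ∈ S.U) = (0 < S.u y) := rfl
      rw [e, h.u, discU_eq]; rfl
    rw [Stage.C, e]
  rw [e, frontier_uf_pos hr]
  ext y
  rw [mem_ofPred_eq, mem_ofPred_eq, thetaInv_eq]

lemma image_symm_phsInv (h : IsStage P a r S) (s : Set E2) :
    S.ψ.symm '' (phsInv P.κ a ⁻¹' s) = P.w.symm '' s := by
  ext p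
  constructor
  · rintro ⟨y, hy, rfl⟩; exact ⟨phsInv P.κ a y, hy, (h.symm y).symm⟩
  · rintro ⟨x, hx, rfl⟩
    refine ⟨phs P.κ a x, ?_, ?_⟩
    · rw [mem_preimage, phsInv_phs]; exact hx
    · rw [h.symm, phsInv_phs]

lemma IsStage_V (hr : 0 < r) (h : IsStage P a r S) : S.V = P.disc r := by
  have e : S.U = phsInv P.κ a ⁻¹' ball 0 r := by
    rw [IsStage_U hr h]; ext y
    rw [mem_preimage, mem_ball_zero_iff, norm_phsInv]; rfl
  rw [Stage.V, e, image_symm_phsInv h, Patch.disc]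

lemma IsStage_circ (hr : 0 < r) (h : IsStage P a r S) : S.circ = P.circ r := by
  have e : S.C = phsInv P.κ a ⁻¹' sphere 0 r := by
    rw [IsStage_C hr h]; ext y
    rw [mem_preimage, mem_sphere_zero_iff_norm, norm_phsInv]; rfl
  rw [Stage.circ, e, image_symm_phsInv h, Patch.circ]

end isStage

end DC2

namespace Dec

variable {M : Type*} [TopologicalSpace M] [ChartedSpace E2 M]

theorem dc2a (M : Type*) [TopologicalSpace M] [ChartedSpace E2 M] [IsManifold (𝓡 2) ∞ M] :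
    DC2a M := fun P a r hr hr2 => ⟨DC2.stg P a r hr hr2, DC2.isStage_stg P a r hr hr2⟩

theorem dc2b (M : Type*) [TopologicalSpace M] [ChartedSpace E2 M] [IsManifold (𝓡 2) ∞ M] :
    DC2b M := fun _ _ _ _ hr _ h =>
  ⟨DC2.IsStage_U hr h, DC2.IsStage_closure_U hr h, DC2.IsStage_V hr h, DC2.IsStage_circ hr h⟩

theorem dc2d (M : Type*) [TopologicalSpace M] [ChartedSpace E2 M] [IsManifold (𝓡 2) ∞ M] :
    DC2d M := by
  intro P a r S h β p
  by_cases hp : p ∈ P.w.source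
  · have hp' : p ∈ S.ψ.source := by rw [h.src]; exact hp
    rw [Stage.amp, if_pos hp', Patch.bump, if_pos hp, Stage.ampP, mul_pow, h.u, h.app,
      DC2.discU_phs]
  · have hp' : p ∉ S.ψ.source := by rw [h.src]; exact hp
    rw [Stage.amp, if_neg hp', Patch.bump, if_neg hp]; simp

theorem dc2f (M : Type*) [TopologicalSpace M] [ChartedSpace E2 M] [IsManifold (𝓡 2) ∞ M] :
    DC2f M := by
  rintro P a r S hr - h X y ⟨hy, p, ⟨hpX, hps⟩, rfl⟩
  rw [DC2.IsStage_closure_U hr h] at hy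
  refine ⟨?_, ?_⟩
  · rw [Metric.mem_closedBall, dist_zero_right, DC2.norm_phsInv]; exact hy
  · rw [h.app, DC2.phsInv_phs]
    exact ⟨p, ⟨hpX, by rw [← h.src]; exact hps⟩, rfl⟩

end Dec
end Crest.Agent.R216
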