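import Crest.Agent.R216.DC2

/-!
Row 216 (S0335), part (6): `dc2c` and `dc2e` of `DecIface.lean` (helper674).
-/

set_option autoImplicit false
set_option linter.unusedSectionVars false
open scoped Manifold ContDiff Topology
open Set Metric

noncomputable section
namespace Crest.Agent.R216
namespace DC2

open Dec

lemma phs_fun (k a : ℝ) : phs k a = par k (-a) := funext (phs_eq k a)
lemma phsInv_fun (k a : ℝ) : phsInv k a = sg k (-a) := funext (phsInv_eq k a)

lemma fderiv_phs_zero (k a : ℝ) (x v : E2) : fderiv ℝ (phs k a) x v 0 = Dec.dph k a x v := by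
  rw [phs_fun, fderiv_par_zero, dph_eq]

lemma fderiv_phsInv_bv1 (k a : ℝ) (x : E2) :
    fderiv ℝ (phsInv k a) (phs k a x) (bv 1) = Dec.dlev k a x := by
  rw [phs_fun, phsInv_fun, fderiv_sg_bv1_par, dlev_eq]

variable {M : Type*} [TopologicalSpace M] [ChartedSpace E2 M] [IsManifold (𝓡 2) ∞ M]

/-- chain rule for the chart of a stage -/
lemma mfderiv_of_app {w : OpenPartialHomeomorph M E2} {c : OpenPartialHomeomorph M E2} {k a : ℝ}
    (hw : w ∈ IsManifold.maximalAtlas (𝓡 2) ∞ M) (hc : ∀ p, c p = phs k a (w p))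
    {p : M} (hp : p ∈ w.source) (v : TangentSpace (𝓡 2) p) :
    (mfderiv (𝓡 2) 𝓘(ℝ, E2) c p v : E2)
      = fderiv ℝ (phs k a) (w p) (mfderiv (𝓡 2) 𝓘(ℝ, E2) w p v : E2) := by
  have h1 : MDifferentiableAt (𝓡 2) (𝓡 2) w p := mdifferentiableAt_w hw hp
  have h2 : DifferentiableAt ℝ (phs k a) (w p) :=
    (contDiff_phs k a).differentiable (by simp) _
  have h3 := mfderiv_comp p h2.mdifferentiableAt h1
  have h4 : (c : M → E2) = phs k a ∘ w := funext hc
  rw [h4]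
  have h5 := congrArg (fun T : TangentSpace (𝓡 2) p →L[ℝ] TangentSpace 𝓘(ℝ, E2) (phs k a (w p))
    => T v) h3
  simp only [mfderiv_eq_fderiv] at h5
  exact h5

lemma mfderiv_lev_aux {w w' c : OpenPartialHomeomorph M E2} {k a : ℝ}
    (hw : w ∈ IsManifold.maximalAtlas (𝓡 2) ∞ M) (hw' : w' ∈ IsManifold.maximalAtlas (𝓡 2) ∞ M)
    (hcm : c ∈ IsManifold.maximalAtlas (𝓡 2) ∞ M)
    (hc : ∀ p, c p = phs k a (w' p)) (hcs : ∀ y, c.symm y = w'.symm (phsInv k a y))
    (hsrc : c.source = w'.source)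
    {p : M} (hp : p ∈ w.source) (hp' : p ∈ w'.source) :
    ((mfderiv (𝓡 2) 𝓘(ℝ, E2) w p : E2 →L[ℝ] E2)
      ((mfderiv 𝓘(ℝ, E2) (𝓡 2) c.symm (c p) : E2 →L[ℝ] E2) (bv 1)) : E2)
      = fderiv ℝ (w ∘ w'.symm) (w' p) (Dec.dlev k a (w' p)) := by
  set y : E2 := c p with hy
  have hps : p ∈ c.source := by rw [hsrc]; exact hp'
  have hyt : y ∈ c.target := c.map_source hps
  have hpy : c.symm y = p := c.left_inv hps
  have hy' : y = phs k a (w' p) := hc p
  have hyI : phsInv k a y = w' p := by rw [hy', phsInv_phs]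
  have h1 : MDifferentiableAt (𝓡 2) (𝓡 2) c.symm y := mdifferentiableAt_symm hcm hyt
  have h2 : MDifferentiableAt (𝓡 2) (𝓡 2) w (c.symm y) := by
    rw [hpy]; exact mdifferentiableAt_w hw hp
  have h3 := mfderiv_comp y h2 h1
  have h4 : (w ∘ c.symm : E2 → E2) = (w ∘ w'.symm) ∘ phsInv k a := by
    funext z; simp only [Function.comp_apply, hcs]
  -- differentiability of the transition map
  have h5 : MDifferentiableAt (𝓡 2) (𝓡 2) w'.symm (w' p) :=
    mdifferentiableAt_symm hw' (w'.map_source hp')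
  have h6 : MDifferentiableAt (𝓡 2) (𝓡 2) w (w'.symm (w' p)) := by
    rw [w'.left_inv hp']; exact mdifferentiableAt_w hw hp
  have h7 : DifferentiableAt ℝ (w ∘ w'.symm : E2 → E2) (w' p) :=
    (MDifferentiableAt.comp (w' p) h6 h5).differentiableAt
  have h7' : DifferentiableAt ℝ (w ∘ w'.symm : E2 → E2) (phsInv k a y) := by rw [hyI]; exact h7
  have h8 : DifferentiableAt ℝ (phsInv k a) y :=
    (contDiff_phsInv k a).differentiable (by simp) _
  have h9 : fderiv ℝ ((w ∘ w'.symm) ∘ phsInv k a : E2 → E2) y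
      = (fderiv ℝ (w ∘ w'.symm : E2 → E2) (w' p)).comp (fderiv ℝ (phsInv k a) y) := by
    rw [fderiv_comp y h7' h8, hyI]
  have h10 : fderiv ℝ (phsInv k a) y (bv 1) = Dec.dlev k a (w' p) := by
    rw [hy', fderiv_phsInv_bv1]
  have h11 : (mfderiv (𝓡 2) (𝓡 2) (w ∘ c.symm : E2 → E2) y : E2 →L[ℝ] E2) (bv 1)
      = fderiv ℝ (w ∘ w'.symm) (w' p) (Dec.dlev k a (w' p)) := by
    have e : (mfderiv (𝓡 2) (𝓡 2) (w ∘ c.symm : E2 → E2) y : E2 →L[ℝ] E2)
        = fderiv ℝ (w ∘ c.symm : E2 → E2) y := mfderiv_eq_fderiv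
    have e2 : fderiv ℝ (w ∘ c.symm : E2 → E2) y (bv 1)
        = fderiv ℝ (w ∘ w'.symm) (w' p) (Dec.dlev k a (w' p)) := by
      rw [h4, h9, ContinuousLinearMap.comp_apply, h10]
    exact (congrArg (fun T : E2 →L[ℝ] E2 => T (bv 1)) e).trans e2
  have h12 := congrArg (fun T : E2 →L[ℝ] E2 => T (bv 1)) h3
  let g : M → (E2 →L[ℝ] E2) := fun q => (mfderiv (𝓡 2) (𝓡 2) w q : E2 →L[ℝ] E2)
  have h13 : g (c.symm y) = g p := congrArg g hpy
  have h14 : g (c.symm y) ((mfderiv (𝓡 2) (𝓡 2) c.symm y : E2 →L[ℝ] E2) (bv 1))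
      = fderiv ℝ (w ∘ w'.symm) (w' p) (Dec.dlev k a (w' p)) := by
    rw [← h11]; exact h12.symm
  rw [h13] at h14
  exact h14

end DC2

namespace Dec

theorem dc2c (M : Type*) [TopologicalSpace M] [ChartedSpace E2 M] [IsManifold (𝓡 2) ∞ M] :
    DC2c M := by
  intro P a r S h p hp v
  have e : S.dphi p v
      = (fun z : E2 => z 0) (mfderiv (𝓡 2) 𝓘(ℝ, E2) S.ψ p v) := rfl
  have e' := congrArg (fun z : E2 => z 0) (DC2.mfderiv_of_app P.hw h.app hp v)
  exact e.trans (e'.trans (DC2.fderiv_phs_zero P.κ a (P.w p) _))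

theorem dc2e (M : Type*) [TopologicalSpace M] [ChartedSpace E2 M] [IsManifold (𝓡 2) ∞ M] :
    DC2e M := by
  intro P P' a r a' r' S S' h h' p hp hp'
  have e := dc2c M P a r S h p hp (S'.lev p)
  have e' := DC2.mfderiv_lev_aux P.hw P'.hw S'.hψ h'.app h'.symm h'.src hp hp'
  exact e.trans (congrArg (fun z : E2 => dph P.κ a (P.w p) z) e')

end Dec
end Crest.Agent.R216
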