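import Crest.Agent.R216.Skel
import Crest.Agent.R216.GlobChart

/-!
Row 216 (S0335), part (6), module DC3: uniform constants for the `C¹`-class of base metrics
(blueprint (6.0) of helper744).
-/

set_option autoImplicit false
set_option linter.unusedSectionVars false
open scoped Manifold ContDiff Topology
open Set Metric

noncomputable section
namespace Crest.Agent.R216

/-- bilinear form with coefficient matrix `a` -/
def qf (a : Fin 2 → Fin 2 → ℝ) (v w : E2) : ℝ := ∑ i, ∑ j, v i * w j * a i j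

lemma qf_expand (a : Fin 2 → Fin 2 → ℝ) (v w : E2) :
    qf a v w = v 0 * w 0 * a 0 0 + v 0 * w 1 * a 0 1 + (v 1 * w 0 * a 1 0 + v 1 * w 1 * a 1 1) := by
  simp [qf, Fin.sum_univ_two]

lemma qf_smul (a : Fin 2 → Fin 2 → ℝ) (t : ℝ) (v : E2) : qf a (t • v) (t • v) = t ^ 2 * qf a v v := by
  simp only [qf_expand, PiLp.smul_apply, smul_eq_mul]; ring

lemma qf_sub (a b : Fin 2 → Fin 2 → ℝ) (v w : E2) :
    qf (fun i j => a i j - b i j) v w = qf a v w - qf b v w := by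
  simp only [qf_expand]; ring

lemma qf_bv (a : Fin 2 → Fin 2 → ℝ) (i j : Fin 2) : qf a (bv i) (bv j) = a i j := by
  fin_cases i <;> fin_cases j <;> simp [qf_expand, bv]

lemma sq_norm_E2 (v : E2) : ‖v‖ ^ 2 = v 0 ^ 2 + v 1 ^ 2 := by
  rw [EuclideanSpace.norm_sq_eq]; simp [Fin.sum_univ_two]

lemma abs_qf_le {a : Fin 2 → Fin 2 → ℝ} {η : ℝ} (h : ∀ i j, |a i j| ≤ η) (v w : E2) :
    |qf a v w| ≤ 2 * η * ‖v‖ * ‖w‖ := by
  have hη : 0 ≤ η := (abs_nonneg _).trans (h 0 0)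
  have h1 : |qf a v w| ≤ η * ((|v 0| + |v 1|) * (|w 0| + |w 1|)) := by
    rw [qf_expand]
    have e : ∀ i j : Fin 2, |v i * w j * a i j| ≤ |v i| * |w j| * η := by
      intro i j
      rw [abs_mul, abs_mul]
      exact mul_le_mul_of_nonneg_left (h i j) (by positivity)
    have t1 := abs_add_le (v 0 * w 0 * a 0 0 + v 0 * w 1 * a 0 1) (v 1 * w 0 * a 1 0 + v 1 * w 1 * a 1 1)
    have t2 := abs_add_le (v 0 * w 0 * a 0 0) (v 0 * w 1 * a 0 1)
    have t3 := abs_add_le (v 1 * w 0 * a 1 0) (v 1 * w 1 * a 1 1)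
    nlinarith [e 0 0, e 0 1, e 1 0, e 1 1]
  have h2 : ∀ u : E2, |u 0| + |u 1| ≤ Real.sqrt 2 * ‖u‖ := by
    intro u
    have h3 : (|u 0| + |u 1|) ^ 2 ≤ (Real.sqrt 2 * ‖u‖) ^ 2 := by
      rw [mul_pow, Real.sq_sqrt (by norm_num), sq_norm_E2]
      nlinarith [sq_nonneg (|u 0| - |u 1|), sq_abs (u 0), sq_abs (u 1)]
    exact abs_le_of_sq_le_sq' h3 (by positivity) |>.2
  have h3 : (|v 0| + |v 1|) * (|w 0| + |w 1|) ≤ (Real.sqrt 2 * ‖v‖) * (Real.sqrt 2 * ‖w‖) :=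
    mul_le_mul (h2 v) (h2 w) (by positivity) (by positivity)
  have h4 : (Real.sqrt 2 * ‖v‖) * (Real.sqrt 2 * ‖w‖) = 2 * ‖v‖ * ‖w‖ := by
    have : Real.sqrt 2 * Real.sqrt 2 = 2 := Real.mul_self_sqrt (by norm_num)
    linear_combination ‖v‖ * ‖w‖ * this
  rw [h4] at h3
  calc |qf a v w| ≤ η * ((|v 0| + |v 1|) * (|w 0| + |w 1|)) := h1
    _ ≤ η * (2 * ‖v‖ * ‖w‖) := mul_le_mul_of_nonneg_left h3 hη
    _ = _ := by ring

lemma continuousOn_qf {K : Set E2} {a : E2 → Fin 2 → Fin 2 → ℝ}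
    (ha : ∀ i j, ContinuousOn (fun y => a y i j) K) (S : Set E2) :
    ContinuousOn (fun z : E2 × E2 => qf (a z.1) z.2 z.2) (K ×ˢ S) := by
  have h1 : ∀ i j, ContinuousOn (fun z : E2 × E2 => a z.1 i j) (K ×ˢ S) := fun i j =>
    (ha i j).comp continuousOn_fst (fun z hz => hz.1)
  have h2 : ∀ i : Fin 2, Continuous (fun z : E2 × E2 => z.2 i) := fun i =>
    (EuclideanSpace.proj (𝕜 := ℝ) i : E2 →L[ℝ] ℝ).continuous.comp continuous_snd
  unfold qf
  exact continuousOn_finsetSum _ fun i _ => continuousOn_finsetSum _ fun j _ =>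
    (((h2 i).continuousOn.mul (h2 j).continuousOn)).mul (h1 i j)

/-- uniform ellipticity from pointwise positivity -/
lemma exists_lower {K : Set E2} (hK : IsCompact K) {a : E2 → Fin 2 → Fin 2 → ℝ}
    (ha : ∀ i j, ContinuousOn (fun y => a y i j) K)
    (hpos : ∀ y ∈ K, ∀ v : E2, v ≠ 0 → 0 < qf (a y) v v) :
    ∃ c : ℝ, 0 < c ∧ ∀ y ∈ K, ∀ v : E2, c * ‖v‖ ^ 2 ≤ qf (a y) v v := by
  rcases K.eq_empty_or_nonempty with rfl | hne
  · exact ⟨1, one_pos, by simp⟩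
  have hS : (sphere (0 : E2) 1).Nonempty := ⟨bv 0, by simp [bv]⟩
  obtain ⟨z, hz, hmin⟩ := (hK.prod (isCompact_sphere (0 : E2) 1)).exists_isMinOn (hne.prod hS)
    (continuousOn_qf ha _)
  have hz0 : z.2 ≠ 0 := by
    intro h
    have : ‖z.2‖ = 1 := by simpa using hz.2
    rw [h] at this; simp at this
  refine ⟨qf (a z.1) z.2 z.2, hpos _ hz.1 _ hz0, fun y hy v => ?_⟩
  by_cases hv : v = 0
  · subst hv; simp [qf_expand]
  · have hvn : 0 < ‖v‖ := norm_pos_iff.2 hv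
    have h1 := hmin (show ((y, ‖v‖⁻¹ • v) : E2 × E2) ∈ K ×ˢ sphere (0 : E2) 1 from ⟨hy, by
      simp [norm_smul, hvn.ne']⟩)
    simp only [mem_ofPred_eq] at h1
    have h2 : qf (a y) v v = ‖v‖ ^ 2 * qf (a y) (‖v‖⁻¹ • v) (‖v‖⁻¹ • v) := by
      rw [qf_smul]; field_simp
    rw [h2, mul_comm]
    exact mul_le_mul_of_nonneg_left h1 (by positivity)

/-- boundedness of a continuous function on a compact set, with a bound `≥ 1` -/
lemma exists_bd {E F : Type*} [TopologicalSpace E] [NormedAddCommGroup F] {K : Set E}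
    (hK : IsCompact K) {f : E → F} (hf : ContinuousOn f K) : ∃ C : ℝ, 1 ≤ C ∧ ∀ y ∈ K, ‖f y‖ ≤ C := by
  obtain ⟨C, hC⟩ := hK.exists_bound_of_continuousOn hf
  exact ⟨max 1 C, le_max_left _ _, fun y hy => (hC y hy).trans (le_max_right _ _)⟩

variable {M : Type*} [TopologicalSpace M] [ChartedSpace E2 M]

/-- A tensor which is bilinear and has smooth coefficients in the charts of `A`. -/
structure SmT (A : FinAtlas M) (h : Tens M) : Prop where
  sm : ∀ c i j, ContDiffOn ℝ ∞ (coef h (A.χ c) (bv i) (bv j)) (A.χ c).target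
  bil : ∀ c v w y, coef h (A.χ c) v w y = qf (fun i j => coef h (A.χ c) (bv i) (bv j) y) v w

namespace SmT
variable {A : FinAtlas M} {h : Tens M}

lemma contOn (H : SmT A h) (c : Fin A.n) (i j : Fin 2) :
    ContinuousOn (coef h (A.χ c) (bv i) (bv j)) (A.K c) :=
  (H.sm c i j).continuousOn.mono (A.sub c)

lemma contDiffAt (H : SmT A h) (c : Fin A.n) (i j : Fin 2) {y : E2} (hy : y ∈ (A.χ c).target) :
    ContDiffAt ℝ ∞ (coef h (A.χ c) (bv i) (bv j)) y :=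
  (H.sm c i j).contDiffAt ((A.χ c).open_target.mem_nhds hy)

lemma diffAt (H : SmT A h) (c : Fin A.n) (i j : Fin 2) {y : E2} (hy : y ∈ A.K c) :
    DifferentiableAt ℝ (coef h (A.χ c) (bv i) (bv j)) y :=
  (H.contDiffAt c i j (A.sub c hy)).differentiableAt (by simp)

lemma contOn_fderiv (H : SmT A h) (c : Fin A.n) (i j : Fin 2) :
    ContinuousOn (fderiv ℝ (coef h (A.χ c) (bv i) (bv j))) (A.K c) :=
  ((H.sm c i j).continuousOn_fderiv_of_isOpen (A.χ c).open_target (by simp)).mono (A.sub c)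

/-- common `C¹` bound -/
lemma exists_C1 (H : SmT A h) : ∃ C : ℝ, 1 ≤ C ∧ ∀ c, ∀ y ∈ A.K c, ∀ i j : Fin 2,
    |coef h (A.χ c) (bv i) (bv j) y| ≤ C ∧ ‖fderiv ℝ (coef h (A.χ c) (bv i) (bv j)) y‖ ≤ C := by
  have h1 : ∀ c : Fin A.n, ∀ i j : Fin 2, ∃ C : ℝ, 1 ≤ C ∧ ∀ y ∈ A.K c,
      |coef h (A.χ c) (bv i) (bv j) y| ≤ C ∧ ‖fderiv ℝ (coef h (A.χ c) (bv i) (bv j)) y‖ ≤ C := by
    intro c i j
    obtain ⟨C, hC1, hC⟩ := exists_bd (A.cpt c) (H.contOn c i j)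
    obtain ⟨C', hC1', hC'⟩ := exists_bd (A.cpt c) (H.contOn_fderiv c i j)
    exact ⟨max C C', le_max_of_le_left hC1, fun y hy => ⟨(hC y hy).trans (le_max_left _ _),
      (hC' y hy).trans (le_max_right _ _)⟩⟩
  choose C hC1 hC using h1
  refine ⟨1 + ∑ c, ∑ i, ∑ j, C c i j, ?_, fun c y hy i j => ?_⟩
  · have : 0 ≤ ∑ c, ∑ i, ∑ j, C c i j := Finset.sum_nonneg fun c _ => Finset.sum_nonneg fun i _ =>
      Finset.sum_nonneg fun j _ => (zero_le_one.trans (hC1 c i j))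
    linarith
  · have hle : C c i j ≤ 1 + ∑ c, ∑ i, ∑ j, C c i j := by
      have hn : ∀ c i j, 0 ≤ C c i j := fun c i j => zero_le_one.trans (hC1 c i j)
      have e1 : C c i j ≤ ∑ j, C c i j :=
        Finset.single_le_sum (f := fun j => C c i j) (fun j _ => hn c i j) (Finset.mem_univ j)
      have e2 : ∑ j, C c i j ≤ ∑ i, ∑ j, C c i j :=
        Finset.single_le_sum (f := fun i => ∑ j, C c i j)
          (fun i _ => Finset.sum_nonneg fun j _ => hn c i j) (Finset.mem_univ i)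
      have e3 : ∑ i, ∑ j, C c i j ≤ ∑ c, ∑ i, ∑ j, C c i j :=
        Finset.single_le_sum (f := fun c => ∑ i, ∑ j, C c i j)
          (fun c _ => Finset.sum_nonneg fun i _ => Finset.sum_nonneg fun j _ => hn c i j)
          (Finset.mem_univ c)
      linarith
    exact ⟨(hC c i j y hy).1.trans hle, (hC c i j y hy).2.trans hle⟩

/-- common lower bound for a positive definite tensor -/
lemma exists_lb (H : SmT A h)
    (hpos : ∀ c, ∀ y ∈ A.K c, ∀ v : E2, v ≠ 0 → 0 < coef h (A.χ c) v v y) :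
    ∃ c2 : ℝ, 0 < c2 ∧ c2 ≤ 1 ∧ ∀ c, ∀ y ∈ A.K c, ∀ v : E2,
      c2 * ‖v‖ ^ 2 ≤ coef h (A.χ c) v v y := by
  have h1 : ∀ c : Fin A.n, ∃ c2 : ℝ, 0 < c2 ∧ ∀ y ∈ A.K c, ∀ v : E2,
      c2 * ‖v‖ ^ 2 ≤ coef h (A.χ c) v v y := by
    intro c
    obtain ⟨c2, h0, h1⟩ := exists_lower (A.cpt c)
      (a := fun y i j => coef h (A.χ c) (bv i) (bv j) y) (fun i j => H.contOn c i j)
      (fun y hy v hv => by rw [← H.bil]; exact hpos c y hy v hv)
    exact ⟨c2, h0, fun y hy v => by rw [H.bil]; exact h1 y hy v⟩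
  choose c2 h0 h2 using h1
  by_cases hn : A.n = 0
  · exact ⟨1, one_pos, le_rfl, fun c => by exact absurd c.2 (by omega)⟩
  · have : Nonempty (Fin A.n) := ⟨⟨0, Nat.pos_of_ne_zero hn⟩⟩
    refine ⟨min 1 (Finset.univ.inf' Finset.univ_nonempty c2), ?_, min_le_left _ _, ?_⟩
    · refine lt_min one_pos ?_
      rw [Finset.lt_inf'_iff]; exact fun c _ => h0 c
    · intro c y hy v
      refine le_trans ?_ (h2 c y hy v)
      refine mul_le_mul_of_nonneg_right ?_ (by positivity)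
      exact (min_le_right _ _).trans (Finset.inf'_le _ (Finset.mem_univ c))

lemma sub_form (H : SmT A h) {h' : Tens M} (H' : SmT A h') (c : Fin A.n) (v w y : E2) :
    coef h (A.χ c) v w y - coef h' (A.χ c) v w y =
      qf (fun i j => coef h (A.χ c) (bv i) (bv j) y - coef h' (A.χ c) (bv i) (bv j) y) v w := by
  rw [qf_sub, ← H.bil, ← H'.bil]

end SmT

lemma InClass.mono {A : FinAtlas M} {hs h : Tens M} {η η' : ℝ} (H : InClass A hs η h) (hη : η ≤ η') :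
    InClass A hs η' h :=
  ⟨fun c y hy i j => (H.c0 c y hy i j).trans hη, fun c y hy i j => (H.c1 c y hy i j).trans hη⟩

/-- closeness of the quadratic forms of a metric in the class -/
lemma InClass.form {A : FinAtlas M} {hs h : Tens M} {η : ℝ} (H : InClass A hs η h)
    (Hs : SmT A hs) (Hh : SmT A h) {c : Fin A.n} {y : E2} (hy : y ∈ A.K c) (v w : E2) :
    |coef h (A.χ c) v w y - coef hs (A.χ c) v w y| ≤ 2 * η * ‖v‖ * ‖w‖ := by
  rw [Hh.sub_form Hs]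
  exact abs_qf_le (fun i j => H.c0 c y hy i j) v w

/-- **Uniform constants** of part (6): `η` radius of the class, `c2` ellipticity, `C1` bound of
the `C¹`-norms of the coefficients, all valid on the compact pieces of the atlas. -/
structure UC (A : FinAtlas M) (g hs : Tens M) (η c2 C1 : ℝ) : Prop where
  η_pos : 0 < η
  η_le : η ≤ 1
  c2_pos : 0 < c2
  c2_le : c2 ≤ 1
  C1_ge : 1 ≤ C1
  smg : SmT A g
  smh : SmT A hs
  gC0 : ∀ c, ∀ y ∈ A.K c, ∀ i j : Fin 2, |coef g (A.χ c) (bv i) (bv j) y| ≤ C1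
  gC1 : ∀ c, ∀ y ∈ A.K c, ∀ i j : Fin 2, ‖fderiv ℝ (coef g (A.χ c) (bv i) (bv j)) y‖ ≤ C1
  hC0 : ∀ h, SmT A h → InClass A hs η h → ∀ c, ∀ y ∈ A.K c, ∀ i j : Fin 2,
    |coef h (A.χ c) (bv i) (bv j) y| ≤ C1
  hC1 : ∀ h, SmT A h → InClass A hs η h → ∀ c, ∀ y ∈ A.K c, ∀ i j : Fin 2,
    ‖fderiv ℝ (coef h (A.χ c) (bv i) (bv j)) y‖ ≤ C1
  lbh : ∀ h, SmT A h → InClass A hs η h → ∀ c, ∀ y ∈ A.K c, ∀ v : E2,
    c2 * ‖v‖ ^ 2 ≤ coef h (A.χ c) v v y
  lbT : ∀ h, SmT A h → InClass A hs η h → ∀ c, ∀ y ∈ A.K c, ∀ v : E2,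
    c2 * ‖v‖ ^ 2 ≤ coef g (A.χ c) v v y - coef h (A.χ c) v v y

theorem InClass.refl (A : FinAtlas M) (hs : Tens M) {η : ℝ} (hη : 0 ≤ η) : InClass A hs η hs :=
  ⟨fun c y _ i j => by simpa using hη, fun c y _ i j => by simpa using hη⟩

/-- **(6.0)** existence of the uniform constants -/
theorem exists_UC (A : FinAtlas M) {g hs : Tens M} (Hg : SmT A g) (Hs : SmT A hs)
    (hpos : ∀ c, ∀ y ∈ A.K c, ∀ v : E2, v ≠ 0 → 0 < coef hs (A.χ c) v v y)
    (hlt : ∀ c, ∀ y ∈ A.K c, ∀ v : E2, v ≠ 0 → coef hs (A.χ c) v v y < coef g (A.χ c) v v y) :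
    ∃ η c2 C1 : ℝ, UC A g hs η c2 C1 := by
  obtain ⟨Cg, hCg1, hCg⟩ := Hg.exists_C1
  obtain ⟨Ch, hCh1, hCh⟩ := Hs.exists_C1
  obtain ⟨a, ha0, ha1, ha⟩ := Hs.exists_lb hpos
  -- lower bound of the difference
  have HT : ∀ c : Fin A.n, ∃ b : ℝ, 0 < b ∧ ∀ y ∈ A.K c, ∀ v : E2,
      b * ‖v‖ ^ 2 ≤ coef g (A.χ c) v v y - coef hs (A.χ c) v v y := by
    intro c
    obtain ⟨b, h0, h1⟩ := exists_lower (A.cpt c)
      (a := fun y i j => coef g (A.χ c) (bv i) (bv j) y - coef hs (A.χ c) (bv i) (bv j) y)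
      (fun i j => (Hg.contOn c i j).sub (Hs.contOn c i j))
      (fun y hy v hv => by
        have := hlt c y hy v hv
        rw [← Hg.sub_form Hs]; linarith)
    exact ⟨b, h0, fun y hy v => by rw [Hg.sub_form Hs]; exact h1 y hy v⟩
  choose b hb0 hb using HT
  obtain ⟨b', hb'0, hb'1, hb'⟩ : ∃ b' : ℝ, 0 < b' ∧ b' ≤ 1 ∧ ∀ c, b' ≤ b c := by
    by_cases hn : A.n = 0
    · exact ⟨1, one_pos, le_rfl, fun c => by exact absurd c.2 (by omega)⟩
    · have : Nonempty (Fin A.n) := ⟨⟨0, Nat.pos_of_ne_zero hn⟩⟩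
      refine ⟨min 1 (Finset.univ.inf' Finset.univ_nonempty b), ?_, min_le_left _ _, ?_⟩
      · refine lt_min one_pos ?_
        rw [Finset.lt_inf'_iff]; exact fun c _ => hb0 c
      · exact fun c => (min_le_right _ _).trans (Finset.inf'_le _ (Finset.mem_univ c))
  set m := min a b' with hm
  have hm0 : 0 < m := lt_min ha0 hb'0
  have hm1 : m ≤ 1 := (min_le_left _ _).trans ha1
  refine ⟨m / 4, m / 2, Cg + Ch + 1, ?_⟩
  have key : ∀ h, SmT A h → InClass A hs (m/4) h → ∀ c, ∀ y ∈ A.K c, ∀ v : E2,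
      |coef h (A.χ c) v v y - coef hs (A.χ c) v v y| ≤ m / 2 * ‖v‖ ^ 2 := by
    intro h Hh hc c y hy v
    have := hc.form Hs Hh hy v v
    calc _ ≤ _ := this
      _ = _ := by ring
  constructor
  · positivity
  · linarith
  · positivity
  · linarith
  · linarith
  · exact Hg
  · exact Hs
  · intro c y hy i j; have := (hCg c y hy i j).1; linarith
  · intro c y hy i j; have := (hCg c y hy i j).2; linarith
  · intro h Hh hc c y hy i j
    have h1 := hc.c0 c y hy i j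
    have h2 := (hCh c y hy i j).1
    have h3 := abs_sub_abs_le_abs_sub (coef h (A.χ c) (bv i) (bv j) y)
      (coef hs (A.χ c) (bv i) (bv j) y)
    linarith
  · intro h Hh hc c y hy i j
    have h1 := hc.c1 c y hy i j
    have h2 := (hCh c y hy i j).2
    have h3 := norm_sub_norm_le (fderiv ℝ (coef h (A.χ c) (bv i) (bv j)) y)
      (fderiv ℝ (coef hs (A.χ c) (bv i) (bv j)) y)
    linarith
  · intro h Hh hc c y hy v
    have h1 := abs_le.1 (key h Hh hc c y hy v)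
    have h2 := ha c y hy v
    have h3 : m * ‖v‖ ^ 2 ≤ a * ‖v‖ ^ 2 :=
      mul_le_mul_of_nonneg_right (min_le_left _ _) (by positivity)
    linarith [h1.1]
  · intro h Hh hc c y hy v
    have h1 := abs_le.1 (key h Hh hc c y hy v)
    have h2 := hb c y hy v
    have h3 : m * ‖v‖ ^ 2 ≤ b c * ‖v‖ ^ 2 :=
      mul_le_mul_of_nonneg_right ((min_le_right _ _).trans (hb' c)) (by positivity)
    linarith [h1.2]

namespace UC
variable {A : FinAtlas M} {g hs : Tens M} {η c2 C1 : ℝ}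

lemma shrink (U : UC A g hs η c2 C1) {η' : ℝ} (h0 : 0 < η') (h1 : η' ≤ η) : UC A g hs η' c2 C1 :=
  { U with
    η_pos := h0
    η_le := h1.trans U.η_le
    hC0 := fun h Hh hc => U.hC0 h Hh (hc.mono h1)
    hC1 := fun h Hh hc => U.hC1 h Hh (hc.mono h1)
    lbh := fun h Hh hc => U.lbh h Hh (hc.mono h1)
    lbT := fun h Hh hc => U.lbT h Hh (hc.mono h1) }

lemma C1_pos (U : UC A g hs η c2 C1) : 0 < C1 := lt_of_lt_of_le one_pos U.C1_ge

/-- bound of the quadratic form of a metric in the class -/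
lemma ubh (U : UC A g hs η c2 C1) {h : Tens M} (Hh : SmT A h) (hc : InClass A hs η h)
    {c : Fin A.n} {y : E2} (hy : y ∈ A.K c) (v w : E2) :
    |coef h (A.χ c) v w y| ≤ 2 * C1 * ‖v‖ * ‖w‖ := by
  rw [Hh.bil]; exact abs_qf_le (fun i j => U.hC0 h Hh hc c y hy i j) v w

lemma ubg (U : UC A g hs η c2 C1)
    {c : Fin A.n} {y : E2} (hy : y ∈ A.K c) (v w : E2) :
    |coef g (A.χ c) v w y| ≤ 2 * C1 * ‖v‖ * ‖w‖ := by
  rw [U.smg.bil]; exact abs_qf_le (fun i j => U.gC0 c y hy i j) v w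

lemma ubT (U : UC A g hs η c2 C1) {h : Tens M} (Hh : SmT A h) (hc : InClass A hs η h)
    {c : Fin A.n} {y : E2} (hy : y ∈ A.K c) (v w : E2) :
    |coef g (A.χ c) v w y - coef h (A.χ c) v w y| ≤ 4 * C1 * ‖v‖ * ‖w‖ := by
  have h1 := U.ubg hy v w
  have h2 := U.ubh Hh hc hy v w
  have h3 := abs_sub (coef g (A.χ c) v w y) (coef h (A.χ c) v w y)
  linarith

/-- the interpolated metrics `h + s (g - h)`: `C⁰` bound -/
lemma mixC0 (U : UC A g hs η c2 C1) {h : Tens M} (Hh : SmT A h) (hc : InClass A hs η h)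
    {c : Fin A.n} {y : E2} (hy : y ∈ A.K c) (i j : Fin 2) {s : ℝ} (h0 : 0 ≤ s) (h1 : s ≤ 1) :
    |coef h (A.χ c) (bv i) (bv j) y +
      s * (coef g (A.χ c) (bv i) (bv j) y - coef h (A.χ c) (bv i) (bv j) y)| ≤ C1 := by
  have e1 := abs_le.1 (U.hC0 h Hh hc c y hy i j)
  have e2 := abs_le.1 (U.gC0 c y hy i j)
  rw [abs_le]
  constructor <;> nlinarith

/-- the interpolated metrics `h + s (g - h)`: bound of the first derivatives -/
lemma mixC1 (U : UC A g hs η c2 C1) {h : Tens M} (Hh : SmT A h) (hc : InClass A hs η h)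
    {c : Fin A.n} {y : E2} (hy : y ∈ A.K c) (i j : Fin 2) {s : ℝ} (h0 : 0 ≤ s) (h1 : s ≤ 1) :
    ‖fderiv ℝ (fun y => coef h (A.χ c) (bv i) (bv j) y +
      s * (coef g (A.χ c) (bv i) (bv j) y - coef h (A.χ c) (bv i) (bv j) y)) y‖ ≤ C1 := by
  have d1 := Hh.diffAt c i j hy
  have d2 := U.smg.diffAt c i j hy
  have e : fderiv ℝ (fun y => coef h (A.χ c) (bv i) (bv j) y +
      s * (coef g (A.χ c) (bv i) (bv j) y - coef h (A.χ c) (bv i) (bv j) y)) y =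
      (1 - s) • fderiv ℝ (coef h (A.χ c) (bv i) (bv j)) y +
        s • fderiv ℝ (coef g (A.χ c) (bv i) (bv j)) y := by
    have := (d1.hasFDerivAt.add ((d2.hasFDerivAt.sub d1.hasFDerivAt).const_mul s)).fderiv
    rw [show (fun y => coef h (A.χ c) (bv i) (bv j) y +
      s * (coef g (A.χ c) (bv i) (bv j) y - coef h (A.χ c) (bv i) (bv j) y)) =
      (coef h (A.χ c) (bv i) (bv j)) + fun y =>
      s * ((coef g (A.χ c) (bv i) (bv j) - coef h (A.χ c) (bv i) (bv j)) y) from rfl, this]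
    module
  rw [e]
  have e1 := U.hC1 h Hh hc c y hy i j
  have e2 := U.gC1 c y hy i j
  calc _ ≤ ‖(1 - s) • fderiv ℝ (coef h (A.χ c) (bv i) (bv j)) y‖ +
        ‖s • fderiv ℝ (coef g (A.χ c) (bv i) (bv j)) y‖ := norm_add_le _ _
    _ = (1 - s) * ‖fderiv ℝ (coef h (A.χ c) (bv i) (bv j)) y‖ +
        s * ‖fderiv ℝ (coef g (A.χ c) (bv i) (bv j)) y‖ := by
        rw [norm_smul, norm_smul, Real.norm_of_nonneg h0, Real.norm_of_nonneg (by linarith)]
    _ ≤ C1 := by nlinarith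

/-- lower bound for every metric which dominates a metric of the class -/
lemma lb_of_le (U : UC A g hs η c2 C1) {h G : Tens M} (Hh : SmT A h) (hc : InClass A hs η h)
    (hG : ∀ p v, h p v v ≤ G p v v) {c : Fin A.n} {y : E2} (hy : y ∈ A.K c) (v : E2) :
    c2 * ‖v‖ ^ 2 ≤ coef G (A.χ c) v v y :=
  (U.lbh h Hh hc c y hy v).trans (hG _ _)

/-- Lipschitz estimate of the coefficients on balls contained in `K c` -/
lemma lip_aux {f : E2 → ℝ} {K : Set E2} {C : ℝ} (hd : ∀ y ∈ K, DifferentiableAt ℝ f y)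
    (hb : ∀ y ∈ K, ‖fderiv ℝ f y‖ ≤ C) {y0 : E2} {ρ : ℝ} (hρ : closedBall y0 ρ ⊆ K) {y z : E2}
    (hy : y ∈ closedBall y0 ρ) (hz : z ∈ closedBall y0 ρ) : |f y - f z| ≤ C * ‖y - z‖ := by
  have := (convex_closedBall y0 ρ).norm_image_sub_le_of_norm_fderiv_le (𝕜 := ℝ) (f := f) (C := C)
    (fun x hx => hd x (hρ hx)) (fun x hx => hb x (hρ hx)) hz hy
  simpa using this

lemma lip_g (U : UC A g hs η c2 C1) {c : Fin A.n} {y0 : E2} {ρ : ℝ}
    (hρ : closedBall y0 ρ ⊆ A.K c) {y z : E2}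
    (hy : y ∈ closedBall y0 ρ) (hz : z ∈ closedBall y0 ρ) (i j : Fin 2) :
    |coef g (A.χ c) (bv i) (bv j) y - coef g (A.χ c) (bv i) (bv j) z| ≤ C1 * ‖y - z‖ :=
  lip_aux (fun _ h => U.smg.diffAt c i j h) (fun y h => U.gC1 c y h i j) hρ hy hz

lemma lip_h (U : UC A g hs η c2 C1) {h : Tens M} (Hh : SmT A h) (hc : InClass A hs η h)
    {c : Fin A.n} {y0 : E2} {ρ : ℝ}
    (hρ : closedBall y0 ρ ⊆ A.K c) {y z : E2}
    (hy : y ∈ closedBall y0 ρ) (hz : z ∈ closedBall y0 ρ) (i j : Fin 2) :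
    |coef h (A.χ c) (bv i) (bv j) y - coef h (A.χ c) (bv i) (bv j) z| ≤ C1 * ‖y - z‖ :=
  lip_aux (fun _ h => Hh.diffAt c i j h) (fun y h' => U.hC1 h Hh hc c y h' i j) hρ hy hz

/-- the tensor `T = g - h` at `y` differs little from `T* = g - hs` at `y0` -/
lemma T_close (U : UC A g hs η c2 C1) {h : Tens M} (Hh : SmT A h) {η' : ℝ} (hη' : η' ≤ η)
    (hc : InClass A hs η' h) {c : Fin A.n} {y0 : E2} {ρ : ℝ} (hρ0 : 0 ≤ ρ)
    (hρ : closedBall y0 ρ ⊆ A.K c) {y : E2} (hy : y ∈ closedBall y0 ρ) (v w : E2) :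
    |(coef g (A.χ c) v w y - coef h (A.χ c) v w y) -
      (coef g (A.χ c) v w y0 - coef hs (A.χ c) v w y0)|
      ≤ 2 * (2 * C1 * ‖y - y0‖ + η') * ‖v‖ * ‖w‖ := by
  have hy0 : y0 ∈ closedBall y0 ρ := mem_closedBall_self hρ0
  have hc' := hc.mono hη'
  have e : (coef g (A.χ c) v w y - coef h (A.χ c) v w y) -
      (coef g (A.χ c) v w y0 - coef hs (A.χ c) v w y0) =
      qf (fun i j => (coef g (A.χ c) (bv i) (bv j) y - coef h (A.χ c) (bv i) (bv j) y) -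
        (coef g (A.χ c) (bv i) (bv j) y0 - coef hs (A.χ c) (bv i) (bv j) y0)) v w := by
    rw [qf_sub (fun i j => coef g (A.χ c) (bv i) (bv j) y - coef h (A.χ c) (bv i) (bv j) y)
      (fun i j => coef g (A.χ c) (bv i) (bv j) y0 - coef hs (A.χ c) (bv i) (bv j) y0),
      ← U.smg.sub_form Hh, ← U.smg.sub_form U.smh]
  rw [e]
  refine abs_qf_le (fun i j => ?_) v w
  have h1 := abs_le.1 (U.lip_g hρ hy hy0 i j)
  have h2 := abs_le.1 (U.lip_h Hh hc' hρ hy hy0 i j)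
  have h3 := abs_le.1 (hc.c0 c y0 (hρ hy0) i j)
  rw [abs_le]
  constructor <;> linarith [h1.1, h1.2, h2.1, h2.2, h3.1, h3.2]

end UC

end Crest.Agent.R216
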