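import Crest.Agent.R216.DecIface
import Crest.Agent.R216.GlobCoef
import Crest.Agent.R216.DC3C

/-!
Row 216 (S0335), part (6): DC3a, DC3b, DC3d, DC3e (helper321, from GlobCoef and DC3C).
-/

set_option autoImplicit false
set_option linter.unusedSectionVars false
open scoped Manifold ContDiff Topology
open Set

noncomputable section
namespace Crest.Agent.R216.Dec

theorem dc3a (M : Type*) [TopologicalSpace M] [ChartedSpace E2 M] [IsManifold (𝓡 2) ∞ M] :
    DC3a M := fun g _ hw v v' => Crest.Agent.R216.coef_contDiffOn g hw v v'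

theorem dc3b (M : Type*) [TopologicalSpace M] [ChartedSpace E2 M] [IsManifold (𝓡 2) ∞ M] :
    DC3b M := fun _ hf _ hw =>
  ⟨fun v v' => Crest.Agent.R216.coef_pull_contDiffOn hf hw v v',
    fun _ hz v v' => Crest.Agent.R216.coef_pull hf hw hz v v'⟩

theorem dc3d (M : Type*) [TopologicalSpace M] [ChartedSpace E2 M] [IsManifold (𝓡 2) ∞ M] :
    DC3d M := by
  intro h hb w hw p hp v v'
  have hB : Crest.Agent.R216.DC.TBil h := by
    constructor
    · intro p v v' w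
      obtain ⟨B, hB⟩ := hb p
      simp [hB]
    · intro p a v w
      obtain ⟨B, hB⟩ := hb p
      simp [hB]
    · intro p v w w'
      obtain ⟨B, hB⟩ := hb p
      simp [hB]
    · intro p a v w
      obtain ⟨B, hB⟩ := hb p
      simp [hB]
  have key : ∀ V V' : E2, coef h w V V' (w p) = bil (mat h w (w p)) V V' := by
    intro V V'
    rw [Crest.Agent.R216.DC.coef_expand' hB]
    unfold bil mat
    refine Finset.sum_congr rfl fun i _ => Finset.sum_congr rfl fun j _ => ?_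
    ring
  rw [Crest.Agent.R216.tens_eq_coef h hw hp v v']
  exact key _ _

theorem dc3e (M : Type*) [TopologicalSpace M] [ChartedSpace E2 M] [IsManifold (𝓡 2) ∞ M] :
    DC3e M := by
  intro h w hw b hb z hz v v'
  have h1 := hb (w.symm z) (w.map_target hz) (mfderiv 𝓘(ℝ, E2) (𝓡 2) w.symm z v)
    (mfderiv 𝓘(ℝ, E2) (𝓡 2) w.symm z v')
  have hr : w (w.symm z) = z := w.right_inv hz
  have key : ∀ u : E2, (mfderiv (𝓡 2) 𝓘(ℝ, E2) w (w.symm z)
      (mfderiv 𝓘(ℝ, E2) (𝓡 2) w.symm z u) : E2) = u := by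
    intro u
    have hd1 : MDifferentiableAt 𝓘(ℝ, E2) (𝓡 2) w.symm z :=
      Crest.Agent.R216.DC.mdifferentiableAt_symm hw hz
    have hd2 : MDifferentiableAt (𝓡 2) 𝓘(ℝ, E2) w (w.symm z) :=
      Crest.Agent.R216.DC.mdifferentiableAt_chart hw (w.map_target hz)
    have h2 := mfderiv_comp z hd2 hd1
    have h3 : (w ∘ w.symm : E2 → E2) =ᶠ[𝓝 z] id := by
      filter_upwards [w.open_target.mem_nhds hz] with y hy
      exact w.right_inv hy
    have h4 := h3.mfderiv_eq (I := 𝓘(ℝ, E2)) (I' := 𝓘(ℝ, E2))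
    rw [mfderiv_id] at h4
    rw [h4] at h2
    have h5 := congrArg (fun L : E2 →L[ℝ] E2 => L u) h2
    exact h5.symm
  have h2 : coef h w v v' z = bil (b (w (w.symm z)))
      (mfderiv (𝓡 2) 𝓘(ℝ, E2) w (w.symm z) (mfderiv 𝓘(ℝ, E2) (𝓡 2) w.symm z v) : E2)
      (mfderiv (𝓡 2) 𝓘(ℝ, E2) w (w.symm z) (mfderiv 𝓘(ℝ, E2) (𝓡 2) w.symm z v') : E2) := h1
  rw [h2, hr]
  exact congrArg₂ (fun a c : E2 => bil (b z) a c) (key v) (key v')

theorem dc3c (M : Type*) [TopologicalSpace M] [ChartedSpace E2 M] [IsManifold (𝓡 2) ∞ M] :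
    DC3c M := by
  intro A P hs h η hP hcl z hz
  obtain ⟨c, x0, hsym, -, -, htgt, hK⟩ := hP
  have hfun : (P.w.symm : E2 → M) = fun y => (A.χ c).symm (x0 + y) := funext hsym
  -- coefficients are translates
  have hcoef : ∀ (h : Tens M) (v v' : E2), ∀ y ∈ P.w.target,
      coef h P.w v v' y = coef h (A.χ c) v v' (x0 + y) := by
    intro h v v' y hy
    have hyt := (htgt y).1 hy
    have hd1 : MDifferentiableAt 𝓘(ℝ, E2) (𝓡 2) (A.χ c).symm (x0 + y) :=
      Crest.Agent.R216.DC.mdifferentiableAt_symm (A.hχ c) hyt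
    have hd2 : HasFDerivAt (fun y : E2 => x0 + y) (ContinuousLinearMap.id ℝ E2) y := by
      simpa using (hasFDerivAt_id (𝕜 := ℝ) y).const_add x0
    have hd3 : MDifferentiableAt 𝓘(ℝ, E2) 𝓘(ℝ, E2) (fun y : E2 => x0 + y) y :=
      hd2.differentiableAt.mdifferentiableAt
    have key : ∀ u : E2, (mfderiv 𝓘(ℝ, E2) (𝓡 2) P.w.symm y u : E2) =
        mfderiv 𝓘(ℝ, E2) (𝓡 2) (A.χ c).symm (x0 + y) u := by
      intro u
      have h2 := mfderiv_comp y hd1 hd3
      have h3 : mfderiv 𝓘(ℝ, E2) (𝓡 2) P.w.symm y =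
          mfderiv 𝓘(ℝ, E2) (𝓡 2) ((A.χ c).symm ∘ fun y : E2 => x0 + y) y := by
        rw [hfun]; rfl
      have h4 : (mfderiv 𝓘(ℝ, E2) 𝓘(ℝ, E2) (fun y : E2 => x0 + y) y : E2 →L[ℝ] E2) =
          ContinuousLinearMap.id ℝ E2 := by
        rw [mfderiv_eq_fderiv]; exact hd2.fderiv
      have h5 := congrArg (fun L : E2 →L[ℝ] E2 => L u) (h3.trans h2)
      refine h5.trans ?_
      show mfderiv 𝓘(ℝ, E2) (𝓡 2) (A.χ c).symm (x0 + y)
        ((mfderiv 𝓘(ℝ, E2) 𝓘(ℝ, E2) (fun y : E2 => x0 + y) y : E2 →L[ℝ] E2) u) = _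
      rw [h4]; rfl
    exact Crest.Agent.R216.DC.tens_congr h (hsym y) (key v) (key v')
  have hzt : z ∈ P.w.target := P.sub hz
  have hzK : x0 + z ∈ A.K c := hK z hz
  have hη : 0 ≤ η := (abs_nonneg _).trans (hcl.c0 c _ hzK 0 0)
  have hfd : ∀ (h : Tens M) (v v' : E2), fderiv ℝ (coef h P.w v v') z =
      fderiv ℝ (coef h (A.χ c) v v') (x0 + z) := by
    intro h v v'
    have hev : coef h P.w v v' =ᶠ[𝓝 z] fun y => coef h (A.χ c) v v' (x0 + y) := by
      filter_upwards [P.w.open_target.mem_nhds hzt] with y hy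
      exact hcoef h v v' y hy
    rw [hev.fderiv_eq, fderiv_comp_add_left]
  rw [Prod.norm_def]
  refine max_le ?_ ?_
  · refine (pi_norm_le_iff_of_nonneg hη).2 fun i => (pi_norm_le_iff_of_nonneg hη).2 fun j => ?_
    have := hcl.c0 c _ hzK i j
    show ‖coef h P.w (bv i) (bv j) z - coef hs P.w (bv i) (bv j) z‖ ≤ η
    rw [hcoef h _ _ z hzt, hcoef hs _ _ z hzt]
    exact this
  · refine (pi_norm_le_iff_of_nonneg hη).2 fun i => (pi_norm_le_iff_of_nonneg hη).2 fun j => ?_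
    have := hcl.c1 c _ hzK i j
    show ‖fderiv ℝ (coef h P.w (bv i) (bv j)) z - fderiv ℝ (coef hs P.w (bv i) (bv j)) z‖ ≤ η
    rw [hfd h, hfd hs]
    exact this

end Crest.Agent.R216.Dec
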