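import Mathlib

/-!
Row 216 (S0335), module GLOB: planar second fundamental form, pull-back metrics, change of charts.
-/

set_option autoImplicit false

noncomputable section

open scoped Manifold ContDiff Topology
open Set

namespace Crest.Agent.R216

/-- the plane -/
abbrev P2 := EuclideanSpace ℝ (Fin 2)
/-- four space -/
abbrev P4 := EuclideanSpace ℝ (Fin 4)

/-- first basis vector of the plane -/
def e1 : P2 := EuclideanSpace.single 0 1
/-- second basis vector of the plane (level direction of the phase `x ↦ x 0`) -/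
def e2 : P2 := EuclideanSpace.single 1 1

/-- first derivative -/
def d1 (f : P2 → P4) (x v : P2) : P4 := fderiv ℝ f x v

/-- second derivative -/
def d2 (f : P2 → P4) (x v w : P2) : P4 := fderiv ℝ (fderiv ℝ f) x v w

/-- projection onto the orthogonal complement of a subspace of `ℝ⁴` -/
def orthP (K : Submodule ℝ P4) : P4 →L[ℝ] P4 := Kᗮ.starProjection

/-- tangent space of a parametrised surface -/
def tanSp (f : P2 → P4) (x : P2) : Submodule ℝ P4 :=
  LinearMap.range (fderiv ℝ f x : P2 →ₗ[ℝ] P4)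

/-- second fundamental form of a parametrised surface -/
def hN (f : P2 → P4) (x v w : P2) : P4 := orthP (tanSp f x) (d2 f x v w)

/-- induced metric -/
def met (f : P2 → P4) (x v w : P2) : ℝ := inner ℝ (d1 f x v) (d1 f x w)

lemma orthP_of_mem {K : Submodule ℝ P4} {v : P4} (hv : v ∈ K) : orthP K v = 0 := by
  rw [orthP, Submodule.starProjection_apply,
    Submodule.orthogonalProjectionOnto_apply_of_mem_orthogonal]
  · simp
  · simpa using hv

lemma orthP_mem (K : Submodule ℝ P4) (v : P4) : orthP K v ∈ Kᗮ :=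
  Submodule.starProjection_apply_mem _ _

lemma sub_orthP_mem (K : Submodule ℝ P4) (v : P4) : v - orthP K v ∈ K := by
  have := Submodule.sub_starProjection_mem_orthogonal (K := Kᗮ) v
  rwa [Submodule.orthogonal_orthogonal] at this

/-- characterisation of `orthP K v` -/
lemma orthP_eq {K : Submodule ℝ P4} {v n : P4} (h1 : n ∈ Kᗮ) (h2 : v - n ∈ K) :
    orthP K v = n := by
  have : v = n + (v - n) := by abel
  rw [this, map_add, orthP_of_mem h2, add_zero]
  exact Submodule.starProjection_eq_self_iff.2 h1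

lemma hN_congr {f g : P2 → P4} {x : P2} (h : f =ᶠ[𝓝 x] g) (v w : P2) : hN f x v w = hN g x v w := by
  have h1 : fderiv ℝ f =ᶠ[𝓝 x] fderiv ℝ g := h.fderiv
  have h2 : fderiv ℝ f x = fderiv ℝ g x := h1.eq_of_nhds
  have h3 : fderiv ℝ (fderiv ℝ f) x = fderiv ℝ (fderiv ℝ g) x := h1.fderiv_eq
  simp only [hN, tanSp, d2, h2, h3]

lemma met_congr {f g : P2 → P4} {x : P2} (h : f =ᶠ[𝓝 x] g) (v w : P2) :
    met f x v w = met g x v w := by
  have h2 : fderiv ℝ f x = fderiv ℝ g x := h.fderiv_eq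
  simp only [met, d1, h2]

lemma d2_comp {f : P2 → P4} {τ : P2 → P2} {x : P2}
    (hf : ContDiffAt ℝ 2 f (τ x)) (hτ : ContDiffAt ℝ 2 τ x) (v w : P2) :
    d2 (f ∘ τ) x v w = d2 f (τ x) (fderiv ℝ τ x v) (fderiv ℝ τ x w)
      + fderiv ℝ f (τ x) (fderiv ℝ (fderiv ℝ τ) x v w) := by
  have hfev : ∀ᶠ y in 𝓝 x, ContDiffAt ℝ 2 f (τ y) :=
    hτ.continuousAt.eventually (hf.eventually (by simp))
  have hτev : ∀ᶠ y in 𝓝 x, ContDiffAt ℝ 2 τ y := hτ.eventually (by simp)
  have h1 : fderiv ℝ (f ∘ τ) =ᶠ[𝓝 x] fun y => (fderiv ℝ f (τ y)).comp (fderiv ℝ τ y) := by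
    filter_upwards [hfev, hτev] with y h1 h2
    exact fderiv_comp y (h1.differentiableAt (by norm_num)) (h2.differentiableAt (by norm_num))
  have hdf : DifferentiableAt ℝ (fderiv ℝ f) (τ x) :=
    (hf.fderiv_right (m := 1) (by norm_num)).differentiableAt (by norm_num)
  have hdτ : DifferentiableAt ℝ (fderiv ℝ τ) x :=
    (hτ.fderiv_right (m := 1) (by norm_num)).differentiableAt (by norm_num)
  have hτx : DifferentiableAt ℝ τ x := hτ.differentiableAt (by norm_num)
  have h2 : HasFDerivAt (fun y => fderiv ℝ f (τ y))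
      ((fderiv ℝ (fderiv ℝ f) (τ x)).comp (fderiv ℝ τ x)) x :=
    hdf.hasFDerivAt.comp x hτx.hasFDerivAt
  have h3 := h2.clm_comp hdτ.hasFDerivAt
  rw [d2, h1.fderiv_eq, h3.fderiv]
  simp [d2]
  abel

lemma tanSp_comp {f : P2 → P4} {τ : P2 → P2} {x : P2}
    (hf : DifferentiableAt ℝ f (τ x)) (hτ : DifferentiableAt ℝ τ x)
    (hinv : Function.Surjective (fderiv ℝ τ x)) : tanSp (f ∘ τ) x = tanSp f (τ x) := by
  have : fderiv ℝ (f ∘ τ) x = (fderiv ℝ f (τ x)).comp (fderiv ℝ τ x) :=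
    fderiv_comp x hf hτ
  rw [tanSp, tanSp, this]
  ext z
  simp only [LinearMap.mem_range, ContinuousLinearMap.coe_coe, ContinuousLinearMap.coe_comp,
    Function.comp_apply]
  constructor
  · rintro ⟨y, rfl⟩; exact ⟨_, rfl⟩
  · rintro ⟨y, rfl⟩
    obtain ⟨y', rfl⟩ := hinv y
    exact ⟨y', rfl⟩

/-- tensoriality of the second fundamental form under changes of parameters -/
theorem hN_comp {f : P2 → P4} {τ : P2 → P2} {x : P2}
    (hf : ContDiffAt ℝ 2 f (τ x)) (hτ : ContDiffAt ℝ 2 τ x)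
    (hinv : Function.Surjective (fderiv ℝ τ x)) (v w : P2) :
    hN (f ∘ τ) x v w = hN f (τ x) (fderiv ℝ τ x v) (fderiv ℝ τ x w) := by
  rw [hN, hN, tanSp_comp (hf.differentiableAt (by norm_num)) (hτ.differentiableAt (by norm_num)) hinv,
    d2_comp hf hτ, map_add]
  rw [orthP_of_mem (K := tanSp f (τ x)) (v := fderiv ℝ f (τ x) _)]
  · simp
  · exact ⟨_, rfl⟩

theorem met_comp {f : P2 → P4} {τ : P2 → P2} {x : P2}
    (hf : DifferentiableAt ℝ f (τ x)) (hτ : DifferentiableAt ℝ τ x) (v w : P2) :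
    met (f ∘ τ) x v w = met f (τ x) (fderiv ℝ τ x v) (fderiv ℝ τ x w) := by
  have : fderiv ℝ (f ∘ τ) x = (fderiv ℝ f (τ x)).comp (fderiv ℝ τ x) := fderiv_comp x hf hτ
  simp [met, d1, this]

end Crest.Agent.R216
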