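import Mathlib
import Crest.Agent.R216.Skel

/-!
Row 216 (S0335), part (6), module DC4: the geodesic curvature coefficient of a bent chart is
negative (blueprint 7542 (6.5)).
-/

set_option autoImplicit false
open scoped Manifold ContDiff Topology
open Set

noncomputable section
namespace Crest.Agent.R216.DC

/-- metric coefficients of a planar map -/
def gc (F : E2 → E4) (v w : E2) (x : E2) : ℝ := inner ℝ (fderiv ℝ F x v) (fderiv ℝ F x w)

lemma gc_symm (F : E2 → E4) (v w : E2) : gc F v w = gc F w v := by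
  ext x; simp [gc, real_inner_comm]

lemma gc_differentiableAt {F : E2 → E4} {x : E2} (hF : ContDiffAt ℝ 2 F x) (v w : E2) :
    DifferentiableAt ℝ (gc F v w) x := by
  have hdf : DifferentiableAt ℝ (fderiv ℝ F) x :=
    (hF.fderiv_right (m := 1) (by norm_num)).differentiableAt (by norm_num)
  unfold gc
  exact (hdf.clm_apply (differentiableAt_const v)).inner ℝ
    (hdf.clm_apply (differentiableAt_const w))

/-- derivative of a metric coefficient -/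
lemma fderiv_gc {F : E2 → E4} {x : E2} (hF : ContDiffAt ℝ 2 F x) (v w z : E2) :
    fderiv ℝ (gc F v w) x z =
      inner ℝ (d2 F x z v) (fderiv ℝ F x w) + inner ℝ (fderiv ℝ F x v) (d2 F x z w) := by
  have hdf : DifferentiableAt ℝ (fderiv ℝ F) x :=
    (hF.fderiv_right (m := 1) (by norm_num)).differentiableAt (by norm_num)
  have h1 : HasFDerivAt (fun x => fderiv ℝ F x v)
      ((ContinuousLinearMap.apply ℝ E4 v).comp (fderiv ℝ (fderiv ℝ F) x)) x :=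
    (ContinuousLinearMap.apply ℝ E4 v).hasFDerivAt.comp x hdf.hasFDerivAt
  have h2 : HasFDerivAt (fun x => fderiv ℝ F x w)
      ((ContinuousLinearMap.apply ℝ E4 w).comp (fderiv ℝ (fderiv ℝ F) x)) x :=
    (ContinuousLinearMap.apply ℝ E4 w).hasFDerivAt.comp x hdf.hasFDerivAt
  have h3 := (h1.inner ℝ h2).fderiv
  unfold gc
  rw [h3]
  simp [d2, real_inner_comm, add_comm]

/-- symmetry of the second derivative -/
lemma d2_symm {F : E2 → E4} {x : E2} (hF : ContDiffAt ℝ 2 F x) (v w : E2) :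
    d2 F x v w = d2 F x w v := by
  have h : IsSymmSndFDerivAt ℝ F x := hF.isSymmSndFDerivAt (by simp)
  exact h v w

/-- the tangential part of the second derivative is intrinsic -/
lemma inner_d2_eq {F : E2 → E4} {x : E2} (hF : ContDiffAt ℝ 2 F x) (X v : E2) :
    inner ℝ (d2 F x X X) (fderiv ℝ F x v) =
      fderiv ℝ (gc F X v) x X - (1 / 2) * fderiv ℝ (gc F X X) x v := by
  rw [fderiv_gc hF, fderiv_gc hF, d2_symm hF X v,
    real_inner_comm (fderiv ℝ F x X) (d2 F x v X)]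
  ring

lemma decomp_bv (v : E2) : v = v 0 • bv 0 + v 1 • bv 1 := by
  ext i
  fin_cases i <;> simp [bv]

lemma norm_sq_E2 (v : E2) : ‖v‖ ^ 2 = v 0 ^ 2 + v 1 ^ 2 := by
  rw [EuclideanSpace.norm_sq_eq]
  simp [Fin.sum_univ_two]

lemma gc_expand (F : E2 → E4) (v w : E2) (x : E2) :
    gc F v w x = v 0 * w 0 * gc F (bv 0) (bv 0) x + v 0 * w 1 * gc F (bv 0) (bv 1) x
      + v 1 * w 0 * gc F (bv 1) (bv 0) x + v 1 * w 1 * gc F (bv 1) (bv 1) x := by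
  unfold gc
  conv_lhs => rw [decomp_bv v, decomp_bv w]
  simp only [map_add, map_smul, inner_add_left, inner_add_right, real_inner_smul_left,
    real_inner_smul_right]
  ring

lemma sum_abs_le (v : E2) : |v 0| + |v 1| ≤ Real.sqrt 2 * ‖v‖ := by
  have h := norm_sq_E2 v
  have h1 : (|v 0| + |v 1|) ^ 2 ≤ (Real.sqrt 2 * ‖v‖) ^ 2 := by
    rw [mul_pow, Real.sq_sqrt (by norm_num), h]
    nlinarith [sq_nonneg (|v 0| - |v 1|), sq_abs (v 0), sq_abs (v 1)]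
  exact le_of_sq_le_sq h1 (by positivity)

/-- `C¹`-bounds of the coefficient matrix bound all metric coefficients -/
lemma abs_fderiv_gc_le {F : E2 → E4} {x : E2} (hF : ContDiffAt ℝ 2 F x) {C1 : ℝ}
    (hC : ∀ i j : Fin 2, ‖fderiv ℝ (gc F (bv i) (bv j)) x‖ ≤ C1) (v w z : E2) :
    |fderiv ℝ (gc F v w) x z| ≤ 2 * C1 * ‖v‖ * ‖w‖ * ‖z‖ := by
  have hd := fun i j : Fin 2 => gc_differentiableAt hF (bv i) (bv j)
  have hC0 : 0 ≤ C1 := (norm_nonneg _).trans (hC 0 0)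
  have h1 : fderiv ℝ (gc F v w) x z =
      v 0 * w 0 * fderiv ℝ (gc F (bv 0) (bv 0)) x z
      + v 0 * w 1 * fderiv ℝ (gc F (bv 0) (bv 1)) x z
      + v 1 * w 0 * fderiv ℝ (gc F (bv 1) (bv 0)) x z
      + v 1 * w 1 * fderiv ℝ (gc F (bv 1) (bv 1)) x z := by
    have h2 := ((((hd 0 0).hasFDerivAt.const_mul (v 0 * w 0)).add
      ((hd 0 1).hasFDerivAt.const_mul (v 0 * w 1))).add
      ((hd 1 0).hasFDerivAt.const_mul (v 1 * w 0))).add
      ((hd 1 1).hasFDerivAt.const_mul (v 1 * w 1))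
    have h3 := (h2.congr_of_eventuallyEq (f₁ := gc F v w) (Filter.Eventually.of_forall
      fun y => by simpa using gc_expand F v w y)).fderiv
    have h4 := congrArg (fun L : E2 →L[ℝ] ℝ => L z) h3
    simpa using h4
  have hb : ∀ i j : Fin 2, |fderiv ℝ (gc F (bv i) (bv j)) x z| ≤ C1 * ‖z‖ := fun i j =>
    ((fderiv ℝ (gc F (bv i) (bv j)) x).le_opNorm z).trans
      (mul_le_mul_of_nonneg_right (hC i j) (norm_nonneg _))
  have hz : 0 ≤ C1 * ‖z‖ := by positivity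
  have h4 : |fderiv ℝ (gc F v w) x z| ≤
      (|v 0| + |v 1|) * (|w 0| + |w 1|) * (C1 * ‖z‖) := by
    rw [h1]
    have e := fun (a b : ℝ) (i j : Fin 2) =>
      (show |a * b * fderiv ℝ (gc F (bv i) (bv j)) x z| ≤ |a| * |b| * (C1 * ‖z‖) by
        rw [abs_mul, abs_mul]
        exact mul_le_mul_of_nonneg_left (hb i j) (by positivity))
    calc _ ≤ |v 0 * w 0 * fderiv ℝ (gc F (bv 0) (bv 0)) x z|
          + |v 0 * w 1 * fderiv ℝ (gc F (bv 0) (bv 1)) x z|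
          + |v 1 * w 0 * fderiv ℝ (gc F (bv 1) (bv 0)) x z|
          + |v 1 * w 1 * fderiv ℝ (gc F (bv 1) (bv 1)) x z| := by
          refine (abs_add_le _ _).trans (add_le_add_left ?_ _)
          refine (abs_add_le _ _).trans (add_le_add_left ?_ _)
          exact abs_add_le _ _
      _ ≤ |v 0| * |w 0| * (C1 * ‖z‖) + |v 0| * |w 1| * (C1 * ‖z‖)
          + |v 1| * |w 0| * (C1 * ‖z‖) + |v 1| * |w 1| * (C1 * ‖z‖) := by
          gcongr <;> apply e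
      _ = _ := by ring
  have h5 : (|v 0| + |v 1|) * (|w 0| + |w 1|) ≤ 2 * (‖v‖ * ‖w‖) := by
    calc (|v 0| + |v 1|) * (|w 0| + |w 1|) ≤ (Real.sqrt 2 * ‖v‖) * (Real.sqrt 2 * ‖w‖) :=
          mul_le_mul (sum_abs_le v) (sum_abs_le w) (by positivity) (by positivity)
      _ = (Real.sqrt 2 * Real.sqrt 2) * (‖v‖ * ‖w‖) := by ring
      _ = 2 * (‖v‖ * ‖w‖) := by rw [Real.mul_self_sqrt (by norm_num)]
  calc _ ≤ _ := h4
    _ ≤ 2 * (‖v‖ * ‖w‖) * (C1 * ‖z‖) := mul_le_mul_of_nonneg_right h5 hz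
    _ = _ := by ring

lemma abs_inner_d2_le {F : E2 → E4} {x : E2} (hF : ContDiffAt ℝ 2 F x) {C1 : ℝ}
    (hC : ∀ i j : Fin 2, ‖fderiv ℝ (gc F (bv i) (bv j)) x‖ ≤ C1) (X v : E2) :
    |inner ℝ (d2 F x X X) (fderiv ℝ F x v)| ≤ 3 * C1 * ‖X‖ ^ 2 * ‖v‖ := by
  rw [inner_d2_eq hF]
  have h1 := abs_fderiv_gc_le hF hC X v X
  have h2 := abs_fderiv_gc_le hF hC X X v
  calc _ ≤ |fderiv ℝ (gc F X v) x X| + |(1 / 2) * fderiv ℝ (gc F X X) x v| := abs_sub _ _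
    _ ≤ 2 * C1 * ‖X‖ * ‖v‖ * ‖X‖ + (1 / 2) * (2 * C1 * ‖X‖ * ‖X‖ * ‖v‖) := by
        rw [abs_mul, abs_of_pos (show (0 : ℝ) < 1 / 2 by norm_num)]
        gcongr
    _ = _ := by ring

/-- formula for `gam` in a chart `σ` with `σ_22 = -κ σ_1` -/
theorem gam_comp_eq {F : E2 → E4} {σ : E2 → E2} {y : E2} {κ : ℝ}
    (hF : ContDiffAt ℝ 2 F (σ y)) (hσ : ContDiffAt ℝ 2 σ y)
    (h22 : fderiv ℝ (fderiv ℝ σ) y (bv 1) (bv 1) = -(κ • fderiv ℝ σ y (bv 0))) :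
    gam (F ∘ σ) y =
      -(κ * (gc F (fderiv ℝ σ y (bv 0)) (fderiv ℝ σ y (bv 0)) (σ y) *
          gc F (fderiv ℝ σ y (bv 1)) (fderiv ℝ σ y (bv 1)) (σ y) -
          gc F (fderiv ℝ σ y (bv 0)) (fderiv ℝ σ y (bv 1)) (σ y) ^ 2)) +
      (inner ℝ (d2 F (σ y) (fderiv ℝ σ y (bv 1)) (fderiv ℝ σ y (bv 1)))
          (fderiv ℝ F (σ y) (fderiv ℝ σ y (bv 0))) *
          gc F (fderiv ℝ σ y (bv 1)) (fderiv ℝ σ y (bv 1)) (σ y) -
        inner ℝ (d2 F (σ y) (fderiv ℝ σ y (bv 1)) (fderiv ℝ σ y (bv 1)))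
          (fderiv ℝ F (σ y) (fderiv ℝ σ y (bv 1))) *
          gc F (fderiv ℝ σ y (bv 0)) (fderiv ℝ σ y (bv 1)) (σ y)) := by
  have hd : ∀ v, fderiv ℝ (F ∘ σ) y v = fderiv ℝ F (σ y) (fderiv ℝ σ y v) := by
    intro v
    rw [fderiv_comp y (hF.differentiableAt (by norm_num)) (hσ.differentiableAt (by norm_num))]
    rfl
  unfold gam
  simp only [dd]
  rw [d2_comp hF hσ, h22]
  simp only [hd, gc]
  generalize fderiv ℝ σ y (bv 0) = X0
  generalize fderiv ℝ σ y (bv 1) = X1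
  simp only [map_neg, map_smul, inner_add_left, inner_neg_left, real_inner_smul_left]
  have := real_inner_comm (fderiv ℝ F (σ y) X0) (fderiv ℝ F (σ y) X1)
  ring

/-- Gram determinant -/
lemma gram_eq (F : E2 → E4) (x v w : E2) :
    gc F v v x * gc F w w x - gc F v w x ^ 2 =
      (v 0 * w 1 - v 1 * w 0) ^ 2 *
        (gc F (bv 0) (bv 0) x * gc F (bv 1) (bv 1) x - gc F (bv 0) (bv 1) x ^ 2) := by
  rw [gc_expand F v v x, gc_expand F w w x, gc_expand F v w x,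
    show gc F (bv 1) (bv 0) x = gc F (bv 0) (bv 1) x by rw [gc_symm]]
  ring

/-- lower bound of the Gram determinant from the ellipticity bound -/
lemma gram_lower {F : E2 → E4} {x : E2} {c2 : ℝ} (hc2 : 0 ≤ c2)
    (h : ∀ v : E2, c2 * ‖v‖ ^ 2 ≤ gc F v v x) :
    c2 ^ 2 ≤ gc F (bv 0) (bv 0) x * gc F (bv 1) (bv 1) x - gc F (bv 0) (bv 1) x ^ 2 := by
  set a := gc F (bv 0) (bv 0) x with ha
  set b := gc F (bv 0) (bv 1) x with hb
  set d := gc F (bv 1) (bv 1) x with hd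
  have key : ∀ s t : ℝ, c2 * (s ^ 2 + t ^ 2) ≤ a * s ^ 2 + 2 * b * s * t + d * t ^ 2 := by
    intro s t
    have h1 := h (s • bv 0 + t • bv 1)
    have h0 : (s • bv 0 + t • bv 1 : E2) 0 = s := by simp [bv]
    have h0' : (s • bv 0 + t • bv 1 : E2) 1 = t := by simp [bv]
    rw [norm_sq_E2, gc_expand, show gc F (bv 1) (bv 0) x = b by rw [gc_symm], h0, h0'] at h1
    linarith [h1]
  have h1 := key 1 0
  have h2 := key 0 1
  -- discriminant of the form minus `c2`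
  have h3 : b ^ 2 ≤ (a - c2) * (d - c2) := by
    rcases eq_or_lt_of_le (show 0 ≤ a - c2 by nlinarith) with h0 | h0
    · have hb0 : b = 0 := by
        by_contra hne
        have := key (-(d - c2 + 1) / (2 * b)) 1
        have e : 2 * b * (-(d - c2 + 1) / (2 * b)) * 1 = -(d - c2 + 1) := by
          field_simp
        nlinarith [this, e, sq_nonneg (-(d - c2 + 1) / (2 * b))]
      rw [hb0, ← h0]; simp
    · have := key (-b) (a - c2)
      nlinarith [this]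
  nlinarith [h3]

/-- **DC4**: the geodesic curvature coefficient is negative if `κ` is large. -/
theorem gam_neg {F : E2 → E4} {σ : E2 → E2} {y : E2} {κ C0 C1 c2 : ℝ}
    (hF : ContDiffAt ℝ 2 F (σ y)) (hσ : ContDiffAt ℝ 2 σ y)
    (h22 : fderiv ℝ (fderiv ℝ σ) y (bv 1) (bv 1) = -(κ • fderiv ℝ σ y (bv 0)))
    (hC1 : ∀ i j : Fin 2, ‖fderiv ℝ (gc F (bv i) (bv j)) (σ y)‖ ≤ C1)
    (hup : ∀ v : E2, gc F v v (σ y) ≤ C0 * ‖v‖ ^ 2)
    (hc2 : 0 ≤ c2) (hκ : 0 ≤ κ) (hlow : ∀ v : E2, c2 * ‖v‖ ^ 2 ≤ gc F v v (σ y))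
    (hbig : 6 * C1 * C0 * ‖fderiv ℝ σ y (bv 1)‖ ^ 4 * ‖fderiv ℝ σ y (bv 0)‖ <
      κ * (((fderiv ℝ σ y (bv 0)) 0 * (fderiv ℝ σ y (bv 1)) 1 -
        (fderiv ℝ σ y (bv 0)) 1 * (fderiv ℝ σ y (bv 1)) 0) ^ 2 * c2 ^ 2)) :
    gam (F ∘ σ) y < 0 := by
  rw [gam_comp_eq hF hσ h22, gram_eq]
  set X0 := fderiv ℝ σ y (bv 0) with hX0
  set X := fderiv ℝ σ y (bv 1) with hX
  have hC1' : 0 ≤ C1 := (norm_nonneg _).trans (hC1 0 0)
  have hg := gram_lower hc2 hlow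
  have hb1 := abs_inner_d2_le hF hC1 X X0
  have hb2 := abs_inner_d2_le hF hC1 X X
  have hn0 : 0 ≤ gc F X X (σ y) := by unfold gc; exact real_inner_self_nonneg
  have hXX := hup X
  have hX00 := hup X0
  have hC0 : 0 ≤ C0 := by
    have h1 := hup (bv 0)
    have h2 : 0 ≤ gc F (bv 0) (bv 0) (σ y) := by unfold gc; exact real_inner_self_nonneg
    have h3 : ‖(bv 0 : E2)‖ = 1 := by simp [bv]
    rw [h3] at h1
    linarith
  have hcs : |gc F X0 X (σ y)| ≤ C0 * ‖X0‖ * ‖X‖ := by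
    have h1 : |gc F X0 X (σ y)| ≤ ‖fderiv ℝ F (σ y) X0‖ * ‖fderiv ℝ F (σ y) X‖ :=
      abs_real_inner_le_norm _ _
    have h2 : ‖fderiv ℝ F (σ y) X0‖ ≤ Real.sqrt C0 * ‖X0‖ := by
      refine le_of_sq_le_sq ?_ (by positivity)
      rw [mul_pow, Real.sq_sqrt hC0, ← real_inner_self_eq_norm_sq]
      exact hX00
    have h3 : ‖fderiv ℝ F (σ y) X‖ ≤ Real.sqrt C0 * ‖X‖ := by
      refine le_of_sq_le_sq ?_ (by positivity)
      rw [mul_pow, Real.sq_sqrt hC0, ← real_inner_self_eq_norm_sq]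
      exact hXX
    calc _ ≤ _ := h1
      _ ≤ (Real.sqrt C0 * ‖X0‖) * (Real.sqrt C0 * ‖X‖) :=
          mul_le_mul h2 h3 (norm_nonneg _) (by positivity)
      _ = (Real.sqrt C0 * Real.sqrt C0) * ‖X0‖ * ‖X‖ := by ring
      _ = _ := by rw [Real.mul_self_sqrt hC0]
  have e1 : inner ℝ (d2 F (σ y) X X) (fderiv ℝ F (σ y) X0) * gc F X X (σ y) ≤
      (3 * C1 * ‖X‖ ^ 2 * ‖X0‖) * (C0 * ‖X‖ ^ 2) :=
    (le_abs_self _).trans (by
      rw [abs_mul, abs_of_nonneg hn0]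
      exact mul_le_mul hb1 hXX hn0 (by positivity))
  have e2 : -(inner ℝ (d2 F (σ y) X X) (fderiv ℝ F (σ y) X) * gc F X0 X (σ y)) ≤
      (3 * C1 * ‖X‖ ^ 2 * ‖X‖) * (C0 * ‖X0‖ * ‖X‖) :=
    (neg_le_abs _).trans (by
      rw [abs_mul]
      exact mul_le_mul hb2 hcs (abs_nonneg _) (by positivity))
  have e3 : κ * ((X0 0 * X 1 - X0 1 * X 0) ^ 2 * c2 ^ 2) ≤
      κ * ((X0 0 * X 1 - X0 1 * X 0) ^ 2 *
        (gc F (bv 0) (bv 0) (σ y) * gc F (bv 1) (bv 1) (σ y) - gc F (bv 0) (bv 1) (σ y) ^ 2)) :=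
    mul_le_mul_of_nonneg_left (mul_le_mul_of_nonneg_left hg (sq_nonneg _)) hκ
  nlinarith [e1, e2, e3, hbig]

end Crest.Agent.R216.DC
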