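import Mathlib
import Crest.Agent.R216.DC4

/-!
Row 216 (S0335), module DC4, soft form: `gam` of a surface in a bent, rotated chart is a fixed
continuous function of the 1-jet of the metric coefficients (helper973).
-/

set_option autoImplicit false
open scoped Manifold ContDiff Topology
open Set

noncomputable section
namespace Crest.Agent.R216.DC4J

open Crest.Agent.R216.DC

/-- the inverse of `Θ_κ` : `(y₀ - κ y₁² / 2, y₁)`. -/
def thInv (κ : ℝ) (y : E2) : E2 := y - (κ * y 1 ^ 2 / 2) • bv 0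

/-- `Θ_κ` : `(z₀ + κ z₁² / 2, z₁)`. -/
def th (κ : ℝ) (z : E2) : E2 := z + (κ * z 1 ^ 2 / 2) • bv 0

lemma thInv_zero (κ : ℝ) (y : E2) : thInv κ y 0 = y 0 - κ * y 1 ^ 2 / 2 := by
  simp [thInv, bv]

lemma thInv_one (κ : ℝ) (y : E2) : thInv κ y 1 = y 1 := by
  simp [thInv, bv]

lemma th_zero (κ : ℝ) (y : E2) : th κ y 0 = y 0 + κ * y 1 ^ 2 / 2 := by
  simp [th, bv]

lemma th_one (κ : ℝ) (y : E2) : th κ y 1 = y 1 := by
  simp [th, bv]

lemma th_thInv (κ : ℝ) (y : E2) : th κ (thInv κ y) = y := by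
  rw [th, thInv_one, thInv]; simp

lemma thInv_th (κ : ℝ) (y : E2) : thInv κ (th κ y) = y := by
  rw [thInv, th_one, th]; simp

/-- coordinate `y ↦ y 1` as a continuous linear map -/
def pr1 : E2 →L[ℝ] ℝ := EuclideanSpace.proj (1 : Fin 2)

@[simp] lemma pr1_apply (y : E2) : pr1 y = y 1 := rfl

/-- derivative of `thInv κ`. -/
def dth (κ : ℝ) (y : E2) : E2 →L[ℝ] E2 :=
  ContinuousLinearMap.id ℝ E2 - (κ * y 1) • pr1.smulRight (bv 0)

lemma hasFDerivAt_thInv (κ : ℝ) (y : E2) : HasFDerivAt (thInv κ) (dth κ y) y := by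
  have h1 : HasFDerivAt (fun y : E2 => y 1) pr1 y := pr1.hasFDerivAt
  have h2 : HasFDerivAt (fun y : E2 => κ * y 1 ^ 2 / 2) ((κ * y 1) • pr1) y := by
    have h := ((h1.pow 2).const_mul κ).mul_const (1/2 : ℝ)
    have e : (fun y : E2 => κ * y 1 ^ 2 / 2) = fun y : E2 => κ * y 1 ^ 2 * (1 / 2) := by
      funext z; ring
    rw [e]
    refine h.congr_fderiv ?_
    ext z
    simp
    ring
  have h3 := h2.smul_const (bv 0)
  have h4 := (hasFDerivAt_id y).sub h3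
  refine h4.congr_fderiv ?_
  ext z i
  simp [dth]
  ring

lemma hasFDerivAt_dth (κ : ℝ) (y : E2) :
    HasFDerivAt (dth κ) (-(pr1.smulRight (κ • pr1.smulRight (bv 0)))) y := by
  have h1 : HasFDerivAt (fun y : E2 => κ * y 1) (κ • pr1) y := (pr1.hasFDerivAt).const_mul κ
  have h2 := h1.smul_const (pr1.smulRight (bv 0) : E2 →L[ℝ] E2)
  have h3 := (hasFDerivAt_const (ContinuousLinearMap.id ℝ E2) y).sub h2
  refine h3.congr_fderiv ?_
  ext z w i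
  simp
  ring

/-- the patch parametrisation -/
def sg (x0 : E2) (A : E2 →L[ℝ] E2) (κ : ℝ) (y : E2) : E2 := x0 + A (thInv κ y)

lemma hasFDerivAt_sg (x0 : E2) (A : E2 →L[ℝ] E2) (κ : ℝ) (y : E2) :
    HasFDerivAt (sg x0 A κ) (A.comp (dth κ y)) y := by
  have := (A.hasFDerivAt.comp y (hasFDerivAt_thInv κ y)).const_add x0
  exact this

lemma fderiv_sg (x0 : E2) (A : E2 →L[ℝ] E2) (κ : ℝ) :
    fderiv ℝ (sg x0 A κ) = fun y => A.comp (dth κ y) := by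
  funext y; exact (hasFDerivAt_sg x0 A κ y).fderiv

lemma contDiff_thInv (κ : ℝ) {n : WithTop ℕ∞} : ContDiff ℝ n (thInv κ) := by
  unfold thInv
  have h1 : ContDiff ℝ n (fun y : E2 => y 1) := pr1.contDiff
  exact contDiff_id.sub (((contDiff_const.mul (h1.pow 2)).div_const _).smul contDiff_const)

lemma contDiff_th (κ : ℝ) {n : WithTop ℕ∞} : ContDiff ℝ n (th κ) := by
  unfold th
  have h1 : ContDiff ℝ n (fun y : E2 => y 1) := pr1.contDiff
  exact contDiff_id.add (((contDiff_const.mul (h1.pow 2)).div_const _).smul contDiff_const)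

lemma contDiff_sg (x0 : E2) (A : E2 →L[ℝ] E2) (κ : ℝ) {n : WithTop ℕ∞} :
    ContDiff ℝ n (sg x0 A κ) := by
  unfold sg
  exact contDiff_const.add (A.contDiff.comp (contDiff_thInv κ))

lemma fderiv_sg_zero (x0 : E2) (A : E2 →L[ℝ] E2) (κ : ℝ) (y : E2) :
    fderiv ℝ (sg x0 A κ) y (bv 0) = A (bv 0) := by
  rw [fderiv_sg]; simp [dth, bv]

lemma fderiv_sg_one (x0 : E2) (A : E2 →L[ℝ] E2) (κ : ℝ) (y : E2) :
    fderiv ℝ (sg x0 A κ) y (bv 1) = A (bv 1 - (κ * y 1) • bv 0) := by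
  rw [fderiv_sg]; simp [dth, bv]

lemma fderiv2_sg (x0 : E2) (A : E2 →L[ℝ] E2) (κ : ℝ) (y : E2) :
    fderiv ℝ (fderiv ℝ (sg x0 A κ)) y (bv 1) (bv 1) = -(κ • A (bv 0)) := by
  rw [fderiv_sg]
  have h := (((ContinuousLinearMap.compL ℝ E2 E2 E2) A).hasFDerivAt.comp y (hasFDerivAt_dth κ y))
  have h' : HasFDerivAt (fun y => A.comp (dth κ y)) _ y := h
  rw [h'.fderiv]
  simp [bv]

/-! ### the formula -/

/-- bilinear form with coefficient matrix `G` -/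
def qf (G : Fin 2 → Fin 2 → ℝ) (v w : E2) : ℝ := ∑ i, ∑ j, v i * w j * G i j

/-- trilinear form with coefficients `D` -/
def cf (D : Fin 2 → Fin 2 → Fin 2 → ℝ) (v w u : E2) : ℝ :=
  ∑ i, ∑ j, ∑ k, v i * w j * u k * D i j k

/-- the universal formula: `G` = coefficients, `D i j k = ∂_k g_ij`, `a = σ_1`, `X = σ_2`,
`σ_22 = -κ a`. -/
def Fgam (κ : ℝ) (a X : E2) (G : Fin 2 → Fin 2 → ℝ) (D : Fin 2 → Fin 2 → Fin 2 → ℝ) : ℝ :=
  -(κ * (qf G a a * qf G X X - qf G a X ^ 2)) +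
    ((cf D X a X - (1 / 2) * cf D X X a) * qf G X X - ((1 / 2) * cf D X X X) * qf G a X)

lemma gc_eq_qf (F : E2 → E4) (v w x : E2) :
    gc F v w x = qf (fun i j => gc F (bv i) (bv j) x) v w := by
  rw [gc_expand]; simp [qf, Fin.sum_univ_two]; ring

lemma fderiv_gc_eq_cf {F : E2 → E4} {x : E2} (hF : ContDiffAt ℝ 2 F x) (v w u : E2) :
    fderiv ℝ (gc F v w) x u =
      cf (fun i j k => fderiv ℝ (gc F (bv i) (bv j)) x (bv k)) v w u := by
  have hd := fun i j : Fin 2 => gc_differentiableAt hF (bv i) (bv j)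
  have h2 := ((((hd 0 0).hasFDerivAt.const_mul (v 0 * w 0)).add
    ((hd 0 1).hasFDerivAt.const_mul (v 0 * w 1))).add
    ((hd 1 0).hasFDerivAt.const_mul (v 1 * w 0))).add
    ((hd 1 1).hasFDerivAt.const_mul (v 1 * w 1))
  have h3 := (h2.congr_of_eventuallyEq (f₁ := gc F v w) (Filter.Eventually.of_forall
    fun y => by simpa using gc_expand F v w y)).fderiv
  have h4 := congrArg (fun L : E2 →L[ℝ] ℝ => L u) h3
  have hu : ∀ i j : Fin 2, fderiv ℝ (gc F (bv i) (bv j)) x u =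
      u 0 * fderiv ℝ (gc F (bv i) (bv j)) x (bv 0) +
      u 1 * fderiv ℝ (gc F (bv i) (bv j)) x (bv 1) := fun i j => by
    conv_lhs => rw [decomp_bv u]
    simp
  have h5 : fderiv ℝ (gc F v w) x u =
      v 0 * w 0 * fderiv ℝ (gc F (bv 0) (bv 0)) x u
      + v 0 * w 1 * fderiv ℝ (gc F (bv 0) (bv 1)) x u
      + v 1 * w 0 * fderiv ℝ (gc F (bv 1) (bv 0)) x u
      + v 1 * w 1 * fderiv ℝ (gc F (bv 1) (bv 1)) x u := by simpa using h4
  rw [h5, hu 0 0, hu 0 1, hu 1 0, hu 1 1]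
  simp only [cf, Fin.sum_univ_two]
  ring

/-- **(6.5), soft form**: `gam` in a chart with `σ_22 = -κ σ_1` is the universal function of the
1-jet of the metric coefficients. -/
theorem gam_comp_jet {F : E2 → E4} {σ : E2 → E2} {y : E2} {κ : ℝ}
    (hF : ContDiffAt ℝ 2 F (σ y)) (hσ : ContDiffAt ℝ 2 σ y)
    (h22 : fderiv ℝ (fderiv ℝ σ) y (bv 1) (bv 1) = -(κ • fderiv ℝ σ y (bv 0))) :
    gam (F ∘ σ) y = Fgam κ (fderiv ℝ σ y (bv 0)) (fderiv ℝ σ y (bv 1))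
      (fun i j => gc F (bv i) (bv j) (σ y))
      (fun i j k => fderiv ℝ (gc F (bv i) (bv j)) (σ y) (bv k)) := by
  rw [gam_comp_eq hF hσ h22, inner_d2_eq hF, inner_d2_eq hF]
  simp only [Fgam, ← gc_eq_qf, ← fderiv_gc_eq_cf hF]
  ring

/-- the same for the patch parametrisation `σ y = x0 + A (Θ_κ⁻¹ y)`. -/
theorem gam_sg {F : E2 → E4} {x0 : E2} {A : E2 →L[ℝ] E2} {κ : ℝ} {y : E2}
    (hF : ContDiffAt ℝ 2 F (x0 + A (thInv κ y))) :
    gam (fun y => F (x0 + A (thInv κ y))) y =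
      Fgam κ (A (bv 0)) (A (bv 1 - (κ * y 1) • bv 0))
      (fun i j => gc F (bv i) (bv j) (x0 + A (thInv κ y)))
      (fun i j k => fderiv ℝ (gc F (bv i) (bv j)) (x0 + A (thInv κ y)) (bv k)) := by
  have h := gam_comp_jet (F := F) (σ := sg x0 A κ) (y := y) (κ := κ) hF
    (contDiff_sg x0 A κ).contDiffAt (by rw [fderiv2_sg, fderiv_sg_zero])
  rw [fderiv_sg_zero, fderiv_sg_one] at h
  exact h

/-- `Fgam` is continuous. -/
lemma continuous_Fgam : Continuous fun p : ℝ × E2 × E2 × (Fin 2 → Fin 2 → ℝ) ×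
    (Fin 2 → Fin 2 → Fin 2 → ℝ) => Fgam p.1 p.2.1 p.2.2.1 p.2.2.2.1 p.2.2.2.2 := by
  unfold Fgam qf cf
  fun_prop

/-! ### positivity of the Gram determinant and choice of `κ` -/

lemma qf_gram (G : Fin 2 → Fin 2 → ℝ) (hG : G 1 0 = G 0 1) (a X : E2) :
    qf G a a * qf G X X - qf G a X ^ 2 =
      (a 0 * X 1 - a 1 * X 0) ^ 2 * (G 0 0 * G 1 1 - G 0 1 ^ 2) := by
  simp only [qf, Fin.sum_univ_two, hG]; ring

lemma det_pos_of_posDef {G : Fin 2 → Fin 2 → ℝ} (hG : G 1 0 = G 0 1)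
    (hpos : ∀ v : E2, v ≠ 0 → 0 < qf G v v) : 0 < G 0 0 * G 1 1 - G 0 1 ^ 2 := by
  have h0 : 0 < G 0 0 := by
    have h := hpos (bv 0) (by
      intro h; have := congrArg (fun v : E2 => v 0) h; simp [bv] at this)
    simpa [qf, Fin.sum_univ_two, bv] using h
  have h1 := hpos ((-G 0 1) • bv 0 + (G 0 0) • bv 1) (by
    intro h; have := congrArg (fun v : E2 => v 1) h; simp [bv] at this; exact h0.ne' this)
  have h2 : qf G ((-G 0 1) • bv 0 + (G 0 0) • bv 1) ((-G 0 1) • bv 0 + (G 0 0) • bv 1) =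
      G 0 0 * (G 0 0 * G 1 1 - G 0 1 ^ 2) := by
    simp [qf, Fin.sum_univ_two, bv, hG]; ring
  rw [h2] at h1
  exact (mul_pos_iff_of_pos_left h0).1 h1

lemma gram_pos_of_posDef {G : Fin 2 → Fin 2 → ℝ} (hG : G 1 0 = G 0 1)
    (hpos : ∀ v : E2, v ≠ 0 → 0 < qf G v v) {a X : E2} (h : a 0 * X 1 - a 1 * X 0 ≠ 0) :
    0 < qf G a a * qf G X X - qf G a X ^ 2 := by
  rw [qf_gram G hG]
  exact mul_pos (by positivity) (det_pos_of_posDef hG hpos)

/-- parameter space of `Fgam` (without `κ`) -/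
abbrev JP := E2 × E2 × (Fin 2 → Fin 2 → ℝ) × (Fin 2 → Fin 2 → Fin 2 → ℝ)

/-- for a compact set of parameters with positive Gram determinant, all large `κ` work. -/
theorem exists_kappa {K : Set JP} (hK : IsCompact K)
    (hpos : ∀ p ∈ K, 0 < qf p.2.2.1 p.1 p.1 * qf p.2.2.1 p.2.1 p.2.1 - qf p.2.2.1 p.1 p.2.1 ^ 2) :
    ∃ κ0 : ℝ, 0 < κ0 ∧ ∀ κ, κ0 ≤ κ → ∀ p ∈ K, Fgam κ p.1 p.2.1 p.2.2.1 p.2.2.2 < 0 := by
  rcases K.eq_empty_or_nonempty with rfl | hne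
  · exact ⟨1, one_pos, fun κ _ p hp => absurd hp (Set.notMem_empty _)⟩
  have c1 : Continuous fun p : JP =>
      qf p.2.2.1 p.1 p.1 * qf p.2.2.1 p.2.1 p.2.1 - qf p.2.2.1 p.1 p.2.1 ^ 2 := by
    unfold qf; fun_prop
  have c2 : Continuous fun p : JP => Fgam 0 p.1 p.2.1 p.2.2.1 p.2.2.2 := by
    unfold Fgam qf cf; fun_prop
  obtain ⟨p0, hp0, hmin⟩ := hK.exists_isMinOn hne c1.continuousOn
  obtain ⟨p1, hp1, hmax⟩ := hK.exists_isMaxOn hne c2.continuousOn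
  set m := qf p0.2.2.1 p0.1 p0.1 * qf p0.2.2.1 p0.2.1 p0.2.1 - qf p0.2.2.1 p0.1 p0.2.1 ^ 2 with hm
  have hm0 : 0 < m := hpos p0 hp0
  set R := Fgam 0 p1.1 p1.2.1 p1.2.2.1 p1.2.2.2 with hR
  refine ⟨(|R| + 1) / m, by positivity, fun κ hκ p hp => ?_⟩
  have h1 : m ≤ _ := hmin hp
  have h2 : _ ≤ R := hmax hp
  have h3 : Fgam κ p.1 p.2.1 p.2.2.1 p.2.2.2 = Fgam 0 p.1 p.2.1 p.2.2.1 p.2.2.2 -
      κ * (qf p.2.2.1 p.1 p.1 * qf p.2.2.1 p.2.1 p.2.1 - qf p.2.2.1 p.1 p.2.1 ^ 2) := by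
    simp only [Fgam]; ring
  have h4 : |R| + 1 ≤ κ * m := by
    rw [div_le_iff₀ hm0] at hκ; exact hκ
  have hκ0 : 0 ≤ κ := le_trans (by positivity) hκ
  have h5 := mul_le_mul_of_nonneg_left h1 hκ0
  rw [h3]
  simp only at h2 h5
  have := le_abs_self R
  linarith

/-- openness: for fixed `κ`, negativity on a compact set persists in a uniform neighbourhood. -/
theorem exists_nhd {K : Set JP} (hK : IsCompact K) {κ : ℝ}
    (hneg : ∀ p ∈ K, Fgam κ p.1 p.2.1 p.2.2.1 p.2.2.2 < 0) :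
    ∃ ε : ℝ, 0 < ε ∧ ∀ p ∈ K, ∀ q : JP, dist q p ≤ ε → Fgam κ q.1 q.2.1 q.2.2.1 q.2.2.2 < 0 := by
  have c2 : Continuous fun p : JP => Fgam κ p.1 p.2.1 p.2.2.1 p.2.2.2 := by
    unfold Fgam qf cf; fun_prop
  obtain ⟨ε, hε, h⟩ := hK.exists_cthickening_subset_open
    (t := {p : JP | Fgam κ p.1 p.2.1 p.2.2.1 p.2.2.2 < 0}) (isOpen_lt c2 continuous_const) hneg
  exact ⟨ε, hε, fun p hp q hq => h (Metric.mem_cthickening_of_dist_le q p ε K hp hq)⟩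

end Crest.Agent.R216.DC4J
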