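import Crest.Agent.R216.DecIface
import Crest.Agent.R216.DC3C
import Crest.Agent.R216.DC4J

/-!
Row 216 (S0335), part (6): module DC4a (helper973): `gam` in a phase chart is `Fgam` of the jet.
-/

set_option autoImplicit false
open scoped Manifold ContDiff Topology
open Set

noncomputable section
namespace Crest.Agent.R216.Dec

namespace D4a

open Crest.Agent.R216.DC4J (thInv sg fderiv_sg_zero fderiv_sg_one fderiv2_sg contDiff_sg pr1)

/-- first coordinate -/
def pr0 : E2 →L[ℝ] ℝ := EuclideanSpace.proj (0 : Fin 2)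

/-- rotation as a continuous linear map -/
def rotL (a : ℝ) : E2 →L[ℝ] E2 :=
  (Real.cos a • pr0 - Real.sin a • pr1).smulRight (bv 0) +
    (Real.sin a • pr0 + Real.cos a • pr1).smulRight (bv 1)

lemma rotL_apply (a : ℝ) (z : E2) : rotL a z = rot a z := by
  simp [rotL, rot, pr0, pr1]

lemma thetaInv_eq (k : ℝ) (y : E2) : thetaInv k y = thInv k y := by
  ext i; fin_cases i <;> simp [thetaInv, thInv, bv]

lemma phsInv_eq (k a : ℝ) (y : E2) : phsInv k a y = sg 0 (rotL (-a)) k y := by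
  simp [phsInv, sg, rotL_apply, thetaInv_eq]

lemma rot_rot_neg (a : ℝ) (z : E2) : rot a (rot (-a) z) = z := by
  ext i
  have h := Real.sin_sq_add_cos_sq a
  fin_cases i
  · simp [rot, bv]
    linear_combination (z 0) * h
  · simp [rot, bv]
    linear_combination (z 1) * h

lemma rot_phsInv_one (k a : ℝ) (y : E2) : rot a (phsInv k a y) 1 = y 1 := by
  rw [phsInv, rot_rot_neg, thetaInv_eq]
  simp [thInv, bv]

lemma dlev_eq (k a : ℝ) (y : E2) :
    dlev k a (phsInv k a y) = rotL (-a) (bv 1 - (k * y 1) • bv 0) := by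
  rw [dlev, rot_phsInv_one, rotL_apply]
  congr 1
  rw [neg_smul]
  abel

lemma dnor_eq (a : ℝ) : dnor a = rotL (-a) (bv 0) := by
  rw [dnor, rotL_apply]

end D4a

open D4a
open Crest.Agent.R216.DC4J (thInv sg fderiv_sg_zero fderiv_sg_one fderiv2_sg contDiff_sg)
open Crest.Agent.R216.DC (gc gc_expand gc_differentiableAt gam_comp_eq inner_d2_eq)

theorem dc4a (M : Type*) [TopologicalSpace M] [ChartedSpace E2 M] [IsManifold (𝓡 2) ∞ M] :
    DC4a M := by
  intro P a r S hr hr2 hS f hf y hy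
  have hyt : y ∈ S.ψ.target := S.sub hy
  have hz : phsInv P.κ a y ∈ P.w.target := (hS.tgt y).1 hyt
  set F : E2 → E4 := rep f P.w with hF
  set σ : E2 → E2 := sg 0 (rotL (-a)) P.κ with hσ
  have hfun : f ∘ S.ψ.symm = F ∘ σ := by
    funext x
    simp only [hF, rep, Function.comp_apply, hS.symm x, phsInv_eq, hσ]
  have hσy : σ y = phsInv P.κ a y := (phsInv_eq _ _ _).symm
  set z := phsInv P.κ a y with hzdef
  have hFz : ContDiffAt ℝ 2 F z :=
    (((rep_contDiffOn hf P.hw).contDiffAt (P.w.open_target.mem_nhds hz)).of_le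
      (WithTop.coe_le_coe.2 (le_top : (2 : ℕ∞) ≤ ⊤)))
  have hFσ : ContDiffAt ℝ 2 F (σ y) := by rw [hσy]; exact hFz
  -- coefficients
  have hcoef : ∀ x ∈ P.w.target, ∀ v w : E2, coef (pull f) P.w v w x = gc F v w x := by
    intro x hx v w
    rw [DC.coef_pull hf P.hw hx]
    rfl
  have hb : ∀ v w : E2, bil (jet (pull f) P.w z).1 v w = gc F v w z := by
    intro v w
    rw [gc_expand]
    simp only [bil, jet, mat, Fin.sum_univ_two, hcoef z hz]
    ring
  have hfd : ∀ i j : Fin 2, fderiv ℝ (coef (pull f) P.w (bv i) (bv j)) z =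
      fderiv ℝ (gc F (bv i) (bv j)) z := by
    intro i j
    apply Filter.EventuallyEq.fderiv_eq
    filter_upwards [P.w.open_target.mem_nhds hz] with x hx
    exact hcoef x hx _ _
  have hdb : ∀ u v w : E2, dbil (jet (pull f) P.w z).2 u v w = fderiv ℝ (gc F v w) z u := by
    intro u v w
    have hd := fun i j : Fin 2 => gc_differentiableAt hFz (bv i) (bv j)
    have h2 := ((((hd 0 0).hasFDerivAt.const_mul (v 0 * w 0)).add
      ((hd 0 1).hasFDerivAt.const_mul (v 0 * w 1))).add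
      ((hd 1 0).hasFDerivAt.const_mul (v 1 * w 0))).add
      ((hd 1 1).hasFDerivAt.const_mul (v 1 * w 1))
    have h3 := (h2.congr_of_eventuallyEq (f₁ := gc F v w) (Filter.Eventually.of_forall
      fun y => by simpa using gc_expand F v w y)).fderiv
    have h4 := congrArg (fun L : E2 →L[ℝ] ℝ => L u) h3
    have h5 : fderiv ℝ (gc F v w) z u =
        v 0 * w 0 * fderiv ℝ (gc F (bv 0) (bv 0)) z u
        + v 0 * w 1 * fderiv ℝ (gc F (bv 0) (bv 1)) z u
        + v 1 * w 0 * fderiv ℝ (gc F (bv 1) (bv 0)) z u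
        + v 1 * w 1 * fderiv ℝ (gc F (bv 1) (bv 1)) z u := by simpa using h4
    rw [h5]
    simp only [dbil, jet, Fin.sum_univ_two, hfd]
    ring
  have h0 : fderiv ℝ σ y (bv 0) = dnor a := by
    rw [dnor_eq]; exact fderiv_sg_zero _ _ _ _
  have h1 : fderiv ℝ σ y (bv 1) = dlev P.κ a z := by
    rw [hzdef, dlev_eq]; exact fderiv_sg_one _ _ _ _
  have h22 : fderiv ℝ (fderiv ℝ σ) y (bv 1) (bv 1) = -(P.κ • fderiv ℝ σ y (bv 0)) := by
    rw [h0, dnor_eq]; exact fderiv2_sg _ _ _ _
  rw [hfun, gam_comp_eq hFσ (contDiff_sg _ _ _).contDiffAt h22, h0, h1, hσy,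
    inner_d2_eq hFz, inner_d2_eq hFz]
  simp only [Fgam, hb, hdb]
  ring

end Crest.Agent.R216.Dec
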