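import Crest.Agent.R216.DecIface

/-!
Row 216 (S0335), part (6), modules DC4b, DC4c (helper9): continuity of `Fgam`, sign at the centre.
-/

set_option autoImplicit false
open scoped Manifold ContDiff Topology
open Set

noncomputable section
namespace Crest.Agent.R216.Dec

theorem dlev_zero (k a : ℝ) : dlev k a 0 = rot (-a) (bv 1) := by
  simp [dlev, rot]

theorem continuous_coord (i : Fin 2) : Continuous (fun z : E2 => z i) :=
  (EuclideanSpace.proj i : E2 →L[ℝ] ℝ).continuous

theorem continuous_rot : Continuous (fun q : ℝ × E2 => rot q.1 q.2) := by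
  have h0 : Continuous (fun q : ℝ × E2 => q.2 0) := (continuous_coord 0).comp continuous_snd
  have h1 : Continuous (fun q : ℝ × E2 => q.2 1) := (continuous_coord 1).comp continuous_snd
  have hc : Continuous (fun q : ℝ × E2 => Real.cos q.1) := Real.continuous_cos.comp continuous_fst
  have hs : Continuous (fun q : ℝ × E2 => Real.sin q.1) := Real.continuous_sin.comp continuous_fst
  exact (((hc.mul h0).sub (hs.mul h1)).smul continuous_const).add
    (((hs.mul h0).add (hc.mul h1)).smul continuous_const)

theorem continuous_rot' {X : Type*} [TopologicalSpace X] {a : X → ℝ} {z : X → E2}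
    (ha : Continuous a) (hz : Continuous z) : Continuous (fun x => rot (a x) (z x)) := by
  have h := Continuous.comp (g := fun q : ℝ × E2 => rot q.1 q.2) (f := fun x => (a x, z x))
    continuous_rot (ha.prodMk hz)
  simpa only [Function.comp_def] using h

theorem continuous_dlev (k : ℝ) : Continuous (fun q : ℝ × E2 => dlev k q.1 q.2) := by
  have h1 : Continuous (fun q : ℝ × E2 => rot q.1 q.2 1) :=
    (continuous_coord 1).comp continuous_rot
  exact continuous_rot' continuous_fst.neg
    (((continuous_const.mul h1).neg.smul continuous_const).add continuous_const)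

theorem continuous_dnor : Continuous dnor :=
  continuous_rot' continuous_neg continuous_const

theorem continuous_bil {X : Type*} [TopologicalSpace X] {b : X → Fin 2 → Fin 2 → ℝ} {v w : X → E2}
    (hb : Continuous b) (hv : Continuous v) (hw : Continuous w) :
    Continuous (fun x => bil (b x) (v x) (w x)) := by
  unfold bil
  refine continuous_finsetSum _ fun i _ => continuous_finsetSum _ fun j _ => ?_
  have h1 : Continuous (fun x => b x i j) := (continuous_apply j).comp ((continuous_apply i).comp hb)
  have h2 : Continuous (fun x => v x i) := (continuous_coord i).comp hv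
  have h3 : Continuous (fun x => w x j) := (continuous_coord j).comp hw
  exact (h1.mul h2).mul h3

theorem continuous_dbil {X : Type*} [TopologicalSpace X] {b : X → Fin 2 → Fin 2 → (E2 →L[ℝ] ℝ)}
    {u v w : X → E2}
    (hb : Continuous b) (hu : Continuous u) (hv : Continuous v) (hw : Continuous w) :
    Continuous (fun x => dbil (b x) (u x) (v x) (w x)) := by
  unfold dbil
  refine continuous_finsetSum _ fun i _ => continuous_finsetSum _ fun j _ => ?_
  have h1 : Continuous (fun x => b x i j) := (continuous_apply j).comp ((continuous_apply i).comp hb)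
  have h2 : Continuous (fun x => v x i) := (continuous_coord i).comp hv
  have h3 : Continuous (fun x => w x j) := (continuous_coord j).comp hw
  exact ((h1.clm_apply hu).mul h2).mul h3

theorem dc4b : DC4b := by
  intro k
  have hl : Continuous (fun q : ℝ × E2 × Jet => dlev k q.1 q.2.1) :=
    by
    have h := Continuous.comp (g := fun q : ℝ × E2 => dlev k q.1 q.2)
      (f := fun q : ℝ × E2 × Jet => (q.1, q.2.1)) (continuous_dlev k)
      (continuous_fst.prodMk (continuous_fst.comp continuous_snd))
    simpa only [Function.comp_def] using h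
  have hn : Continuous (fun q : ℝ × E2 × Jet => dnor q.1) := continuous_dnor.comp continuous_fst
  have hJ1 : Continuous (fun q : ℝ × E2 × Jet => q.2.2.1) :=
    continuous_fst.comp (continuous_snd.comp continuous_snd)
  have hJ2 : Continuous (fun q : ℝ × E2 × Jet => q.2.2.2) :=
    continuous_snd.comp (continuous_snd.comp continuous_snd)
  unfold Fgam
  have t1 := continuous_dbil hJ2 hl hl hn
  have t2 := continuous_dbil hJ2 hn hl hl
  have t3 := continuous_dbil hJ2 hl hl hl
  have t4 := continuous_bil hJ1 hl hl
  have t5 := continuous_bil hJ1 hn hl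
  have t6 := continuous_bil hJ1 hn hn
  exact (((t1.sub (t2.div_const 2)).mul t4).sub ((t3.div_const 2).mul t5)).sub
    (continuous_const.mul ((t6.mul t4).sub (t5.pow 2)))

theorem bil_sub_smul (b : Fin 2 → Fin 2 → ℝ) (v w : E2) (t : ℝ) :
    bil b (v - t • w) (v - t • w) = bil b v v - t * bil b v w - t * bil b w v
      + t ^ 2 * bil b w w := by
  simp only [bil, Fin.sum_univ_two, PiLp.sub_apply, PiLp.smul_apply, smul_eq_mul]
  ring

/-- strict Cauchy–Schwarz -/
theorem gram_pos {b : Fin 2 → Fin 2 → ℝ} (hs : ∀ v w : E2, bil b v w = bil b w v)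
    (hp : ∀ v : E2, v ≠ 0 → 0 < bil b v v) {v w : E2} (hw : w ≠ 0) (hind : ∀ t : ℝ, v ≠ t • w) :
    0 < bil b v v * bil b w w - bil b v w ^ 2 := by
  have hww := hp w hw
  set t := bil b v w / bil b w w with ht
  have hv : v - t • w ≠ 0 := sub_ne_zero.2 (hind t)
  have h1 := hp _ hv
  rw [bil_sub_smul, hs w v] at h1
  have h2 : t * bil b w w = bil b v w := by rw [ht]; field_simp
  have h3 : bil b v v - t * bil b v w - t * bil b v w + t ^ 2 * bil b w w
      = bil b v v - t * bil b v w := by
    have : t ^ 2 * bil b w w = t * bil b v w := by rw [← h2]; ring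
    rw [this]; ring
  rw [h3] at h1
  have h4 := mul_pos h1 hww
  have h5 : (bil b v v - t * bil b v w) * bil b w w = bil b v v * bil b w w - bil b v w ^ 2 := by
    have : t * bil b v w * bil b w w = bil b v w ^ 2 := by
      calc t * bil b v w * bil b w w = (t * bil b w w) * bil b v w := by ring
        _ = bil b v w ^ 2 := by rw [h2]; ring
    rw [sub_mul, this]
  rwa [h5] at h4

theorem norm_ne_zero_rot (a : ℝ) : rot (-a) (bv 1) ≠ 0 := by
  intro h
  have h0 := congrArg (fun z : E2 => z 0) h
  have h1 := congrArg (fun z : E2 => z 1) h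
  simp [rot, bv, Real.cos_neg, Real.sin_neg] at h0 h1
  have := Real.sin_sq_add_cos_sq a
  rw [h0, h1] at this
  norm_num at this

theorem dnor_ne_smul (a t : ℝ) : dnor a ≠ t • rot (-a) (bv 1) := by
  intro h
  have h0 := congrArg (fun z : E2 => z 0) h
  have h1 := congrArg (fun z : E2 => z 1) h
  simp [dnor, rot, bv, Real.cos_neg, Real.sin_neg] at h0 h1
  have := Real.sin_sq_add_cos_sq a
  have h2 : Real.cos a = 0 := by
    have e1 : Real.cos a * Real.cos a = t * Real.sin a * Real.cos a := by
      nth_rewrite 1 [h0]; ring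
    have e2 : -Real.sin a * Real.sin a = t * Real.cos a * Real.sin a := by
      nth_rewrite 1 [h1]; ring
    nlinarith
  have h3 : Real.sin a = 0 := by
    have e1 : Real.cos a * Real.cos a = t * Real.sin a * Real.cos a := by
      nth_rewrite 1 [h0]; ring
    rw [h2] at h1
    simpa using h1
  rw [h2, h3] at this
  norm_num at this

theorem dc4c : DC4c := by
  intro a K hK hs hp
  -- split `Fgam k a 0 J = G J - k * D J`
  set e : E2 := dnor a with he
  set e' : E2 := rot (-a) (bv 1) with he'
  set G : Jet → ℝ := fun J => (dbil J.2 e' e' e - dbil J.2 e e' e' / 2) * bil J.1 e' e'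
    - dbil J.2 e' e' e' / 2 * bil J.1 e e' with hG
  set D : Jet → ℝ := fun J => bil J.1 e e * bil J.1 e' e' - bil J.1 e e' ^ 2 with hD
  have hF : ∀ k J, Fgam k a 0 J = G J - k * D J := by
    intro k J
    simp only [Fgam, dlev_zero, hG, hD, ← he, ← he']
  have hJ1 : Continuous (fun J : Jet => J.1) := continuous_fst
  have hJ2 : Continuous (fun J : Jet => J.2) := continuous_snd
  have c (v : E2) : Continuous (fun _ : Jet => v) := continuous_const
  have hGc : Continuous G := by
    have t1 := continuous_dbil hJ2 (c e') (c e') (c e)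
    have t2 := continuous_dbil hJ2 (c e) (c e') (c e')
    have t3 := continuous_dbil hJ2 (c e') (c e') (c e')
    have t4 := continuous_bil hJ1 (c e') (c e')
    have t5 := continuous_bil hJ1 (c e) (c e')
    exact ((t1.sub (t2.div_const 2)).mul t4).sub ((t3.div_const 2).mul t5)
  have hDc : Continuous D := by
    have t4 := continuous_bil hJ1 (c e') (c e')
    have t5 := continuous_bil hJ1 (c e) (c e')
    have t6 := continuous_bil hJ1 (c e) (c e)
    exact (t6.mul t4).sub (t5.pow 2)
  have hDpos : ∀ J ∈ K, 0 < D J := fun J hJ =>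
    gram_pos (hs J hJ) (hp J hJ) (norm_ne_zero_rot a) (dnor_ne_smul a)
  by_cases hKe : K.Nonempty
  · obtain ⟨J1, hJ1K, hJ1min⟩ := hK.exists_isMinOn hKe hDc.continuousOn
    obtain ⟨J2, hJ2K, hJ2max⟩ := hK.exists_isMaxOn hKe hGc.abs.continuousOn
    have hd : 0 < D J1 := hDpos J1 hJ1K
    refine ⟨(|G J2| + 1) / D J1, by positivity, ?_⟩
    intro k hk J hJ
    rw [hF]
    have h1 : D J1 ≤ D J := hJ1min hJ
    have h2 : |G J| ≤ |G J2| := hJ2max hJ
    have h3 : |G J2| + 1 ≤ k * D J1 := by
      rwa [div_le_iff₀ hd] at hk
    have hk0 : 0 ≤ k := le_trans (by positivity) hk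
    have h4 : k * D J1 ≤ k * D J := mul_le_mul_of_nonneg_left h1 hk0
    have h5 := le_abs_self (G J)
    linarith
  · refine ⟨1, one_pos, ?_⟩
    intro k _ J hJ
    exact (hKe ⟨J, hJ⟩).elim

end Crest.Agent.R216.Dec
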