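import Crest.Agent.R216.DecIface

/-!
Row 216, part (6), module DC5 (helper710): jets of the partial sums, combinatorics of the
repeated list.
-/

set_option autoImplicit false
open scoped Manifold ContDiff Topology
open Set

noncomputable section
namespace Crest.Agent.R216.Dec

private theorem exists_unif_bound {ι : Type*} [Fintype ι] {F : Type*} [NormedAddCommGroup F]
    {K : Set E2} (hK : IsCompact K) (f : ι → E2 → F) (hf : ∀ i, ContinuousOn (f i) K) :
    ∃ C : ℝ, 0 ≤ C ∧ ∀ i, ∀ z ∈ K, ‖f i z‖ ≤ C := by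
  choose C hC using fun i => hK.exists_bound_of_continuousOn (hf i)
  refine ⟨∑ i, |C i|, Finset.sum_nonneg fun i _ => abs_nonneg _, fun i z hz => ?_⟩
  calc ‖f i z‖ ≤ C i := hC i z hz
    _ ≤ |C i| := le_abs_self _
    _ ≤ ∑ i, |C i| := Finset.single_le_sum (f := fun i => |C i|) (fun i _ => abs_nonneg _)
        (Finset.mem_univ i)

theorem dc5a : DC5a := by
  intro D K L hD hK hKD hL
  -- uniform bounds for the coefficients and their derivatives
  obtain ⟨C0, hC0, hb0⟩ := exists_unif_bound (ι := Fin 2 × Fin 2 × Fin 2 × Fin 2) hK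
    (fun i z => L z i.1 i.2.1 i.2.2.1 i.2.2.2)
    (fun i => ((hL i.1 i.2.1 i.2.2.1 i.2.2.2).continuousOn).mono hKD)
  obtain ⟨C1, hC1, hb1⟩ := exists_unif_bound (ι := Fin 2 × Fin 2 × Fin 2 × Fin 2) hK
    (fun i z => fderiv ℝ (fun z => L z i.1 i.2.1 i.2.2.1 i.2.2.2) z)
    (fun i => (((hL i.1 i.2.1 i.2.2.1 i.2.2.2).continuousOn_fderiv_of_isOpen hD
      (by simp))).mono hKD)
  refine ⟨4 * (C0 + C1) + 1, by positivity, ?_⟩
  intro b hb z hz
  have hzD : z ∈ D := hKD hz
  set J : Jet := (b z, fun i j => fderiv ℝ (fun z => b z i j) z) with hJ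
  have hN : 0 ≤ ‖J‖ := norm_nonneg _
  have h1 : ∀ k l, ‖b z k l‖ ≤ ‖J‖ := by
    intro k l
    calc ‖b z k l‖ ≤ ‖b z k‖ := norm_le_pi_norm (b z k) l
      _ ≤ ‖b z‖ := norm_le_pi_norm (b z) k
      _ ≤ ‖J‖ := norm_fst_le J
  have h2 : ∀ k l, ‖fderiv ℝ (fun z => b z k l) z‖ ≤ ‖J‖ := by
    intro k l
    calc ‖fderiv ℝ (fun z => b z k l) z‖ ≤ ‖fun l => fderiv ℝ (fun z => b z k l) z‖ :=
          norm_le_pi_norm (fun l => fderiv ℝ (fun z => b z k l) z) l
      _ ≤ ‖fun k l => fderiv ℝ (fun z => b z k l) z‖ :=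
          norm_le_pi_norm (fun k l => fderiv ℝ (fun z => b z k l) z) k
      _ ≤ ‖J‖ := norm_snd_le J
  have hLd : ∀ i j k l, DifferentiableAt ℝ (fun z => L z i j k l) z := fun i j k l =>
    ((hL i j k l).contDiffAt (hD.mem_nhds hzD)).differentiableAt (by simp)
  have e0 : ∀ i j k l, ‖L z i j k l * b z k l‖ ≤ C0 * ‖J‖ := by
    intro i j k l
    rw [norm_mul]
    exact mul_le_mul (hb0 (i, j, k, l) z hz) (h1 k l) (norm_nonneg _) hC0
  have hfd : ∀ i j k l, HasFDerivAt (fun z => L z i j k l * b z k l)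
      (L z i j k l • fderiv ℝ (fun z => b z k l) z
        + b z k l • fderiv ℝ (fun z => L z i j k l) z) z := fun i j k l =>
    (hLd i j k l).hasFDerivAt.mul (hb k l z hzD).hasFDerivAt
  have e1 : ∀ i j k l, ‖L z i j k l • fderiv ℝ (fun z => b z k l) z
        + b z k l • fderiv ℝ (fun z => L z i j k l) z‖ ≤ (C0 + C1) * ‖J‖ := by
    intro i j k l
    refine (norm_add_le _ _).trans ?_
    rw [norm_smul, norm_smul, add_mul]
    refine add_le_add ?_ ?_
    · exact mul_le_mul (hb0 (i, j, k, l) z hz) (h2 k l) (norm_nonneg _) hC0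
    · rw [mul_comm]
      exact mul_le_mul (hb1 (i, j, k, l) z hz) (h1 k l) (norm_nonneg _) hC1
  have hsum : ∀ i j, HasFDerivAt (fun z => ∑ k, ∑ l, L z i j k l * b z k l)
      (∑ k, ∑ l, (L z i j k l • fderiv ℝ (fun z => b z k l) z
        + b z k l • fderiv ℝ (fun z => L z i j k l) z)) z := by
    intro i j
    refine HasFDerivAt.fun_sum fun k _ => HasFDerivAt.fun_sum fun l _ => hfd i j k l
  rw [Prod.norm_def]
  apply max_le
  · show ‖(fun i j => ∑ k, ∑ l, L z i j k l * b z k l : Fin 2 → Fin 2 → ℝ)‖ ≤ _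
    have hnn : 0 ≤ (4 * (C0 + C1) + 1) * ‖J‖ := by positivity
    refine (pi_norm_le_iff_of_nonneg hnn).2 fun i => (pi_norm_le_iff_of_nonneg hnn).2 fun j => ?_
    calc ‖∑ k, ∑ l, L z i j k l * b z k l‖ ≤ ∑ k : Fin 2, ∑ l : Fin 2, C0 * ‖J‖ := by
          refine norm_sum_le_of_le _ fun k _ => norm_sum_le_of_le _ fun l _ => e0 i j k l
      _ = 4 * C0 * ‖J‖ := by simp; ring
      _ ≤ (4 * (C0 + C1) + 1) * ‖J‖ := by gcongr; linarith
  · show ‖(fun i j => fderiv ℝ (fun z => ∑ k, ∑ l, L z i j k l * b z k l) z :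
      Fin 2 → Fin 2 → (E2 →L[ℝ] ℝ))‖ ≤ _
    have hnn : 0 ≤ (4 * (C0 + C1) + 1) * ‖J‖ := by positivity
    refine (pi_norm_le_iff_of_nonneg hnn).2 fun i => (pi_norm_le_iff_of_nonneg hnn).2 fun j => ?_
    rw [(hsum i j).fderiv]
    calc _ ≤ ∑ k : Fin 2, ∑ l : Fin 2, (C0 + C1) * ‖J‖ := by
          refine norm_sum_le_of_le _ fun k _ => norm_sum_le_of_le _ fun l _ => e1 i j k l
      _ = 4 * (C0 + C1) * ‖J‖ := by simp; ring
      _ ≤ (4 * (C0 + C1) + 1) * ‖J‖ := by gcongr; linarith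

theorem dc5b : DC5b := by
  intro n Q a s q m
  have hval : ∀ (s' : Fin n) (q' : Fin Q) (m' : Fin 3),
      ((finProdFinEquiv (s', finProdFinEquiv (q', m')) : Fin (n * (Q * 3))) : ℕ)
        = m'.1 + 3 * q'.1 + (Q * 3) * s'.1 := by
    intro s' q' m'
    simp [finProdFinEquiv]
  -- reindex the sum
  have h1 : (∑ j : Fin (n * (Q * 3)), if j.1 < (finProdFinEquiv (s, finProdFinEquiv (q, m)) :
        Fin (n * (Q * 3))).1 then a (finProdFinEquiv.symm (finProdFinEquiv.symm j).2).1
          (finProdFinEquiv.symm (finProdFinEquiv.symm j).2).2 else 0)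
      = ∑ s' : Fin n, ∑ q' : Fin Q, ∑ m' : Fin 3,
        if m'.1 + 3 * q'.1 + (Q * 3) * s'.1 < m.1 + 3 * q.1 + (Q * 3) * s.1 then a q' m' else 0 := by
    rw [← (finProdFinEquiv (m := n) (n := Q * 3)).sum_comp, Fintype.sum_prod_type]
    refine Finset.sum_congr rfl fun s' _ => ?_
    rw [← (finProdFinEquiv (m := Q) (n := 3)).sum_comp, Fintype.sum_prod_type]
    refine Finset.sum_congr rfl fun q' _ => Finset.sum_congr rfl fun m' _ => ?_
    rw [hval, hval]
    simp only [Equiv.symm_apply_apply]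
  rw [h1]
  have hQ : 0 < Q := Nat.pos_of_ne_zero (by rintro rfl; exact q.elim0)
  -- the lexicographic order
  have hlex : ∀ (s' : Fin n) (q' : Fin Q) (m' : Fin 3),
      (if m'.1 + 3 * q'.1 + (Q * 3) * s'.1 < m.1 + 3 * q.1 + (Q * 3) * s.1 then a q' m' else 0)
        = (if s' < s then a q' m' else 0) + (if s' = s then (if q' < q then a q' m' else 0) else 0)
          + (if s' = s then (if q' = q then (if m' < m then a q' m' else 0) else 0) else 0) := by
    intro s' q' m'
    have hm' := m'.2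
    have hm := m.2
    have hq' := q'.2
    have hq := q.2
    rcases lt_trichotomy s' s with hs | hs | hs
    · have hlt : s'.1 + 1 ≤ s.1 := hs
      have : (Q * 3) * (s'.1 + 1) ≤ (Q * 3) * s.1 := Nat.mul_le_mul_left _ hlt
      have hc : m'.1 + 3 * q'.1 + (Q * 3) * s'.1 < m.1 + 3 * q.1 + (Q * 3) * s.1 := by
        rw [mul_add] at this; omega
      rw [if_pos hc, if_pos hs, if_neg hs.ne, if_neg hs.ne]; ring
    · subst hs
      rw [if_neg (lt_irrefl _), if_pos rfl, if_pos rfl]
      rcases lt_trichotomy q' q with hqq | hqq | hqq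
      · have hlt : q'.1 + 1 ≤ q.1 := hqq
        rw [if_pos (by omega), if_pos hqq, if_neg hqq.ne]; ring
      · subst hqq
        rw [if_neg (lt_irrefl _), if_pos rfl]
        by_cases hmm : m' < m
        · have : m'.1 < m.1 := hmm
          rw [if_pos (by omega), if_pos hmm]; ring
        · have : ¬ m'.1 < m.1 := hmm
          rw [if_neg (by omega), if_neg hmm]; ring
      · have hlt : q.1 + 1 ≤ q'.1 := hqq
        rw [if_neg (by omega), if_neg (not_lt.2 hqq.le), if_neg hqq.ne']; ring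
    · have hlt : s.1 + 1 ≤ s'.1 := hs
      have : (Q * 3) * (s.1 + 1) ≤ (Q * 3) * s'.1 := Nat.mul_le_mul_left _ hlt
      have hc : ¬ (m'.1 + 3 * q'.1 + (Q * 3) * s'.1 < m.1 + 3 * q.1 + (Q * 3) * s.1) := by
        rw [mul_add] at this; omega
      rw [if_neg hc, if_neg (not_lt.2 hs.le), if_neg hs.ne', if_neg hs.ne']; ring
  simp only [hlex, Finset.sum_add_distrib]
  refine congrArg₂ (· + ·) (congrArg₂ (· + ·) ?_ ?_) ?_
  · -- full rounds
    have : ∀ s' : Fin n, (∑ q' : Fin Q, ∑ m' : Fin 3, if s' < s then a q' m' else 0)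
        = if s' < s then ∑ q', ∑ m', a q' m' else 0 := by
      intro s'
      split_ifs
      · rfl
      · simp
    simp only [this]
    rw [← Finset.sum_filter, Finset.sum_const, nsmul_eq_mul]
    congr 2
    have : (Finset.univ.filter fun x : Fin n => x < s) = Finset.Iio s := by ext; simp
    rw [this, Fin.card_Iio]
  · rw [Finset.sum_eq_single s]
    · simp only [if_true]
      refine Finset.sum_congr rfl fun q' _ => ?_
      split_ifs
      · rfl
      · simp
    · intro s' _ hs'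
      simp [hs']
    · simp
  · rw [Finset.sum_eq_single s]
    · simp only [if_true]
      rw [Finset.sum_eq_single q]
      · simp
      · intro q' _ hq'
        simp [hq']
      · simp
    · intro s' _ hs'
      simp [hs']
    · simp

theorem dc5c : DC5c := by
  intro n Q a
  rw [← (finProdFinEquiv (m := n) (n := Q * 3)).sum_comp, Fintype.sum_prod_type]
  have : ∀ s' : Fin n, (∑ y : Fin (Q * 3),
      a (finProdFinEquiv.symm (finProdFinEquiv.symm (finProdFinEquiv (s', y))).2).1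
        (finProdFinEquiv.symm (finProdFinEquiv.symm (finProdFinEquiv (s', y))).2).2)
      = ∑ q', ∑ m', a q' m' := by
    intro s'
    rw [← (finProdFinEquiv (m := Q) (n := 3)).sum_comp, Fintype.sum_prod_type]
    refine Finset.sum_congr rfl fun q' _ => Finset.sum_congr rfl fun m' _ => ?_
    simp only [Equiv.symm_apply_apply]
  simp only [this, Finset.sum_const, Finset.card_univ, Fintype.card_fin, nsmul_eq_mul]

end Crest.Agent.R216.Dec
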