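import Crest.Agent.R216.DecDefs

/-!
Row 216 (S0335), part (6) = `DecompStatement`: FROZEN INTERFACE (helper321).
Every `def DC… : Prop` is one module; prove `theorem dc… : DC…` (sorry-free) in the file named in
the comment.  The assembly `DecompStatement` from these Props is `DecMain.lean` (helper321).
-/

set_option autoImplicit false
open scoped Manifold ContDiff Topology
open Set

noncomputable section
namespace Crest.Agent.R216.Dec

/-! ### DC1 (linear algebra; file DC1.lean) -/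

/-- three angles with positive Cramer coefficients at the centre `z = 0` -/
def DC1a : Prop :=
  ∀ b : Fin 2 → Fin 2 → ℝ, b 0 1 = b 1 0 → 0 < b 0 0 → 0 < b 0 0 * b 1 1 - b 0 1 ^ 2 →
    ∃ α : Fin 3 → ℝ, ∀ k : ℝ, ∀ m, wedge (cov k (α m) 0) (cov k (α (m + 1)) 0) ≠ 0 ∧
      0 < cC (fun l => cov k (α l) 0) b m

/-- Cramer identity -/
def DC1b : Prop :=
  ∀ (c : Fin 3 → Fin 2 → ℝ) (b : Fin 2 → Fin 2 → ℝ), b 0 1 = b 1 0 →
    (∀ m, wedge (c m) (c (m + 1)) ≠ 0) → ∀ i j, b i j = ∑ m, cC c b m * c m i * c m j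

/-- joint continuity of the Cramer coefficients -/
def DC1c : Prop :=
  ∀ (k : ℝ) (α : Fin 3 → ℝ) (z : E2) (b : Fin 2 → Fin 2 → ℝ) (m : Fin 3),
    (∀ l, wedge (cov k (α l) z) (cov k (α (l + 1)) z) ≠ 0) →
    ContinuousAt (fun q : (Fin 3 → ℝ) × E2 × (Fin 2 → Fin 2 → ℝ) =>
      cC (fun l => cov k (q.1 l) q.2.1) q.2.2 m) (α, z, b)

/-- smoothness of the Cramer coefficients -/
def DC1d : Prop :=
  ∀ (k : ℝ) (α : Fin 3 → ℝ) (b : E2 → Fin 2 → Fin 2 → ℝ) (z : E2) (m : Fin 3),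
    (∀ l, wedge (cov k (α l) z) (cov k (α (l + 1)) z) ≠ 0) →
    (∀ i j, ContDiffAt ℝ ∞ (fun z => b z i j) z) →
    ContDiffAt ℝ ∞ (fun z => cC (fun l => cov k (α l) z) (b z) m) z

section

/-! ### DC2 (stages of a patch; file DC2.lean) -/

/-- existence of the stage -/
def DC2a (M : Type*) [TopologicalSpace M] [ChartedSpace E2 M] [IsManifold (𝓡 2) ∞ M] : Prop :=
  ∀ (P : Patch M) (a r : ℝ), 0 < r → r < 2 * P.R → ∃ S : Stage M, IsStage P a r S

/-- geometry of the stage -/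
def DC2b (M : Type*) [TopologicalSpace M] [ChartedSpace E2 M] [IsManifold (𝓡 2) ∞ M] : Prop :=
  ∀ (P : Patch M) (a r : ℝ) (S : Stage M), 0 < r → r < 2 * P.R → IsStage P a r S →
    S.U = {y | ‖thetaInv P.κ y‖ < r} ∧ closure S.U = {y | ‖thetaInv P.κ y‖ ≤ r} ∧
    S.V = P.disc r ∧ S.circ = P.circ r

/-- differential of the phase -/
def DC2c (M : Type*) [TopologicalSpace M] [ChartedSpace E2 M] [IsManifold (𝓡 2) ∞ M] : Prop :=
  ∀ (P : Patch M) (a r : ℝ) (S : Stage M), IsStage P a r S → ∀ p ∈ P.w.source,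
    ∀ v : TangentSpace (𝓡 2) p,
      S.dphi p v = dph P.κ a (P.w p) (mfderiv (𝓡 2) 𝓘(ℝ, E2) P.w p v)

/-- amplitude -/
def DC2d (M : Type*) [TopologicalSpace M] [ChartedSpace E2 M] [IsManifold (𝓡 2) ∞ M] : Prop :=
  ∀ (P : Patch M) (a r : ℝ) (S : Stage M), IsStage P a r S → ∀ (β : E2 → ℝ) (p : M),
    S.amp β p ^ 2 = P.bump r p * β (S.ψ p) ^ 2

/-- phase differential on the level direction of another stage -/
def DC2e (M : Type*) [TopologicalSpace M] [ChartedSpace E2 M] [IsManifold (𝓡 2) ∞ M] : Prop :=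
  ∀ (P P' : Patch M) (a r a' r' : ℝ) (S S' : Stage M), IsStage P a r S → IsStage P' a' r' S' →
    ∀ p ∈ P.w.source, p ∈ P'.w.source →
      S.dphi p (S'.lev p) = dph P.κ a (P.w p)
        (fderiv ℝ (P.w ∘ P'.w.symm) (P'.w p) (dlev P'.κ a' (P'.w p)))

/-- planar picture of a set in the chart of the stage -/
def DC2f (M : Type*) [TopologicalSpace M] [ChartedSpace E2 M] [IsManifold (𝓡 2) ∞ M] : Prop :=
  ∀ (P : Patch M) (a r : ℝ) (S : Stage M), 0 < r → r < 2 * P.R → IsStage P a r S →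
    ∀ (X : Set M) (y : E2), y ∈ closure S.U ∩ S.ψ '' (X ∩ S.ψ.source) →
      phsInv P.κ a y ∈ Metric.closedBall (0 : E2) r ∩ P.w '' (X ∩ P.w.source)

/-! ### DC3 (coefficient calculus; files DC3A.lean, DC3B.lean) -/

/-- smoothness of the coefficients of `g` -/
def DC3a (M : Type*) [TopologicalSpace M] [ChartedSpace E2 M] [IsManifold (𝓡 2) ∞ M] : Prop :=
  ∀ (g : Bundle.ContMDiffRiemannianMetric (𝓡 2) ∞ E2 (TangentSpace (𝓡 2) : M → Type)),
    ∀ w ∈ IsManifold.maximalAtlas (𝓡 2) ∞ M, ∀ v v' : E2,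
      ContDiffOn ℝ ∞ (coef (gT g) w v v') w.target

/-- coefficients of a pulled back metric -/
def DC3b (M : Type*) [TopologicalSpace M] [ChartedSpace E2 M] [IsManifold (𝓡 2) ∞ M] : Prop :=
  ∀ (f : M → E4), ContMDiff (𝓡 2) 𝓘(ℝ, E4) ∞ f → ∀ w ∈ IsManifold.maximalAtlas (𝓡 2) ∞ M,
    (∀ v v' : E2, ContDiffOn ℝ ∞ (coef (pull f) w v v') w.target) ∧
    ∀ z ∈ w.target, ∀ v v' : E2, coef (pull f) w v v' z =
      inner ℝ (fderiv ℝ (f ∘ w.symm) z v) (fderiv ℝ (f ∘ w.symm) z v')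

/-- jets of metrics in the class are close in adapted patches -/
def DC3c (M : Type*) [TopologicalSpace M] [ChartedSpace E2 M] [IsManifold (𝓡 2) ∞ M] : Prop :=
  ∀ (A : FinAtlas M) (P : Patch M) (hs h : Tens M) (η : ℝ), P.Adapted A → InClass A hs η h →
    ∀ z ∈ Metric.closedBall (0 : E2) (2 * P.R), ‖jet h P.w z - jet hs P.w z‖ ≤ η

/-- a fibrewise bilinear tensor is determined by its matrix -/
def DC3d (M : Type*) [TopologicalSpace M] [ChartedSpace E2 M] [IsManifold (𝓡 2) ∞ M] : Prop :=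
  ∀ (h : Tens M), (∀ p, ∃ B : TangentSpace (𝓡 2) p →ₗ[ℝ] TangentSpace (𝓡 2) p →ₗ[ℝ] ℝ,
      ∀ v w, h p v w = B v w) →
    ∀ w ∈ IsManifold.maximalAtlas (𝓡 2) ∞ M, ∀ p ∈ w.source, ∀ v v' : TangentSpace (𝓡 2) p,
      h p v v' = bil (mat h w (w p)) (mfderiv (𝓡 2) 𝓘(ℝ, E2) w p v)
        (mfderiv (𝓡 2) 𝓘(ℝ, E2) w p v')

/-- coefficients of a tensor which is given by a matrix in the chart -/
def DC3e (M : Type*) [TopologicalSpace M] [ChartedSpace E2 M] [IsManifold (𝓡 2) ∞ M] : Prop :=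
  ∀ (h : Tens M), ∀ w ∈ IsManifold.maximalAtlas (𝓡 2) ∞ M, ∀ (b : E2 → Fin 2 → Fin 2 → ℝ),
    (∀ p ∈ w.source, ∀ v v' : TangentSpace (𝓡 2) p, h p v v' =
      bil (b (w p)) (mfderiv (𝓡 2) 𝓘(ℝ, E2) w p v) (mfderiv (𝓡 2) 𝓘(ℝ, E2) w p v')) →
    ∀ z ∈ w.target, ∀ v v' : E2, coef h w v v' z = bil (b z) v v'

/-! ### DC4 (gam; file DC4.lean) -/

/-- the formula for `gam` -/
def DC4a (M : Type*) [TopologicalSpace M] [ChartedSpace E2 M] [IsManifold (𝓡 2) ∞ M] : Prop :=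
  ∀ (P : Patch M) (a r : ℝ) (S : Stage M), 0 < r → r < 2 * P.R → IsStage P a r S →
    ∀ f : M → E4, ContMDiff (𝓡 2) 𝓘(ℝ, E4) ∞ f → ∀ y ∈ closure S.U,
      gam (f ∘ S.ψ.symm) y =
        Fgam P.κ a (phsInv P.κ a y) (jet (pull f) P.w (phsInv P.κ a y))

end

/-- continuity of `Fgam` -/
def DC4b : Prop :=
  ∀ k : ℝ, Continuous (fun q : ℝ × E2 × Jet => Fgam k q.1 q.2.1 q.2.2)

/-- at the centre, `Fgam < 0` for large `k`, uniformly on compact sets of jets with positive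
definite value -/
def DC4c : Prop :=
  ∀ (a : ℝ) (K : Set Jet), IsCompact K →
    (∀ J ∈ K, ∀ v w : E2, bil J.1 v w = bil J.1 w v) → (∀ J ∈ K, ∀ v : E2, v ≠ 0 → 0 < bil J.1 v v) →
    ∃ k0 : ℝ, 0 < k0 ∧ ∀ k, k0 ≤ k → ∀ J ∈ K, Fgam k a 0 J < 0

section

/-! ### DCL (local patch; file DCL.lean) -/

/-- existence of good patches -/
def DCL (M : Type*) [TopologicalSpace M] [ChartedSpace E2 M] [IsManifold (𝓡 2) ∞ M] : Prop :=
  ∀ (g : Bundle.ContMDiffRiemannianMetric (𝓡 2) ∞ E2 (TangentSpace (𝓡 2) : M → Type))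
    (A : FinAtlas M) (fs : M → E4), ContMDiff (𝓡 2) 𝓘(ℝ, E4) ∞ fs →
    (∀ (p : M) (v : TangentSpace (𝓡 2) p), v ≠ 0 →
      0 < pull fs p v v ∧ pull fs p v v < g.inner p v v) →
    ∀ p : M, ∃ P : Patch M, P.Adapted A ∧ P.Good (gT g) (pull fs) ∧ p ∈ P.disc P.R

/-! ### DCP (partition; file DCP.lean) -/

/-- the bump of a patch is smooth, nonnegative, and positive exactly on the disc -/
def DCPa (M : Type*) [TopologicalSpace M] [ChartedSpace E2 M] [IsManifold (𝓡 2) ∞ M] [T2Space M] : Prop :=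
  ∀ (P : Patch M) (r : ℝ), 0 < r → r < 2 * P.R →
    ContMDiff (𝓡 2) 𝓘(ℝ, ℝ) ∞ (P.bump r) ∧ (∀ p, 0 ≤ P.bump r p) ∧
      (∀ p, 0 < P.bump r p ↔ p ∈ P.disc r)

/-! ### DC6 (general position; file DecGen.lean, helper609) -/

/-- generic radii and angles -/
def DC6 (M : Type*) [TopologicalSpace M] [ChartedSpace E2 M] [IsManifold (𝓡 2) ∞ M] [T2Space M] [CompactSpace M] : Prop :=
  ∀ (Q : ℕ) (P : Fin Q → Patch M), ∃ (rr : Fin Q → ℝ) (α : Fin Q → Fin 3 → ℝ),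
    (∀ q, (P q).R < rr q ∧ rr q < 2 * (P q).R) ∧ (∀ q m, |α q m - (P q).A m| < (P q).δ) ∧
    -- finite intersections
    (∀ q q', q ≠ q' → ((P q).circ (rr q) ∩ (P q').circ (rr q')).Finite) ∧
    -- transversal level directions at crossing points
    (∀ q q' q'', q ≠ q' → q' ≠ q'' → ∀ m m', ∀ p, p ∈ (P q').circ (rr q') →
      p ∈ (P q'').circ (rr q'') → p ∈ (P q).disc (rr q) →
      dph (P q).κ (α q m) ((P q).w p) (fderiv ℝ ((P q).w ∘ (P q').w.symm) ((P q').w p)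
        (dlev (P q').κ (α q' m') ((P q').w p))) ≠ 0) ∧
    -- thinness (including the own circle `q = q'`)
    (∀ q q', ∀ m, ∀ a : ℝ, MeasureTheory.volume {b : ℝ |
      phsInv (P q).κ (α q m) (a • bv 0 + b • bv 1) ∈ Metric.closedBall (0 : E2) (rr q) ∩
        (P q).w '' ((P q').circ (rr q') ∩ (P q).w.source)} = 0)

end

/-! ### DCX (extension lemma; file DCX.lean) -/

/-- positive smooth extension -/
def DCX : Prop :=
  ∀ (D K : Set E2) (b0 : E2 → ℝ), IsOpen D → IsCompact K → K ⊆ D → ContDiffOn ℝ ∞ b0 D →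
    (∀ y ∈ D, 0 < b0 y) → ∃ β : E2 → ℝ, ContDiff ℝ ∞ β ∧ (∀ y, 0 < β y) ∧ ∀ y ∈ K, β y = b0 y

/-! ### DC5 (jets of the partial sums; file DC5.lean) -/

/-- linear operators with smooth coefficients are bounded on 1-jets, uniformly on compact sets;
`L z i j k l` are the coefficients. -/
def DC5a : Prop :=
  ∀ (D K : Set E2) (L : E2 → Fin 2 → Fin 2 → Fin 2 → Fin 2 → ℝ), IsOpen D → IsCompact K → K ⊆ D →
    (∀ i j k l, ContDiffOn ℝ ∞ (fun z => L z i j k l) D) →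
    ∃ C : ℝ, 0 < C ∧ ∀ b : E2 → Fin 2 → Fin 2 → ℝ,
      (∀ i j, ∀ z ∈ D, DifferentiableAt ℝ (fun z => b z i j) z) → ∀ z ∈ K,
      ‖((fun i j => ∑ k, ∑ l, L z i j k l * b z k l,
          fun i j => fderiv ℝ (fun z => ∑ k, ∑ l, L z i j k l * b z k l) z) : Jet)‖
        ≤ C * ‖((b z, fun i j => fderiv ℝ (fun z => b z i j) z) : Jet)‖

/-- combinatorics of the repeated list: `j = m + 3 q + 3 Q s` -/
def DC5b : Prop :=
  ∀ (n Q : ℕ) (a : Fin Q → Fin 3 → ℝ) (s : Fin n) (q : Fin Q) (m : Fin 3),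
    (∑ j : Fin (n * (Q * 3)), if j.1 < (finProdFinEquiv (s, finProdFinEquiv (q, m)) :
        Fin (n * (Q * 3))).1 then a (finProdFinEquiv.symm (finProdFinEquiv.symm j).2).1
          (finProdFinEquiv.symm (finProdFinEquiv.symm j).2).2 else 0) =
      s.1 * (∑ q', ∑ m', a q' m') + (∑ q', if q' < q then ∑ m', a q' m' else 0) +
        ∑ m', if m' < m then a q m' else 0

/-- total sum of the repeated list -/
def DC5c : Prop :=
  ∀ (n Q : ℕ) (a : Fin Q → Fin 3 → ℝ),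
    (∑ j : Fin (n * (Q * 3)), a (finProdFinEquiv.symm (finProdFinEquiv.symm j).2).1
          (finProdFinEquiv.symm (finProdFinEquiv.symm j).2).2) = n * (∑ q', ∑ m', a q' m')

end Crest.Agent.R216.Dec
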