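import Crest.Agent.R216.DecGen
import Crest.Agent.R216.DecIface

/-!
Row 216, part (6): `DC6` from `exists_genpos` (helper609).
-/

set_option autoImplicit false
open scoped Manifold ContDiff Topology
open Set

noncomputable section
namespace Crest.Agent.R216.Dec

lemma rot_eq (a : ℝ) (z : E2) : rot a z = Crest.Agent.R216.rot a z := rfl

lemma phsInv_eq_par (κ a c b : ℝ) :
    phsInv κ a (c • bv 0 + b • bv 1) = Crest.Agent.R216.par κ a c b := by
  have h0 : (c • bv 0 + b • bv 1 : E2) 0 = c := by simp [bv]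
  have h1 : (c • bv 0 + b • bv 1 : E2) 1 = b := by simp [bv]
  unfold phsInv thetaInv Crest.Agent.R216.par
  rw [h0, h1, rot_eq]
  rfl

lemma dph_eq (k a : ℝ) (z v : E2) : dph k a z v = Crest.Agent.R216.dph k a z v := rfl

lemma dlev_eq (k a : ℝ) (z : E2) : dlev k a z = Crest.Agent.R216.dlev k a z := by
  unfold dlev Crest.Agent.R216.dlev
  rw [rot_eq, rot_eq, one_smul]
  rfl

variable {M : Type*} [TopologicalSpace M] [ChartedSpace E2 M]

lemma circ_eq (P : Patch M) (r : ℝ) : P.circ r = Crest.Agent.R216.circ P.w r := rfl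

theorem dc6 (M : Type*) [TopologicalSpace M] [ChartedSpace E2 M] [IsManifold (𝓡 2) ∞ M]
    [T2Space M] [CompactSpace M] : DC6 M := by
  intro Q P
  obtain ⟨δ, hδ, hδP⟩ : ∃ δ : ℝ, 0 < δ ∧ ∀ q, δ ≤ (P q).δ := by
    rcases isEmpty_or_nonempty (Fin Q) with h | h
    · exact ⟨1, one_pos, fun q => (h.false q).elim⟩
    · obtain ⟨q0, hq0⟩ := Finite.exists_min (fun q => (P q).δ)
      exact ⟨(P q0).δ, (P q0).hδ, hq0⟩
  obtain ⟨r, α, hr, hα, hfin, htr, hthin, -⟩ := exists_genpos (fun q => (P q).w)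
    (fun q => (P q).hw) (fun q => (P q).R) (fun q => (P q).hR) (fun q => (P q).sub)
    (fun q => (P q).κ) (fun q => (P q).hκ.le) (fun q => (P q).hκR) (fun q => (P q).A) hδ
  refine ⟨r, α, hr, fun q m => (hα q m).trans_le (hδP q), hfin, ?_, ?_⟩
  · intro q q' q'' h1 h2 m m' p hp' hp'' hp
    obtain ⟨y, hy, rfl⟩ := hp
    have hyr : ‖y‖ < r q := by simpa using hy
    have hyt : y ∈ (P q).w.target := (P q).sub (by
      rw [mem_closedBall_zero_iff]; linarith [(hr q).2])
    have hsrc : (P q).w.symm y ∈ (P q).w.source := (P q).w.map_target hyt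
    have hn : ‖(P q).w ((P q).w.symm y)‖ ≤ r q := by
      rw [(P q).w.right_inv hyt]; exact hyr.le
    have h := htr q q' q'' m m' h1 h2 _ ⟨hp', hp''⟩ hsrc hn
    rw [dph_eq, dlev_eq]
    exact h
  · intro q q' m a
    have := hthin q q' m a
    simp only [phsInv_eq_par]
    exact this

end Crest.Agent.R216.Dec
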