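import Crest.Agent.R216.DecIface
import Crest.Agent.R216.GlobCoef

/-!
Row 216, part (6), module DCL: existence of good patches.
-/

set_option autoImplicit false
open scoped Manifold ContDiff Topology
open Set

noncomputable section
namespace Crest.Agent.R216.Dec

namespace L

section
variable {M : Type*} [TopologicalSpace M]

/-- translate of a chart -/
def transl (χ : OpenPartialHomeomorph M E2) (x0 : E2) : OpenPartialHomeomorph M E2 :=
  χ.trans (Homeomorph.addLeft x0).symm.toOpenPartialHomeomorph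

lemma transl_apply (χ : OpenPartialHomeomorph M E2) (x0 : E2) (p : M) :
    transl χ x0 p = χ p - x0 := by
  have : transl χ x0 p = -x0 + χ p := rfl
  rw [this]; abel

lemma transl_symm_apply (χ : OpenPartialHomeomorph M E2) (x0 y : E2) :
    (transl χ x0).symm y = χ.symm (x0 + y) := rfl

lemma transl_source (χ : OpenPartialHomeomorph M E2) (x0 : E2) :
    (transl χ x0).source = χ.source := by simp [transl]

lemma mem_transl_target (χ : OpenPartialHomeomorph M E2) (x0 y : E2) :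
    y ∈ (transl χ x0).target ↔ x0 + y ∈ χ.target := by simp [transl]

lemma transl_mem [ChartedSpace E2 M] [IsManifold (𝓡 2) ∞ M] {χ : OpenPartialHomeomorph M E2}
    (hχ : χ ∈ IsManifold.maximalAtlas (𝓡 2) ∞ M) (x0 : E2) :
    transl χ x0 ∈ IsManifold.maximalAtlas (𝓡 2) ∞ M := by
  rw [IsManifold.mem_maximalAtlas_iff_contMDiffOn]
  constructor
  · rw [transl_source]
    have h1 : ContMDiff (𝓡 2) (𝓡 2) ∞ (fun z : E2 => z - x0) :=
      (contDiff_id.sub contDiff_const).contMDiff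
    exact (h1.comp_contMDiffOn (contMDiffOn_of_mem_maximalAtlas hχ)).congr
      fun p _ => transl_apply χ x0 p
  · have h1 : ContMDiff (𝓡 2) (𝓡 2) ∞ (fun z : E2 => x0 + z) :=
      (contDiff_const.add contDiff_id).contMDiff
    exact (contMDiffOn_symm_of_mem_maximalAtlas hχ).comp h1.contMDiffOn
      fun y hy => (mem_transl_target χ x0 y).mp hy

end

/-! ### continuity of the covectors -/

lemma bv_apply (i j : Fin 2) : bv i j = if j = i then (1 : ℝ) else 0 := by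
  simp [bv]

lemma rot_zero (a : ℝ) (z : E2) : rot a z 0 = Real.cos a * z 0 - Real.sin a * z 1 := by
  simp [rot, bv]

lemma rot_one (a : ℝ) (z : E2) : rot a z 1 = Real.sin a * z 0 + Real.cos a * z 1 := by
  simp [rot, bv]

lemma continuous_coord (i : Fin 2) : Continuous (fun z : E2 => z i) := by fun_prop

lemma continuous_cov (k : ℝ) (i : Fin 2) : Continuous (fun q : ℝ × E2 => cov k q.1 q.2 i) := by
  simp only [cov, dph, rot_zero, rot_one]
  fun_prop

lemma continuous_wedge (k : ℝ) : Continuous (fun q : ℝ × ℝ × E2 =>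
    wedge (cov k q.1 q.2.2) (cov k q.2.1 q.2.2)) := by
  simp only [wedge, cov, dph, rot_zero, rot_one]
  fun_prop

lemma cont_aux1 {G : ℝ × ℝ × E2 → ℝ} (hG : Continuous G) (i j : Fin 3) :
    Continuous (fun q : (Fin 3 → ℝ) × E2 × (Fin 2 → Fin 2 → ℝ) => G (q.1 i, q.1 j, q.2.1)) :=
  hG.comp (by fun_prop)

lemma eventually_pos (h1c : DC1c) {k : ℝ} {A : Fin 3 → ℝ} {b0 : Fin 2 → Fin 2 → ℝ}
    (h : ∀ m, wedge (cov k (A m) 0) (cov k (A (m + 1)) 0) ≠ 0 ∧
      0 < cC (fun l => cov k (A l) 0) b0 m) :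
    ∀ᶠ q : (Fin 3 → ℝ) × E2 × (Fin 2 → Fin 2 → ℝ) in 𝓝 (A, 0, b0),
      ∀ m, wedge (cov k (q.1 m) q.2.1) (cov k (q.1 (m + 1)) q.2.1) ≠ 0 ∧
        0 < cC (fun l => cov k (q.1 l) q.2.1) q.2.2 m := by
  rw [Filter.eventually_all]
  intro m
  refine Filter.Eventually.and ?_ ?_
  · have hc := cont_aux1 (continuous_wedge k) m (m + 1)
    exact hc.continuousAt.eventually_ne (h m).1
  · have hc := h1c k A 0 b0 m (fun l => (h l).1)
    exact hc.eventually (lt_mem_nhds (h m).2)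

/-- neighbourhoods in the product of angles, points and matrices -/
lemma nhds_aux1 {P : (Fin 3 → ℝ) → E2 → (Fin 2 → Fin 2 → ℝ) → Prop} {A : Fin 3 → ℝ}
    {b0 : Fin 2 → Fin 2 → ℝ}
    (h : ∀ᶠ q : (Fin 3 → ℝ) × E2 × (Fin 2 → Fin 2 → ℝ) in 𝓝 (A, 0, b0), P q.1 q.2.1 q.2.2) :
    ∃ ε : ℝ, 0 < ε ∧ ∀ z : E2, ‖z‖ < ε → ∀ α : Fin 3 → ℝ, (∀ m, |α m - A m| < ε) →
      ∀ b : Fin 2 → Fin 2 → ℝ, (∀ i j, |b i j - b0 i j| < ε) → P α z b := by
  obtain ⟨ε, hε, hball⟩ := Metric.eventually_nhds_iff.mp h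
  refine ⟨ε, hε, fun z hz α hα b hb => hball (y := (α, z, b)) ?_⟩
  rw [Prod.dist_eq, Prod.dist_eq]
  refine max_lt ?_ (max_lt ?_ ?_)
  · rw [dist_pi_lt_iff hε]
    intro m
    rw [Real.dist_eq]; exact hα m
  · rw [dist_zero_right]; exact hz
  · rw [dist_pi_lt_iff hε]
    intro i
    rw [dist_pi_lt_iff hε]
    intro j
    rw [Real.dist_eq]; exact hb i j

/-- positivity of the Cramer coefficients near the centre -/
lemma pos_near (h1c : DC1c) {k : ℝ} {A : Fin 3 → ℝ} {b0 : Fin 2 → Fin 2 → ℝ}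
    (h : ∀ m, wedge (cov k (A m) 0) (cov k (A (m + 1)) 0) ≠ 0 ∧
      0 < cC (fun l => cov k (A l) 0) b0 m) :
    ∃ ε : ℝ, 0 < ε ∧ ∀ z : E2, ‖z‖ < ε → ∀ α : Fin 3 → ℝ, (∀ m, |α m - A m| < ε) →
      ∀ b : Fin 2 → Fin 2 → ℝ, (∀ i j, |b i j - b0 i j| < ε) →
      ∀ m, wedge (cov k (α m) z) (cov k (α (m + 1)) z) ≠ 0 ∧
        0 < cC (fun l => cov k (α l) z) b m :=
  nhds_aux1 (P := fun α z b => ∀ m, wedge (cov k (α m) z) (cov k (α (m + 1)) z) ≠ 0 ∧
        0 < cC (fun l => cov k (α l) z) b m) (eventually_pos h1c h)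

/-- tube lemma -/
lemma tube_aux {X : Type*} [NormedAddCommGroup X] [NormedSpace ℝ X] {G : ℝ × E2 × X → ℝ}
    (hG : Continuous G) {a : ℝ} {js jg : E2 → X} (hs : ContinuousAt js 0) (hg : ContinuousAt jg 0)
    (h : ∀ s ∈ Icc (0 : ℝ) 1, G (a, 0, js 0 + s • (jg 0 - js 0)) < 0) :
    ∀ᶠ q : ℝ × E2 × X in 𝓝 (a, 0, 0), ∀ s ∈ Icc (0 : ℝ) 1,
      G (q.1, q.2.1, (js q.2.1 + s • (jg q.2.1 - js q.2.1)) + q.2.2) < 0 := by
  refine IsCompact.eventually_forall_of_forall_eventually isCompact_Icc ?_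
  intro s hsI
  have hc1 : ContinuousAt (fun r : (ℝ × E2 × X) × ℝ => js r.1.2.1) ((a, 0, 0), s) :=
    ContinuousAt.comp (g := js) (f := fun r : (ℝ × E2 × X) × ℝ => r.1.2.1) hs (by fun_prop)
  have hc2 : ContinuousAt (fun r : (ℝ × E2 × X) × ℝ => jg r.1.2.1) ((a, 0, 0), s) :=
    ContinuousAt.comp (g := jg) (f := fun r : (ℝ × E2 × X) × ℝ => r.1.2.1) hg (by fun_prop)
  have hc3 : ContinuousAt (fun r : (ℝ × E2 × X) × ℝ => r.2) ((a, 0, 0), s) := by fun_prop
  have hc4 : ContinuousAt (fun r : (ℝ × E2 × X) × ℝ => r.1.2.2) ((a, 0, 0), s) := by fun_prop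
  have hc5 : ContinuousAt (fun r : (ℝ × E2 × X) × ℝ => r.1.1) ((a, 0, 0), s) := by fun_prop
  have hc6 : ContinuousAt (fun r : (ℝ × E2 × X) × ℝ => r.1.2.1) ((a, 0, 0), s) := by fun_prop
  have hc : ContinuousAt (fun r : (ℝ × E2 × X) × ℝ => ((r.1.1, r.1.2.1,
      (js r.1.2.1 + r.2 • (jg r.1.2.1 - js r.1.2.1)) + r.1.2.2) : ℝ × E2 × X))
      ((a, 0, 0), s) :=
    hc5.prodMk (hc6.prodMk ((hc1.add (hc3.smul (hc2.sub hc1))).add hc4))
  have hF : ContinuousAt (fun r : (ℝ × E2 × X) × ℝ => G (r.1.1, r.1.2.1,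
      (js r.1.2.1 + r.2 • (jg r.1.2.1 - js r.1.2.1)) + r.1.2.2)) ((a, 0, 0), s) :=
    ContinuousAt.comp (g := G) hG.continuousAt hc
  have h0 : G (a, 0, (js 0 + s • (jg 0 - js 0)) + 0) < 0 := by
    rw [add_zero]; exact h s hsI
  exact hF.eventually (gt_mem_nhds h0)

lemma tube_near {X : Type*} [NormedAddCommGroup X] [NormedSpace ℝ X] {G : ℝ × E2 × X → ℝ}
    (hG : Continuous G) {a : ℝ} {js jg : E2 → X} (hs : ContinuousAt js 0) (hg : ContinuousAt jg 0)
    (h : ∀ s ∈ Icc (0 : ℝ) 1, G (a, 0, js 0 + s • (jg 0 - js 0)) < 0) :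
    ∃ ε : ℝ, 0 < ε ∧ ∀ z : E2, ‖z‖ < ε → ∀ α : ℝ, |α - a| < ε → ∀ s ∈ Icc (0 : ℝ) 1,
      ∀ J : X, ‖J - (js z + s • (jg z - js z))‖ < ε → G (α, z, J) < 0 := by
  obtain ⟨ε, hε, hball⟩ := Metric.eventually_nhds_iff.mp (tube_aux hG hs hg h)
  refine ⟨ε, hε, fun z hz α hα s hsI J hJ => ?_⟩
  have h1 := hball (y := (α, z, J - (js z + s • (jg z - js z)))) ?_ s hsI
  · have h2 : (js z + s • (jg z - js z)) + (J - (js z + s • (jg z - js z))) = J := by abel
    rw [← h2]; exact h1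
  · rw [Prod.dist_eq, Prod.dist_eq]
    refine max_lt ?_ (max_lt ?_ ?_)
    · rw [Real.dist_eq]; exact hα
    · rw [dist_zero_right]; exact hz
    · rw [dist_zero_right]; exact hJ

/-- negativity of `gam` near the centre -/
lemma gam_near (h4b : DC4b) {k a : ℝ} {js jg : E2 → Jet} (hs : ContinuousAt js 0)
    (hg : ContinuousAt jg 0)
    (h : ∀ s ∈ Icc (0 : ℝ) 1, Fgam k a 0 (js 0 + s • (jg 0 - js 0)) < 0) :
    ∃ ε : ℝ, 0 < ε ∧ ∀ z : E2, ‖z‖ < ε → ∀ α : ℝ, |α - a| < ε → ∀ s ∈ Icc (0 : ℝ) 1,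
      ∀ J : Jet, ‖J - (js z + s • (jg z - js z))‖ < ε → Fgam k α z J < 0 :=
  tube_near (G := fun q : ℝ × E2 × Jet => Fgam k q.1 q.2.1 q.2.2) (h4b k) hs hg h

/-! ### jets of metrics -/

section
variable {M : Type*} [TopologicalSpace M] [ChartedSpace E2 M]

lemma jet_continuousAt {h : Tens M} {w : OpenPartialHomeomorph M E2}
    (hc : ∀ v v' : E2, ContDiffOn ℝ ∞ (coef h w v v') w.target) {z : E2} (hz : z ∈ w.target) :
    ContinuousAt (jet h w) z := by
  have h1 : ∀ v v' : E2, ContDiffAt ℝ ∞ (coef h w v v') z := fun v v' =>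
    (hc v v').contDiffAt (w.open_target.mem_nhds hz)
  refine ContinuousAt.prodMk ?_ ?_
  · refine continuousAt_pi.mpr fun i => continuousAt_pi.mpr fun j => ?_
    exact (h1 (bv i) (bv j)).continuousAt
  · refine continuousAt_pi.mpr fun i => continuousAt_pi.mpr fun j => ?_
    exact ((h1 (bv i) (bv j)).fderiv_right (m := 0) (WithTop.coe_le_coe.mpr le_top)).continuousAt

lemma E2_decomp (v : E2) : v = v 0 • bv 0 + v 1 • bv 1 := by
  ext i
  fin_cases i <;> simp [bv]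

lemma coef_eq_bil {h : Tens M} {w : OpenPartialHomeomorph M E2} {z : E2}
    (B : TangentSpace (𝓡 2) (w.symm z) →ₗ[ℝ] TangentSpace (𝓡 2) (w.symm z) →ₗ[ℝ] ℝ)
    (hB : ∀ v v', h (w.symm z) v v' = B v v') (v v' : E2) :
    coef h w v v' z = bil (mat h w z) v v' := by
  have h1 : ∀ v v' : E2, coef h w v v' z = B (mfderiv 𝓘(ℝ, E2) (𝓡 2) w.symm z v)
      (mfderiv 𝓘(ℝ, E2) (𝓡 2) w.symm z v') := fun v v' => hB _ _
  have h2 : ∀ v : E2, mfderiv 𝓘(ℝ, E2) (𝓡 2) w.symm z v =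
      v 0 • mfderiv 𝓘(ℝ, E2) (𝓡 2) w.symm z (bv 0) + v 1 • mfderiv 𝓘(ℝ, E2) (𝓡 2) w.symm z (bv 1) := by
    intro v
    have h3 := congrArg (mfderiv 𝓘(ℝ, E2) (𝓡 2) w.symm z) (E2_decomp v)
    refine h3.trans ?_
    erw [map_add, map_smul, map_smul]
  rw [h1, h2 v, h2 v', bil]
  simp only [map_add, map_smul, LinearMap.add_apply, LinearMap.smul_apply, smul_eq_mul,
    Fin.sum_univ_two, mat, h1]
  ring

variable [IsManifold (𝓡 2) ∞ M]

lemma coef_gT (g : Bundle.ContMDiffRiemannianMetric (𝓡 2) ∞ E2 (TangentSpace (𝓡 2) : M → Type))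
    (w : OpenPartialHomeomorph M E2) (z v v' : E2) :
    coef (gT g) w v v' z = bil (mat (gT g) w z) v v' := by
  refine coef_eq_bil (LinearMap.mk₂ ℝ (fun a b => g.inner (w.symm z) a b) ?_ ?_ ?_ ?_)
    (fun a b => rfl) v v'
  · intro a b c
    rw [map_add]; rfl
  · intro r a b
    rw [map_smul]; rfl
  · intro a b c
    exact map_add _ _ _
  · intro r a b
    exact map_smul _ _ _

omit [IsManifold (𝓡 2) ∞ M] in
lemma coef_pl (f : M → E4) (w : OpenPartialHomeomorph M E2) (z v v' : E2) :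
    coef (pull f) w v v' z = bil (mat (pull f) w z) v v' := by
  refine coef_eq_bil (LinearMap.mk₂ ℝ (fun a b => pull f (w.symm z) a b) ?_ ?_ ?_ ?_)
    (fun a b => rfl) v v'
  · intro a b c
    simp only [pull]
    erw [map_add]
    exact inner_add_left _ _ _
  · intro r a b
    simp only [pull]
    erw [map_smul]
    exact real_inner_smul_left _ _ _
  · intro a b c
    simp only [pull]
    erw [map_add]
    exact inner_add_right _ _ _
  · intro r a b
    simp only [pull]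
    erw [map_smul]
    exact real_inner_smul_right _ _ _

lemma symm_ne_zero {w : OpenPartialHomeomorph M E2}
    (hw : w ∈ IsManifold.maximalAtlas (𝓡 2) ∞ M) {z : E2} (hz : z ∈ w.target) {v : E2}
    (hv : v ≠ 0) : mfderiv 𝓘(ℝ, E2) (𝓡 2) w.symm z v ≠ 0 := by
  intro h
  apply hv
  have h1 := dchart_symm hw hz v
  have h2 : mfderiv (𝓡 2) (𝓡 2) w (w.symm z) (mfderiv (𝓡 2) (𝓡 2) w.symm z v) = 0 := by
    have h3 : mfderiv (𝓡 2) (𝓡 2) w.symm z v = 0 := h
    rw [h3]; exact map_zero _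
  exact h1.symm.trans h2

end

lemma det_of_pos {b : Fin 2 → Fin 2 → ℝ} (hsym : b 0 1 = b 1 0)
    (hpos : ∀ v : E2, v ≠ 0 → 0 < bil b v v) : 0 < b 0 0 ∧ 0 < b 0 0 * b 1 1 - b 0 1 ^ 2 := by
  have h1 := hpos (bv 0) (by
    intro h
    have := congrArg (fun v : E2 => v 0) h
    simp [bv] at this)
  have h00 : 0 < b 0 0 := by
    simpa [bil, Fin.sum_univ_two, bv] using h1
  refine ⟨h00, ?_⟩
  have h2 := hpos ((-b 0 1) • bv 0 + b 0 0 • bv 1) (by
    intro h
    have := congrArg (fun v : E2 => v 1) h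
    simp [bv] at this
    exact h00.ne' this)
  have h3 : bil b ((-b 0 1) • bv 0 + b 0 0 • bv 1) ((-b 0 1) • bv 0 + b 0 0 • bv 1) =
      b 0 0 * (b 0 0 * b 1 1 - b 0 1 ^ 2) := by
    simp only [bil, Fin.sum_univ_two, bv]
    simp
    rw [← hsym]; ring
  rw [h3] at h2
  exact (mul_pos_iff_of_pos_left h00).mp h2

lemma bil_comb (b b' : Fin 2 → Fin 2 → ℝ) (s : ℝ) (v w : E2) :
    bil (b + s • (b' - b)) v w = bil b v w + s * (bil b' v w - bil b v w) := by
  simp only [bil, Fin.sum_univ_two, Pi.add_apply, Pi.smul_apply, Pi.sub_apply, smul_eq_mul]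
  ring

lemma bil_sub' (b b' : Fin 2 → Fin 2 → ℝ) (v w : E2) :
    bil (fun i j => b' i j - b i j) v w = bil b' v w - bil b v w := by
  simp only [bil, Fin.sum_univ_two]
  ring

end L

open L in
/-- existence of good patches, from the other modules -/
theorem dcL_of (h1a : DC1a) (h1c : DC1c) (h4b : DC4b) (h4c : DC4c)
    (M : Type*) [TopologicalSpace M] [ChartedSpace E2 M] [IsManifold (𝓡 2) ∞ M] : DCL M := by
  intro g A fs hfs hlt p
  obtain ⟨c, hpc, hint⟩ := A.cover p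
  obtain ⟨χ, hχdef⟩ : ∃ χ, χ = A.χ c := ⟨_, rfl⟩
  rw [← hχdef] at hpc hint
  have hχ : χ ∈ IsManifold.maximalAtlas (𝓡 2) ∞ M := by rw [hχdef]; exact A.hχ c
  obtain ⟨x0, hx0⟩ : ∃ x0, x0 = χ p := ⟨_, rfl⟩
  obtain ⟨w, hwdef⟩ : ∃ w, w = transl χ x0 := ⟨_, rfl⟩
  have hw : w ∈ IsManifold.maximalAtlas (𝓡 2) ∞ M := by rw [hwdef]; exact transl_mem hχ x0
  have h0t : (0 : E2) ∈ w.target := by
    rw [hwdef, mem_transl_target, add_zero, hx0]; exact χ.map_source hpc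
  have hjs : ContinuousAt (jet (pull fs) w) 0 :=
    jet_continuousAt (fun v v' => coef_pull_contDiffOn hfs hw v v') h0t
  have hjg : ContinuousAt (jet (gT g) w) 0 :=
    jet_continuousAt (fun v v' => coef_contDiffOn g hw v v') h0t
  -- positivity at the centre
  have hLpos : ∀ v : E2, v ≠ 0 → 0 < bil (mat (pull fs) w 0) v v ∧
      bil (mat (pull fs) w 0) v v < bil (mat (gT g) w 0) v v := by
    intro v hv
    have h1 := hlt (w.symm 0) (mfderiv 𝓘(ℝ, E2) (𝓡 2) w.symm 0 v) (symm_ne_zero hw h0t hv)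
    rw [← coef_pl, ← coef_gT]
    exact h1
  have hsymS : ∀ v v' : E2, bil (mat (pull fs) w 0) v v' = bil (mat (pull fs) w 0) v' v := by
    intro v v'
    rw [← coef_pl, ← coef_pl]
    exact real_inner_comm _ _
  have hsymG : ∀ v v' : E2, bil (mat (gT g) w 0) v v' = bil (mat (gT g) w 0) v' v := by
    intro v v'
    rw [← coef_gT, ← coef_gT]
    exact g.symm _ _ _
  obtain ⟨b0, hb0⟩ : ∃ b0 : Fin 2 → Fin 2 → ℝ,
      b0 = fun i j => mat (gT g) w 0 i j - mat (pull fs) w 0 i j := ⟨_, rfl⟩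
  have hb0pos : ∀ v : E2, v ≠ 0 → 0 < bil b0 v v := by
    intro v hv
    rw [hb0, bil_sub']
    linarith [(hLpos v hv).2]
  have hb0sym : b0 0 1 = b0 1 0 := by
    have h1 : mat (gT g) w 0 0 1 = mat (gT g) w 0 1 0 := g.symm _ _ _
    have h2 : mat (pull fs) w 0 0 1 = mat (pull fs) w 0 1 0 := real_inner_comm _ _
    rw [hb0]
    simp only [h1, h2]
  obtain ⟨hb00, hbdet⟩ := det_of_pos hb0sym hb0pos
  obtain ⟨Aα, hA⟩ := h1a b0 hb0sym hb00 hbdet
  -- the compact set of jets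
  obtain ⟨K, hK⟩ : ∃ K : Set Jet, K = (fun s : ℝ => jet (pull fs) w 0 +
      s • (jet (gT g) w 0 - jet (pull fs) w 0)) '' Icc 0 1 := ⟨_, rfl⟩
  have hKc : IsCompact K := by
    rw [hK]
    exact isCompact_Icc.image (continuous_const.add (continuous_id.smul continuous_const))
  have hbilK : ∀ s : ℝ, ∀ v v' : E2, bil (jet (pull fs) w 0 +
      s • (jet (gT g) w 0 - jet (pull fs) w 0)).1 v v' = bil (mat (pull fs) w 0) v v' +
        s * (bil (mat (gT g) w 0) v v' - bil (mat (pull fs) w 0) v v') := fun s v v' =>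
    bil_comb (mat (pull fs) w 0) (mat (gT g) w 0) s v v'
  have hKs : ∀ J ∈ K, ∀ v v' : E2, bil J.1 v v' = bil J.1 v' v := by
    intro J hJ v v'
    rw [hK] at hJ
    obtain ⟨s, -, rfl⟩ := hJ
    show bil (jet (pull fs) w 0 + s • (jet (gT g) w 0 - jet (pull fs) w 0)).1 v v' =
      bil (jet (pull fs) w 0 + s • (jet (gT g) w 0 - jet (pull fs) w 0)).1 v' v
    rw [hbilK, hbilK, hsymS v v', hsymG v v']
  have hKp : ∀ J ∈ K, ∀ v : E2, v ≠ 0 → 0 < bil J.1 v v := by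
    intro J hJ v hv
    rw [hK] at hJ
    obtain ⟨s, hs, rfl⟩ := hJ
    show 0 < bil (jet (pull fs) w 0 + s • (jet (gT g) w 0 - jet (pull fs) w 0)).1 v v
    rw [hbilK]
    have h1 := hLpos v hv
    have h2 : 0 ≤ s * (bil (mat (gT g) w 0) v v - bil (mat (pull fs) w 0) v v) :=
      mul_nonneg hs.1 (by linarith [h1.2])
    linarith [h1.1]
  choose k0 hk0 hk0' using fun m : Fin 3 => h4c (Aα m) K hKc hKs hKp
  obtain ⟨κ, hκ⟩ : ∃ κ, κ = k0 0 + k0 1 + k0 2 := ⟨_, rfl⟩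
  have hκm : ∀ m, k0 m ≤ κ := by
    intro m
    have h0 := hk0 0
    have h1 := hk0 1
    have h2 := hk0 2
    fin_cases m <;> simp <;> linarith
  have hκ0 : 0 < κ := lt_of_lt_of_le (hk0 0) (hκm 0)
  obtain ⟨ε1, hε1, hE1⟩ := pos_near h1c (hA κ)
  have hneg : ∀ m : Fin 3, ∀ s ∈ Icc (0 : ℝ) 1, Fgam κ (Aα m) 0 (jet (pull fs) w 0 +
      s • (jet (gT g) w 0 - jet (pull fs) w 0)) < 0 := by
    intro m s hs
    refine hk0' m κ (hκm m) _ ?_
    rw [hK]
    exact ⟨s, hs, rfl⟩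
  choose ε2 hε2 hE2 using fun m : Fin 3 => gam_near h4b hjs hjg (hneg m)
  -- continuity of the matrices, and the domain
  have hcs : ∀ i j, ContinuousAt (fun z => mat (pull fs) w z i j) 0 := fun i j =>
    ((coef_pull_contDiffOn hfs hw (bv i) (bv j)).contDiffAt
      (w.open_target.mem_nhds h0t)).continuousAt
  have hcg : ∀ i j, ContinuousAt (fun z => mat (gT g) w z i j) 0 := fun i j =>
    ((coef_contDiffOn g hw (bv i) (bv j)).contDiffAt
      (w.open_target.mem_nhds h0t)).continuousAt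
  have hev3 : ∀ᶠ z in 𝓝 (0 : E2), ∀ i j,
      |(mat (gT g) w z i j - mat (pull fs) w z i j) - b0 i j| < ε1 / 2 := by
    rw [Filter.eventually_all]
    intro i
    rw [Filter.eventually_all]
    intro j
    have h1 : ContinuousAt (fun z => |(mat (gT g) w z i j - mat (pull fs) w z i j) - b0 i j|) 0 :=
      (((hcg i j).sub (hcs i j)).sub continuousAt_const).abs
    refine h1.eventually (gt_mem_nhds ?_)
    rw [hb0]
    simp only [sub_self, abs_zero]
    linarith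
  have hev4 : ∀ᶠ z in 𝓝 (0 : E2), z ∈ w.target ∧ x0 + z ∈ A.K c := by
    refine Filter.Eventually.and (w.open_target.mem_nhds h0t) ?_
    have h1 : ContinuousAt (fun z : E2 => x0 + z) 0 := by fun_prop
    have h2 : A.K c ∈ 𝓝 (x0 + (0 : E2)) := by
      rw [add_zero, hx0]; exact mem_interior_iff_mem_nhds.mp hint
    exact h1 h2
  obtain ⟨ε3, hε3, hE3⟩ := Metric.eventually_nhds_iff.mp (hev3.and hev4)
  have hE3' : ∀ z : E2, ‖z‖ < ε3 → (∀ i j,
      |(mat (gT g) w z i j - mat (pull fs) w z i j) - b0 i j| < ε1 / 2) ∧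
      z ∈ w.target ∧ x0 + z ∈ A.K c := by
    intro z hz
    exact hE3 (by rw [dist_zero_right]; exact hz)
  obtain ⟨R, hR, hR1, hR2, hR3, hR4⟩ : ∃ R : ℝ, 0 < R ∧ 2 * R < ε1 ∧ (∀ m, 2 * R < ε2 m) ∧
      2 * R < ε3 ∧ κ * (2 * R) ≤ 1 / 2 := by
    have h4 : 0 < 1 / (4 * κ) := by positivity
    refine ⟨min (min (ε1 / 4) (ε3 / 4)) (min (min (ε2 0 / 4) (ε2 1 / 4))
      (min (ε2 2 / 4) (1 / (4 * κ)))), ?_, ?_, ?_, ?_, ?_⟩
    · have h20 := hε2 0
      have h21 := hε2 1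
      have h22 := hε2 2
      refine lt_min (lt_min ?_ ?_) (lt_min (lt_min ?_ ?_) (lt_min ?_ h4)) <;> linarith
    · have : min (min (ε1 / 4) (ε3 / 4)) (min (min (ε2 0 / 4) (ε2 1 / 4))
        (min (ε2 2 / 4) (1 / (4 * κ)))) ≤ ε1 / 4 := (min_le_left _ _).trans (min_le_left _ _)
      linarith
    · intro m
      have h5 : min (min (ε1 / 4) (ε3 / 4)) (min (min (ε2 0 / 4) (ε2 1 / 4))
        (min (ε2 2 / 4) (1 / (4 * κ)))) ≤ ε2 m / 4 := by
        refine (min_le_right _ _).trans ?_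
        fin_cases m
        · exact (min_le_left _ _).trans (min_le_left _ _)
        · exact (min_le_left _ _).trans (min_le_right _ _)
        · exact (min_le_right _ _).trans (min_le_left _ _)
      have := hε2 m
      linarith
    · have : min (min (ε1 / 4) (ε3 / 4)) (min (min (ε2 0 / 4) (ε2 1 / 4))
        (min (ε2 2 / 4) (1 / (4 * κ)))) ≤ ε3 / 4 := (min_le_left _ _).trans (min_le_right _ _)
      linarith
    · have h5 : min (min (ε1 / 4) (ε3 / 4)) (min (min (ε2 0 / 4) (ε2 1 / 4))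
        (min (ε2 2 / 4) (1 / (4 * κ)))) ≤ 1 / (4 * κ) :=
        (min_le_right _ _).trans ((min_le_right _ _).trans (min_le_right _ _))
      have h6 : κ * (2 * (1 / (4 * κ))) = 1 / 2 := by field_simp; norm_num
      calc κ * (2 * _) ≤ κ * (2 * (1 / (4 * κ))) := by gcongr
        _ = 1 / 2 := h6
  obtain ⟨δ, hδ, hδ1, hδ2⟩ : ∃ δ : ℝ, 0 < δ ∧ δ ≤ ε1 / 2 ∧ ∀ m, δ ≤ ε2 m := by
    refine ⟨min (ε1 / 2) (min (ε2 0) (min (ε2 1) (ε2 2))), ?_, min_le_left _ _, ?_⟩
    · exact lt_min (by linarith) (lt_min (hε2 0) (lt_min (hε2 1) (hε2 2)))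
    · intro m
      refine (min_le_right _ _).trans ?_
      fin_cases m
      · exact min_le_left _ _
      · exact (min_le_right _ _).trans (min_le_left _ _)
      · exact (min_le_right _ _).trans (min_le_right _ _)
  have hball : ∀ z ∈ Metric.closedBall (0 : E2) (2 * R), ‖z‖ ≤ 2 * R := fun z hz => by
    rwa [mem_closedBall_zero_iff] at hz
  refine ⟨⟨w, hw, R, κ, δ, Aα, hR, hκ0, hR4, hδ, fun z hz =>
    (hE3' z (lt_of_le_of_lt (hball z hz) hR3)).2.1⟩, ?_, ⟨?_, ?_⟩, ?_⟩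
  · refine ⟨c, x0, fun y => ?_, fun q => ?_, ?_, fun y => ?_, fun y hy =>
      (hE3' y (lt_of_le_of_lt (hball y hy) hR3)).2.2⟩
    · show w.symm y = _
      rw [hwdef, transl_symm_apply, hχdef]
    · show w q = _
      rw [hwdef, transl_apply, hχdef]
    · show w.source = _
      rw [hwdef, transl_source, hχdef]
    · show y ∈ w.target ↔ _
      rw [hwdef, mem_transl_target, hχdef]
  · intro z hz α hα b hb m
    have hzn : ‖z‖ < ε1 := lt_of_le_of_lt (hball z hz) hR1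
    refine hE1 z hzn α (fun m => (hα m).trans_le (hδ1.trans (by linarith))) b (fun i j => ?_) m
    have h1 := hb i j
    have h2 := (hE3' z (lt_of_le_of_lt (hball z hz) hR3)).1 i j
    have h3 : b i j - b0 i j = (b i j - (mat (gT g) w z i j - mat (pull fs) w z i j)) +
        ((mat (gT g) w z i j - mat (pull fs) w z i j) - b0 i j) := by ring
    rw [h3]
    have h4 : |b i j - (mat (gT g) w z i j - mat (pull fs) w z i j)| < δ := h1
    calc _ ≤ |b i j - (mat (gT g) w z i j - mat (pull fs) w z i j)| +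
        |(mat (gT g) w z i j - mat (pull fs) w z i j) - b0 i j| := abs_add_le _ _
      _ < ε1 := by linarith
  · intro z hz m α hα s hs J hJ
    have hα' : |α - Aα m| < δ := hα
    have hJ' : ‖J - (jet (pull fs) w z + s • (jet (gT g) w z - jet (pull fs) w z))‖ < δ := hJ
    exact hE2 m z (lt_of_le_of_lt (hball z hz) (hR2 m)) α (hα'.trans_le (hδ2 m)) s hs J
      (hJ'.trans_le (hδ2 m))
  · show p ∈ w.symm '' Metric.ball 0 R
    refine ⟨0, Metric.mem_ball_self hR, ?_⟩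
    rw [hwdef, transl_symm_apply, add_zero, hx0]
    exact χ.left_inv hpc

end Crest.Agent.R216.Dec
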