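import Crest.Agent.R216.DCL
import Crest.Agent.R216.DC1

/-!
Row 216, part (6): modules DC4b, DC4c (continuity and sign of `Fgam`) and the final form of DCL.
-/

set_option autoImplicit false
open scoped Manifold ContDiff Topology
open Set

noncomputable section
namespace Crest.Agent.R216.Dec
open L

namespace FG

section
variable {Y : Type*} [TopologicalSpace Y]

lemma cont_dlev (k : ℝ) {α : Y → ℝ} {z : Y → E2} (hα : Continuous α) (hz : Continuous z) :
    Continuous (fun q => dlev k (α q) (z q)) := by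
  simp only [dlev, rot, bv]
  fun_prop

lemma cont_dnor {α : Y → ℝ} (hα : Continuous α) : Continuous (fun q => dnor (α q)) := by
  simp only [dnor, rot]
  fun_prop

lemma cont_bil {b : Y → Fin 2 → Fin 2 → ℝ} {v w : Y → E2} (hb : Continuous b) (hv : Continuous v)
    (hw : Continuous w) : Continuous (fun q => bil (b q) (v q) (w q)) := by
  simp only [bil]
  fun_prop

lemma cont_dbil {d : Y → Fin 2 → Fin 2 → (E2 →L[ℝ] ℝ)} {u v w : Y → E2} (hd : Continuous d)
    (hu : Continuous u) (hv : Continuous v) (hw : Continuous w) :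
    Continuous (fun q => dbil (d q) (u q) (v q) (w q)) := by
  simp only [dbil]
  refine continuous_finsetSum _ fun i _ => continuous_finsetSum _ fun j _ => ?_
  have h1 : Continuous (fun q => d q i j) := (continuous_apply j).comp ((continuous_apply i).comp hd)
  have h2 : Continuous (fun q => d q i j (u q)) := h1.clm_apply hu
  exact (h2.mul (by fun_prop)).mul (by fun_prop)

lemma cont_Fgam (k : ℝ) {α : Y → ℝ} {z : Y → E2} {b : Y → Fin 2 → Fin 2 → ℝ}
    {d : Y → Fin 2 → Fin 2 → (E2 →L[ℝ] ℝ)} (hα : Continuous α) (hz : Continuous z)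
    (hb : Continuous b) (hd : Continuous d) :
    Continuous (fun q => Fgam k (α q) (z q) (b q, d q)) := by
  have h1 := cont_dlev k hα hz
  have h2 := cont_dnor hα
  simp only [Fgam]
  exact ((((cont_dbil hd h1 h1 h2).sub ((cont_dbil hd h2 h1 h1).div_const 2)).mul
    (cont_bil hb h1 h1)).sub (((cont_dbil hd h1 h1 h1).div_const 2).mul (cont_bil hb h2 h1))).sub
    (continuous_const.mul (((cont_bil hb h2 h2).mul (cont_bil hb h1 h1)).sub
      ((cont_bil hb h2 h1).pow 2)))

end

theorem dc4b' : DC4b := fun k =>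
  cont_Fgam k (Y := ℝ × E2 × Jet) (α := fun q => q.1) (z := fun q => q.2.1) (b := fun q => q.2.2.1)
    (d := fun q => q.2.2.2) continuous_fst (continuous_fst.comp continuous_snd)
    (continuous_fst.comp (continuous_snd.comp continuous_snd))
    (continuous_snd.comp (continuous_snd.comp continuous_snd))

lemma bil_add_left (b : Fin 2 → Fin 2 → ℝ) (u v w : E2) :
    bil b (u + v) w = bil b u w + bil b v w := by
  simp only [bil, Fin.sum_univ_two, PiLp.add_apply]; ring

lemma bil_smul_left (b : Fin 2 → Fin 2 → ℝ) (s : ℝ) (v w : E2) :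
    bil b (s • v) w = s * bil b v w := by
  simp only [bil, Fin.sum_univ_two, PiLp.smul_apply, smul_eq_mul]; ring

lemma bil_add_right (b : Fin 2 → Fin 2 → ℝ) (u v w : E2) :
    bil b u (v + w) = bil b u v + bil b u w := by
  simp only [bil, Fin.sum_univ_two, PiLp.add_apply]; ring

lemma bil_smul_right (b : Fin 2 → Fin 2 → ℝ) (s : ℝ) (v w : E2) :
    bil b v (s • w) = s * bil b v w := by
  simp only [bil, Fin.sum_univ_two, PiLp.smul_apply, smul_eq_mul]; ring

lemma gramdet_pos {b : Fin 2 → Fin 2 → ℝ} (hsym : ∀ v w : E2, bil b v w = bil b w v)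
    (hpos : ∀ v : E2, v ≠ 0 → 0 < bil b v v) {N X : E2}
    (hNX : ∀ s t : ℝ, s • N + t • X = 0 → s = 0 ∧ t = 0) :
    0 < bil b N N * bil b X X - bil b N X ^ 2 := by
  have hX : X ≠ 0 := by
    intro h
    have := (hNX 0 1 (by rw [h]; simp)).2
    norm_num at this
  have hXX := hpos X hX
  have hv : bil b X X • N + (-bil b N X) • X ≠ 0 := by
    intro h
    exact hXX.ne' (hNX _ _ h).1
  have h := hpos _ hv
  have e : bil b (bil b X X • N + (-bil b N X) • X) (bil b X X • N + (-bil b N X) • X) =
      bil b X X * (bil b N N * bil b X X - bil b N X ^ 2) := by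
    simp only [bil_add_left, bil_add_right, bil_smul_left, bil_smul_right]
    rw [hsym X N]
    ring
  rw [e] at h
  exact (mul_pos_iff_of_pos_left hXX).mp h

lemma rot_indep (a s t : ℝ) (h : s • rot a (bv 0) + t • rot a (bv 1) = 0) : s = 0 ∧ t = 0 := by
  have h0 := congrArg (fun v : E2 => v 0) h
  have h1 := congrArg (fun v : E2 => v 1) h
  simp only [PiLp.add_apply, PiLp.smul_apply, smul_eq_mul, rot_zero, rot_one, PiLp.zero_apply] at h0 h1
  simp only [bv_apply] at h0 h1
  norm_num at h0 h1
  have hc := Real.sin_sq_add_cos_sq a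
  constructor
  · linear_combination Real.cos a * h0 + Real.sin a * h1 - s * hc
  · linear_combination -Real.sin a * h0 + Real.cos a * h1 - t * hc

lemma dlev_zero (k a : ℝ) : dlev k a 0 = rot (-a) (bv 1) := by
  rw [dlev, rot_one]
  simp

theorem dc4c' : DC4c := by
  intro a K hK hsym hpos
  rcases K.eq_empty_or_nonempty with rfl | hne
  · exact ⟨1, one_pos, fun _ _ _ h => absurd h (notMem_empty _)⟩
  set N : E2 := dnor a with hN
  set X : E2 := rot (-a) (bv 1) with hX
  have hNX : ∀ s t : ℝ, s • N + t • X = 0 → s = 0 ∧ t = 0 := fun s t h => rot_indep (-a) s t h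
  set D : Jet → ℝ := fun J => bil J.1 N N * bil J.1 X X - bil J.1 N X ^ 2 with hD
  set C : Jet → ℝ := fun J => (dbil J.2 X X N - dbil J.2 N X X / 2) * bil J.1 X X
    - dbil J.2 X X X / 2 * bil J.1 N X with hC
  have hcN : Continuous (fun _ : Jet => N) := continuous_const
  have hcX : Continuous (fun _ : Jet => X) := continuous_const
  have hb : ∀ {v w : Jet → E2}, Continuous v → Continuous w →
      Continuous (fun J : Jet => bil J.1 (v J) (w J)) := fun hv hw =>
    cont_bil (Y := Jet) continuous_fst hv hw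
  have hd : ∀ {u v w : Jet → E2}, Continuous u → Continuous v → Continuous w →
      Continuous (fun J : Jet => dbil J.2 (u J) (v J) (w J)) := fun hu hv hw =>
    cont_dbil (Y := Jet) continuous_snd hu hv hw
  have hDc : Continuous D := ((hb hcN hcN).mul (hb hcX hcX)).sub ((hb hcN hcX).pow 2)
  have hCc : Continuous C :=
    (((hd hcX hcX hcN).sub ((hd hcN hcX hcX).div_const 2)).mul (hb hcX hcX)).sub
      (((hd hcX hcX hcX).div_const 2).mul (hb hcN hcX))
  have hF : ∀ k J, Fgam k a 0 J = C J - k * D J := by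
    intro k J
    simp only [Fgam, dlev_zero, hC, hD, hN, hX]
  obtain ⟨J0, hJ0, hmin⟩ := hK.exists_isMinOn hne hDc.continuousOn
  obtain ⟨J1, hJ1, hmax⟩ := hK.exists_isMaxOn hne hCc.continuousOn
  have hD0 : 0 < D J0 := gramdet_pos (hsym J0 hJ0) (hpos J0 hJ0) hNX
  refine ⟨|C J1| / D J0 + 1, by positivity, fun k hk J hJ => ?_⟩
  rw [hF]
  have h1 : D J0 ≤ D J := hmin hJ
  have h2 : C J ≤ C J1 := hmax hJ
  have hkpos : 0 < k := lt_of_lt_of_le (by positivity) hk
  have h3 : (|C J1| / D J0 + 1) * D J0 ≤ k * D J :=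
    mul_le_mul hk h1 hD0.le hkpos.le
  have h4 : (|C J1| / D J0 + 1) * D J0 = |C J1| + D J0 := by
    field_simp
  have h5 := le_abs_self (C J1)
  linarith

end FG

/-- existence of good patches -/
theorem dcL (M : Type*) [TopologicalSpace M] [ChartedSpace E2 M] [IsManifold (𝓡 2) ∞ M] : DCL M :=
  dcL_of dc1a dc1c FG.dc4b' FG.dc4c' M

end Crest.Agent.R216.Dec
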