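import Crest.Agent.R216.Skel
import Crest.Agent.R216.GlobChart
import Crest.Agent.R216.CoefT

/-!
Row 216 (S0335), part (6), module PartQ (owner: helper706): bump functions of discs in charts,
partition of unity from a finite cover by discs.
-/

set_option autoImplicit false
set_option linter.unusedSectionVars false
open scoped Manifold ContDiff Topology
open Set

noncomputable section
namespace Crest.Agent.R216.PartQ

variable {M : Type*} [TopologicalSpace M] [ChartedSpace E2 M]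

open Classical in
/-- extension by zero of a planar function through a chart -/
def ext0 {V : Type*} [Zero V] (w : OpenPartialHomeomorph M E2) (b : E2 → V) (p : M) : V :=
  if p ∈ w.source then b (w p) else 0

lemma ext0_of_mem {V : Type*} [Zero V] {w : OpenPartialHomeomorph M E2} {b : E2 → V} {p : M}
    (hp : p ∈ w.source) : ext0 w b p = b (w p) := by simp [ext0, hp]

lemma ext0_of_notMem {V : Type*} [Zero V] {w : OpenPartialHomeomorph M E2} {b : E2 → V} {p : M}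
    (hp : p ∉ w.source) : ext0 w b p = 0 := by simp [ext0, hp]

lemma ext0_symm {V : Type*} [Zero V] {w : OpenPartialHomeomorph M E2} {b : E2 → V} {y : E2}
    (hy : y ∈ w.target) : ext0 w b (w.symm y) = b y := by
  rw [ext0_of_mem (w.map_target hy), w.right_inv hy]

/-- smoothness of the extension by zero; `b` smooth on the target, zero off a compact set -/
theorem ext0_contMDiff [IsManifold (𝓡 2) ∞ M] [T2Space M] {E : Type*} [NormedAddCommGroup E]
    [NormedSpace ℝ E] {w : OpenPartialHomeomorph M E2}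
    (hw : w ∈ IsManifold.maximalAtlas (𝓡 2) ∞ M) {b : E2 → E}
    (hb : ContDiffOn ℝ ∞ b w.target) {K : Set E2} (hK : IsCompact K) (hKt : K ⊆ w.target)
    (h0 : ∀ y ∈ w.target, y ∉ K → b y = 0) :
    ContMDiff (𝓡 2) 𝓘(ℝ, E) ∞ (ext0 w b) := by
  have h1 : ext0 w b = glue (fun _ : M => (0 : E)) w b := by
    funext p
    by_cases hp : p ∈ w.source
    · rw [ext0_of_mem hp, glue_of_mem _ _ _ hp]
    · rw [ext0_of_notMem hp, glue_of_notMem _ _ _ hp]
  rw [h1]
  exact glue_contMDiff contMDiff_const hw hb hK hKt (fun y hy hyK => by simpa [rep] using h0 y hy hyK)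

/-- the planar bump of the disc of radius `r` -/
def pb (r : ℝ) (y : E2) : ℝ := expNegInvGlue (r ^ 2 - ‖y‖ ^ 2)

lemma pb_contDiff (r : ℝ) : ContDiff ℝ ∞ (pb r) :=
  expNegInvGlue.contDiff.comp (contDiff_const.sub (contDiff_norm_sq ℝ))

lemma pb_nonneg (r : ℝ) (y : E2) : 0 ≤ pb r y := expNegInvGlue.nonneg _

lemma pb_pos_iff {r : ℝ} (hr : 0 < r) {y : E2} : 0 < pb r y ↔ ‖y‖ < r := by
  rw [pb, ← not_iff_not, not_lt, not_lt]
  constructor
  · intro h
    by_contra h'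
    push_neg at h'
    have : 0 < r ^ 2 - ‖y‖ ^ 2 := by
      have := norm_nonneg y
      nlinarith
    exact absurd (expNegInvGlue.pos_of_pos this) (not_lt.2 h)
  · intro h
    rw [expNegInvGlue.zero_of_nonpos]
    nlinarith [norm_nonneg y]

lemma pb_eq_zero {r : ℝ} (hr : 0 < r) {y : E2} (hy : r ≤ ‖y‖) : pb r y = 0 :=
  le_antisymm (not_lt.1 fun h => absurd ((pb_pos_iff hr).1 h) (not_lt.2 hy)) (pb_nonneg r y)

/-- squared bump of the disc of radius `r` in the chart `w` -/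
def bmp (w : OpenPartialHomeomorph M E2) (r : ℝ) : M → ℝ := ext0 w fun y => pb r y ^ 2

lemma bmp_nonneg (w : OpenPartialHomeomorph M E2) (r : ℝ) (p : M) : 0 ≤ bmp w r p := by
  by_cases hp : p ∈ w.source
  · rw [bmp, ext0_of_mem hp]; positivity
  · rw [bmp, ext0_of_notMem hp]

lemma bmp_pos_iff {w : OpenPartialHomeomorph M E2} {r : ℝ} (hr : 0 < r) {p : M} :
    0 < bmp w r p ↔ p ∈ w.source ∧ ‖w p‖ < r := by
  by_cases hp : p ∈ w.source
  · rw [bmp, ext0_of_mem hp]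
    have h1 := pb_nonneg r (w p)
    constructor
    · intro h
      refine ⟨hp, (pb_pos_iff hr).1 ?_⟩
      rcases h1.lt_or_eq with h2 | h2
      · exact h2
      · rw [← h2] at h; simp at h
    · rintro ⟨-, h⟩
      have := (pb_pos_iff hr).2 h
      positivity
  · rw [bmp, ext0_of_notMem hp]
    simp [hp]

theorem bmp_contMDiff [IsManifold (𝓡 2) ∞ M] [T2Space M] {w : OpenPartialHomeomorph M E2}
    (hw : w ∈ IsManifold.maximalAtlas (𝓡 2) ∞ M) {r : ℝ} (hr : 0 < r)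
    (hrt : Metric.closedBall (0 : E2) r ⊆ w.target) :
    ContMDiff (𝓡 2) 𝓘(ℝ, ℝ) ∞ (bmp w r) := by
  refine ext0_contMDiff hw ((pb_contDiff r).pow 2).contDiffOn
    (isCompact_closedBall (0 : E2) r) hrt ?_
  intro y _ hy
  rw [mem_closedBall_zero_iff, not_le] at hy
  rw [pb_eq_zero hr hy.le]
  ring

/-- data of a finite cover by discs -/
structure DiscCover (M : Type*) [TopologicalSpace M] [ChartedSpace E2 M] (Q : ℕ) where
  w : Fin Q → OpenPartialHomeomorph M E2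
  hw : ∀ q, w q ∈ IsManifold.maximalAtlas (𝓡 2) ∞ M
  r : Fin Q → ℝ
  hr : ∀ q, 0 < r q
  hrt : ∀ q, Metric.closedBall (0 : E2) (r q) ⊆ (w q).target
  cover : ∀ p : M, ∃ q, p ∈ (w q).source ∧ ‖w q p‖ < r q

namespace DiscCover
variable {Q : ℕ} (D : DiscCover M Q)

/-- the `q`-th bump -/
def B (q : Fin Q) (p : M) : ℝ := bmp (D.w q) (D.r q) p
/-- the sum of the bumps -/
def Sig (p : M) : ℝ := ∑ q, D.B q p
/-- the partition of unity -/
def eta (q : Fin Q) (p : M) : ℝ := D.B q p / D.Sig p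

lemma B_nonneg (q : Fin Q) (p : M) : 0 ≤ D.B q p := bmp_nonneg _ _ _

lemma B_pos_iff (q : Fin Q) (p : M) : 0 < D.B q p ↔ p ∈ (D.w q).source ∧ ‖D.w q p‖ < D.r q :=
  bmp_pos_iff (D.hr q)

lemma Sig_pos (p : M) : 0 < D.Sig p := by
  obtain ⟨q, hq⟩ := D.cover p
  exact Finset.sum_pos' (fun q _ => D.B_nonneg q p) ⟨q, Finset.mem_univ q, (D.B_pos_iff q p).2 hq⟩

lemma eta_nonneg (q : Fin Q) (p : M) : 0 ≤ D.eta q p :=
  div_nonneg (D.B_nonneg q p) (D.Sig_pos p).le

lemma sum_eta (p : M) : ∑ q, D.eta q p = 1 := by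
  simp only [eta]
  rw [← Finset.sum_div]
  exact div_self (D.Sig_pos p).ne'

lemma eta_pos_iff (q : Fin Q) (p : M) :
    0 < D.eta q p ↔ p ∈ (D.w q).source ∧ ‖D.w q p‖ < D.r q := by
  rw [← D.B_pos_iff q p, eta]
  exact div_pos_iff_of_pos_right (D.Sig_pos p)

lemma eta_eq_zero_iff (q : Fin Q) (p : M) :
    D.eta q p = 0 ↔ ¬ (p ∈ (D.w q).source ∧ ‖D.w q p‖ < D.r q) := by
  rw [← D.eta_pos_iff q p]
  have := D.eta_nonneg q p
  constructor
  · intro h; rw [h]; exact lt_irrefl _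
  · intro h; exact le_antisymm (not_lt.1 h) this

lemma B_eq_zero {q : Fin Q} {p : M} (h : ¬ (p ∈ (D.w q).source ∧ ‖D.w q p‖ < D.r q)) :
    D.B q p = 0 := by
  rw [← D.B_pos_iff] at h
  exact le_antisymm (not_lt.1 h) (D.B_nonneg q p)

section smooth
variable [IsManifold (𝓡 2) ∞ M] [T2Space M]

theorem B_contMDiff (q : Fin Q) : ContMDiff (𝓡 2) 𝓘(ℝ, ℝ) ∞ (D.B q) :=
  bmp_contMDiff (D.hw q) (D.hr q) (D.hrt q)

theorem Sig_contMDiff : ContMDiff (𝓡 2) 𝓘(ℝ, ℝ) ∞ D.Sig := by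
  have : D.Sig = fun p => ∑ q ∈ Finset.univ, D.B q p := rfl
  rw [this]
  exact contMDiff_finsetSum fun q _ => D.B_contMDiff q

/-- planar smoothness of a smooth function in a chart -/
theorem rep_smooth {f : M → ℝ} (hf : ContMDiff (𝓡 2) 𝓘(ℝ, ℝ) ∞ f)
    {ψ : OpenPartialHomeomorph M E2} (hψ : ψ ∈ IsManifold.maximalAtlas (𝓡 2) ∞ M) :
    ContDiffOn ℝ ∞ (rep f ψ) ψ.target := rep_contDiffOn hf hψ

theorem eta_contMDiff (q : Fin Q) : ContMDiff (𝓡 2) 𝓘(ℝ, ℝ) ∞ (D.eta q) := by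
  intro p
  have h1 : ContMDiffAt (𝓡 2) 𝓘(ℝ, ℝ) ∞ (fun p => (D.Sig p)⁻¹) p :=
    (contDiffAt_inv ℝ (D.Sig_pos p).ne').contMDiffAt.comp p (D.Sig_contMDiff p)
  have h2 : D.eta q = fun p => D.B q p * (D.Sig p)⁻¹ := by
    funext p; simp [eta, div_eq_mul_inv]
  rw [h2]
  exact (D.B_contMDiff q p).mul h1

end smooth

end DiscCover

end Crest.Agent.R216.PartQ
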