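import Crest.Agent.R216.DecIface
import Crest.Agent.R216.PartQ

/-!
Row 216 (S0335), part (6), module DCP (owner: helper706).
-/

set_option autoImplicit false
open scoped Manifold ContDiff Topology
open Set

noncomputable section
namespace Crest.Agent.R216.Dec

variable {M : Type*} [TopologicalSpace M] [ChartedSpace E2 M]

lemma bump_eq_bmp (P : Patch M) (r : ℝ) : P.bump r = PartQ.bmp P.w r := by
  funext p
  by_cases hp : p ∈ P.w.source
  · simp [Patch.bump, PartQ.bmp, PartQ.ext0, PartQ.pb, hp]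
  · simp [Patch.bump, PartQ.bmp, PartQ.ext0, hp]

lemma mem_disc_iff (P : Patch M) {r : ℝ} (hr : r < 2 * P.R) (p : M) :
    p ∈ P.disc r ↔ p ∈ P.w.source ∧ ‖P.w p‖ < r := by
  constructor
  · rintro ⟨y, hy, rfl⟩
    rw [mem_ball_zero_iff] at hy
    have hyt : y ∈ P.w.target := P.sub (by
      rw [mem_closedBall_zero_iff]; exact (hy.trans hr).le)
    refine ⟨P.w.map_target hyt, ?_⟩
    rw [P.w.right_inv hyt]; exact hy
  · rintro ⟨h1, h2⟩
    exact ⟨P.w p, by rwa [mem_ball_zero_iff], P.w.left_inv h1⟩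

theorem dcpa (M : Type*) [TopologicalSpace M] [ChartedSpace E2 M] [IsManifold (𝓡 2) ∞ M]
    [T2Space M] : DCPa M := by
  intro P r hr hrR
  rw [bump_eq_bmp]
  refine ⟨PartQ.bmp_contMDiff P.hw hr ?_, PartQ.bmp_nonneg _ _, ?_⟩
  · exact (Metric.closedBall_subset_closedBall hrR.le).trans P.sub
  · intro p
    rw [PartQ.bmp_pos_iff hr, mem_disc_iff P hrR]

end Crest.Agent.R216.Dec
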