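import Mathlib

/-!
Row 216, part (6): extension lemmas for smooth functions.
-/

set_option autoImplicit false

noncomputable section

open scoped Manifold ContDiff Topology
open Set

namespace Crest.Agent.R216

variable {E : Type*} [NormedAddCommGroup E] [NormedSpace ℝ E] [FiniteDimensional ℝ E]

/-- smooth cut-off function, `0` near the complement of `D`, `1` near `K` -/
theorem exists_cutoff_nhds {K D : Set E} (hK : IsClosed K) (hD : IsOpen D) (hKD : K ⊆ D) :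
    ∃ χ : E → ℝ, ContDiff ℝ ∞ χ ∧ (∀ᶠ x in 𝓝ˢ Dᶜ, χ x = 0) ∧ (∀ᶠ x in 𝓝ˢ K, χ x = 1) ∧
      ∀ x, 0 ≤ χ x ∧ χ x ≤ 1 := by
  obtain ⟨f, h0, h1, h⟩ := exists_contMDiffMap_zero_one_nhds_of_isClosed (n := ⊤) 𝓘(ℝ, E)
    (s := Dᶜ) (t := K) hD.isClosed_compl hK (disjoint_left.mpr fun x hx hxK => hx (hKD hxK))
  exact ⟨f, f.contMDiff.contDiff, h0, h1, fun x => ⟨(h x).1, (h x).2⟩⟩

/-- extension of a smooth function `b` (convexly interpolated with a constant `c`) -/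
theorem exists_ext_const {K D : Set E} (hK : IsClosed K) (hD : IsOpen D) (hKD : K ⊆ D)
    {F : Type*} [NormedAddCommGroup F] [NormedSpace ℝ F] {b : E → F}
    (hb : ContDiffOn ℝ ∞ b D) (c : F) :
    ∃ β : E → F, ContDiff ℝ ∞ β ∧ (∀ᶠ x in 𝓝ˢ K, β x = b x) ∧ (∀ᶠ x in 𝓝ˢ Dᶜ, β x = c) ∧
      (∀ x, ∃ l : ℝ, 0 ≤ l ∧ l ≤ 1 ∧ (x ∉ D → l = 0) ∧ β x = l • b x + (1 - l) • c) := by
  obtain ⟨χ, hχ, h0, h1, h01⟩ := exists_cutoff_nhds hK hD hKD
  have hz : ∀ x, x ∉ D → χ x = 0 := fun x hx => h0.self_of_nhdsSet x hx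
  refine ⟨fun x => χ x • b x + (1 - χ x) • c, ?_, ?_, ?_, fun x =>
    ⟨χ x, (h01 x).1, (h01 x).2, hz x, rfl⟩⟩
  · rw [contDiff_iff_contDiffAt]
    intro x
    by_cases hx : x ∈ D
    · exact (hχ.contDiffAt.smul (hb.contDiffAt (hD.mem_nhds hx))).add
        ((contDiffAt_const.sub hχ.contDiffAt).smul contDiffAt_const)
    · have h2 : (fun x => χ x • b x + (1 - χ x) • c) =ᶠ[𝓝 x] fun _ => c := by
        have h3 : ∀ᶠ y in 𝓝 x, χ y = 0 := h0.filter_mono (nhds_le_nhdsSet hx)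
        filter_upwards [h3] with y hy
        rw [hy, zero_smul, sub_zero, one_smul, zero_add]
      exact contDiffAt_const.congr_of_eventuallyEq h2
  · filter_upwards [h1] with x hx
    rw [hx, one_smul, sub_self, zero_smul, add_zero]
  · filter_upwards [h0] with x hx
    rw [hx, zero_smul, sub_zero, one_smul, zero_add]

/-- extension of a positive smooth function -/
theorem exists_pos_ext' {K D : Set E} (hK : IsClosed K) (hD : IsOpen D) (hKD : K ⊆ D)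
    {b : E → ℝ} (hb : ContDiffOn ℝ ∞ b D) (hpos : ∀ x ∈ D, 0 < b x) :
    ∃ β : E → ℝ, ContDiff ℝ ∞ β ∧ (∀ x, 0 < β x) ∧
      ∃ O, IsOpen O ∧ K ⊆ O ∧ O ⊆ D ∧ ∀ x ∈ O, β x = b x := by
  obtain ⟨β, h1, h2, h3, h4⟩ := exists_ext_const hK hD hKD hb 1
  obtain ⟨O, hO, hKO, hOe⟩ := mem_nhdsSet_iff_exists.mp h2
  refine ⟨β, h1, ?_, O ∩ D, hO.inter hD, subset_inter hKO hKD, inter_subset_right,
    fun x hx => hOe hx.1⟩
  intro x
  obtain ⟨l, hl0, hl1, hl, he⟩ := h4 x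
  rw [he]
  by_cases hx : x ∈ D
  · have := hpos x hx
    rcases hl0.eq_or_lt with h | h
    · rw [← h]; simp
    · have h5 : 0 < l • b x := mul_pos h this
      have h6 : 0 ≤ (1 - l) • (1 : ℝ) := mul_nonneg (by linarith) (by norm_num)
      linarith
  · rw [hl hx]; simp

/-- extension of a positive smooth function near a compact set -/
theorem exists_pos_ext {K D : Set E} (hK : IsCompact K) (hD : IsOpen D) (hKD : K ⊆ D)
    {b : E → ℝ} (hb : ContDiffOn ℝ ∞ b D) (hpos : ∀ x ∈ D, 0 < b x) :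
    ∃ β : E → ℝ, ContDiff ℝ ∞ β ∧ (∀ x, 0 < β x) ∧
      ∃ O, IsOpen O ∧ K ⊆ O ∧ O ⊆ D ∧ ∀ x ∈ O, β x = b x :=
  exists_pos_ext' hK.isClosed hD hKD hb hpos

/-- variant: positivity only on `K` -/
theorem exists_pos_ext_of_pos_on {K D : Set E} (hK : IsCompact K) (hD : IsOpen D) (hKD : K ⊆ D)
    {b : E → ℝ} (hb : ContDiffOn ℝ ∞ b D) (hpos : ∀ x ∈ K, 0 < b x) :
    ∃ β : E → ℝ, ContDiff ℝ ∞ β ∧ (∀ x, 0 < β x) ∧
      ∃ O, IsOpen O ∧ K ⊆ O ∧ O ⊆ D ∧ ∀ x ∈ O, β x = b x := by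
  have hD' : IsOpen (D ∩ b ⁻¹' Ioi 0) := hb.continuousOn.isOpen_inter_preimage hD isOpen_Ioi
  obtain ⟨β, h1, h2, O, hO, hKO, hOD, hOe⟩ := exists_pos_ext hK hD'
    (fun x hx => ⟨hKD hx, hpos x hx⟩) (hb.mono inter_subset_left) (fun x hx => hx.2)
  exact ⟨β, h1, h2, O, hO, hKO, hOD.trans inter_subset_left, hOe⟩

end Crest.Agent.R216
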