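import Crest.Agent.R216.DecIface
import Crest.Agent.R216.ExtPos

/-!
Row 216 (S0335), part (6), module DCX (owner: helper706).
-/

set_option autoImplicit false
open scoped Manifold ContDiff Topology
open Set

noncomputable section
namespace Crest.Agent.R216.Dec

theorem dcx : DCX := by
  intro D K b0 hD hK hKD hb hpos
  obtain ⟨β, h1, h2, O, -, hKO, -, hOe⟩ := exists_pos_ext hK hD hKD hb hpos
  exact ⟨β, h1, h2, fun y hy => hOe y (hKO hy)⟩

end Crest.Agent.R216.Dec
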