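import Mathlib

/-!
# Row 216, part (D): every compact surface immerses in `ℝ³`   (captain of (D): helper86)

Frozen definitions.  Modules: `D0` (basic lemmas), `D1` (generic map), `D2` (parity lemma),
`D3` (parity of cross-caps), `D4` (formal cancellation), `D5` (h-principle), `D6` (assembly).
-/

set_option autoImplicit false
open scoped Manifold ContDiff Topology
open Set Metric Function

namespace Crest.Agent.R216.D

/-- the plane -/
abbrev E2 := EuclideanSpace ℝ (Fin 2)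
/-- three-space -/
abbrev E3 := EuclideanSpace ℝ (Fin 3)

section Defs
variable (M : Type*) [TopologicalSpace M] [ChartedSpace E2 M]

/-- A finite atlas by big coordinate balls. -/
structure BallAtlas [IsManifold (𝓡 2) ∞ M] where
  n : ℕ
  c : Fin n → OpenPartialHomeomorph M E2
  mem : ∀ i, c i ∈ IsManifold.maximalAtlas (𝓡 2) ∞ M
  big : ∀ i, closedBall (0 : E2) 10 ⊆ (c i).target
  cover : ∀ x : M, ∃ i, x ∈ (c i).source ∧ c i x ∈ ball (0 : E2) 1

/-- Formal data: a bundle map `TM → ℝ³`, written as `Ψ x ∘ dι x` with a fixed smooth immersion `ι`. -/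
structure Formal where
  N : ℕ
  ι : M → EuclideanSpace ℝ (Fin N)
  hι : ContMDiff (𝓡 2) 𝓘(ℝ, EuclideanSpace ℝ (Fin N)) ∞ ι
  himm : ∀ x, Injective (mfderiv (𝓡 2) 𝓘(ℝ, EuclideanSpace ℝ (Fin N)) ι x)
  Ψ : M → (EuclideanSpace ℝ (Fin N) →L[ℝ] E3)
  hΨ : ContMDiff (𝓡 2) 𝓘(ℝ, EuclideanSpace ℝ (Fin N) →L[ℝ] E3) ∞ Ψ

variable {M}

/-- the matrix of the bundle map in a chart -/
noncomputable def Formal.mat (F : Formal M) (c : OpenPartialHomeomorph M E2) (u : E2) : E2 →L[ℝ] E3 :=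
  (F.Ψ (c.symm u)).comp (fderiv ℝ (F.ι ∘ c.symm) u)

/-- points where the bundle map is not injective -/
def Formal.sing (F : Formal M) : Set M :=
  {x | ∃ v : TangentSpace (𝓡 2) x, v ≠ 0 ∧
    F.Ψ x (mfderiv (𝓡 2) 𝓘(ℝ, EuclideanSpace ℝ (Fin F.N)) F.ι x v) = 0}

/-- cross-caps of a map to `ℝ³` -/
def sing (G : M → E3) : Set M :=
  {x | ∃ v : TangentSpace (𝓡 2) x, v ≠ 0 ∧ mfderiv (𝓡 2) 𝓘(ℝ, E3) G x v = 0}

/-- `A : E2 → Hom(ℝ²,ℝ³)` is nondegenerate at `u`: either `A u` is injective or `u` is a simple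
(rank one) zero. Applied to `A = fderiv ℝ g` for maps and to `A = F.mat c` for formal data. -/
def Nondeg (A : E2 → E2 →L[ℝ] E3) (u : E2) : Prop :=
  ∀ e : E2, e ≠ 0 → A u e = 0 → ∀ δ w : E2,
    fderiv ℝ A u δ e + A u w = 0 → δ = 0 ∧ ∃ τ : ℝ, w = τ • e

/-- double points off the diagonal are transversal (in all charts of the ball atlas) -/
def Transverse [IsManifold (𝓡 2) ∞ M] (𝒜 : BallAtlas M) (G : M → E3) : Prop :=
  ∀ i j, ∀ u ∈ (𝒜.c i).target, ∀ v ∈ (𝒜.c j).target,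
    (𝒜.c i).symm u ≠ (𝒜.c j).symm v → G ((𝒜.c i).symm u) = G ((𝒜.c j).symm v) →
    ∀ y : E3, ∃ a b : E2,
      fderiv ℝ (G ∘ (𝒜.c i).symm) u a - fderiv ℝ (G ∘ (𝒜.c j).symm) v b = y

open Classical in
/-- extension by zero of a planar function through a chart -/
noncomputable def extend0 {V : Type*} [Zero V] (c : OpenPartialHomeomorph M E2) (h : E2 → V) (x : M) : V :=
  if x ∈ c.source then h (c x) else 0

end Defs

end Crest.Agent.R216.D
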