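import Crest.Agent.R216.DecIface

/-!
Row 216 (S0335), part (6): assembly of `DecompStatement`, first half (helper321).
-/

set_option autoImplicit false
set_option linter.unusedSectionVars false
open scoped Manifold ContDiff Topology
open Set

noncomputable section
namespace Crest.Agent.R216.Dec

/-! ### elementary algebra -/

@[simp] lemma bv_apply (i j : Fin 2) : (bv i : E2) j = if j = i then 1 else 0 := by
  simp [bv]

lemma E2_expand (v : E2) : v = v 0 • bv 0 + v 1 • bv 1 := by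
  ext i; fin_cases i <;> simp

lemma rot_apply_zero (a : ℝ) (v : E2) : rot a v 0 = Real.cos a * v 0 - Real.sin a * v 1 := by
  simp [rot]

lemma rot_apply_one (a : ℝ) (v : E2) : rot a v 1 = Real.sin a * v 0 + Real.cos a * v 1 := by
  simp [rot]

lemma dph_eq_cov (k a : ℝ) (z v : E2) : dph k a z v = ∑ i, cov k a z i * v i := by
  simp only [cov, dph, Fin.sum_univ_two, rot_apply_zero, rot_apply_one, bv_apply]
  simp
  ring

lemma bil_add (b b' : Fin 2 → Fin 2 → ℝ) (v w : E2) : bil (b + b') v w = bil b v w + bil b' v w := by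
  simp only [bil, Fin.sum_univ_two, Pi.add_apply]; ring

lemma bil_smul (c : ℝ) (b : Fin 2 → Fin 2 → ℝ) (v w : E2) : bil (c • b) v w = c * bil b v w := by
  simp only [bil, Fin.sum_univ_two, Pi.smul_apply, smul_eq_mul]; ring

lemma bil_bv (b : Fin 2 → Fin 2 → ℝ) (i j : Fin 2) : bil b (bv i) (bv j) = b i j := by
  fin_cases i <;> fin_cases j <;> simp [bil]

lemma bil_rank1 (c : ℝ) (x : Fin 2 → ℝ) (v w : E2) :
    bil (fun i j => c * x i * x j) v w = c * (∑ i, x i * v i) * (∑ j, x j * w j) := by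
  simp only [bil, Fin.sum_univ_two]; ring

lemma bil_sum {ι : Type*} (s : Finset ι) (b : ι → Fin 2 → Fin 2 → ℝ) (v w : E2) :
    bil (∑ m ∈ s, b m) v w = ∑ m ∈ s, bil (b m) v w := by
  classical
  induction s using Finset.induction_on with
  | empty => simp [bil]
  | insert a s ha ih => rw [Finset.sum_insert ha, bil_add, ih, Finset.sum_insert ha]

/-- unit matrices -/
def Emat (k l : Fin 2) (i j : Fin 2) : ℝ := if i = k ∧ j = l then 1 else 0

lemma cC_linear (c : Fin 3 → Fin 2 → ℝ) (b : Fin 2 → Fin 2 → ℝ) (m : Fin 3) :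
    cC c b m = ∑ k, ∑ l, cC c (Emat k l) m * b k l := by
  simp only [cC, bil, Fin.sum_univ_two, Emat]
  simp
  ring

lemma rot_neg_rot (a : ℝ) (z : E2) : rot (-a) (rot a z) = z := by
  have h := Real.sin_sq_add_cos_sq a
  ext i
  fin_cases i
  · simp only [Fin.zero_eta, rot_apply_zero, rot_apply_one, Real.cos_neg, Real.sin_neg]
    linear_combination (z 0) * h
  · simp only [Fin.mk_one, rot_apply_zero, rot_apply_one, Real.cos_neg, Real.sin_neg]
    linear_combination (z 1) * h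

lemma rot_rot_neg (a : ℝ) (z : E2) : rot a (rot (-a) z) = z := by
  have := rot_neg_rot (-a) z
  rwa [neg_neg] at this

lemma thetaInv_theta (k : ℝ) (z : E2) : thetaInv k (theta k z) = z := by
  ext i
  fin_cases i <;> simp [thetaInv, theta]

lemma theta_thetaInv (k : ℝ) (z : E2) : theta k (thetaInv k z) = z := by
  ext i
  fin_cases i <;> simp [thetaInv, theta]

lemma phsInv_phs (k a : ℝ) (z : E2) : phsInv k a (phs k a z) = z := by
  rw [phsInv, phs, thetaInv_theta, rot_neg_rot]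

lemma phs_phsInv (k a : ℝ) (y : E2) : phs k a (phsInv k a y) = y := by
  rw [phsInv, phs, rot_rot_neg, theta_thetaInv]

lemma norm_rot (a : ℝ) (z : E2) : ‖rot a z‖ = ‖z‖ := by
  have h := Real.sin_sq_add_cos_sq a
  rw [EuclideanSpace.norm_eq, EuclideanSpace.norm_eq]
  congr 1
  simp only [Fin.sum_univ_two, Real.norm_eq_abs, sq_abs, rot_apply_zero, rot_apply_one]
  linear_combination (z 0 ^ 2 + z 1 ^ 2) * h

lemma norm_phsInv (k a : ℝ) (y : E2) : ‖phsInv k a y‖ = ‖thetaInv k y‖ := norm_rot _ _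

lemma contDiff_rot (a : ℝ) : ContDiff ℝ ∞ (rot a) := by
  unfold rot
  fun_prop

lemma contDiff_thetaInv (k : ℝ) : ContDiff ℝ ∞ (thetaInv k) := by
  unfold thetaInv
  fun_prop

lemma contDiff_phsInv (k a : ℝ) : ContDiff ℝ ∞ (phsInv k a) :=
  (contDiff_rot (-a)).comp (contDiff_thetaInv k)

lemma contDiff_cov (k a : ℝ) (i : Fin 2) : ContDiff ℝ ∞ (fun z => cov k a z i) := by
  unfold cov dph rot
  fun_prop

/-! ### tensors of the decomposition -/

section fam

variable {M : Type*} [TopologicalSpace M] [ChartedSpace E2 M]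
variable {Q : ℕ} (P : Fin Q → Patch M) (rr : Fin Q → ℝ) (α : Fin Q → Fin 3 → ℝ)

/-- sum of all bumps -/
def Bsum (p : M) : ℝ := ∑ q, (P q).bump (rr q) p

/-- partition of unity -/
def eta (q : Fin Q) (p : M) : ℝ := (P q).bump (rr q) p / Bsum P rr p

/-- Cramer coefficients of a tensor in a patch -/
def cf (T : Tens M) (q : Fin Q) (m : Fin 3) (z : E2) : ℝ :=
  cC (fun l => cov (P q).κ (α q l) z) (mat T (P q).w z) m

lemma eta_eq_zero {q : Fin Q} {p : M} (h : (P q).bump (rr q) p = 0) : eta P rr q p = 0 := by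
  simp [eta, h]

lemma sum_eta {p : M} (h : 0 < Bsum P rr p) : ∑ q, eta P rr q p = 1 := by
  simp only [eta, ← Finset.sum_div]
  exact div_self h.ne'

/-- components of a tangent vector in a chart -/
def dW (w : OpenPartialHomeomorph M E2) (p : M) (v : TangentSpace (𝓡 2) p) : E2 :=
  mfderiv (𝓡 2) 𝓘(ℝ, E2) w p v

/-- differential of the phase `m` of patch `q` (via the chart `w`) -/
def dphq (q : Fin Q) (m : Fin 3) (p : M) (v : TangentSpace (𝓡 2) p) : ℝ :=
  dph (P q).κ (α q m) ((P q).w p) (dW (P q).w p v)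

/-- Cramer decomposition of a tensor at a point of the patch -/
lemma cramer_tens (h1b : DC1b) {T : Tens M} {q : Fin Q} {p : M}
    (hsym : mat T (P q).w ((P q).w p) 0 1 = mat T (P q).w ((P q).w p) 1 0)
    (hT : ∀ v v' : TangentSpace (𝓡 2) p, T p v v' = bil (mat T (P q).w ((P q).w p))
      (dW (P q).w p v) (dW (P q).w p v'))
    (hw : ∀ m, wedge (cov (P q).κ (α q m) ((P q).w p))
      (cov (P q).κ (α q (m + 1)) ((P q).w p)) ≠ 0) (v v' : TangentSpace (𝓡 2) p) :
    ∑ m, cf P α T q m ((P q).w p) * dphq P α q m p v * dphq P α q m p v' = T p v v' := by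
  have h := h1b (fun l => cov (P q).κ (α q l) ((P q).w p)) (mat T (P q).w ((P q).w p)) hsym hw
  rw [hT]
  have h2 : mat T (P q).w ((P q).w p) = ∑ m, fun i j => cf P α T q m ((P q).w p) *
      cov (P q).κ (α q m) ((P q).w p) i * cov (P q).κ (α q m) ((P q).w p) j := by
    funext i j
    rw [h i j]
    simp [cf, Finset.sum_apply]
  rw [h2, bil_sum]
  refine Finset.sum_congr rfl fun m _ => ?_
  rw [bil_rank1]
  simp only [dphq, dph_eq_cov]

end fam

/-! ### the modules as one hypothesis -/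

/-- all modules used by the assembly -/
structure Parts (M : Type*) [TopologicalSpace M] [ChartedSpace E2 M] [IsManifold (𝓡 2) ∞ M]
    [T2Space M] [CompactSpace M] : Prop where
  dc1b : DC1b
  dc1d : DC1d
  dc2a : DC2a M
  dc2b : DC2b M
  dc2c : DC2c M
  dc2d : DC2d M
  dc2e : DC2e M
  dc2f : DC2f M
  dc3a : DC3a M
  dc3b : DC3b M
  dc3c : DC3c M
  dc3d : DC3d M
  dc3e : DC3e M
  dc4a : DC4a M
  dcl : DCL M
  dcp : DCPa M
  dc6 : DC6 M
  dcx : DCX
  dc5a : DC5a
  dc5b : DC5b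
  dc5c : DC5c

section patchlem

variable {M : Type*} [TopologicalSpace M] [ChartedSpace E2 M]

lemma Patch.ball_subset (P : Patch M) {r : ℝ} (hr : r ≤ 2 * P.R) :
    Metric.ball (0 : E2) r ⊆ P.w.target :=
  (Metric.ball_subset_closedBall.trans (Metric.closedBall_subset_closedBall hr)).trans P.sub

lemma Patch.sphere_subset (P : Patch M) {r : ℝ} (hr : r ≤ 2 * P.R) :
    Metric.sphere (0 : E2) r ⊆ P.w.target :=
  (Metric.sphere_subset_closedBall.trans (Metric.closedBall_subset_closedBall hr)).trans P.sub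

lemma Patch.mem_disc (P : Patch M) {r : ℝ} (hr : r ≤ 2 * P.R) {p : M} :
    p ∈ P.disc r ↔ p ∈ P.w.source ∧ ‖P.w p‖ < r := by
  constructor
  · rintro ⟨y, hy, rfl⟩
    have hyt := P.ball_subset hr hy
    refine ⟨P.w.map_target hyt, ?_⟩
    rw [P.w.right_inv hyt]
    simpa using hy
  · rintro ⟨h1, h2⟩
    exact ⟨P.w p, by simpa using h2, P.w.left_inv h1⟩

lemma Patch.mem_circ (P : Patch M) {r : ℝ} (hr : r ≤ 2 * P.R) {p : M} :
    p ∈ P.circ r ↔ p ∈ P.w.source ∧ ‖P.w p‖ = r := by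
  constructor
  · rintro ⟨y, hy, rfl⟩
    have hyt := P.sphere_subset hr hy
    refine ⟨P.w.map_target hyt, ?_⟩
    rw [P.w.right_inv hyt]
    simpa using hy
  · rintro ⟨h1, h2⟩
    exact ⟨P.w p, by simpa using h2, P.w.left_inv h1⟩

lemma Patch.isOpen_disc (P : Patch M) {r : ℝ} (hr : r ≤ 2 * P.R) : IsOpen (P.disc r) :=
  P.w.isOpen_image_symm_of_subset_target Metric.isOpen_ball (P.ball_subset hr)

end patchlem

/-- the geometric data produced by the cover and the general position module -/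
structure Setup (M : Type*) [TopologicalSpace M] [ChartedSpace E2 M] [IsManifold (𝓡 2) ∞ M]
    (g : Bundle.ContMDiffRiemannianMetric (𝓡 2) ∞ E2 (TangentSpace (𝓡 2) : M → Type))
    (A : FinAtlas M) (fs : M → E4) where
  Q : ℕ
  P : Fin Q → Patch M
  rr : Fin Q → ℝ
  α : Fin Q → Fin 3 → ℝ
  S0 : Fin Q → Fin 3 → Stage M
  good : ∀ q, (P q).Good (gT g) (pull fs)
  adapted : ∀ q, (P q).Adapted A
  hrr1 : ∀ q, (P q).R < rr q
  hrr2 : ∀ q, rr q < 2 * (P q).R
  hα : ∀ q m, |α q m - (P q).A m| < (P q).δ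
  isSt : ∀ q m, IsStage (P q) (α q m) (rr q) (S0 q m)
  cover : ∀ p, ∃ q, p ∈ (P q).disc (P q).R
  hfin : ∀ q q', q ≠ q' → ((P q).circ (rr q) ∩ (P q').circ (rr q')).Finite
  htrans : ∀ q q' q'', q ≠ q' → q' ≠ q'' → ∀ m m', ∀ p, p ∈ (P q').circ (rr q') →
      p ∈ (P q'').circ (rr q'') → p ∈ (P q).disc (rr q) →
      dph (P q).κ (α q m) ((P q).w p) (fderiv ℝ ((P q).w ∘ (P q').w.symm) ((P q').w p)
        (dlev (P q').κ (α q' m') ((P q').w p))) ≠ 0
  hthin : ∀ q q', ∀ m, ∀ a : ℝ, MeasureTheory.volume {b : ℝ |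
      phsInv (P q).κ (α q m) (a • bv 0 + b • bv 1) ∈ Metric.closedBall (0 : E2) (rr q) ∩
        (P q).w '' ((P q').circ (rr q') ∩ (P q).w.source)} = 0

section setup

variable {M : Type*} [TopologicalSpace M] [ChartedSpace E2 M] [IsManifold (𝓡 2) ∞ M]
    [T2Space M] [CompactSpace M]

lemma exists_setup (H : Parts M)
    (g : Bundle.ContMDiffRiemannianMetric (𝓡 2) ∞ E2 (TangentSpace (𝓡 2) : M → Type))
    (A : FinAtlas M) (fs : M → E4) (hfs : ContMDiff (𝓡 2) 𝓘(ℝ, E4) ∞ fs)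
    (hshort : ∀ (p : M) (v : TangentSpace (𝓡 2) p), v ≠ 0 →
      0 < pull fs p v v ∧ pull fs p v v < g.inner p v v) : Nonempty (Setup M g A fs) := by
  classical
  choose P hPA hPG hPd using H.dcl g A fs hfs hshort
  obtain ⟨t, ht⟩ := isCompact_univ.elim_finite_subcover (fun p => (P p).disc (P p).R)
    (fun p => (P p).isOpen_disc (by linarith [(P p).hR])) (fun p _ => mem_iUnion.2 ⟨p, hPd p⟩)
  let P' : Fin t.card → Patch M := fun i => P (t.equivFin.symm i : M)
  obtain ⟨rr, α, h1, h2, h3, h4, h5⟩ := H.dc6 t.card P'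
  have hS : ∀ q m, ∃ S : Stage M, IsStage (P' q) (α q m) (rr q) S := fun q m =>
    H.dc2a (P' q) (α q m) (rr q) ((P' q).hR.trans (h1 q).1) (h1 q).2
  choose S0 hS0 using hS
  exact ⟨{
    Q := t.card
    P := P'
    rr := rr
    α := α
    S0 := S0
    good := fun q => hPG _
    adapted := fun q => hPA _
    hrr1 := fun q => (h1 q).1
    hrr2 := fun q => (h1 q).2
    hα := h2
    isSt := hS0
    cover := by
      intro p
      obtain ⟨q, hq⟩ := mem_iUnion.1 (ht (mem_univ p))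
      obtain ⟨hqt, hpq⟩ := mem_iUnion.1 hq
      refine ⟨t.equivFin ⟨q, hqt⟩, ?_⟩
      have : P' (t.equivFin ⟨q, hqt⟩) = P q := by simp [P']
      rw [this]; exact hpq
    hfin := h3
    htrans := h4
    hthin := h5 }⟩

/-- decoding of an index -/
def dec {n Q : ℕ} (j : Fin (n * (Q * 3))) : Fin Q × Fin 3 :=
  finProdFinEquiv.symm (finProdFinEquiv.symm j).2

namespace Setup

variable {g : Bundle.ContMDiffRiemannianMetric (𝓡 2) ∞ E2 (TangentSpace (𝓡 2) : M → Type)}
    {A : FinAtlas M} {fs : M → E4} (D : Setup M g A fs)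

/-- the repeated list -/
def S (n : ℕ) (j : Fin (n * (D.Q * 3))) : Stage M := D.S0 (dec j).1 (dec j).2

lemma rr_pos (q : Fin D.Q) : 0 < D.rr q :=
  (D.P q).hR.trans (D.hrr1 q)

lemma genPos (H : Parts M) (n : ℕ) : GenPos (D.S n) := by
  have hb := fun q m => H.dc2b (D.P q) (D.α q m) (D.rr q) (D.S0 q m) (D.rr_pos q) (D.hrr2 q)
    (D.isSt q m)
  have hcirc : ∀ j, (D.S n j).circ = (D.P (dec j).1).circ (D.rr (dec j).1) := fun j =>
    (hb _ _).2.2.2
  have hV : ∀ j, (D.S n j).V = (D.P (dec j).1).disc (D.rr (dec j).1) := fun j =>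
    (hb _ _).2.2.1
  refine ⟨?_, ?_, ?_⟩
  · intro j k
    by_cases h : (dec j).1 = (dec k).1
    · left; rw [hcirc, hcirc, h]
    · right; rw [hcirc, hcirc]; exact D.hfin _ _ h
  · intro k j l _ _ hne p hpj hpl hpk
    rw [hcirc] at hpj hpl
    rw [hV] at hpk
    have h1 : (dec j).1 ≠ (dec l).1 := by
      intro h; apply hne; rw [hcirc, hcirc, h]
    have h2 : (dec k).1 ≠ (dec j).1 := by
      intro h
      rw [h] at hpk
      have a1 := ((D.P (dec j).1).mem_disc (D.hrr2 _).le).1 hpk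
      have a2 := ((D.P (dec j).1).mem_circ (D.hrr2 _).le).1 hpj
      exact absurd a2.2 a1.2.ne
    have h3 := D.htrans _ _ _ h2 h1 (dec k).2 (dec j).2 p hpj hpl hpk
    have a1 := ((D.P (dec k).1).mem_disc (D.hrr2 _).le).1 hpk
    have a2 := ((D.P (dec j).1).mem_circ (D.hrr2 _).le).1 hpj
    rw [show (D.S n k).dphi p ((D.S n j).lev p) = _ from
      H.dc2e (D.P (dec k).1) (D.P (dec j).1) _ _ _ _ (D.S n k) (D.S n j) (D.isSt _ _) (D.isSt _ _)
        p a1.1 a2.1]
    exact h3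
  · intro k j _ a
    refine MeasureTheory.measure_mono_null ?_ (D.hthin (dec k).1 (dec j).1 (dec k).2 a)
    intro b hb'
    have h1 := H.dc2f (D.P (dec k).1) _ _ (D.S n k) (D.rr_pos _) (D.hrr2 _) (D.isSt _ _)
      ((D.S n j).circ) _ hb'
    rw [hcirc j] at h1
    exact h1

lemma Bsum_pos (H : Parts M) (p : M) : 0 < Bsum D.P D.rr p := by
  obtain ⟨q, hq⟩ := D.cover p
  refine Finset.sum_pos' (fun q' _ => (H.dcp _ _ (D.rr_pos q') (D.hrr2 q')).2.1 p)
    ⟨q, Finset.mem_univ _, ?_⟩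
  refine ((H.dcp _ _ (D.rr_pos q) (D.hrr2 q)).2.2 p).2 ?_
  have h1 := ((D.P q).mem_disc (by linarith [(D.P q).hR])).1 hq
  exact ((D.P q).mem_disc (D.hrr2 q).le).2 ⟨h1.1, h1.2.trans (D.hrr1 q)⟩

lemma eta_contMDiff (H : Parts M) (q : Fin D.Q) :
    ContMDiff (𝓡 2) 𝓘(ℝ, ℝ) ∞ (eta D.P D.rr q) := by
  have h1 : ∀ q, ContMDiff (𝓡 2) 𝓘(ℝ, ℝ) ∞ ((D.P q).bump (D.rr q)) := fun q =>
    (H.dcp _ _ (D.rr_pos q) (D.hrr2 q)).1
  have h2 : ContMDiff (𝓡 2) 𝓘(ℝ, ℝ) ∞ (Bsum D.P D.rr) := by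
    have : Bsum D.P D.rr = fun p => ∑ q ∈ Finset.univ, (D.P q).bump (D.rr q) p := rfl
    rw [this]
    exact contMDiff_finsetSum (fun q _ => h1 q)
  exact (h1 q).div₀ h2 (fun p => (D.Bsum_pos H p).ne')

/-- matrix (in patch `q`) of `n` times the partial sum of one round before the stage `(q,m)` -/
def Xm (T : Tens M) (q : Fin D.Q) (m : Fin 3) (z : E2) (i j : Fin 2) : ℝ :=
  (∑ q', if q' < q then eta D.P D.rr q' ((D.P q).w.symm z) else 0) * mat T (D.P q).w z i j
  + ∑ m', if m' < m then eta D.P D.rr q ((D.P q).w.symm z) * cf D.P D.α T q m' z *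
      cov (D.P q).κ (D.α q m') z i * cov (D.P q).κ (D.α q m') z j else 0

end Setup

end setup

end Crest.Agent.R216.Dec
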