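import Crest.Agent.R216.Skel
import Crest.Agent.R216.GlobChart

/-!
Row 216 (S0335), part (6) = `DecompStatement`: definitions (helper321).

Planar conventions (helper609's): `rot a z = (cos a z₀ - sin a z₁, sin a z₀ + cos a z₁)`,
`theta k z = (z₀ + k z₁²/2, z₁)`; phase chart of a patch `P` with angle `a`:
`theta P.κ ∘ rot a ∘ P.w`.
-/

set_option autoImplicit false
open scoped Manifold ContDiff Topology
open Set

noncomputable section
namespace Crest.Agent.R216.Dec

/-- rotation by the angle `a` -/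
def rot (a : ℝ) (z : E2) : E2 :=
  (Real.cos a * z 0 - Real.sin a * z 1) • bv 0 + (Real.sin a * z 0 + Real.cos a * z 1) • bv 1

/-- parabolic shear -/
def theta (k : ℝ) (z : E2) : E2 := (z 0 + k * z 1 ^ 2 / 2) • bv 0 + z 1 • bv 1

/-- inverse of the parabolic shear -/
def thetaInv (k : ℝ) (z : E2) : E2 := (z 0 - k * z 1 ^ 2 / 2) • bv 0 + z 1 • bv 1

/-- coordinates with respect to the phase chart, from `w`-coordinates -/
def phs (k a : ℝ) (z : E2) : E2 := theta k (rot a z)

/-- inverse of `phs` -/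
def phsInv (k a : ℝ) (y : E2) : E2 := rot (-a) (thetaInv k y)

/-- differential of the phase (in `w`-coordinates) at `z` -/
def dph (k a : ℝ) (z v : E2) : ℝ := rot a v 0 + k * rot a z 1 * rot a v 1

/-- level direction (in `w`-coordinates) at `z` -/
def dlev (k a : ℝ) (z : E2) : E2 := rot (-a) ((-(k * rot a z 1)) • bv 0 + bv 1)

/-- phase direction (in `w`-coordinates) -/
def dnor (a : ℝ) : E2 := rot (-a) (bv 0)

/-- the covector of the phase at `z`: `dph k a z v = cov k a z 0 * v 0 + cov k a z 1 * v 1` -/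
def cov (k a : ℝ) (z : E2) (i : Fin 2) : ℝ := dph k a z (bv i)

/-- bilinear form with given matrix -/
def bil (b : Fin 2 → Fin 2 → ℝ) (v w : E2) : ℝ := ∑ i, ∑ j, b i j * v i * w j

/-- derivative of a bilinear form -/
def dbil (d : Fin 2 → Fin 2 → (E2 →L[ℝ] ℝ)) (u v w : E2) : ℝ := ∑ i, ∑ j, d i j u * v i * w j

/-- wedge of two covectors -/
def wedge (α β : Fin 2 → ℝ) : ℝ := α 0 * β 1 - α 1 * β 0

/-- Cramer coefficient: `b = ∑ m, cC c b m • (c m ⊗ c m)` if the three wedges are nonzero and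
`b` is symmetric -/
def cC (c : Fin 3 → Fin 2 → ℝ) (b : Fin 2 → Fin 2 → ℝ) (m : Fin 3) : ℝ :=
  bil b ((-(c (m + 1) 1)) • bv 0 + c (m + 1) 0 • bv 1) ((-(c (m + 2) 1)) • bv 0 + c (m + 2) 0 • bv 1)
    / (wedge (c m) (c (m + 1)) * wedge (c m) (c (m + 2)))

/-- 1-jets of the coefficient matrix of a 2-tensor -/
abbrev Jet := (Fin 2 → Fin 2 → ℝ) × (Fin 2 → Fin 2 → (E2 →L[ℝ] ℝ))

/-- `gam` as a function of the 1-jet of the metric coefficients (in the chart `w`) at `z` -/
def Fgam (k a : ℝ) (z : E2) (J : Jet) : ℝ :=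
  (dbil J.2 (dlev k a z) (dlev k a z) (dnor a) - dbil J.2 (dnor a) (dlev k a z) (dlev k a z) / 2)
      * bil J.1 (dlev k a z) (dlev k a z)
    - dbil J.2 (dlev k a z) (dlev k a z) (dlev k a z) / 2 * bil J.1 (dnor a) (dlev k a z)
    - k * (bil J.1 (dnor a) (dnor a) * bil J.1 (dlev k a z) (dlev k a z)
        - bil J.1 (dnor a) (dlev k a z) ^ 2)

section

variable {M : Type*} [TopologicalSpace M] [ChartedSpace E2 M]

/-- matrix of a 2-tensor in a chart -/
def mat (h : Tens M) (w : OpenPartialHomeomorph M E2) (z : E2) (i j : Fin 2) : ℝ :=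
  coef h w (bv i) (bv j) z

/-- 1-jet of (the matrix of) a 2-tensor in a chart -/
def jet (h : Tens M) (w : OpenPartialHomeomorph M E2) (z : E2) : Jet :=
  (mat h w z, fun i j => fderiv ℝ (coef h w (bv i) (bv j)) z)

/-- A patch: a chart `w`, radii in `(R, 2R)`, phase parameter `κ`, three base angles `A`,
tolerance `δ`. -/
structure Patch (M : Type*) [TopologicalSpace M] [ChartedSpace E2 M] where
  w : OpenPartialHomeomorph M E2
  hw : w ∈ IsManifold.maximalAtlas (𝓡 2) ∞ M
  R : ℝ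
  κ : ℝ
  δ : ℝ
  A : Fin 3 → ℝ
  hR : 0 < R
  hκ : 0 < κ
  hκR : κ * (2 * R) ≤ 1 / 2
  hδ : 0 < δ
  sub : Metric.closedBall (0 : E2) (2 * R) ⊆ w.target

/-- support function of the disc of radius `r` in phase coordinates -/
def discU (k r : ℝ) (y : E2) : ℝ := r ^ 2 - ‖thetaInv k y‖ ^ 2

/-- `S` is the stage with phase angle `a` and radius `r` of the patch `P` -/
structure IsStage (P : Patch M) (a r : ℝ) (S : Stage M) : Prop where
  src : S.ψ.source = P.w.source
  tgt : ∀ y, y ∈ S.ψ.target ↔ phsInv P.κ a y ∈ P.w.target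
  app : ∀ p, S.ψ p = phs P.κ a (P.w p)
  symm : ∀ y, S.ψ.symm y = P.w.symm (phsInv P.κ a y)
  u : S.u = discU P.κ r

/-- the circle of radius `r` of a patch -/
def Patch.circ (P : Patch M) (r : ℝ) : Set M := P.w.symm '' Metric.sphere (0 : E2) r

/-- the open disc of radius `r` of a patch -/
def Patch.disc (P : Patch M) (r : ℝ) : Set M := P.w.symm '' Metric.ball (0 : E2) r

open Classical in
/-- bump function of a patch: square of the amplitude profile -/
def Patch.bump (P : Patch M) (r : ℝ) (p : M) : ℝ :=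
  if p ∈ P.w.source then expNegInvGlue (r ^ 2 - ‖P.w p‖ ^ 2) ^ 2 else 0

/-- the good properties of a patch relative to the metrics `hs < g` -/
structure Patch.Good (P : Patch M) (g hs : Tens M) : Prop where
  /-- the three phases span and the Cramer coefficients of all matrices close to `g - hs`
  are positive -/
  pos : ∀ z ∈ Metric.closedBall (0 : E2) (2 * P.R), ∀ α : Fin 3 → ℝ, (∀ m, |α m - P.A m| < P.δ) →
    ∀ b : Fin 2 → Fin 2 → ℝ, (∀ i j, |b i j - (mat g P.w z i j - mat hs P.w z i j)| < P.δ) →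
    ∀ m, wedge (cov P.κ (α m) z) (cov P.κ (α (m + 1)) z) ≠ 0 ∧
      0 < cC (fun l => cov P.κ (α l) z) b m
  /-- `gam < 0` for all jets close to the segment `[hs, g]` -/
  gam : ∀ z ∈ Metric.closedBall (0 : E2) (2 * P.R), ∀ m : Fin 3, ∀ α : ℝ, |α - P.A m| < P.δ →
    ∀ s ∈ Icc (0 : ℝ) 1, ∀ J : Jet,
      ‖J - (jet hs P.w z + s • (jet g P.w z - jet hs P.w z))‖ < P.δ → Fgam P.κ α z J < 0

/-- the patch is a translate of an atlas chart of `A`, with disc inside the compact piece -/
def Patch.Adapted (P : Patch M) (A : FinAtlas M) : Prop :=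
  ∃ (c : Fin A.n) (x0 : E2), (∀ y, P.w.symm y = (A.χ c).symm (x0 + y)) ∧
    (∀ p, P.w p = A.χ c p - x0) ∧ P.w.source = (A.χ c).source ∧
    (∀ y, y ∈ P.w.target ↔ x0 + y ∈ (A.χ c).target) ∧
    ∀ y ∈ Metric.closedBall (0 : E2) (2 * P.R), x0 + y ∈ A.K c

/-- the difference `g - h` of tensors -/
def tsub (g h : Tens M) : Tens M := fun p v w => g p v w - h p v w

/-- the metric tensor of `g` -/
def gT [IsManifold (𝓡 2) ∞ M] (g : Bundle.ContMDiffRiemannianMetric (𝓡 2) ∞ E2 (TangentSpace (𝓡 2) : M → Type)) : Tens M :=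
  fun p v w => g.inner p v w

end

end Crest.Agent.R216.Dec
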