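import Crest.Agent.R216.DecA

/-!
Row 216 (S0335), part (6): smoothness and 1-jet bound of the partial sums `Xm` (helper847).
-/

set_option autoImplicit false
set_option linter.unusedSectionVars false
open scoped Manifold ContDiff Topology
open Set Metric

noncomputable section
namespace Crest.Agent.R216.Dec
namespace Setup

variable {M : Type*} [TopologicalSpace M] [ChartedSpace E2 M] [IsManifold (𝓡 2) ∞ M]
    [T2Space M] [CompactSpace M]
variable {g : Bundle.ContMDiffRiemannianMetric (𝓡 2) ∞ E2 (TangentSpace (𝓡 2) : M → Type)}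
    {A : FinAtlas M} {fs : M → E4}

/-- coefficients of the linear operator `mat T ↦ Xm T` -/
def XL (D : Setup M g A fs) (q : Fin D.Q) (m : Fin 3) (z : E2) (i j k l : Fin 2) : ℝ :=
  (∑ q', if q' < q then eta D.P D.rr q' ((D.P q).w.symm z) else 0) * Emat k l i j
  + ∑ m', if m' < m then eta D.P D.rr q ((D.P q).w.symm z) *
      cC (fun l' => cov (D.P q).κ (D.α q l') z) (Emat k l) m' *
      cov (D.P q).κ (D.α q m') z i * cov (D.P q).κ (D.α q m') z j else 0

lemma Emat_sum (b : Fin 2 → Fin 2 → ℝ) (i j : Fin 2) :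
    ∑ k, ∑ l, Emat k l i j * b k l = b i j := by
  fin_cases i <;> fin_cases j <;> simp [Emat, Fin.sum_univ_two]

lemma Xm_eq (D : Setup M g A fs) (T : Tens M) (q : Fin D.Q) (m : Fin 3) (z : E2) (i j : Fin 2) :
    D.Xm T q m z i j = ∑ k, ∑ l, D.XL q m z i j k l * mat T (D.P q).w z k l := by
  unfold Xm XL cf
  simp only [add_mul, Finset.sum_add_distrib]
  congr 1
  · simp only [mul_assoc, ← Finset.mul_sum, Emat_sum]
  · simp only [Finset.sum_mul]
    have h1 : ∀ k : Fin 2, (∑ l : Fin 2, ∑ m' : Fin 3, (if m' < m then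
        eta D.P D.rr q ((D.P q).w.symm z) *
        cC (fun l' => cov (D.P q).κ (D.α q l') z) (Emat k l) m' *
        cov (D.P q).κ (D.α q m') z i * cov (D.P q).κ (D.α q m') z j else 0) *
        mat T (D.P q).w z k l) = ∑ m' : Fin 3, ∑ l : Fin 2, (if m' < m then
        eta D.P D.rr q ((D.P q).w.symm z) *
        cC (fun l' => cov (D.P q).κ (D.α q l') z) (Emat k l) m' *
        cov (D.P q).κ (D.α q m') z i * cov (D.P q).κ (D.α q m') z j else 0) *
        mat T (D.P q).w z k l := fun k => Finset.sum_comm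
    simp only [h1]
    rw [Finset.sum_comm]
    refine Finset.sum_congr rfl fun m' _ => ?_
    split_ifs with h
    · rw [cC_linear]
      simp only [Finset.mul_sum, Finset.sum_mul]
      refine Finset.sum_congr rfl fun k _ => Finset.sum_congr rfl fun l _ => ?_
      ring
    · simp

lemma wedge_ne (D : Setup M g A fs) (q : Fin D.Q) {z : E2}
    (hz : z ∈ closedBall (0 : E2) (2 * (D.P q).R)) (l : Fin 3) :
    wedge (cov (D.P q).κ (D.α q l) z) (cov (D.P q).κ (D.α q (l + 1)) z) ≠ 0 := by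
  have h := (D.good q).pos z hz (D.α q) (D.hα q)
    (fun i j => mat (gT g) (D.P q).w z i j - mat (pull fs) (D.P q).w z i j)
    (fun i j => by simpa using (D.P q).hδ) l
  exact h.1

lemma XL_contDiffOn (H : Parts M) (D : Setup M g A fs) (q : Fin D.Q) (m : Fin 3)
    (i j k l : Fin 2) :
    ContDiffOn ℝ ∞ (fun z => D.XL q m z i j k l) (ball (0 : E2) (2 * (D.P q).R)) := by
  have hsub : ball (0 : E2) (2 * (D.P q).R) ⊆ (D.P q).w.target :=
    ball_subset_closedBall.trans (D.P q).sub
  have heta : ∀ q', ContDiffOn ℝ ∞ (fun z => eta D.P D.rr q' ((D.P q).w.symm z))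
      (ball (0 : E2) (2 * (D.P q).R)) := by
    intro q'
    have h1 : ContMDiffOn (𝓡 2) (𝓡 2) ∞ (D.P q).w.symm (D.P q).w.target :=
      contMDiffOn_symm_of_mem_maximalAtlas (D.P q).hw
    have h2 : ContMDiffOn (𝓡 2) 𝓘(ℝ, ℝ) ∞ (fun z => eta D.P D.rr q' ((D.P q).w.symm z))
        (D.P q).w.target := (D.eta_contMDiff H q').comp_contMDiffOn h1
    exact (contMDiffOn_iff_contDiffOn.1 h2).mono hsub
  have hcov : ∀ m' i', ContDiffOn ℝ ∞ (fun z => cov (D.P q).κ (D.α q m') z i')
      (ball (0 : E2) (2 * (D.P q).R)) := fun m' i' => (contDiff_cov _ _ _).contDiffOn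
  have hcC : ∀ m', ContDiffOn ℝ ∞ (fun z => cC (fun l' => cov (D.P q).κ (D.α q l') z)
      (Emat k l) m') (ball (0 : E2) (2 * (D.P q).R)) := by
    intro m' z hz
    exact (H.dc1d (D.P q).κ (D.α q) (fun _ => Emat k l) z m'
      (fun l' => D.wedge_ne q (ball_subset_closedBall hz) l')
      (fun _ _ => contDiffAt_const)).contDiffWithinAt
  unfold XL
  refine ContDiffOn.add (ContDiffOn.mul ?_ contDiffOn_const) ?_
  · refine ContDiffOn.sum fun q' _ => ?_
    split_ifs
    · exact heta q'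
    · exact contDiffOn_const
  · refine ContDiffOn.sum fun m' _ => ?_
    split_ifs
    · exact (((heta q).mul (hcC m')).mul (hcov m' i)).mul (hcov m' j)
    · exact contDiffOn_const

/-- (X1) -/
lemma Xm_differentiableAt (H : Parts M) (D : Setup M g A fs) {T : Tens M} (q : Fin D.Q)
    (m : Fin 3) (hT : ∀ i j, ∀ z ∈ (D.P q).w.target,
      DifferentiableAt ℝ (fun z => mat T (D.P q).w z i j) z) :
    ∀ z ∈ ball (0 : E2) (2 * (D.P q).R), ∀ i j,
      DifferentiableAt ℝ (fun z => D.Xm T q m z i j) z := by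
  intro z hz i j
  have hsub : ball (0 : E2) (2 * (D.P q).R) ⊆ (D.P q).w.target :=
    ball_subset_closedBall.trans (D.P q).sub
  simp only [Xm_eq]
  refine DifferentiableAt.fun_sum fun k _ => DifferentiableAt.fun_sum fun l _ => ?_
  refine DifferentiableAt.mul ?_ (hT k l z (hsub hz))
  exact ((D.XL_contDiffOn H q m i j k l).contDiffAt (isOpen_ball.mem_nhds hz)).differentiableAt
    (by simp)

/-- (X2) -/
lemma Xm_bound (H : Parts M) (D : Setup M g A fs) : ∃ C : ℝ, 0 < C ∧
    ∀ (q : Fin D.Q) (m : Fin 3) (T : Tens M), (∀ i j, ∀ z ∈ (D.P q).w.target,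
      DifferentiableAt ℝ (fun z => mat T (D.P q).w z i j) z) →
    ∀ z ∈ closedBall (0 : E2) (D.rr q),
      ‖((D.Xm T q m z, fun i j => fderiv ℝ (fun z => D.Xm T q m z i j) z) : Jet)‖
        ≤ C * ‖jet T (D.P q).w z‖ := by
  have key : ∀ (q : Fin D.Q) (m : Fin 3), ∃ C : ℝ, 0 < C ∧ ∀ (T : Tens M),
      (∀ i j, ∀ z ∈ (D.P q).w.target,
        DifferentiableAt ℝ (fun z => mat T (D.P q).w z i j) z) →
      ∀ z ∈ closedBall (0 : E2) (D.rr q),
        ‖((D.Xm T q m z, fun i j => fderiv ℝ (fun z => D.Xm T q m z i j) z) : Jet)‖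
          ≤ C * ‖jet T (D.P q).w z‖ := by
    intro q m
    have hsub : ball (0 : E2) (2 * (D.P q).R) ⊆ (D.P q).w.target :=
      ball_subset_closedBall.trans (D.P q).sub
    obtain ⟨C, hC, h⟩ := H.dc5a (ball (0 : E2) (2 * (D.P q).R)) (closedBall (0 : E2) (D.rr q))
      (D.XL q m) isOpen_ball (isCompact_closedBall _ _) (closedBall_subset_ball (D.hrr2 q))
      (fun i j k l => D.XL_contDiffOn H q m i j k l)
    refine ⟨C, hC, fun T hT z hz => ?_⟩
    have h2 := h (mat T (D.P q).w) (fun i j z hz => hT i j z (hsub hz)) z hz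
    have e : ∀ i j, (fun z => D.Xm T q m z i j) =
        fun z => ∑ k, ∑ l, D.XL q m z i j k l * mat T (D.P q).w z k l := by
      intro i j
      funext z
      exact D.Xm_eq T q m z i j
    have e2 : D.Xm T q m z =
        fun i j => ∑ k, ∑ l, D.XL q m z i j k l * mat T (D.P q).w z k l := by
      funext i j
      exact D.Xm_eq T q m z i j
    rw [e2]
    simp only [e]
    exact h2
  choose C hC h using key
  refine ⟨1 + ∑ q, ∑ m, C q m, ?_, fun q m T hT z hz => ?_⟩
  · have : 0 ≤ ∑ q, ∑ m, C q m :=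
      Finset.sum_nonneg fun q _ => Finset.sum_nonneg fun m _ => (hC q m).le
    linarith
  · refine (h q m T hT z hz).trans (mul_le_mul_of_nonneg_right ?_ (norm_nonneg _))
    have h1 : C q m ≤ ∑ m, C q m :=
      Finset.single_le_sum (f := fun m => C q m) (fun m _ => (hC q m).le) (Finset.mem_univ m)
    have h2 : ∑ m, C q m ≤ ∑ q, ∑ m, C q m :=
      Finset.single_le_sum (f := fun q => ∑ m, C q m)
        (fun q _ => Finset.sum_nonneg fun m _ => (hC q m).le) (Finset.mem_univ q)
    linarith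

end Setup
end Crest.Agent.R216.Dec
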