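import Crest.Agent.R216.DecMain
import Crest.Agent.R216.DecX
import Crest.Agent.R216.DC1
import Crest.Agent.R216.DC2
import Crest.Agent.R216.DC2c
import Crest.Agent.R216.DC3F
import Crest.Agent.R216.DC4A
import Crest.Agent.R216.DC5
import Crest.Agent.R216.DC6
import Crest.Agent.R216.DCL2
import Crest.Agent.R216.DCP
import Crest.Agent.R216.DCX

/-!
Row 216 (S0335), part (6): `DecompStatement` (helper321 and the DC team).
-/

set_option autoImplicit false
open scoped Manifold ContDiff Topology
open Set

noncomputable section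
namespace Crest.Agent.R216.Dec

theorem parts (M : Type*) [TopologicalSpace M] [ChartedSpace E2 M] [IsManifold (𝓡 2) ∞ M]
    [T2Space M] [CompactSpace M] : Parts M where
  dc1b := dc1b
  dc1d := dc1d
  dc2a := dc2a M
  dc2b := dc2b M
  dc2c := dc2c M
  dc2d := dc2d M
  dc2e := dc2e M
  dc2f := dc2f M
  dc3a := dc3a M
  dc3b := dc3b M
  dc3c := dc3c M
  dc3d := dc3d M
  dc3e := dc3e M
  dc4a := dc4a M
  dcl := dcL M
  dcp := dcpa M
  dc6 := dc6 M
  dcx := dcx
  dc5a := dc5a
  dc5b := dc5b
  dc5c := dc5c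

/-- **Part (6) of row 216.** -/
theorem decompStatement (M : Type*) [TopologicalSpace M] [ChartedSpace E2 M]
    [IsManifold (𝓡 2) ∞ M] [T2Space M] [CompactSpace M] : DecompStatement M :=
  decomp_of_parts (parts M)
    (fun _ _ _ D q m _ hT => Setup.Xm_differentiableAt (parts M) D q m hT)
    (fun _ _ _ D => Setup.Xm_bound (parts M) D)

end Crest.Agent.R216.Dec
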