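import Mathlib

/-!
# General position for finitely many gauge functions on a surface (row 216, note 6825 (E))
-/

set_option autoImplicit false

open MeasureTheory Set Filter Topology
open scoped ContDiff Manifold

namespace Crest.Agent.R216

/-- the model plane -/
local notation "E2" => EuclideanSpace ℝ (Fin 2)

/-- linear identification of `ℝ × ℝ` with the Euclidean plane -/
noncomputable def eqPlane : (ℝ × ℝ) ≃L[ℝ] E2 :=
  ContinuousLinearEquiv.ofFinrankEq (by simp)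

theorem det_eq_zero_of_ker {V : Type*} [NormedAddCommGroup V] [NormedSpace ℝ V]
    [FiniteDimensional ℝ V] (A : V →L[ℝ] V) {v : V} (hv : v ≠ 0) (hA : A v = 0) : A.det = 0 := by
  by_contra h
  have h1 : LinearMap.det (A : V →ₗ[ℝ] V) ≠ 0 := h
  have h2 : IsUnit (LinearMap.det (A : V →ₗ[ℝ] V)) := isUnit_iff_ne_zero.2 h1
  have h3 := (LinearMap.isUnit_iff_isUnit_det _).2 h2
  have h4 : Function.Injective (A : V →ₗ[ℝ] V) := by
    have := (Module.End.isUnit_iff _).1 h3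
    exact this.1
  exact hv (h4 (by simpa using hA))

/-- planar Sard: the image of the set where the differential is not injective is null -/
theorem volume_image_eq_zero_of_ker {f : E2 → ℝ × ℝ} {f' : E2 → E2 →L[ℝ] ℝ × ℝ} {s : Set E2}
    (hf : ∀ x ∈ s, HasFDerivAt f (f' x) x) (hker : ∀ x ∈ s, ∃ v : E2, v ≠ 0 ∧ f' x v = 0) :
    volume (f '' s) = 0 := by
  have h1 : f '' s = (f ∘ eqPlane) '' (eqPlane ⁻¹' s) := by
    rw [image_comp, image_preimage_eq _ eqPlane.surjective]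
  rw [h1]
  refine addHaar_image_eq_zero_of_det_fderivWithin_eq_zero (μ := (volume : Measure (ℝ × ℝ)))
    (f' := fun y => (f' (eqPlane y)).comp (eqPlane : (ℝ × ℝ) →L[ℝ] E2)) ?_ ?_
  · intro y hy
    exact ((hf _ hy).comp y eqPlane.hasFDerivAt).hasFDerivWithinAt
  · intro y hy
    obtain ⟨v, hv, hv0⟩ := hker _ hy
    refine det_eq_zero_of_ker _ (v := eqPlane.symm v) (by simpa using hv) ?_
    simp [hv0]

theorem isAddHaar_three : (volume : Measure (ℝ × ℝ × ℝ)).IsAddHaarMeasure := by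
  have h : (volume : Measure (ℝ × ℝ)).IsAddHaarMeasure := inferInstance
  exact Measure.prod.instIsAddHaarMeasure (volume : Measure ℝ) (volume : Measure (ℝ × ℝ))

/-- the image of a planar set under a differentiable map to `ℝ³` is null -/
theorem volume_image_eq_zero_three {f : E2 → ℝ × ℝ × ℝ} {f' : E2 → E2 →L[ℝ] ℝ × ℝ × ℝ} {s : Set E2}
    (hf : ∀ x ∈ s, HasFDerivAt f (f' x) x) : volume (f '' s) = 0 := by
  -- extend to `ℝ × ℝ × ℝ`
  have hHaar := isAddHaar_three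
  let π : (ℝ × ℝ × ℝ) →L[ℝ] E2 := (eqPlane : (ℝ × ℝ) →L[ℝ] E2).comp
    ((ContinuousLinearMap.fst ℝ ℝ (ℝ × ℝ)).prod
      ((ContinuousLinearMap.fst ℝ ℝ ℝ).comp (ContinuousLinearMap.snd ℝ ℝ (ℝ × ℝ))))
  have hπ : Function.Surjective π := by
    intro x
    refine ⟨((eqPlane.symm x).1, (eqPlane.symm x).2, 0), ?_⟩
    simp [π]
  have h1 : f '' s = (f ∘ π) '' (π ⁻¹' s) := by
    rw [image_comp, image_preimage_eq _ hπ]
  rw [h1]
  refine addHaar_image_eq_zero_of_det_fderivWithin_eq_zero (μ := (volume : Measure (ℝ × ℝ × ℝ)))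
    (f' := fun y => (f' (π y)).comp π) ?_ ?_
  · intro y hy
    exact ((hf _ hy).comp y π.hasFDerivAt).hasFDerivWithinAt
  · intro y hy
    refine det_eq_zero_of_ker _ (v := ((0:ℝ), (0:ℝ), (1:ℝ))) (by simp) ?_
    have : π ((0:ℝ), (0:ℝ), (1:ℝ)) = 0 := by
      simp [π]
    simp [this]

/-- choose generic radii -/
theorem exists_radii {ι : Type*} [Finite ι] (N2 : ι → ι → Set (ℝ × ℝ))
    (N3 : ι → ι → ι → Set (ℝ × ℝ × ℝ)) (N1 : ι → Set ℝ)
    (h1 : ∀ i, volume (N1 i) = 0)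
    (h2 : ∀ i j, i ≠ j → volume (N2 i j) = 0)
    (h3 : ∀ i j k, i ≠ j → j ≠ k → i ≠ k → volume (N3 i j k) = 0)
    (α β : ι → ℝ) (hαβ : ∀ i, α i < β i) :
    ∃ r : ι → ℝ, (∀ i, r i ∈ Ioo (α i) (β i)) ∧ (∀ i, r i ∉ N1 i) ∧
      (∀ i j, i ≠ j → (r i, r j) ∉ N2 i j) ∧
      (∀ i j k, i ≠ j → j ≠ k → i ≠ k → (r i, r j, r k) ∉ N3 i j k) := by
  classical
  have hHaar := isAddHaar_three
  have : Fintype ι := Fintype.ofFinite ι
  have e1 : ∀ i, ∀ᵐ r : ι → ℝ, r i ∉ N1 i := by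
    intro i
    have hs : Function.Surjective (LinearMap.proj i : (ι → ℝ) →ₗ[ℝ] ℝ) := by
      intro y; exact ⟨fun _ => y, rfl⟩
    have hmeas : MeasurableSet ((toMeasurable volume (N1 i))ᶜ) :=
      (measurableSet_toMeasurable _ _).compl
    have := (ae_comp_linearMap_mem_iff (LinearMap.proj i : (ι → ℝ) →ₗ[ℝ] ℝ)
      (μ := (volume : Measure (ι → ℝ))) (ν := (volume : Measure ℝ)) hs hmeas).2 (by
        rw [ae_iff]
        simpa [measure_toMeasurable] using h1 i)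
    filter_upwards [this] with r hr hr'
    exact hr (subset_toMeasurable _ _ hr')
  have e2 : ∀ i j, i ≠ j → ∀ᵐ r : ι → ℝ, (r i, r j) ∉ N2 i j := by
    intro i j hij
    set Lm : (ι → ℝ) →ₗ[ℝ] ℝ × ℝ := (LinearMap.proj i).prod (LinearMap.proj j) with hLm
    have hs : Function.Surjective Lm := by
      rintro ⟨a, b⟩
      refine ⟨fun k => if k = i then a else b, ?_⟩
      simp [hLm, hij.symm]
    have hmeas : MeasurableSet ((toMeasurable volume (N2 i j))ᶜ) :=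
      (measurableSet_toMeasurable _ _).compl
    have := (ae_comp_linearMap_mem_iff Lm
      (μ := (volume : Measure (ι → ℝ))) (ν := (volume : Measure (ℝ × ℝ))) hs hmeas).2 (by
        rw [ae_iff]
        simpa [measure_toMeasurable] using h2 i j hij)
    filter_upwards [this] with r hr hr'
    exact hr (subset_toMeasurable _ _ hr')
  have e3 : ∀ i j k, i ≠ j → j ≠ k → i ≠ k → ∀ᵐ r : ι → ℝ, (r i, r j, r k) ∉ N3 i j k := by
    intro i j k hij hjk hik
    set Lm : (ι → ℝ) →ₗ[ℝ] ℝ × ℝ × ℝ :=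
      (LinearMap.proj i).prod ((LinearMap.proj j).prod (LinearMap.proj k)) with hLm
    have hs : Function.Surjective Lm := by
      rintro ⟨a, b, c⟩
      refine ⟨fun l => if l = i then a else if l = j then b else c, ?_⟩
      simp [hLm, hij.symm, hik.symm, hjk.symm]
    have hmeas : MeasurableSet ((toMeasurable volume (N3 i j k))ᶜ) :=
      (measurableSet_toMeasurable _ _).compl
    have := (ae_comp_linearMap_mem_iff Lm
      (μ := (volume : Measure (ι → ℝ))) (ν := (volume : Measure (ℝ × ℝ × ℝ))) hs hmeas).2 (by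
        rw [ae_iff]
        simpa [measure_toMeasurable] using h3 i j k hij hjk hik)
    filter_upwards [this] with r hr hr'
    exact hr (subset_toMeasurable _ _ hr')
  have hall : ∀ᵐ r : ι → ℝ, (∀ i, r i ∉ N1 i) ∧
      (∀ i j, i ≠ j → (r i, r j) ∉ N2 i j) ∧
      (∀ i j k, i ≠ j → j ≠ k → i ≠ k → (r i, r j, r k) ∉ N3 i j k) := by
    refine (ae_all_iff.2 e1).and (Filter.Eventually.and ?_ ?_)
    · refine ae_all_iff.2 fun i => ae_all_iff.2 fun j => ?_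
      by_cases hij : i = j
      · exact Filter.Eventually.of_forall (fun r h => (h hij).elim)
      · filter_upwards [e2 i j hij] with r hr _ using hr
    · refine ae_all_iff.2 fun i => ae_all_iff.2 fun j => ae_all_iff.2 fun k => ?_
      by_cases hij : i = j
      · exact Filter.Eventually.of_forall (fun r h => (h hij).elim)
      by_cases hjk : j = k
      · exact Filter.Eventually.of_forall (fun r _ h => (h hjk).elim)
      by_cases hik : i = k
      · exact Filter.Eventually.of_forall (fun r _ _ h => (h hik).elim)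
      filter_upwards [e3 i j k hij hjk hik] with r hr _ _ _ using hr
  have hopen : IsOpen (Set.pi univ (fun i => Ioo (α i) (β i))) :=
    isOpen_set_pi finite_univ (fun i _ => isOpen_Ioo)
  have hne : (Set.pi univ (fun i => Ioo (α i) (β i))).Nonempty := by
    refine ⟨fun i => (α i + β i)/2, fun i _ => ?_⟩
    have := hαβ i
    constructor <;> linarith
  have hfreq := (hopen.measure_pos (volume : Measure (ι → ℝ)) hne)
  have hex : ∃ r ∈ Set.pi univ (fun i => Ioo (α i) (β i)), (∀ i, r i ∉ N1 i) ∧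
      (∀ i j, i ≠ j → (r i, r j) ∉ N2 i j) ∧
      (∀ i j k, i ≠ j → j ≠ k → i ≠ k → (r i, r j, r k) ∉ N3 i j k) := by
    by_contra hcon
    push Not at hcon
    have hsub : Set.pi univ (fun i => Ioo (α i) (β i)) ⊆ {r : ι → ℝ | ¬ ((∀ i, r i ∉ N1 i) ∧
      (∀ i j, i ≠ j → (r i, r j) ∉ N2 i j) ∧
      (∀ i j k, i ≠ j → j ≠ k → i ≠ k → (r i, r j, r k) ∉ N3 i j k))} := by
      intro r hr h
      obtain ⟨i, j, k, hij, hjk, hik, hmem⟩ := hcon r hr h.1 h.2.1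
      exact h.2.2 i j k hij hjk hik hmem
    have : volume (Set.pi univ (fun i => Ioo (α i) (β i))) = 0 :=
      measure_mono_null hsub (ae_iff.1 hall)
    exact hfreq.ne' this
  obtain ⟨r, hr, hr'⟩ := hex
  exact ⟨r, fun i => hr i (mem_univ i), hr'⟩

variable {M : Type*} [TopologicalSpace M] [ChartedSpace E2 M]

/-- `dσ` and `dσ'` have no common kernel at `p`. -/
def Transv (σ σ' : M → ℝ) (p : M) : Prop :=
  ∀ v : TangentSpace (𝓡 2) p, mfderiv (𝓡 2) 𝓘(ℝ) σ p v = 0 → mfderiv (𝓡 2) 𝓘(ℝ) σ' p v = 0 → v = 0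

/-- a finite family of points whose charts cover -/
theorem exists_finite_chart_cover [CompactSpace M] :
    ∃ t : Finset M, ∀ p : M, ∃ q ∈ t, p ∈ (chartAt E2 q).source := by
  obtain ⟨t, ht⟩ := isCompact_univ.elim_nhds_subcover (fun x : M => (chartAt E2 x).source)
    (fun x _ => chart_source_mem_nhds E2 x)
  refine ⟨t, fun p => ?_⟩
  have := ht.2 (mem_univ p)
  simpa using this

section charts

variable [IsManifold (𝓡 2) 1 M]

omit [IsManifold (𝓡 2) 1 M] in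
theorem mdiffAt_of_contMDiffOn {O : Set M} (hO : IsOpen O) {σ : M → ℝ}
    (hσ : ContMDiffOn (𝓡 2) 𝓘(ℝ) 1 σ O) {p : M} (hp : p ∈ O) :
    MDifferentiableAt (𝓡 2) 𝓘(ℝ) σ p :=
  ((hσ p hp).contMDiffAt (hO.mem_nhds hp)).mdifferentiableAt (by simp)

/-- derivative of `σ ∘ chart.symm` -/
theorem hasFDerivAt_comp_chart_symm {σ : M → ℝ} (q : M) {x : E2} (hx : x ∈ (chartAt E2 q).target)
    (hσ : MDifferentiableAt (𝓡 2) 𝓘(ℝ) σ ((chartAt E2 q).symm x)) :
    ∃ A : E2 ≃L[ℝ] E2, HasFDerivAt (σ ∘ (chartAt E2 q).symm)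
      ((mfderiv (𝓡 2) 𝓘(ℝ) σ ((chartAt E2 q).symm x) : E2 →L[ℝ] ℝ).comp (A : E2 →L[ℝ] E2)) x := by
  have hch : MDifferentiableAt 𝓘(ℝ, E2) (𝓡 2) (chartAt E2 q).symm x :=
    mdifferentiableAt_atlas_symm (chart_mem_atlas E2 q) hx
  have hcomp : MDifferentiableAt 𝓘(ℝ, E2) 𝓘(ℝ) (σ ∘ (chartAt E2 q).symm) x :=
    MDifferentiableAt.comp x hσ hch
  have hmf := mfderiv_comp x hσ hch
  let A : TangentSpace 𝓘(ℝ, E2) x ≃L[ℝ] TangentSpace (𝓡 2) ((chartAt E2 q).symm x) :=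
    ((mdifferentiable_chart (I := 𝓡 2) q).symm).mfderiv (x := x) hx
  refine ⟨A, ?_⟩
  have h1 : HasFDerivAt (σ ∘ (chartAt E2 q).symm) (fderiv ℝ (σ ∘ (chartAt E2 q).symm) x) x :=
    (mdifferentiableAt_iff_differentiableAt.1 hcomp).hasFDerivAt
  rw [← mfderiv_eq_fderiv, hmf] at h1
  exact h1

/-- **Sard for pairs**: the set of pairs of values where the pair `(σ, σ')` is not transversal is
null. -/
theorem volume_nontransv_eq_zero [CompactSpace M] {O O' : Set M} (hO : IsOpen O) (hO' : IsOpen O')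
    {σ σ' : M → ℝ} (hσ : ContMDiffOn (𝓡 2) 𝓘(ℝ) 1 σ O) (hσ' : ContMDiffOn (𝓡 2) 𝓘(ℝ) 1 σ' O') :
    volume {y : ℝ × ℝ | ∃ p ∈ O ∩ O', ¬ Transv σ σ' p ∧ (σ p, σ' p) = y} = 0 := by
  classical
  obtain ⟨t, ht⟩ := exists_finite_chart_cover (M := M)
  have hsub : {y : ℝ × ℝ | ∃ p ∈ O ∩ O', ¬ Transv σ σ' p ∧ (σ p, σ' p) = y} ⊆
      ⋃ q ∈ t, (fun x => (σ ((chartAt E2 q).symm x), σ' ((chartAt E2 q).symm x))) ''
        {x | x ∈ (chartAt E2 q).target ∧ (chartAt E2 q).symm x ∈ O ∩ O' ∧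
          ¬ Transv σ σ' ((chartAt E2 q).symm x)} := by
    rintro y ⟨p, hp, hnt, rfl⟩
    obtain ⟨q, hq, hpq⟩ := ht p
    refine mem_biUnion hq ⟨chartAt E2 q p, ⟨(chartAt E2 q).map_source hpq, ?_, ?_⟩, ?_⟩
    · rwa [(chartAt E2 q).left_inv hpq]
    · rwa [(chartAt E2 q).left_inv hpq]
    · simp only [(chartAt E2 q).left_inv hpq]
  refine measure_mono_null hsub ?_
  refine (measure_biUnion_null_iff t.countable_toSet).2 fun q _ => ?_
  -- a choice of derivatives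
  have hder : ∀ x : E2, ∃ L : E2 →L[ℝ] ℝ × ℝ,
      (x ∈ (chartAt E2 q).target ∧ (chartAt E2 q).symm x ∈ O ∩ O' ∧
          ¬ Transv σ σ' ((chartAt E2 q).symm x)) →
      HasFDerivAt (fun x => (σ ((chartAt E2 q).symm x), σ' ((chartAt E2 q).symm x))) L x ∧
        ∃ v : E2, v ≠ 0 ∧ L v = 0 := by
    intro x
    by_cases hx : x ∈ (chartAt E2 q).target ∧ (chartAt E2 q).symm x ∈ O ∩ O' ∧
          ¬ Transv σ σ' ((chartAt E2 q).symm x)
    · obtain ⟨hxt, hxO, hxn⟩ := hx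
      have hch : MDifferentiableAt 𝓘(ℝ, E2) (𝓡 2) (chartAt E2 q).symm x :=
        mdifferentiableAt_atlas_symm (chart_mem_atlas E2 q) hxt
      have hs := mdiffAt_of_contMDiffOn hO hσ hxO.1
      have hs' := mdiffAt_of_contMDiffOn hO' hσ' hxO.2
      let A : TangentSpace 𝓘(ℝ, E2) x ≃L[ℝ] TangentSpace (𝓡 2) ((chartAt E2 q).symm x) :=
        ((mdifferentiable_chart (I := 𝓡 2) q).symm).mfderiv (x := x) hxt
      have d1 : HasFDerivAt (σ ∘ (chartAt E2 q).symm)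
          ((mfderiv (𝓡 2) 𝓘(ℝ) σ ((chartAt E2 q).symm x)).comp
            (mfderiv 𝓘(ℝ, E2) (𝓡 2) (chartAt E2 q).symm x)) x := by
        have h1 : HasFDerivAt (σ ∘ (chartAt E2 q).symm)
            (fderiv ℝ (σ ∘ (chartAt E2 q).symm) x) x :=
          (mdifferentiableAt_iff_differentiableAt.1 (hs.comp x hch)).hasFDerivAt
        rw [← mfderiv_eq_fderiv, mfderiv_comp x hs hch] at h1
        exact h1
      have d2 : HasFDerivAt (σ' ∘ (chartAt E2 q).symm)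
          ((mfderiv (𝓡 2) 𝓘(ℝ) σ' ((chartAt E2 q).symm x)).comp
            (mfderiv 𝓘(ℝ, E2) (𝓡 2) (chartAt E2 q).symm x)) x := by
        have h1 : HasFDerivAt (σ' ∘ (chartAt E2 q).symm)
            (fderiv ℝ (σ' ∘ (chartAt E2 q).symm) x) x :=
          (mdifferentiableAt_iff_differentiableAt.1 (hs'.comp x hch)).hasFDerivAt
        rw [← mfderiv_eq_fderiv, mfderiv_comp x hs' hch] at h1
        exact h1
      unfold Transv at hxn
      push Not at hxn
      obtain ⟨v, hv1, hv2, hv0⟩ := hxn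
      refine ⟨_, fun _ => ⟨d1.prodMk d2, A.symm v, ?_, ?_⟩⟩
      · intro h
        apply hv0
        have : A (A.symm v) = A 0 := congrArg A h
        simpa using this
      · have hA : (mfderiv 𝓘(ℝ, E2) (𝓡 2) (chartAt E2 q).symm x) (A.symm v) = v :=
          A.apply_symm_apply v
        refine Prod.ext ?_ ?_
        · change (mfderiv (𝓡 2) 𝓘(ℝ) σ ((chartAt E2 q).symm x))
            ((mfderiv 𝓘(ℝ, E2) (𝓡 2) (chartAt E2 q).symm x) (A.symm v)) = 0
          rw [hA]; exact hv1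
        · change (mfderiv (𝓡 2) 𝓘(ℝ) σ' ((chartAt E2 q).symm x))
            ((mfderiv 𝓘(ℝ, E2) (𝓡 2) (chartAt E2 q).symm x) (A.symm v)) = 0
          rw [hA]; exact hv2
    · exact ⟨0, fun h => (hx h).elim⟩
  choose L hL using hder
  exact volume_image_eq_zero_of_ker (f' := L) (fun x hx => (hL x hx).1) (fun x hx => (hL x hx).2)

/-- triples of values taken at a common point are null -/
theorem volume_triple_eq_zero [CompactSpace M] {O O' O'' : Set M} (hO : IsOpen O) (hO' : IsOpen O')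
    (hO'' : IsOpen O'') {σ σ' σ'' : M → ℝ} (hσ : ContMDiffOn (𝓡 2) 𝓘(ℝ) 1 σ O)
    (hσ' : ContMDiffOn (𝓡 2) 𝓘(ℝ) 1 σ' O') (hσ'' : ContMDiffOn (𝓡 2) 𝓘(ℝ) 1 σ'' O'') :
    volume {y : ℝ × ℝ × ℝ | ∃ p ∈ O ∩ O' ∩ O'', (σ p, σ' p, σ'' p) = y} = 0 := by
  classical
  obtain ⟨t, ht⟩ := exists_finite_chart_cover (M := M)
  have hsub : {y : ℝ × ℝ × ℝ | ∃ p ∈ O ∩ O' ∩ O'', (σ p, σ' p, σ'' p) = y} ⊆
      ⋃ q ∈ t, (fun x => (σ ((chartAt E2 q).symm x), σ' ((chartAt E2 q).symm x),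
          σ'' ((chartAt E2 q).symm x))) ''
        {x | x ∈ (chartAt E2 q).target ∧ (chartAt E2 q).symm x ∈ O ∩ O' ∩ O''} := by
    rintro y ⟨p, hp, rfl⟩
    obtain ⟨q, hq, hpq⟩ := ht p
    refine mem_biUnion hq ⟨chartAt E2 q p, ⟨(chartAt E2 q).map_source hpq, ?_⟩, ?_⟩
    · rwa [(chartAt E2 q).left_inv hpq]
    · simp only [(chartAt E2 q).left_inv hpq]
  refine measure_mono_null hsub ?_
  refine (measure_biUnion_null_iff t.countable_toSet).2 fun q _ => ?_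
  have hd : ∀ {U : Set M} (_ : IsOpen U) {τ : M → ℝ} (_ : ContMDiffOn (𝓡 2) 𝓘(ℝ) 1 τ U) (x : E2),
      x ∈ (chartAt E2 q).target → (chartAt E2 q).symm x ∈ U →
      HasFDerivAt (fun x => τ ((chartAt E2 q).symm x))
        (fderiv ℝ (fun x => τ ((chartAt E2 q).symm x)) x) x := by
    intro U hU τ hτ x hx hxU
    have hch : MDifferentiableAt 𝓘(ℝ, E2) (𝓡 2) (chartAt E2 q).symm x :=
      mdifferentiableAt_atlas_symm (chart_mem_atlas E2 q) hx
    have hs := mdiffAt_of_contMDiffOn hU hτ hxU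
    exact (mdifferentiableAt_iff_differentiableAt.1 (hs.comp x hch)).hasFDerivAt
  refine volume_image_eq_zero_three (f' := fun x =>
    (fderiv ℝ (fun x => σ ((chartAt E2 q).symm x)) x).prod
      ((fderiv ℝ (fun x => σ' ((chartAt E2 q).symm x)) x).prod
        (fderiv ℝ (fun x => σ'' ((chartAt E2 q).symm x)) x))) ?_
  rintro x ⟨hx, hxO⟩
  exact (hd hO hσ x hx hxO.1.1).prodMk ((hd hO' hσ' x hx hxO.1.2).prodMk (hd hO'' hσ'' x hx hxO.2))

/-- **General position of finitely many circles `{σ i = r i}`**. -/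
theorem exists_generic_radii [CompactSpace M] {ι : Type*} [Finite ι] (O : ι → Set M)
    (hO : ∀ i, IsOpen (O i)) (σ : ι → M → ℝ) (hσ : ∀ i, ContMDiffOn (𝓡 2) 𝓘(ℝ) 1 (σ i) (O i))
    (α β : ι → ℝ) (hαβ : ∀ i, α i < β i) :
    ∃ r : ι → ℝ, (∀ i, r i ∈ Ioo (α i) (β i)) ∧
      (∀ i j, i ≠ j → ∀ p ∈ O i ∩ O j, σ i p = r i → σ j p = r j → Transv (σ i) (σ j) p) ∧
      (∀ i j k, i ≠ j → j ≠ k → i ≠ k → ∀ p ∈ O i ∩ O j ∩ O k,
        ¬ (σ i p = r i ∧ σ j p = r j ∧ σ k p = r k)) := by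
  obtain ⟨r, hr, -, hr2, hr3⟩ := exists_radii
    (fun i j => {y : ℝ × ℝ | ∃ p ∈ O i ∩ O j, ¬ Transv (σ i) (σ j) p ∧ (σ i p, σ j p) = y})
    (fun i j k => {y : ℝ × ℝ × ℝ | ∃ p ∈ O i ∩ O j ∩ O k, (σ i p, σ j p, σ k p) = y})
    (fun _ => (∅ : Set ℝ)) (fun _ => measure_empty)
    (fun i j _ => volume_nontransv_eq_zero (hO i) (hO j) (hσ i) (hσ j))
    (fun i j k _ _ _ => volume_triple_eq_zero (hO i) (hO j) (hO k) (hσ i) (hσ j) (hσ k)) α β hαβ
  refine ⟨r, hr, ?_, ?_⟩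
  · intro i j hij p hp h1 h2
    by_contra hn
    exact hr2 i j hij ⟨p, hp, hn, by rw [h1, h2]⟩
  · rintro i j k hij hjk hik p hp ⟨h1, h2, h3⟩
    exact hr3 i j k hij hjk hik ⟨p, hp, by rw [h1, h2, h3]⟩

/-- transversal common level points are isolated -/
theorem Transv.eventually_ne {O O' : Set M} (hO : IsOpen O) (hO' : IsOpen O')
    {σ σ' : M → ℝ} (hσ : ContMDiffOn (𝓡 2) 𝓘(ℝ) 1 σ O) (hσ' : ContMDiffOn (𝓡 2) 𝓘(ℝ) 1 σ' O')
    {p : M} (hp : p ∈ O ∩ O') (h : Transv σ σ' p) (r r' : ℝ) :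
    ∀ᶠ x in 𝓝[≠] p, ¬ (σ x = r ∧ σ' x = r') := by
  set φ := chartAt E2 p with hφ
  have hps : p ∈ φ.source := mem_chart_source E2 p
  have hxt : φ p ∈ φ.target := φ.map_source hps
  have hinv : φ.symm (φ p) = p := φ.left_inv hps
  have hch : MDifferentiableAt 𝓘(ℝ, E2) (𝓡 2) φ.symm (φ p) :=
    mdifferentiableAt_atlas_symm (chart_mem_atlas E2 p) hxt
  have hs : MDifferentiableAt (𝓡 2) 𝓘(ℝ) σ (φ.symm (φ p)) := by
    rw [hinv]; exact mdiffAt_of_contMDiffOn hO hσ hp.1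
  have hs' : MDifferentiableAt (𝓡 2) 𝓘(ℝ) σ' (φ.symm (φ p)) := by
    rw [hinv]; exact mdiffAt_of_contMDiffOn hO' hσ' hp.2
  have hT : Transv σ σ' (φ.symm (φ p)) := by rw [hinv]; exact h
  let A : TangentSpace 𝓘(ℝ, E2) (φ p) ≃L[ℝ] TangentSpace (𝓡 2) (φ.symm (φ p)) :=
    ((mdifferentiable_chart (I := 𝓡 2) p).symm).mfderiv (x := φ p) hxt
  have d1 : HasFDerivAt (σ ∘ φ.symm)
      ((mfderiv (𝓡 2) 𝓘(ℝ) σ (φ.symm (φ p))).comp
        (mfderiv 𝓘(ℝ, E2) (𝓡 2) φ.symm (φ p))) (φ p) := by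
    have h1 : HasFDerivAt (σ ∘ φ.symm)
        (fderiv ℝ (σ ∘ φ.symm) (φ p)) (φ p) :=
      (mdifferentiableAt_iff_differentiableAt.1 (hs.comp (φ p) hch)).hasFDerivAt
    rw [← mfderiv_eq_fderiv, mfderiv_comp (φ p) hs hch] at h1
    exact h1
  have d2 : HasFDerivAt (σ' ∘ φ.symm)
      ((mfderiv (𝓡 2) 𝓘(ℝ) σ' (φ.symm (φ p))).comp
        (mfderiv 𝓘(ℝ, E2) (𝓡 2) φ.symm (φ p))) (φ p) := by
    have h1 : HasFDerivAt (σ' ∘ φ.symm)
        (fderiv ℝ (σ' ∘ φ.symm) (φ p)) (φ p) :=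
      (mdifferentiableAt_iff_differentiableAt.1 (hs'.comp (φ p) hch)).hasFDerivAt
    rw [← mfderiv_eq_fderiv, mfderiv_comp (φ p) hs' hch] at h1
    exact h1
  set L : E2 →L[ℝ] ℝ × ℝ := ((mfderiv (𝓡 2) 𝓘(ℝ) σ (φ.symm (φ p))).comp
        (mfderiv 𝓘(ℝ, E2) (𝓡 2) φ.symm (φ p)) : E2 →L[ℝ] ℝ).prod
        ((mfderiv (𝓡 2) 𝓘(ℝ) σ' (φ.symm (φ p))).comp
        (mfderiv 𝓘(ℝ, E2) (𝓡 2) φ.symm (φ p)) : E2 →L[ℝ] ℝ) with hLdef
  have d12 : HasFDerivAt (fun x => ((σ ∘ φ.symm) x, (σ' ∘ φ.symm) x)) L (φ p) := d1.prodMk d2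
  have hLinj : Function.Injective L := by
    rw [injective_iff_map_eq_zero]
    intro v hv
    have hv1 : (mfderiv (𝓡 2) 𝓘(ℝ) σ (φ.symm (φ p)))
        ((mfderiv 𝓘(ℝ, E2) (𝓡 2) φ.symm (φ p)) v) = 0 := congrArg Prod.fst hv
    have hv2 : (mfderiv (𝓡 2) 𝓘(ℝ) σ' (φ.symm (φ p)))
        ((mfderiv 𝓘(ℝ, E2) (𝓡 2) φ.symm (φ p)) v) = 0 := congrArg Prod.snd hv
    have h3 : A v = 0 := hT _ hv1 hv2
    exact A.injective (h3.trans A.map_zero.symm)
  have hanti : ∃ C, AntilipschitzWith C L := by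
    obtain ⟨C, -, hC⟩ := (L : E2 →ₗ[ℝ] ℝ × ℝ).exists_antilipschitzWith
      (LinearMap.ker_eq_bot.2 hLinj)
    exact ⟨C, hC⟩
  have hne := d12.eventually_ne (c := (r, r')) hanti
  -- pull back to `M`
  have hcont : Tendsto φ (𝓝[≠] p) (𝓝[≠] (φ p)) := by
    refine tendsto_nhdsWithin_iff.2 ⟨?_, ?_⟩
    · exact (φ.continuousAt hps).tendsto.mono_left nhdsWithin_le_nhds
    · have : φ.source ∈ 𝓝[≠] p := mem_nhdsWithin_of_mem_nhds (φ.open_source.mem_nhds hps)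
      filter_upwards [this, self_mem_nhdsWithin] with x hx hxp h
      exact hxp (φ.injOn hx hps h)
  have hsrc : φ.source ∈ 𝓝[≠] p := mem_nhdsWithin_of_mem_nhds (φ.open_source.mem_nhds hps)
  filter_upwards [hcont.eventually hne, hsrc] with x hx hxs
  rintro ⟨h1, h2⟩
  apply hx
  simp [φ.left_inv hxs, h1, h2]

/-- finiteness of the intersection of two transversal circles in a compact set -/
theorem finite_level_inter {O O' : Set M} (hO : IsOpen O) (hO' : IsOpen O')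
    {σ σ' : M → ℝ} (hσ : ContMDiffOn (𝓡 2) 𝓘(ℝ) 1 σ O) (hσ' : ContMDiffOn (𝓡 2) 𝓘(ℝ) 1 σ' O')
    {r r' : ℝ} (hT : ∀ p ∈ O ∩ O', σ p = r → σ' p = r' → Transv σ σ' p)
    {K : Set M} (hK : IsCompact K) (hKO : K ⊆ O ∩ O') :
    {p ∈ K | σ p = r ∧ σ' p = r'}.Finite := by
  -- compactness + discreteness
  set Z : Set M := {p ∈ K | σ p = r ∧ σ' p = r'} with hZ
  have hevent : ∀ p ∈ K, ∃ U ∈ 𝓝 p, (Z ∩ U).Finite := by
    intro p hp
    by_cases hpz : σ p = r ∧ σ' p = r'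
    · have h1 := (hT p (hKO hp) hpz.1 hpz.2).eventually_ne hO hO' hσ hσ' (hKO hp) r r'
      rw [eventually_nhdsWithin_iff] at h1
      refine ⟨_, h1, (Set.finite_singleton p).subset ?_⟩
      rintro x ⟨hxZ, hxU⟩
      by_contra hxp
      exact hxU hxp hxZ.2
    · -- continuity: nearby points are not in Z
      have hc : ContinuousAt σ p := (hσ p (hKO hp).1).continuousWithinAt.continuousAt
        (hO.mem_nhds (hKO hp).1)
      have hc' : ContinuousAt σ' p := (hσ' p (hKO hp).2).continuousWithinAt.continuousAt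
        (hO'.mem_nhds (hKO hp).2)
      have : ∀ᶠ x in 𝓝 p, ¬ (σ x = r ∧ σ' x = r') := by
        by_cases h1 : σ p = r
        · have h2 : σ' p ≠ r' := fun h => hpz ⟨h1, h⟩
          filter_upwards [hc'.eventually_ne h2] with x hx h using hx h.2
        · filter_upwards [hc.eventually_ne h1] with x hx h using hx h.1
      refine ⟨_, this, ?_⟩
      have he : Z ∩ {x | ¬ (σ x = r ∧ σ' x = r')} = ∅ := by
        ext x
        simp only [mem_inter_iff, mem_empty_iff_false, iff_false]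
        rintro ⟨hx, hx'⟩
        exact hx' hx.2
      rw [he]; exact Set.finite_empty
  have hfin : (Z ∩ K).Finite := by
    refine hK.induction_on (p := fun S => (Z ∩ S).Finite) (by simp) ?_ ?_ ?_
    · intro s t hst ht
      exact ht.subset (inter_subset_inter_right _ hst)
    · intro s t hs ht
      rw [inter_union_distrib_left]
      exact hs.union ht
    · intro p hp
      obtain ⟨U, hU, hf⟩ := hevent p hp
      exact ⟨U, mem_nhdsWithin_of_mem_nhds hU, hf⟩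
  exact hfin.subset (fun x hx => ⟨hx, hx.1⟩)

end charts

end Crest.Agent.R216
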