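import Crest.Agent.R216.DecA

/-!
Row 216 (S0335), part (6): assembly of `DecompStatement`, second half (helper321).
-/

set_option autoImplicit false
set_option linter.unusedSectionVars false
open scoped Manifold ContDiff Topology
open Set

noncomputable section
namespace Crest.Agent.R216.Dec
namespace Setup

variable {M : Type*} [TopologicalSpace M] [ChartedSpace E2 M] [IsManifold (𝓡 2) ∞ M]
    [T2Space M] [CompactSpace M]
variable {g : Bundle.ContMDiffRiemannianMetric (𝓡 2) ∞ E2 (TangentSpace (𝓡 2) : M → Type)}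
    {A : FinAtlas M} {fs : M → E4} (D : Setup M g A fs)

/-- the factor of the amplitude on the disc -/
def b0 (T : Tens M) (n : ℕ) (q : Fin D.Q) (m : Fin 3) (y : E2) : ℝ :=
  Real.sqrt (cf D.P D.α T q m (phsInv (D.P q).κ (D.α q m) y) /
    (n * Bsum D.P D.rr ((D.P q).w.symm (phsInv (D.P q).κ (D.α q m) y))))

lemma prim_formula (H : Parts M) {T : Tens M} {n : ℕ} (hn : 0 < n) {q : Fin D.Q} {m : Fin 3}
    {β : E2 → ℝ} (hβ : ∀ y ∈ closure (D.S0 q m).U, β y = D.b0 T n q m y)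
    (hc : ∀ z ∈ Metric.closedBall (0 : E2) (2 * (D.P q).R), 0 < cf D.P D.α T q m z)
    (p : M) (v v' : TangentSpace (𝓡 2) p) :
    (D.S0 q m).prim β p v v' = (1 / n) * (eta D.P D.rr q p * cf D.P D.α T q m ((D.P q).w p) *
      dphq D.P D.α q m p v * dphq D.P D.α q m p v') := by
  have hst := D.isSt q m
  have hamp := H.dc2d (D.P q) (D.α q m) (D.rr q) (D.S0 q m) hst β p
  have hbump := H.dcp (D.P q) (D.rr q) (D.rr_pos q) (D.hrr2 q)
  have hprim : (D.S0 q m).prim β p v v' =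
      (D.S0 q m).amp β p ^ 2 * (D.S0 q m).dphi p v * (D.S0 q m).dphi p v' := rfl
  rw [hprim, hamp]
  by_cases h0 : (D.P q).bump (D.rr q) p = 0
  · rw [eta_eq_zero D.P D.rr h0, h0]; ring
  · have hpos : 0 < (D.P q).bump (D.rr q) p := lt_of_le_of_ne (hbump.2.1 p) (Ne.symm h0)
    have hdisc := (hbump.2.2 p).1 hpos
    obtain ⟨hsrc, hnorm⟩ := ((D.P q).mem_disc (D.hrr2 q).le).1 hdisc
    have hd := H.dc2c (D.P q) (D.α q m) (D.rr q) (D.S0 q m) hst p hsrc
    rw [show (D.S0 q m).dphi p v = dphq D.P D.α q m p v from hd v,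
      show (D.S0 q m).dphi p v' = dphq D.P D.α q m p v' from hd v']
    have hU := (H.dc2b (D.P q) (D.α q m) (D.rr q) (D.S0 q m) (D.rr_pos q) (D.hrr2 q) hst).2.1
    have hz : phsInv (D.P q).κ (D.α q m) ((D.S0 q m).ψ p) = (D.P q).w p := by
      rw [hst.app, phsInv_phs]
    have hy : (D.S0 q m).ψ p ∈ closure (D.S0 q m).U := by
      rw [hU]
      show ‖thetaInv (D.P q).κ ((D.S0 q m).ψ p)‖ ≤ D.rr q
      rw [← norm_phsInv (D.P q).κ (D.α q m), hz]
      exact hnorm.le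
    have hzm : (D.P q).w p ∈ Metric.closedBall (0 : E2) (2 * (D.P q).R) := by
      simpa using hnorm.le.trans (D.hrr2 q).le
    have hcp := hc _ hzm
    have hB := D.Bsum_pos H p
    have hn' : (0 : ℝ) < n := by exact_mod_cast hn
    rw [hβ _ hy, b0, hz, (D.P q).w.left_inv hsrc, Real.sq_sqrt (by positivity), eta]
    field_simp

/-- a tensor which is bilinear in each fibre -/
def IsBil (h : Tens M) : Prop := ∀ p, ∃ B : TangentSpace (𝓡 2) p →ₗ[ℝ] TangentSpace (𝓡 2) p →ₗ[ℝ] ℝ,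
  ∀ v w, h p v w = B v w

lemma isBil_gT : IsBil (gT g) := fun p =>
  ⟨LinearMap.mk₂ ℝ (fun v w => g.inner p v w) (by intros; simp) (by intros; simp)
    (by intros; simp) (by intros; simp), fun v w => rfl⟩

lemma isBil_pull (f : M → E4) : IsBil (pull f) := fun p =>
  ⟨LinearMap.mk₂ ℝ (fun v w => pull f p v w)
    (by intro a b c; simp only [pull, map_add]; exact inner_add_left _ _ _)
    (by intro r a b; simp only [pull, map_smul]; exact real_inner_smul_left _ _ _)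
    (by intro a b c; simp only [pull, map_add]; exact inner_add_right _ _ _)
    (by intro r a b; simp only [pull, map_smul]; exact real_inner_smul_right _ _ _),
    fun v w => rfl⟩

lemma IsBil.tsub {h h' : Tens M} (hh : IsBil h) (hh' : IsBil h') : IsBil (tsub h h') := by
  intro p
  obtain ⟨B, hB⟩ := hh p
  obtain ⟨B', hB'⟩ := hh' p
  exact ⟨B - B', fun v w => by simp [Dec.tsub, hB, hB']⟩

/-- admissible base metrics -/
structure Adm (A : FinAtlas M) (fs : M → E4) (η : ℝ) (h : Tens M) : Prop where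
  bil : IsBil h
  sym : ∀ p v w, h p v w = h p w v
  cls : InClass A (pull fs) η h
  smooth : ∀ w ∈ IsManifold.maximalAtlas (𝓡 2) ∞ M, ∀ v v' : E2,
    ContDiffOn ℝ ∞ (coef h w v v') w.target

lemma adm_pull (H : Parts M) {η : ℝ} {f0 : M → E4} (hf0 : ContMDiff (𝓡 2) 𝓘(ℝ, E4) ∞ f0)
    (hc : InClass A (pull fs) η (pull f0)) : Adm A fs η (pull f0) where
  bil := isBil_pull f0
  sym := fun _ _ _ => real_inner_comm _ _
  cls := hc
  smooth := fun w hw => (H.dc3b f0 hf0 w hw).1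

lemma jet_close (H : Parts M) {η : ℝ} {h : Tens M} (hh : Adm A fs η h) (q : Fin D.Q) {z : E2}
    (hz : z ∈ Metric.closedBall (0 : E2) (2 * (D.P q).R)) :
    ‖jet h (D.P q).w z - jet (pull fs) (D.P q).w z‖ ≤ η :=
  H.dc3c A (D.P q) (pull fs) h η (D.adapted q) hh.cls z hz

lemma cf_pos (H : Parts M) {η : ℝ} {h : Tens M} (hh : Adm A fs η h)
    (hη : ∀ q, η < (D.P q).δ) (q : Fin D.Q) {z : E2}
    (hz : z ∈ Metric.closedBall (0 : E2) (2 * (D.P q).R)) (m : Fin 3) :
    wedge (cov (D.P q).κ (D.α q m) z) (cov (D.P q).κ (D.α q (m + 1)) z) ≠ 0 ∧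
      0 < cf D.P D.α (tsub (gT g) h) q m z := by
  refine (D.good q).pos z hz (D.α q) (D.hα q) _ (fun i j => ?_) m
  have h1 := D.jet_close H hh q hz
  have h2 : |mat h (D.P q).w z i j - mat (pull fs) (D.P q).w z i j| ≤ η := by
    have a1 : ‖(jet h (D.P q).w z - jet (pull fs) (D.P q).w z).1‖ ≤ η := (norm_fst_le _).trans h1
    have a2 := (norm_le_pi_norm _ i).trans a1
    have a3 := (norm_le_pi_norm _ j).trans a2
    simpa [jet, Real.norm_eq_abs] using a3
  have h3 : mat (tsub (gT g) h) (D.P q).w z i j - (mat (gT g) (D.P q).w z i j -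
      mat (pull fs) (D.P q).w z i j) =
      -(mat h (D.P q).w z i j - mat (pull fs) (D.P q).w z i j) := by
    have : mat (tsub (gT g) h) (D.P q).w z i j = mat (gT g) (D.P q).w z i j -
      mat h (D.P q).w z i j := rfl
    rw [this]; ring
  rw [h3, abs_neg]
  exact lt_of_le_of_lt h2 (hη q)

lemma tsub_sym {η : ℝ} {h : Tens M} (hh : Adm A fs η h) (p : M)
    (v v' : TangentSpace (𝓡 2) p) : tsub (gT g) h p v v' = tsub (gT g) h p v' v := by
  simp only [tsub]
  rw [hh.sym p v v']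
  congr 1
  exact g.symm p v v'

/-- Cramer decomposition on the support of a patch -/
lemma sum_m (H : Parts M) {η : ℝ} {h : Tens M} (hh : Adm A fs η h)
    (hη : ∀ q, η < (D.P q).δ) (q : Fin D.Q) (p : M) (v v' : TangentSpace (𝓡 2) p) :
    ∑ m, eta D.P D.rr q p * cf D.P D.α (tsub (gT g) h) q m ((D.P q).w p) *
      dphq D.P D.α q m p v * dphq D.P D.α q m p v' = eta D.P D.rr q p * tsub (gT g) h p v v' := by
  by_cases h0 : (D.P q).bump (D.rr q) p = 0
  · rw [eta_eq_zero D.P D.rr h0]; simp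
  · have hbump := H.dcp (D.P q) (D.rr q) (D.rr_pos q) (D.hrr2 q)
    have hpos : 0 < (D.P q).bump (D.rr q) p := lt_of_le_of_ne (hbump.2.1 p) (Ne.symm h0)
    have hdisc := (hbump.2.2 p).1 hpos
    obtain ⟨hsrc, hnorm⟩ := ((D.P q).mem_disc (D.hrr2 q).le).1 hdisc
    have hzm : (D.P q).w p ∈ Metric.closedBall (0 : E2) (2 * (D.P q).R) := by
      simpa using hnorm.le.trans (D.hrr2 q).le
    have hbil : IsBil (tsub (gT g) h) := isBil_gT.tsub hh.bil
    have h1 := cramer_tens D.P D.α H.dc1b (T := tsub (gT g) h) (q := q) (p := p) ?_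
      (fun v v' => H.dc3d (tsub (gT g) h) hbil (D.P q).w (D.P q).hw p hsrc v v')
      (fun m => (D.cf_pos H hh hη q hzm m).1) v v'
    · rw [← h1, Finset.mul_sum]
      refine Finset.sum_congr rfl fun m _ => ?_
      ring
    · exact tsub_sym hh _ _ _

/-- total sum over one round -/
lemma sum_qm (H : Parts M) {η : ℝ} {h : Tens M} (hh : Adm A fs η h)
    (hη : ∀ q, η < (D.P q).δ) (p : M) (v v' : TangentSpace (𝓡 2) p) :
    ∑ q, ∑ m, eta D.P D.rr q p * cf D.P D.α (tsub (gT g) h) q m ((D.P q).w p) *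
      dphq D.P D.α q m p v * dphq D.P D.α q m p v' = tsub (gT g) h p v v' := by
  simp only [D.sum_m H hh hη]
  rw [← Finset.sum_mul, sum_eta D.P D.rr (D.Bsum_pos H p), one_mul]

/-- `β0 q m` is a good family of amplitude factors -/
def GoodB (T : Tens M) (n : ℕ) (β0 : Fin D.Q → Fin 3 → E2 → ℝ) : Prop :=
  ∀ q m, ∀ y ∈ closure (D.S0 q m).U, β0 q m y = D.b0 T n q m y

lemma Gk_formula (H : Parts M) {η : ℝ} {h : Tens M} (hh : Adm A fs η h)
    (hη : ∀ q, η < (D.P q).δ) {n : ℕ} (hn : 0 < n) {β0 : Fin D.Q → Fin 3 → E2 → ℝ}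
    (hβ : D.GoodB (tsub (gT g) h) n β0) (s : Fin n) (q : Fin D.Q) (m : Fin 3) (p : M)
    (v v' : TangentSpace (𝓡 2) p) :
    Gk (D.S n) (fun j => β0 (dec j).1 (dec j).2) h
      (finProdFinEquiv (s, finProdFinEquiv (q, m)) : Fin (n * (D.Q * 3))).1 p v v' =
    h p v v' + (s.1 / n : ℝ) * tsub (gT g) h p v v' + (1 / n : ℝ) *
      ((∑ q', if q' < q then eta D.P D.rr q' p else 0) * tsub (gT g) h p v v' +
        ∑ m', if m' < m then eta D.P D.rr q p * cf D.P D.α (tsub (gT g) h) q m' ((D.P q).w p) *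
          dphq D.P D.α q m' p v * dphq D.P D.α q m' p v' else 0) := by
  set a : Fin D.Q → Fin 3 → ℝ := fun q m => (D.S0 q m).prim (β0 q m) p v v' with ha
  have ha' : ∀ q m, a q m = (1 / n : ℝ) * (eta D.P D.rr q p *
      cf D.P D.α (tsub (gT g) h) q m ((D.P q).w p) *
      dphq D.P D.α q m p v * dphq D.P D.α q m p v') := fun q m =>
    D.prim_formula H hn (hβ q m) (fun z hz => (D.cf_pos H hh hη q hz m).2) p v v'
  have h1 := H.dc5b n D.Q a s q m
  have h2 : Gk (D.S n) (fun j => β0 (dec j).1 (dec j).2) h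
      (finProdFinEquiv (s, finProdFinEquiv (q, m)) : Fin (n * (D.Q * 3))).1 p v v' =
      h p v v' + ∑ j : Fin (n * (D.Q * 3)), if j.1 < (finProdFinEquiv (s, finProdFinEquiv (q, m)) :
        Fin (n * (D.Q * 3))).1 then a (finProdFinEquiv.symm (finProdFinEquiv.symm j).2).1
          (finProdFinEquiv.symm (finProdFinEquiv.symm j).2).2 else 0 := rfl
  rw [h2, h1]
  have h3 : ∑ q', ∑ m', a q' m' = (1 / n : ℝ) * tsub (gT g) h p v v' := by
    rw [← D.sum_qm H hh hη p v v', Finset.mul_sum]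
    refine Finset.sum_congr rfl fun q' _ => ?_
    rw [Finset.mul_sum]
    exact Finset.sum_congr rfl fun m' _ => ha' q' m'
  have h4 : (∑ q', if q' < q then ∑ m', a q' m' else 0) =
      (1 / n : ℝ) * ((∑ q', if q' < q then eta D.P D.rr q' p else 0) * tsub (gT g) h p v v') := by
    rw [Finset.sum_mul, Finset.mul_sum]
    refine Finset.sum_congr rfl fun q' _ => ?_
    split_ifs
    · rw [← D.sum_m H hh hη q' p v v', Finset.mul_sum]
      exact Finset.sum_congr rfl fun m' _ => ha' q' m'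
    · simp
  have h5 : (∑ m', if m' < m then a q m' else 0) = (1 / n : ℝ) *
      ∑ m', if m' < m then eta D.P D.rr q p * cf D.P D.α (tsub (gT g) h) q m' ((D.P q).w p) *
          dphq D.P D.α q m' p v * dphq D.P D.α q m' p v' else 0 := by
    rw [Finset.mul_sum]
    refine Finset.sum_congr rfl fun m' _ => ?_
    split_ifs
    · exact ha' q m'
    · simp
  rw [h3, h4, h5]
  ring

lemma Gk_total (H : Parts M) {η : ℝ} {h : Tens M} (hh : Adm A fs η h)
    (hη : ∀ q, η < (D.P q).δ) {n : ℕ} (hn : 0 < n) {β0 : Fin D.Q → Fin 3 → E2 → ℝ}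
    (hβ : D.GoodB (tsub (gT g) h) n β0) (p : M) (v v' : TangentSpace (𝓡 2) p) :
    Gk (D.S n) (fun j => β0 (dec j).1 (dec j).2) h (n * (D.Q * 3)) p v v' = g.inner p v v' := by
  set a : Fin D.Q → Fin 3 → ℝ := fun q m => (D.S0 q m).prim (β0 q m) p v v' with ha
  have ha' : ∀ q m, a q m = (1 / n : ℝ) * (eta D.P D.rr q p *
      cf D.P D.α (tsub (gT g) h) q m ((D.P q).w p) *
      dphq D.P D.α q m p v * dphq D.P D.α q m p v') := fun q m =>
    D.prim_formula H hn (hβ q m) (fun z hz => (D.cf_pos H hh hη q hz m).2) p v v'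
  have h1 := H.dc5c n D.Q a
  have h2 : Gk (D.S n) (fun j => β0 (dec j).1 (dec j).2) h (n * (D.Q * 3)) p v v' =
      h p v v' + ∑ j : Fin (n * (D.Q * 3)), a (finProdFinEquiv.symm (finProdFinEquiv.symm j).2).1
          (finProdFinEquiv.symm (finProdFinEquiv.symm j).2).2 := by
    show h p v v' + (∑ j : Fin (n * (D.Q * 3)), if j.1 < n * (D.Q * 3) then _ else 0) = _
    congr 1
    refine Finset.sum_congr rfl fun j _ => ?_
    rw [if_pos j.2]
    rfl
  rw [h2, h1]
  have h3 : ∑ q', ∑ m', a q' m' = (1 / n : ℝ) * tsub (gT g) h p v v' := by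
    rw [← D.sum_qm H hh hη p v v', Finset.mul_sum]
    refine Finset.sum_congr rfl fun q' _ => ?_
    rw [Finset.mul_sum]
    exact Finset.sum_congr rfl fun m' _ => ha' q' m'
  rw [h3]
  have hn' : (n : ℝ) ≠ 0 := by exact_mod_cast hn.ne'
  simp only [tsub, gT]
  field_simp
  ring

lemma mat_contDiffAt (H : Parts M) {η : ℝ} {h : Tens M} (hh : Adm A fs η h) (q : Fin D.Q)
    (i j : Fin 2) {z : E2} (hz : z ∈ (D.P q).w.target) :
    ContDiffAt ℝ ∞ (fun z => mat (tsub (gT g) h) (D.P q).w z i j) z := by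
  have h1 : ContDiffAt ℝ ∞ (coef (gT g) (D.P q).w (bv i) (bv j)) z :=
    (H.dc3a g _ (D.P q).hw _ _).contDiffAt ((D.P q).w.open_target.mem_nhds hz)
  have h2 : ContDiffAt ℝ ∞ (coef h (D.P q).w (bv i) (bv j)) z :=
    (hh.smooth _ (D.P q).hw _ _).contDiffAt ((D.P q).w.open_target.mem_nhds hz)
  exact h1.sub h2

lemma cf_contDiffAt (H : Parts M) {η : ℝ} {h : Tens M} (hh : Adm A fs η h)
    (hη : ∀ q, η < (D.P q).δ) (q : Fin D.Q) (m : Fin 3) {z : E2}
    (hz : z ∈ Metric.closedBall (0 : E2) (2 * (D.P q).R)) :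
    ContDiffAt ℝ ∞ (cf D.P D.α (tsub (gT g) h) q m) z :=
  H.dc1d (D.P q).κ (D.α q) (fun z => mat (tsub (gT g) h) (D.P q).w z) z m
    (fun l => (D.cf_pos H hh hη q hz l).1)
    (fun i j => D.mat_contDiffAt H hh q i j ((D.P q).sub hz))

lemma Bsum_contMDiff (H : Parts M) : ContMDiff (𝓡 2) 𝓘(ℝ, ℝ) ∞ (Bsum D.P D.rr) := by
  have : Bsum D.P D.rr = fun p => ∑ q ∈ Finset.univ, (D.P q).bump (D.rr q) p := rfl
  rw [this]
  exact contMDiff_finsetSum (fun q _ => (H.dcp _ _ (D.rr_pos q) (D.hrr2 q)).1)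

lemma comp_symm_contDiffAt {φ : M → ℝ} (hφ : ContMDiff (𝓡 2) 𝓘(ℝ, ℝ) ∞ φ)
    {w : OpenPartialHomeomorph M E2} (hw : w ∈ IsManifold.maximalAtlas (𝓡 2) ∞ M) {z : E2}
    (hz : z ∈ w.target) : ContDiffAt ℝ ∞ (fun z => φ (w.symm z)) z := by
  have h1 : ContMDiffOn (𝓡 2) 𝓘(ℝ, ℝ) ∞ (fun z => φ (w.symm z)) w.target :=
    hφ.comp_contMDiffOn (contMDiffOn_symm_of_mem_maximalAtlas hw)
  exact (contMDiffOn_iff_contDiffOn.1 h1).contDiffAt (w.open_target.mem_nhds hz)

lemma exists_beta (H : Parts M) {η : ℝ} {h : Tens M} (hh : Adm A fs η h)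
    (hη : ∀ q, η < (D.P q).δ) {n : ℕ} (hn : 0 < n) :
    ∃ β0 : Fin D.Q → Fin 3 → E2 → ℝ, (∀ q m, ContDiff ℝ ∞ (β0 q m)) ∧ (∀ q m y, 0 < β0 q m y) ∧
      D.GoodB (tsub (gT g) h) n β0 := by
  have key : ∀ q m, ∃ β : E2 → ℝ, ContDiff ℝ ∞ β ∧ (∀ y, 0 < β y) ∧
      ∀ y ∈ closure (D.S0 q m).U, β y = D.b0 (tsub (gT g) h) n q m y := by
    intro q m
    have hU := (H.dc2b (D.P q) (D.α q m) (D.rr q) (D.S0 q m) (D.rr_pos q) (D.hrr2 q)
      (D.isSt q m)).2.1
    have hn' : (0 : ℝ) < n := by exact_mod_cast hn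
    have hmem : ∀ y ∈ {y : E2 | ‖thetaInv (D.P q).κ y‖ < 2 * (D.P q).R},
        phsInv (D.P q).κ (D.α q m) y ∈ Metric.closedBall (0 : E2) (2 * (D.P q).R) := by
      intro y hy
      have : ‖thetaInv (D.P q).κ y‖ < 2 * (D.P q).R := hy
      rw [mem_closedBall_zero_iff, norm_phsInv]
      exact this.le
    refine H.dcx {y | ‖thetaInv (D.P q).κ y‖ < 2 * (D.P q).R} (closure (D.S0 q m).U)
      (D.b0 (tsub (gT g) h) n q m) ?_ (D.S0 q m).cpt ?_ ?_ ?_
    · exact isOpen_lt (contDiff_thetaInv _).continuous.norm continuous_const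
    · intro y hy
      rw [hU] at hy
      exact lt_of_le_of_lt hy (D.hrr2 q)
    · intro y hy
      have hz := hmem y hy
      have h1 : ContDiffAt ℝ ∞ (fun y => cf D.P D.α (tsub (gT g) h) q m
          (phsInv (D.P q).κ (D.α q m) y)) y :=
        (D.cf_contDiffAt H hh hη q m hz).comp y (contDiff_phsInv _ _).contDiffAt
      have h2 : ContDiffAt ℝ ∞ (fun y => Bsum D.P D.rr ((D.P q).w.symm
          (phsInv (D.P q).κ (D.α q m) y))) y :=
        (comp_symm_contDiffAt (D.Bsum_contMDiff H) (D.P q).hw ((D.P q).sub hz)).comp y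
          (contDiff_phsInv _ _).contDiffAt
      have hB := D.Bsum_pos H ((D.P q).w.symm (phsInv (D.P q).κ (D.α q m) y))
      have hc := (D.cf_pos H hh hη q hz m).2
      have h3 : ContDiffAt ℝ ∞ (fun y => cf D.P D.α (tsub (gT g) h) q m
          (phsInv (D.P q).κ (D.α q m) y) / (n * Bsum D.P D.rr ((D.P q).w.symm
          (phsInv (D.P q).κ (D.α q m) y)))) y :=
        h1.div (contDiffAt_const.mul h2) (by positivity)
      exact (h3.sqrt (by positivity)).contDiffWithinAt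
    · intro y hy
      have hz := hmem y hy
      have hB := D.Bsum_pos H ((D.P q).w.symm (phsInv (D.P q).κ (D.α q m) y))
      have hc := (D.cf_pos H hh hη q hz m).2
      exact Real.sqrt_pos.2 (by positivity)
  choose β0 h1 h2 h3 using key
  exact ⟨β0, h1, h2, h3⟩

/-- (X1) -/
def X1 : Prop := ∀ (q : Fin D.Q) (m : Fin 3) (T : Tens M),
  (∀ i j, ∀ z ∈ (D.P q).w.target, DifferentiableAt ℝ (fun z => mat T (D.P q).w z i j) z) →
  ∀ z ∈ Metric.ball (0 : E2) (2 * (D.P q).R), ∀ i j,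
    DifferentiableAt ℝ (fun z => D.Xm T q m z i j) z

/-- (X2) -/
def X2 : Prop := ∃ C : ℝ, 0 < C ∧ ∀ (q : Fin D.Q) (m : Fin 3) (T : Tens M),
  (∀ i j, ∀ z ∈ (D.P q).w.target, DifferentiableAt ℝ (fun z => mat T (D.P q).w z i j) z) →
  ∀ z ∈ Metric.closedBall (0 : E2) (D.rr q),
    ‖((D.Xm T q m z, fun i j => fderiv ℝ (fun z => D.Xm T q m z i j) z) : Jet)‖ ≤
      C * ‖jet T (D.P q).w z‖

lemma bil_Xm {q : Fin D.Q} (m : Fin 3) {T : Tens M} {p : M} (hp : p ∈ (D.P q).w.source)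
    (hT : ∀ v v' : TangentSpace (𝓡 2) p, T p v v' = bil (mat T (D.P q).w ((D.P q).w p))
      (dW (D.P q).w p v) (dW (D.P q).w p v')) (v v' : TangentSpace (𝓡 2) p) :
    bil (D.Xm T q m ((D.P q).w p)) (dW (D.P q).w p v) (dW (D.P q).w p v') =
      (∑ q', if q' < q then eta D.P D.rr q' p else 0) * T p v v' +
        ∑ m', if m' < m then eta D.P D.rr q p * cf D.P D.α T q m' ((D.P q).w p) *
          dphq D.P D.α q m' p v * dphq D.P D.α q m' p v' else 0 := by
  have h1 : D.Xm T q m ((D.P q).w p) = (∑ q', if q' < q then eta D.P D.rr q' p else 0) •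
      mat T (D.P q).w ((D.P q).w p) + ∑ m', (if m' < m then
        (fun i j => (eta D.P D.rr q p * cf D.P D.α T q m' ((D.P q).w p)) *
          cov (D.P q).κ (D.α q m') ((D.P q).w p) i *
          cov (D.P q).κ (D.α q m') ((D.P q).w p) j) else 0 : Fin 2 → Fin 2 → ℝ) := by
    funext i j
    simp only [Xm, (D.P q).w.left_inv hp, Pi.add_apply, Pi.smul_apply, smul_eq_mul,
      Finset.sum_apply]
    congr 1
    refine Finset.sum_congr rfl fun m' _ => ?_
    split_ifs <;> rfl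
  rw [h1, bil_add, bil_smul, bil_sum, hT]
  congr 1
  refine Finset.sum_congr rfl fun m' _ => ?_
  split_ifs
  · rw [bil_rank1]
    simp only [dphq, dph_eq_cov]
  · simp [bil]

lemma jet_Gk (H : Parts M) (hX1 : D.X1) {η : ℝ} {h : Tens M} (hh : Adm A fs η h)
    (hη : ∀ q, η < (D.P q).δ) {n : ℕ} (hn : 0 < n) {β0 : Fin D.Q → Fin 3 → E2 → ℝ}
    (hβ : D.GoodB (tsub (gT g) h) n β0) (s : Fin n) (q : Fin D.Q) (m : Fin 3) {z : E2}
    (hz : z ∈ Metric.closedBall (0 : E2) (D.rr q)) :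
    jet (Gk (D.S n) (fun j => β0 (dec j).1 (dec j).2) h
      (finProdFinEquiv (s, finProdFinEquiv (q, m)) : Fin (n * (D.Q * 3))).1) (D.P q).w z =
    jet h (D.P q).w z + (s.1 / n : ℝ) • jet (tsub (gT g) h) (D.P q).w z + (1 / n : ℝ) •
      ((D.Xm (tsub (gT g) h) q m z,
        fun i j => fderiv ℝ (fun z => D.Xm (tsub (gT g) h) q m z i j) z) : Jet) := by
  set T := tsub (gT g) h with hTdef
  set G := Gk (D.S n) (fun j => β0 (dec j).1 (dec j).2) h
      (finProdFinEquiv (s, finProdFinEquiv (q, m)) : Fin (n * (D.Q * 3))).1 with hG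
  have hzR : z ∈ Metric.ball (0 : E2) (2 * (D.P q).R) := by
    rw [mem_ball_zero_iff]; rw [mem_closedBall_zero_iff] at hz
    exact lt_of_le_of_lt hz (D.hrr2 q)
  have hzt : z ∈ (D.P q).w.target := (D.P q).ball_subset le_rfl hzR
  have hbilT : IsBil T := isBil_gT.tsub hh.bil
  set b : E2 → Fin 2 → Fin 2 → ℝ := fun z i j => mat h (D.P q).w z i j +
    (s.1 / n : ℝ) * mat T (D.P q).w z i j + (1 / n : ℝ) * D.Xm T q m z i j with hb
  have hcoef : ∀ z ∈ (D.P q).w.target, ∀ v v' : E2, coef G (D.P q).w v v' z = bil (b z) v v' := by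
    refine H.dc3e G (D.P q).w (D.P q).hw b ?_
    intro p hp v v'
    have e1 := H.dc3d h hh.bil (D.P q).w (D.P q).hw p hp v v'
    have e2 := fun v v' => H.dc3d T hbilT (D.P q).w (D.P q).hw p hp v v'
    have e3 := D.bil_Xm m hp (T := T) e2 v v'
    have e4 : b ((D.P q).w p) = mat h (D.P q).w ((D.P q).w p) +
        (s.1 / n : ℝ) • mat T (D.P q).w ((D.P q).w p) +
        (1 / n : ℝ) • D.Xm T q m ((D.P q).w p) := by
      funext i j; rfl
    show G p v v' = bil (b ((D.P q).w p)) (dW (D.P q).w p v) (dW (D.P q).w p v')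
    rw [e4, bil_add, bil_add, bil_smul, bil_smul, e3, hG,
      D.Gk_formula H hh hη hn hβ s q m p v v', ← hTdef]
    congr 2
    · congr 1
      exact e2 v v'
  have hmat : ∀ z ∈ (D.P q).w.target, ∀ i j, coef G (D.P q).w (bv i) (bv j) z = b z i j := by
    intro z hz i j
    rw [hcoef z hz, bil_bv]
  have hdT : ∀ i j, ∀ z ∈ (D.P q).w.target,
      DifferentiableAt ℝ (fun z => mat T (D.P q).w z i j) z := fun i j z hz =>
    (D.mat_contDiffAt H hh q i j hz).differentiableAt (by simp)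
  have hdh : ∀ i j, ∀ z ∈ (D.P q).w.target,
      DifferentiableAt ℝ (fun z => mat h (D.P q).w z i j) z := fun i j z hz =>
    ((hh.smooth _ (D.P q).hw (bv i) (bv j)).contDiffAt
      ((D.P q).w.open_target.mem_nhds hz)).differentiableAt (by simp)
  have hdX := hX1 q m T hdT z hzR
  refine Prod.ext ?_ ?_
  · funext i j
    exact hmat z hzt i j
  · funext i j
    show fderiv ℝ (coef G (D.P q).w (bv i) (bv j)) z = _
    have hev : coef G (D.P q).w (bv i) (bv j) =ᶠ[𝓝 z] fun z => b z i j := by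
      filter_upwards [(D.P q).w.open_target.mem_nhds hzt] with z hz
      exact hmat z hz i j
    rw [hev.fderiv_eq]
    have h1 := (hdh i j z hzt).hasFDerivAt
    have h2 := ((hdT i j z hzt).hasFDerivAt).const_mul (s.1 / n : ℝ)
    have h3 := ((hdX i j).hasFDerivAt).const_mul (1 / n : ℝ)
    have h4 := ((h1.add h2).add h3).fderiv
    exact h4

end Setup

section final

variable {M : Type*} [TopologicalSpace M] [ChartedSpace E2 M] [IsManifold (𝓡 2) ∞ M]

lemma jet_continuousOn {h : Tens M} {w : OpenPartialHomeomorph M E2}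
    (hh : ∀ i j, ContDiffOn ℝ ∞ (coef h w (bv i) (bv j)) w.target) :
    ContinuousOn (jet h w) w.target := by
  refine ContinuousOn.prodMk ?_ ?_
  · exact continuousOn_pi.2 fun i => continuousOn_pi.2 fun j => (hh i j).continuousOn
  · exact continuousOn_pi.2 fun i => continuousOn_pi.2 fun j =>
      (hh i j).continuousOn_fderiv_of_isOpen w.open_target (by simp)

lemma jet_tsub {h h' : Tens M} {w : OpenPartialHomeomorph M E2}
    (hh : ∀ i j, ContDiffOn ℝ ∞ (coef h w (bv i) (bv j)) w.target)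
    (hh' : ∀ i j, ContDiffOn ℝ ∞ (coef h' w (bv i) (bv j)) w.target) {z : E2}
    (hz : z ∈ w.target) : jet (tsub h h') w z = jet h w z - jet h' w z := by
  refine Prod.ext rfl ?_
  funext i j
  have h1 := (((hh i j).contDiffAt (w.open_target.mem_nhds hz)).differentiableAt
    (by simp)).hasFDerivAt
  have h2 := (((hh' i j).contDiffAt (w.open_target.mem_nhds hz)).differentiableAt
    (by simp)).hasFDerivAt
  exact (h1.sub h2).fderiv

lemma exists_lower_bound {n : ℕ} (δ : Fin n → ℝ) (hδ : ∀ i, 0 < δ i) :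
    ∃ δ0 : ℝ, 0 < δ0 ∧ ∀ i, δ0 ≤ δ i := by
  have h : ∀ᶠ x in 𝓝[>] (0 : ℝ), ∀ i, x < δ i := by
    rw [Filter.eventually_all]
    intro i
    exact mem_nhdsWithin_of_mem_nhds (Iio_mem_nhds (hδ i))
  obtain ⟨x, hx, hx0⟩ := (h.and self_mem_nhdsWithin).exists
  exact ⟨x, hx0, fun i => (hx i).le⟩

variable [T2Space M] [CompactSpace M]

/-- **Assembly of part (6).** -/
theorem decomp_of_parts (H : Parts M)
    (hX1 : ∀ (g : Bundle.ContMDiffRiemannianMetric (𝓡 2) ∞ E2 (TangentSpace (𝓡 2) : M → Type))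
      (A : FinAtlas M) (fs : M → E4) (D : Setup M g A fs), D.X1)
    (hX2 : ∀ (g : Bundle.ContMDiffRiemannianMetric (𝓡 2) ∞ E2 (TangentSpace (𝓡 2) : M → Type))
      (A : FinAtlas M) (fs : M → E4) (D : Setup M g A fs), D.X2) : DecompStatement M := by
  intro g A fs hfs hshort
  obtain ⟨D⟩ := exists_setup H g A fs hfs hshort
  have hX1 := hX1 g A fs D
  obtain ⟨C, hC, hX2⟩ := hX2 g A fs D
  obtain ⟨δ0, hδ0, hδ⟩ := exists_lower_bound (fun q => (D.P q).δ) (fun q => (D.P q).hδ)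
  have hsmg : ∀ q, ∀ i j, ContDiffOn ℝ ∞ (coef (gT g) (D.P q).w (bv i) (bv j)) (D.P q).w.target :=
    fun q i j => H.dc3a g _ (D.P q).hw _ _
  have hsms : ∀ q, ∀ i j, ContDiffOn ℝ ∞ (coef (pull fs) (D.P q).w (bv i) (bv j))
      (D.P q).w.target := fun q i j => (H.dc3b fs hfs _ (D.P q).hw).1 _ _
  -- bound of the jets
  have hB1 : ∀ q, ∃ B : ℝ, ∀ z ∈ Metric.closedBall (0 : E2) (2 * (D.P q).R),
      ‖jet (gT g) (D.P q).w z - jet (pull fs) (D.P q).w z‖ ≤ B := by
    intro q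
    exact (isCompact_closedBall (0 : E2) (2 * (D.P q).R)).exists_bound_of_continuousOn
      (((jet_continuousOn (hsmg q)).sub (jet_continuousOn (hsms q))).mono (D.P q).sub)
  choose B hB using hB1
  obtain ⟨B0, hB0⟩ : ∃ B0 : ℝ, ∀ q, B q ≤ B0 := by
    obtain ⟨B0, hB0⟩ := (Set.finite_range B).bddAbove
    exact ⟨B0, fun q => hB0 ⟨q, rfl⟩⟩
  set η : ℝ := δ0 / 4 with hη
  have hηpos : 0 < η := by positivity
  obtain ⟨n, hn⟩ := exists_nat_gt (C * (|B0| + η) / (δ0 / 4))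
  have hn0 : (0 : ℝ) < n := lt_of_le_of_lt (by positivity) hn
  have hnpos : 0 < n := by exact_mod_cast hn0
  refine ⟨η, n * (D.Q * 3), D.S n, hηpos, D.genPos H n, ?_⟩
  intro f0 hf0 hcls
  have hh : Setup.Adm A fs η (pull f0) := Setup.adm_pull H hf0 hcls
  have hηδ : ∀ q, η < (D.P q).δ := fun q => by
    have := hδ q; linarith
  obtain ⟨β0, hβ1, hβ2, hβ3⟩ := D.exists_beta H hh hηδ hnpos
  refine ⟨fun j => β0 (dec j).1 (dec j).2, fun j => hβ1 _ _, fun j => hβ2 _ _,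
    D.Gk_total H hh hηδ hnpos hβ3, ?_⟩
  intro k f hf hpull y hy
  -- decode `k`
  obtain ⟨s, q, m, rfl⟩ : ∃ (s : Fin n) (q : Fin D.Q) (m : Fin 3),
      k = finProdFinEquiv (s, finProdFinEquiv (q, m)) :=
    ⟨(finProdFinEquiv.symm k).1, (dec k).1, (dec k).2, by
      show k = finProdFinEquiv ((finProdFinEquiv.symm k).1, finProdFinEquiv (dec k))
      rw [dec, Equiv.apply_symm_apply]
      exact (finProdFinEquiv.apply_symm_apply k).symm⟩
  have hdec : dec (finProdFinEquiv (s, finProdFinEquiv (q, m)) : Fin (n * (D.Q * 3))) = (q, m) := by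
    simp [dec]
  have hS : D.S n (finProdFinEquiv (s, finProdFinEquiv (q, m))) = D.S0 q m := by
    simp [Setup.S, hdec]
  rw [hS] at hy ⊢
  have hpull' : pull f = Gk (D.S n) (fun j => β0 (dec j).1 (dec j).2) (pull f0)
      (finProdFinEquiv (s, finProdFinEquiv (q, m)) : Fin (n * (D.Q * 3))).1 := by
    funext p v w; exact hpull p v w
  rw [H.dc4a (D.P q) (D.α q m) (D.rr q) (D.S0 q m) (D.rr_pos q) (D.hrr2 q) (D.isSt q m) f hf y hy]
  have hU := (H.dc2b (D.P q) (D.α q m) (D.rr q) (D.S0 q m) (D.rr_pos q) (D.hrr2 q)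
      (D.isSt q m)).2.1
  set z := phsInv (D.P q).κ (D.α q m) y with hz
  have hzr : z ∈ Metric.closedBall (0 : E2) (D.rr q) := by
    rw [hU] at hy
    rw [mem_closedBall_zero_iff, hz, norm_phsInv]; exact hy
  have hzR : z ∈ Metric.closedBall (0 : E2) (2 * (D.P q).R) :=
    Metric.closedBall_subset_closedBall (D.hrr2 q).le hzr
  have hzt : z ∈ (D.P q).w.target := (D.P q).sub hzR
  refine ne_of_lt ((D.good q).gam z hzR m (D.α q m) (D.hα q m) (s.1 / n : ℝ) ?_ _ ?_)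
  · constructor
    · positivity
    · rw [div_le_one hn0]; exact_mod_cast s.2.le
  rw [hpull', D.jet_Gk H hX1 hh hηδ hnpos hβ3 s q m hzr,
    jet_tsub (hsmg q) (fun i j => hh.smooth _ (D.P q).hw _ _) hzt]
  have hX := hX2 q m (tsub (gT g) (pull f0)) (fun i j z hz =>
    (D.mat_contDiffAt H hh q i j hz).differentiableAt (by simp)) z hzr
  rw [jet_tsub (hsmg q) (fun i j => hh.smooth _ (D.P q).hw _ _) hzt] at hX
  have hclose := D.jet_close H hh q hzR
  have hBz := hB q z hzR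
  set Jg := jet (gT g) (D.P q).w z
  set Js := jet (pull fs) (D.P q).w z
  set Jh := jet (pull f0) (D.P q).w z
  set X : Jet := ((D.Xm (tsub (gT g) (pull f0)) q m z,
        fun i j => fderiv ℝ (fun z => D.Xm (tsub (gT g) (pull f0)) q m z i j) z) : Jet)
  set τ : ℝ := (s.1 / n : ℝ) with hτ
  have hτ0 : 0 ≤ τ := by positivity
  have hτ1 : τ ≤ 1 := by rw [hτ, div_le_one hn0]; exact_mod_cast s.2.le
  have e1 : Jh + τ • (Jg - Jh) + (1 / n : ℝ) • X - (Js + τ • (Jg - Js)) =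
      (1 - τ) • (Jh - Js) + (1 / n : ℝ) • X := by
    module
  rw [e1]
  have e2 : ‖Jg - Jh‖ ≤ |B0| + η := by
    calc ‖Jg - Jh‖ = ‖(Jg - Js) - (Jh - Js)‖ := by congr 1; abel
      _ ≤ ‖Jg - Js‖ + ‖Jh - Js‖ := norm_sub_le _ _
      _ ≤ |B0| + η := add_le_add (hBz.trans ((hB0 q).trans (le_abs_self _))) hclose
  have e3 : ‖(1 - τ) • (Jh - Js)‖ ≤ η := by
    rw [norm_smul, Real.norm_eq_abs, abs_of_nonneg (by linarith)]
    calc (1 - τ) * ‖Jh - Js‖ ≤ 1 * η := by
          apply mul_le_mul (by linarith) hclose (norm_nonneg _) (by norm_num)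
      _ = η := one_mul _
  have e4 : ‖(1 / n : ℝ) • X‖ < δ0 / 4 := by
    rw [norm_smul, Real.norm_eq_abs, abs_of_nonneg (by positivity)]
    have h1 : ‖X‖ ≤ C * (|B0| + η) := hX.trans (mul_le_mul_of_nonneg_left e2 hC.le)
    have h2 : C * (|B0| + η) < n * (δ0 / 4) := by
      rwa [div_lt_iff₀ (by positivity)] at hn
    calc (1 / n : ℝ) * ‖X‖ ≤ (1 / n : ℝ) * (C * (|B0| + η)) := by
          apply mul_le_mul_of_nonneg_left h1 (by positivity)
      _ < (1 / n : ℝ) * (n * (δ0 / 4)) := by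
          apply mul_lt_mul_of_pos_left h2 (by positivity)
      _ = δ0 / 4 := by field_simp
  calc ‖(1 - τ) • (Jh - Js) + (1 / n : ℝ) • X‖ ≤ ‖(1 - τ) • (Jh - Js)‖ + ‖(1 / n : ℝ) • X‖ :=
        norm_add_le _ _
    _ < η + δ0 / 4 := add_lt_add_of_le_of_lt e3 e4
    _ ≤ δ0 := by rw [hη]; linarith
    _ ≤ (D.P q).δ := hδ q

end final

end Crest.Agent.R216.Dec
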