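import Crest.Agent.R216.GlobPSL

/-!
Row 216 (S0335), PSL (helper920): the statement of Theorem E used by the planar step lemma,
loop families, and the vector formula for the normal part.
-/

set_option autoImplicit false

noncomputable section

open scoped Manifold ContDiff Topology
open Set MeasureTheory

namespace Crest.Agent.R216

/-- A family of loops `W (x, α) t` for Theorem E (`t` has period `2π`): even in `t`, mean `f_1`,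
on the circle `⟪W,f_2⟫ = ⟪f_1,f_2⟫`, `⟪W,f_22⟫ = ⟪f_1,f_22⟫`, `|W|² = |f_1|² + α²`. -/
structure LoopFam (f : P2 → P4) (a : P2 → ℝ) (K : Set P2) (O : Set (P2 × ℝ))
    (W : P2 × ℝ → ℝ → P4) : Prop where
  isOpen : IsOpen O
  mem : ∀ x ∈ K, (x, a x) ∈ O
  smooth : ContDiffOn ℝ ∞ (fun z : (P2 × ℝ) × ℝ => W z.1 z.2) (O ×ˢ univ)
  per : ∀ z ∈ O, ∀ t, W z (t + 2 * Real.pi) = W z t
  even : ∀ z ∈ O, ∀ t, W z (-t) = W z t
  mean : ∀ z ∈ O, ∫ t in (0:ℝ)..(2 * Real.pi), W z t = (2 * Real.pi) • d1 f z.1 e1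
  perp2 : ∀ z ∈ O, ∀ t, inner ℝ (W z t) (d1 f z.1 e2) = inner ℝ (d1 f z.1 e1) (d1 f z.1 e2)
  perp22 : ∀ z ∈ O, ∀ t,
    inner ℝ (W z t) (d2 f z.1 e2 e2) = inner ℝ (d1 f z.1 e1) (d2 f z.1 e2 e2)
  norm : ∀ z ∈ O, ∀ t, inner ℝ (W z t) (W z t) = inner ℝ (d1 f z.1 e1) (d1 f z.1 e1) + z.2 ^ 2

/-- **Theorem E** (exact primitive step in one chart), statement. -/
def TheoremE : Prop :=
  ∀ (f : P2 → P4) (u b : P2 → ℝ) (O : Set (P2 × ℝ)) (W : P2 × ℝ → ℝ → P4),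
    ContDiff ℝ ∞ f → IsAmp u b →
    (∀ x ∈ closure {x : P2 | 0 < u x}, LinearIndependent ℝ ![d1 f x e2, d2 f x e2 e2]) →
    (∀ x ∈ frontier {x : P2 | 0 < u x},
      LinearIndependent ℝ ![d1 f x e1, d1 f x e2, d2 f x e2 e2]) →
    LoopFam f (amp u b) (closure {x : P2 | 0 < u x}) O W →
    ∀ η : ℝ, 0 < η → ∃ ε : ℝ, 0 < ε ∧ ε < η ∧ ∀ t0 : ℝ, ∃ F : P2 → P4,
      ContDiff ℝ ∞ F ∧
      (∀ x, ¬ 0 < u x → F x = f x ∧ fderiv ℝ F x = fderiv ℝ f x ∧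
        fderiv ℝ (fderiv ℝ F) x = fderiv ℝ (fderiv ℝ f) x) ∧
      (∀ x, ∀ v w : P2, met F x v w = met f x v w + amp u b x ^ 2 * (v 0 * w 0)) ∧
      (∀ x ∈ closure {x : P2 | 0 < u x},
        ‖d1 F x e1 - W (x, amp u b x) (x 0 / ε + t0)‖ ≤ η ∧
        ‖d1 F x e2 - d1 f x e2‖ ≤ η ∧
        ‖d2 F x e2 e2 - d2 f x e2 e2‖ ≤ η ∧
        ‖d2 F x e1 e2 - fderiv ℝ (fun y => W (y, amp u b y) (x 0 / ε + t0)) x e2‖ ≤ η ∧
        ‖ε • d2 F x e1 e1 - deriv (fun t => W (x, amp u b x) t) (x 0 / ε + t0)‖ ≤ η)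

/-- Loop families with a rotation parameter `ϑ`: `W (x, α, ϑ) t`. -/
structure RLoop (f : P2 → P4) (a : P2 → ℝ) (K : Set P2) (O : Set (P2 × ℝ × ℝ))
    (W : P2 × ℝ × ℝ → ℝ → P4) : Prop where
  isOpen : IsOpen O
  mem : ∀ x ∈ K, (x, a x, 0) ∈ O
  smooth : ContDiffOn ℝ ∞ (fun z : (P2 × ℝ × ℝ) × ℝ => W z.1 z.2) (O ×ˢ univ)
  per : ∀ z ∈ O, ∀ t, W z (t + 2 * Real.pi) = W z t
  even : ∀ z ∈ O, ∀ t, W z (-t) = W z t
  mean : ∀ z ∈ O, ∫ t in (0:ℝ)..(2 * Real.pi), W z t = (2 * Real.pi) • d1 f z.1 e1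
  perp2 : ∀ z ∈ O, ∀ t, inner ℝ (W z t) (d1 f z.1 e2) = inner ℝ (d1 f z.1 e1) (d1 f z.1 e2)
  perp22 : ∀ z ∈ O, ∀ t,
    inner ℝ (W z t) (d2 f z.1 e2 e2) = inner ℝ (d1 f z.1 e1) (d2 f z.1 e2 e2)
  norm : ∀ z ∈ O, ∀ t,
    inner ℝ (W z t) (W z t) = inner ℝ (d1 f z.1 e1) (d1 f z.1 e1) + z.2.1 ^ 2
  /-- the only turning phases are `sin t = 0` -/
  turn : ∀ z ∈ O, ∀ t, deriv (fun s => W z s) t = 0 → z.2.1 = 0 ∨ Real.sin t = 0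
  /-- the extreme points move with the rotation parameter -/
  fast : ∀ (x : P2) (α : ℝ), (x, α, (0:ℝ)) ∈ O → α ≠ 0 → ∀ t, Real.sin t = 0 →
    deriv (fun ϑ : ℝ => W (x, α, ϑ) t) 0 ≠ 0

namespace PSL

/-- Gram determinant -/
def gr (A B : P4) : ℝ := inner ℝ A A * inner ℝ B B - inner ℝ A B ^ 2

/-- component of `X` orthogonal to `A`, `B` (if `gr A B ≠ 0`) -/
def nor (A B X : P4) : P4 :=
  X - (gr A B)⁻¹ • ((inner ℝ X A * inner ℝ B B - inner ℝ X B * inner ℝ A B) • A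
    + (inner ℝ X B * inner ℝ A A - inner ℝ X A * inner ℝ A B) • B)

/-- `D²F(v,v)` from the three second partials -/
def quad (X11 X12 X22 : P4) (v : P2) : P4 :=
  (v 0 ^ 2) • X11 + (2 * v 0 * v 1) • X12 + (v 1 ^ 2) • X22

/-- Gauss curvature expression of the second fundamental form -/
def KK (F : P2 → P4) (x : P2) : ℝ :=
  inner ℝ (hN F x e1 e1) (hN F x e2 e2) - inner ℝ (hN F x e1 e2) (hN F x e1 e2)

end PSL
end Crest.Agent.R216
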