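import Crest.Agent.R216.EFinX
import Crest.Agent.R216.PSLDefs

/-!
# R216 / Theorem E: transfer from `X2 = ℝ × ℝ` to `P2 = EuclideanSpace ℝ (Fin 2)` (helper918)
-/

set_option autoImplicit false

namespace Crest.Agent.R216.TE

open scoped ContDiff Topology
open Set Filter

namespace Tr

/-- the linear equivalence `P2 ≃ X2` -/
noncomputable def e : P2 ≃L[ℝ] X2 :=
  (EuclideanSpace.equiv (Fin 2) ℝ).trans (ContinuousLinearEquiv.finTwoArrow ℝ ℝ)

@[simp] lemma e_apply (x : P2) : e x = (x 0, x 1) := rfl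

lemma e_e1 : e e1 = (1, 0) := by simp [e1]
lemma e_e2 : e e2 = (0, 1) := by simp [e2]
lemma es_10 : e.symm (1, 0) = e1 := by rw [← e_e1, e.symm_apply_apply]
lemma es_01 : e.symm (0, 1) = e2 := by rw [← e_e2, e.symm_apply_apply]

@[simp] lemma es_zero (y : X2) : (e.symm y) 0 = y.1 := by
  exact congrArg Prod.fst (e.apply_symm_apply y)
@[simp] lemma es_one (y : X2) : (e.symm y) 1 = y.2 := by
  exact congrArg Prod.snd (e.apply_symm_apply y)

lemma es_mk (a b : ℝ) : e.symm (a, b) = a • e1 + b • e2 := by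
  rw [← es_10, ← es_01, ← map_smul, ← map_smul, ← map_add]
  simp

section
variable {V : Type*} [NormedAddCommGroup V] [NormedSpace ℝ V]

lemma fderiv_comp_es (g : P2 → V) (y v : X2) :
    fderiv ℝ (g ∘ e.symm) y v = fderiv ℝ g (e.symm y) (e.symm v) := by
  rw [e.symm.comp_right_fderiv]; rfl

lemma fderiv_comp_e (g : X2 → V) (x v : P2) :
    fderiv ℝ (g ∘ e) x v = fderiv ℝ g (e x) (e v) := by
  rw [e.comp_right_fderiv]; rfl

lemma fderiv2_comp_es {g : P2 → V} (hg : ContDiff ℝ ∞ g) (y v w : X2) :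
    fderiv ℝ (fun z => fderiv ℝ (g ∘ e.symm) z w) y v
      = fderiv ℝ (fderiv ℝ g) (e.symm y) (e.symm v) (e.symm w) := by
  have h1 : (fun z => fderiv ℝ (g ∘ e.symm) z w)
      = (fun x => fderiv ℝ g x (e.symm w)) ∘ e.symm := by
    funext z; exact fderiv_comp_es g z w
  rw [h1, fderiv_comp_es]
  have h : DifferentiableAt ℝ (fderiv ℝ g) (e.symm y) :=
    ((hg.fderiv_right (m := ∞) (by simp)).differentiable (by simp)) _
  rw [fderiv_clm_apply h (differentiableAt_const _)]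
  simp

lemma fderiv2_comp_e {g : X2 → V} (hg : ContDiff ℝ ∞ g) (x v w : P2) :
    fderiv ℝ (fderiv ℝ (g ∘ e)) x v w = fderiv ℝ (fderiv ℝ g) (e x) (e v) (e w) := by
  have hge : ContDiff ℝ ∞ (g ∘ e) := hg.comp e.contDiff
  have h0 : DifferentiableAt ℝ (fderiv ℝ (g ∘ e)) x :=
    ((hge.fderiv_right (m := ∞) (by simp)).differentiable (by simp)) _
  have h1 : fderiv ℝ (fun z => fderiv ℝ (g ∘ e) z w) x v
      = fderiv ℝ (fderiv ℝ (g ∘ e)) x v w := by
    rw [fderiv_clm_apply h0 (differentiableAt_const _)]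
    simp
  have h2 : (fun z => fderiv ℝ (g ∘ e) z w) = (fun x => fderiv ℝ g x (e w)) ∘ e := by
    funext z; exact fderiv_comp_e g z w
  rw [← h1, h2, fderiv_comp_e]
  have h : DifferentiableAt ℝ (fderiv ℝ g) (e x) :=
    ((hg.fderiv_right (m := ∞) (by simp)).differentiable (by simp)) _
  rw [fderiv_clm_apply h (differentiableAt_const _)]
  simp

end

/-! derivatives of `fX = f ∘ e.symm` -/

lemma d1X (f : P2 → P4) (y : X2) : d1 (f ∘ e.symm) y = R216.d1 f (e.symm y) e1 := by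
  show fderiv ℝ (f ∘ e.symm) y (1, 0) = _
  rw [fderiv_comp_es, es_10]; rfl

lemma d2X (f : P2 → P4) (y : X2) : d2 (f ∘ e.symm) y = R216.d1 f (e.symm y) e2 := by
  show fderiv ℝ (f ∘ e.symm) y (0, 1) = _
  rw [fderiv_comp_es, es_01]; rfl

lemma d22X {f : P2 → P4} (hf : ContDiff ℝ ∞ f) (y : X2) :
    d2 (d2 (f ∘ e.symm)) y = R216.d2 f (e.symm y) e2 e2 := by
  show fderiv ℝ (fun z => fderiv ℝ (f ∘ e.symm) z (0, 1)) y (0, 1) = _
  rw [fderiv2_comp_es hf, es_01]; rfl

lemma d12X {f : P2 → P4} (hf : ContDiff ℝ ∞ f) (y : X2) :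
    d1 (d2 (f ∘ e.symm)) y = R216.d2 f (e.symm y) e1 e2 := by
  show fderiv ℝ (fun z => fderiv ℝ (f ∘ e.symm) z (0, 1)) y (1, 0) = _
  rw [fderiv2_comp_es hf, es_01, es_10]; rfl

lemma d11X {f : P2 → P4} (hf : ContDiff ℝ ∞ f) (y : X2) :
    d1 (d1 (f ∘ e.symm)) y = R216.d2 f (e.symm y) e1 e1 := by
  show fderiv ℝ (fun z => fderiv ℝ (f ∘ e.symm) z (1, 0)) y (1, 0) = _
  rw [fderiv2_comp_es hf, es_10]; rfl

lemma closureX (u : P2 → ℝ) : closure {y : X2 | 0 < (u ∘ e.symm) y}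
    = e.symm ⁻¹' (closure {x | 0 < u x}) :=
  (e.symm.toHomeomorph.preimage_closure {x : P2 | 0 < u x}).symm

lemma frontierX (u : P2 → ℝ) : frontier {y : X2 | 0 < (u ∘ e.symm) y}
    = e.symm ⁻¹' (frontier {x | 0 < u x}) :=
  (e.symm.toHomeomorph.preimage_frontier {x : P2 | 0 < u x}).symm

lemma ampHyp {u b : P2 → ℝ} (h : IsAmp u b) : AmpHyp (u ∘ e.symm) (b ∘ e.symm) where
  hu := h.hu.comp e.symm.contDiff
  hβ := h.hb.comp e.symm.contDiff
  pos := fun _ => h.pos _
  cpt := by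
    rw [closureX]
    exact e.symm.toHomeomorph.isCompact_preimage.2 h.cpt
  star := by
    intro s hs y hy l hl
    have := h.star s hs (e.symm y) hy l hl
    rw [es_zero, es_one, ← es_mk] at this
    exact this

lemma loopX {f : P2 → P4} (hf : ContDiff ℝ ∞ f) {u b : P2 → ℝ} {O : Set (P2 × ℝ)}
    {W : P2 × ℝ → ℝ → P4} (h : LoopFam f (amp u b) (closure {x : P2 | 0 < u x}) O W) :
    LoopX (f ∘ e.symm) (ampX (u ∘ e.symm) (b ∘ e.symm))
      (closure {y : X2 | 0 < (u ∘ e.symm) y}) {z | (e.symm z.1, z.2) ∈ O}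
      (fun z t => W (e.symm z.1, z.2) t) where
  isOpen := by
    have hc : Continuous (fun z : X2 × ℝ => ((e.symm z.1, z.2) : P2 × ℝ)) :=
      (e.symm.continuous.comp continuous_fst).prodMk continuous_snd
    exact h.isOpen.preimage hc
  mem := by
    intro x hx
    rw [closureX] at hx
    exact h.mem _ hx
  smooth := by
    have hc : ContDiff ℝ ∞ (fun z : (X2 × ℝ) × ℝ => (((e.symm z.1.1, z.1.2), z.2) : (P2 × ℝ) × ℝ)) :=
      ((e.symm.contDiff.comp (contDiff_fst.comp contDiff_fst)).prodMk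
        (contDiff_snd.comp contDiff_fst)).prodMk contDiff_snd
    exact h.smooth.comp hc.contDiffOn (fun z hz => ⟨hz.1, mem_univ _⟩)
  per := fun z hz t => h.per _ hz t
  even := fun z hz t => h.even _ hz t
  mean := fun z hz => by rw [d1X]; exact h.mean _ hz
  perp2 := fun z hz t => by rw [d1X, d2X]; exact h.perp2 _ hz t
  perp22 := fun z hz t => by rw [d1X, d22X hf]; exact h.perp22 _ hz t
  norm := fun z hz t => by rw [d1X]; exact h.norm _ hz t

end Tr

open Tr in
/-- transfer of Theorem E -/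
theorem theoremE_of_theoremEX (H : TheoremEX) : TheoremE := by
  intro f u b O W hf hA h2 h3 hL η hη
  have hfX : ContDiff ℝ ∞ (f ∘ e.symm) := hf.comp e.symm.contDiff
  obtain ⟨ε, hε, hεη, hH⟩ := H (f ∘ e.symm) (u ∘ e.symm) (b ∘ e.symm) _ _ hfX (ampHyp hA)
    (by
      intro y hy
      rw [closureX] at hy
      rw [d2X, d22X hf]
      exact h2 _ hy)
    (by
      intro y hy
      rw [frontierX] at hy
      rw [d1X, d2X, d22X hf]
      exact h3 _ hy)
    (loopX hf hL) η hη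
  refine ⟨ε, hε, hεη, fun t0 => ?_⟩
  obtain ⟨FX, hFs, hjet, m1, m2, m3, hclose⟩ := hH t0
  have hFe : FX = (FX ∘ e) ∘ e.symm := by funext y; simp
  have hfe : f = (f ∘ e.symm) ∘ e := by funext y; simp only [Function.comp, e.symm_apply_apply]
  have hFs' : ContDiff ℝ ∞ (FX ∘ e) := hFs.comp e.contDiff
  refine ⟨FX ∘ e, hFs', fun x hx => ?_, fun x v w => ?_, fun x hx => ?_⟩
  · have hx' : (u ∘ e.symm) (e x) ≤ 0 := by
      simp only [Function.comp, e.symm_apply_apply]
      exact not_lt.1 hx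
    have j0 := hjet (e x) hx' 0
    have j1 := hjet (e x) hx' 1
    have j2 := hjet (e x) hx' 2
    have k0 : FX (e x) = (f ∘ e.symm) (e x) := by
      have := congrArg (fun T => T ![]) j0
      simpa using this
    have k1 : fderiv ℝ FX (e x) = fderiv ℝ (f ∘ e.symm) (e x) := by
      refine ContinuousLinearMap.ext (fun v => ?_)
      have := congrArg (fun T => T ![v]) j1
      simpa [iteratedFDeriv_one_apply] using this
    have k2 : ∀ v w, fderiv ℝ (fderiv ℝ FX) (e x) v w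
        = fderiv ℝ (fderiv ℝ (f ∘ e.symm)) (e x) v w := by
      intro v w
      have := congrArg (fun T => T ![v, w]) j2
      simpa [iteratedFDeriv_two_apply] using this
    refine ⟨?_, ?_, ?_⟩
    · show FX (e x) = f x
      rw [k0]; simp only [Function.comp, e.symm_apply_apply]
    · ext1 v
      rw [fderiv_comp_e, k1]
      conv_rhs => rw [hfe]
      rw [fderiv_comp_e]
    · ext1 v
      ext1 w
      rw [fderiv2_comp_e hFs, k2]
      conv_rhs => rw [hfe]
      rw [fderiv2_comp_e hfX]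
  · -- metric
    have hv : ∀ (g : P2 → P4) (v : P2), fderiv ℝ g x v
        = v 0 • R216.d1 g x e1 + v 1 • R216.d1 g x e2 := by
      intro g v
      have : v = v 0 • e1 + v 1 • e2 := by
        rw [← es_mk]
        apply e.injective
        rw [e.apply_symm_apply]; rfl
      conv_lhs => rw [this]
      rw [map_add, map_smul, map_smul]; rfl
    have q1 : d1 FX (e x) = R216.d1 (FX ∘ e) x e1 := by
      conv_lhs => rw [hFe]
      rw [d1X, e.symm_apply_apply]
    have q2 : d2 FX (e x) = R216.d1 (FX ∘ e) x e2 := by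
      conv_lhs => rw [hFe]
      rw [d2X, e.symm_apply_apply]
    have q3 : d1 (f ∘ e.symm) (e x) = R216.d1 f x e1 := by rw [d1X, e.symm_apply_apply]
    have q4 : d2 (f ∘ e.symm) (e x) = R216.d1 f x e2 := by rw [d2X, e.symm_apply_apply]
    have r1 := m1 (e x)
    have r2 := m2 (e x)
    have r3 := m3 (e x)
    rw [q1, q3] at r1
    rw [q1, q2, q3, q4] at r2
    rw [q2, q4] at r3
    have r4 : ampX (u ∘ e.symm) (b ∘ e.symm) (e x) = amp u b x := by
      simp only [ampX, amp, Function.comp, e.symm_apply_apply]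
    rw [r4] at r1
    have r2' : (inner ℝ (R216.d1 (FX ∘ e) x e2) (R216.d1 (FX ∘ e) x e1) : ℝ)
        = inner ℝ (R216.d1 f x e2) (R216.d1 f x e1) := by
      rw [real_inner_comm, r2, real_inner_comm]
    show (inner ℝ (fderiv ℝ (FX ∘ e) x v) (fderiv ℝ (FX ∘ e) x w) : ℝ)
      = inner ℝ (fderiv ℝ f x v) (fderiv ℝ f x w) + amp u b x ^ 2 * (v 0 * w 0)
    rw [hv (FX ∘ e) v, hv (FX ∘ e) w, hv f v, hv f w]
    simp only [inner_add_left, inner_add_right, real_inner_smul_left, real_inner_smul_right,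
      r1, r2, r2', r3]
    ring
  · have hx' : e x ∈ closure {y : X2 | 0 < (u ∘ e.symm) y} := by
      rw [closureX]; simpa only [mem_preimage, e.symm_apply_apply] using hx
    obtain ⟨c1, c2, c3, c4, c5⟩ := hclose (e x) hx'
    have r4 : ∀ y, ampX (u ∘ e.symm) (b ∘ e.symm) y = amp u b (e.symm y) := fun y => rfl
    have hex : (e x).1 = x 0 := rfl
    rw [hex] at c1 c4 c5
    have q1 : d1 FX (e x) = R216.d1 (FX ∘ e) x e1 := by
      conv_lhs => rw [hFe]
      rw [d1X, e.symm_apply_apply]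
    have q2 : d2 FX (e x) = R216.d1 (FX ∘ e) x e2 := by
      conv_lhs => rw [hFe]
      rw [d2X, e.symm_apply_apply]
    have q22 : d2 (d2 FX) (e x) = R216.d2 (FX ∘ e) x e2 e2 := by
      conv_lhs => rw [hFe]
      rw [d22X hFs', e.symm_apply_apply]
    have q12 : d1 (d2 FX) (e x) = R216.d2 (FX ∘ e) x e1 e2 := by
      conv_lhs => rw [hFe]
      rw [d12X hFs', e.symm_apply_apply]
    have q11 : d1 (d1 FX) (e x) = R216.d2 (FX ∘ e) x e1 e1 := by
      conv_lhs => rw [hFe]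
      rw [d11X hFs', e.symm_apply_apply]
    have q4 : d2 (f ∘ e.symm) (e x) = R216.d1 f x e2 := by rw [d2X, e.symm_apply_apply]
    have q44 : d2 (d2 (f ∘ e.symm)) (e x) = R216.d2 f x e2 e2 := by
      rw [d22X hf, e.symm_apply_apply]
    rw [q1, r4, e.symm_apply_apply] at c1
    simp only [e.symm_apply_apply] at c1
    rw [q2, q4] at c2
    rw [q22, q44] at c3
    rw [q12] at c4
    rw [q11, r4, e.symm_apply_apply] at c5
    simp only [e.symm_apply_apply] at c5
    refine ⟨c1, c2, c3, ?_, c5⟩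
    have hW : d2 (fun y => W (e.symm y, ampX (u ∘ e.symm) (b ∘ e.symm) y) (x 0 / ε + t0)) (e x)
        = fderiv ℝ (fun y => W (y, amp u b y) (x 0 / ε + t0)) x e2 := by
      have : (fun y => W (e.symm y, ampX (u ∘ e.symm) (b ∘ e.symm) y) (x 0 / ε + t0))
        = (fun y => W (y, amp u b y) (x 0 / ε + t0)) ∘ e.symm := rfl
      rw [this]
      show fderiv ℝ _ (e x) (0, 1) = _
      rw [fderiv_comp_es, es_01, e.symm_apply_apply]
    rw [← hW]
    exact c4

/-- **Theorem E** from STAGE and MACRO. -/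
theorem theoremE_of
    (hS : ∃ (q m k₀ : ℕ) (K : ℕ → ℕ), 2 ≤ q ∧ 1 ≤ m ∧ 3 ≤ k₀ ∧ StageThm q m k₀ K)
    (hM : ∀ q m k₀ K₀ : ℕ, 2 ≤ q → 1 ≤ m → 3 ≤ k₀ → MacroThm q m k₀ K₀) : TheoremE :=
  theoremE_of_theoremEX (theoremEX_of hS hM)

/-- one instance of STAGE + MACRO suffices -/
theorem theoremE_of_pair {q m k₀ : ℕ} {K : ℕ → ℕ} (hq : 2 ≤ q) (hm : 1 ≤ m) (hk₀ : 3 ≤ k₀)
    (hStage : StageThm q m k₀ K) (hM : MacroThm q m k₀ (K k₀)) : TheoremE :=
  theoremE_of_theoremEX (theoremEX_of_pair hq hm hk₀ hStage hM)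

end Crest.Agent.R216.TE
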