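import Crest.Agent.R216.IterFin

/-!
# R216 / Theorem E: interfaces STAGE and MACRO (on `X2 = ℝ × ℝ`) consumed by the final assembly
`EFin.lean` (helper918).
-/

namespace Crest.Agent.R216.TE

open scoped ContDiff Topology
open Set Filter

/-- the amplitude -/
noncomputable def ampX (u β : X2 → ℝ) (x : X2) : ℝ := expNegInvGlue (u x) * β x

/-- hypotheses on the support function `u` and the factor `β` of the amplitude -/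
structure AmpHyp (u β : X2 → ℝ) : Prop where
  hu : ContDiff ℝ ∞ u
  hβ : ContDiff ℝ ∞ β
  pos : ∀ x, 0 < β x
  cpt : IsCompact (closure {x : X2 | 0 < u x})
  star : ∀ s : ℝ, 0 ≤ s → ∀ x : X2, s < u x → ∀ l ∈ Icc (0 : ℝ) 1, s < u (x.1, l * x.2)

/-- The open condition `G` of the iteration: bounds `B` on `N` for `f₁,f₂,f₁₂,f₂₂` and
quantitative independence of `f₁,f₂,f₂₂` on `Ub = closure {u > 0}`. -/
def GC (c B : ℝ) (N Ub : Set X2) (f : X2 → E4) : Prop :=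
  (∀ x ∈ N, ‖d1 f x‖ ≤ B ∧ ‖d2 f x‖ ≤ B ∧ ‖d1 (d2 f) x‖ ≤ B ∧ ‖d2 (d2 f) x‖ ≤ B) ∧
  (∀ x ∈ Ub, c ≤ gram (d2 f x) (d2 (d2 f) x) ∧
    c ≤ ‖ppr (d1 f x) (d2 f x) (d2 (d2 f) x)‖ ^ 2)

/-- **STAGE** (helper934): the one-stage statement with the concrete state `StC`.
`ε = L^{-q}`, `δ = ε^k = L^{-qk}`, next scale `L' = L^{2q}`. -/
def StageThm (q m k₀ : ℕ) (K : ℕ → ℕ) : Prop :=
  ∀ (f₀ : X2 → E4) (u β : X2 → ℝ), ContDiff ℝ ∞ f₀ → AmpHyp u β →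
    ∀ N : Set X2, IsCompact N → closure {x | 0 < u x} ⊆ interior N →
    ∀ c B : ℝ, 0 < c →
      Iter.StageHyp N {x | 0 < u x} (StC q m f₀ u (ampX u β))
        (GC c B N (closure {x | 0 < u x})) q K k₀

/-- Loop families on `X2` (same as `LoopFam` of `PSLDefs`). -/
structure LoopX (f : X2 → E4) (a : X2 → ℝ) (K : Set X2) (O : Set (X2 × ℝ))
    (W : X2 × ℝ → ℝ → E4) : Prop where
  isOpen : IsOpen O
  mem : ∀ x ∈ K, (x, a x) ∈ O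
  smooth : ContDiffOn ℝ ∞ (fun z : (X2 × ℝ) × ℝ => W z.1 z.2) (O ×ˢ univ)
  per : ∀ z ∈ O, ∀ t, W z (t + 2 * Real.pi) = W z t
  even : ∀ z ∈ O, ∀ t, W z (-t) = W z t
  mean : ∀ z ∈ O, ∫ t in (0:ℝ)..(2 * Real.pi), W z t = (2 * Real.pi) • d1 f z.1
  perp2 : ∀ z ∈ O, ∀ t, (inner ℝ (W z t) (d2 f z.1) : ℝ) = inner ℝ (d1 f z.1) (d2 f z.1)
  perp22 : ∀ z ∈ O, ∀ t,
    (inner ℝ (W z t) (d2 (d2 f) z.1) : ℝ) = inner ℝ (d1 f z.1) (d2 (d2 f) z.1)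
  norm : ∀ z ∈ O, ∀ t, (inner ℝ (W z t) (W z t) : ℝ) = inner ℝ (d1 f z.1) (d1 f z.1) + z.2 ^ 2

/-- closeness of `F` to the corrugation of `f` with loops `W`, frequency `1/ε`, offset `t0` -/
def CloseX (f : X2 → E4) (u β : X2 → ℝ) (W : X2 × ℝ → ℝ → E4) (ε t0 η : ℝ)
    (F : X2 → E4) : Prop :=
  ∀ x ∈ closure {x : X2 | 0 < u x},
    ‖d1 F x - W (x, ampX u β x) (x.1 / ε + t0)‖ ≤ η ∧
    ‖d2 F x - d2 f x‖ ≤ η ∧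
    ‖d2 (d2 F) x - d2 (d2 f) x‖ ≤ η ∧
    ‖d1 (d2 F) x - d2 (fun y => W (y, ampX u β y) (x.1 / ε + t0)) x‖ ≤ η ∧
    ‖ε • d1 (d1 F) x - deriv (fun t => W (x, ampX u β x) t) (x.1 / ε + t0)‖ ≤ η

/-- **MACRO** (helper323): the first, macroscopic, step. Amplitude
`a_mac = A √(1 - κ_λ(u))`, `λ = lam q k₀ L₀`; for arbitrarily large `L₀` (e.g. `L₀ = ε^{-2}`). -/
def MacroThm (q m k₀ K₀ : ℕ) : Prop :=
  ∀ (f₀ : X2 → E4) (u β : X2 → ℝ) (O : Set (X2 × ℝ)) (W : X2 × ℝ → ℝ → E4),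
    ContDiff ℝ ∞ f₀ → AmpHyp u β →
    (∀ x ∈ closure {x | 0 < u x}, LinearIndependent ℝ ![d2 f₀ x, d2 (d2 f₀) x]) →
    (∀ x ∈ frontier {x | 0 < u x}, LinearIndependent ℝ ![d1 f₀ x, d2 f₀ x, d2 (d2 f₀) x]) →
    LoopX f₀ (ampX u β) (closure {x | 0 < u x}) O W →
    ∀ N : Set X2, IsCompact N → ∀ η : ℝ, 0 < η → ∀ T : ℝ,
      ∃ ε : ℝ, 0 < ε ∧ ε < η ∧ ∃ L₀ : ℝ, T ≤ L₀ ∧ ∀ t0 : ℝ, ∃ f : X2 → E4,
        ContDiff ℝ ∞ f ∧ StC q m f₀ u (ampX u β) k₀ L₀ f ∧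
        (∀ j, 1 ≤ j → j ≤ K₀ → ∀ x ∈ N, ‖iteratedFDeriv ℝ j f x‖ ≤ L₀ ^ j) ∧
        CloseX f₀ u β W ε t0 η f

end Crest.Agent.R216.TE
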