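import Crest.Agent.R216.EngDefs

/-!
# Row 216, Theorem E: FROZEN INTERFACE, part 1 (class calculus + engine).
Never import this file in a proof file. Prove each lemma in the file named in the comment,
with exactly this statement (extra lemmas welcome).
Paper proof: note 6831 (blueprint) + the exponents below.
-/

open Set Topology MeasureTheory
open scoped ContDiff

namespace Crest.Agent.R216.TE

/-! ## ClsT.lean : calculus of `mean`, `osc`, `prim` -/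
section ClsT
variable {V : Type*} [NormedAddCommGroup V] [NormedSpace ℝ V] [CompleteSpace V]
namespace Fam
variable {𝓕 : Fam} {w : 𝓕.I → X2 → ℝ}

lemma B.mean {u : 𝓕.I → Q → V} (hw : Nn w) (hu : 𝓕.B w u) :
    𝓕.B w (fun i => Crest.Agent.R216.TE.mean (u i)) := sorry

lemma B.osc {u : 𝓕.I → Q → V} (hw : Nn w) (hu : 𝓕.B w u) :
    𝓕.B w (fun i => Crest.Agent.R216.TE.osc (u i)) := sorry

lemma B.prim {u : 𝓕.I → Q → V} (hw : Nn w) (hu : 𝓕.B w u) (hp : ∀ i, PerOn (𝓕.D i) (u i)) :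
    𝓕.B w (fun i => Crest.Agent.R216.TE.prim (u i)) := sorry

end Fam

/-- `mean` commutes with the `x`-derivatives -/
lemma pd_mean {D : Set X2} (hD : IsOpen D) {u : Q → V} (hu : ContDiffOn ℝ ∞ u {z | z.1 ∈ D})
    (j : Fin 3) (hj : j ≠ 2) {z : Q} (hz : z.1 ∈ D) : pd j (mean u) z = mean (pd j u) z := sorry

lemma pd2_mean (u : Q → V) (z : Q) : pd 2 (mean u) z = 0 := sorry

/-- the mean of a `t`-derivative vanishes -/
lemma mean_pd2 {D : Set X2} (hD : IsOpen D) {u : Q → V} (hu : ContDiffOn ℝ ∞ u {z | z.1 ∈ D})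
    (hp : PerOn D u) {z : Q} (hz : z.1 ∈ D) : mean (pd 2 u) z = 0 := sorry

lemma pd2_prim {D : Set X2} (hD : IsOpen D) {u : Q → V} (hu : ContDiffOn ℝ ∞ u {z | z.1 ∈ D})
    {z : Q} (hz : z.1 ∈ D) : pd 2 (prim u) z = osc u z := sorry

lemma per_prim {D : Set X2} {u : Q → V} (hu : ContDiffOn ℝ ∞ u {z | z.1 ∈ D}) (hp : PerOn D u)
    {x : X2} (hx : x ∈ D) (t : ℝ) : prim u (x, t + 2 * Real.pi) = prim u (x, t) := sorry

lemma mean_prim {D : Set X2} {u : Q → V} (hu : ContDiffOn ℝ ∞ u {z | z.1 ∈ D})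
    {z : Q} (hz : z.1 ∈ D) : mean (prim u) z = 0 := sorry

/-- an odd primitive: if `W` is even in `t` and has mean zero then `prim W` is odd -/
lemma prim_odd {D : Set X2} {u : Q → V} (hu : ContDiffOn ℝ ∞ u {z | z.1 ∈ D}) (hp : PerOn D u)
    {x : X2} (hx : x ∈ D) (he : ∀ t, u (x, -t) = u (x, t)) (t : ℝ) :
    prim u (x, -t) = - prim u (x, t) := sorry

lemma mean_odd {u : Q → V} {z : Q} (hp : ∀ t, u (z.1, t + 2 * Real.pi) = u (z.1, t))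
    (ho : ∀ t, u (z.1, -t) = - u (z.1, t)) : mean u z = 0 := sorry

lemma mean_mean (u : Q → V) (z : Q) : mean (mean u) z = mean u z := sorry

end ClsT

/-! ## ClsShift.lean -/
section ClsShift
variable {V : Type*} [NormedAddCommGroup V] [NormedSpace ℝ V] [CompleteSpace V]
namespace Fam
variable {𝓕 : Fam} {w : 𝓕.I → X2 → ℝ}

lemma B.shift {u : 𝓕.I → Q → V} {γ : 𝓕.I → X2 → ℝ} {g : 𝓕.I → ℝ} (hw : Nn w)
    (hg0 : ∀ i, 0 ≤ g i) (hu : 𝓕.B w u) (hγ : 𝓕.B (fun i _ => g i) (fun i => lift (γ i)))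
    (hg : ∃ C, ∀ i, 𝓕.Lam i * g i ≤ C) :
    𝓕.B w (fun i => Crest.Agent.R216.TE.shift (γ i) (u i)) := sorry

lemma B.shift_sub {u : 𝓕.I → Q → V} {γ : 𝓕.I → X2 → ℝ} {g : 𝓕.I → ℝ} (hw : Nn w)
    (hg0 : ∀ i, 0 ≤ g i) (hu : 𝓕.B w u) (hγ : 𝓕.B (fun i _ => g i) (fun i => lift (γ i)))
    (hg : ∃ C, ∀ i, 𝓕.Lam i * g i ≤ C) :
    𝓕.B (fun i x => 𝓕.Lam i * g i * w i x)
      (fun i z => Crest.Agent.R216.TE.shift (γ i) (u i) z - u i z) := sorry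

end Fam

/-- chain rule for the shift -/
lemma pd_shift {D : Set X2} (hD : IsOpen D) {u : Q → V} (hu : ContDiffOn ℝ ∞ u {z | z.1 ∈ D})
    {γ : X2 → ℝ} (hγ : ContDiffOn ℝ ∞ γ D) (j : Fin 3) {z : Q} (hz : z.1 ∈ D) :
    pd j (shift γ u) z = shift γ (pd j u) z + pd j (lift γ) z • shift γ (pd 2 u) z := sorry

lemma mean_shift {D : Set X2} {u : Q → V} (hu : ContDiffOn ℝ ∞ u {z | z.1 ∈ D}) (hp : PerOn D u)
    (γ : X2 → ℝ) {z : Q} (hz : z.1 ∈ D) : mean (shift γ u) z = mean u z := sorry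

end ClsShift

/-! ## ClsInt2.lean -/
section ClsInt2
namespace Fam
variable {𝓕 : Fam}

lemma B.int2 {v : 𝓕.I → X2 → ℝ} {om : 𝓕.I → ℝ} (hom : ∀ i, 0 ≤ om i)
    (hstar : ∀ i, ∀ x ∈ 𝓕.D i, ∀ l ∈ Icc (0:ℝ) 1, (x.1, l * x.2) ∈ 𝓕.D i)
    (hbdd : ∃ L, 0 < L ∧ ∀ i, ∀ x ∈ 𝓕.D i, |x.2| ≤ L)
    (hv : 𝓕.B (fun i _ => om i) (fun i => lift (v i))) :
    𝓕.B (fun i _ => om i) (fun i => lift (Crest.Agent.R216.TE.int2 (v i))) := sorry

end Fam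

lemma pd1_int2 {D : Set X2} (hD : IsOpen D)
    (hstar : ∀ x ∈ D, ∀ l ∈ Icc (0:ℝ) 1, (x.1, l * x.2) ∈ D)
    {v : X2 → ℝ} (hv : ContDiffOn ℝ ∞ v D) {z : Q} (hz : z.1 ∈ D) :
    pd 1 (lift (int2 v)) z = v z.1 := sorry

end ClsInt2

/-! ## EngExp.lean : exponent calculus -/
namespace EFam
variable {𝓔 : EFam}

/-- `a^j η^m Λ^l ≤ C a^{j'} η^{m'} Λ^{l'}` as soon as `j' ≤ j`, `m' ≤ m`, `l ≤ l' + 10 (m - m')`. -/
lemma W_le {j m l j' m' l' : ℕ} (hj : j' ≤ j) (hm : m' ≤ m) (hl : l + 10 * m' ≤ l' + 10 * m) :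
    ∃ C, 0 < C ∧ ∀ i, ∀ x ∈ 𝓔.D i, 𝓔.W j m l i x ≤ C * 𝓔.W j' m' l' i x := sorry

variable {V : Type*} [NormedAddCommGroup V] [NormedSpace ℝ V]

lemma B_le {j m l j' m' l' : ℕ} {u : 𝓔.I → Q → V} (h : 𝓔.toFam.B (𝓔.W j m l) u)
    (hj : j' ≤ j) (hm : m' ≤ m) (hl : l + 10 * m' ≤ l' + 10 * m) :
    𝓔.toFam.B (𝓔.W j' m' l') u := sorry

lemma B_mul {j m l j' m' l' : ℕ} {u v : 𝓔.I → Q → ℝ} (h : 𝓔.toFam.B (𝓔.W j m l) u)
    (h' : 𝓔.toFam.B (𝓔.W j' m' l') v) :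
    𝓔.toFam.B (𝓔.W (j+j') (m+m') (l+l')) (fun i z => u i z * v i z) := sorry

lemma B_smul {j m l j' m' l' : ℕ} {u : 𝓔.I → Q → ℝ} {v : 𝓔.I → Q → V}
    (h : 𝓔.toFam.B (𝓔.W j m l) u) (h' : 𝓔.toFam.B (𝓔.W j' m' l') v) :
    𝓔.toFam.B (𝓔.W (j+j') (m+m') (l+l')) (fun i z => u i z • v i z) := sorry

lemma B_inner {j m l j' m' l' : ℕ} {u v : 𝓔.I → Q → E4} (h : 𝓔.toFam.B (𝓔.W j m l) u)
    (h' : 𝓔.toFam.B (𝓔.W j' m' l') v) :
    𝓔.toFam.B (𝓔.W (j+j') (m+m') (l+l')) (fun i z => inner ℝ (u i z) (v i z)) := sorry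

lemma B_pd {j m l : ℕ} {u : 𝓔.I → Q → V} (h : 𝓔.toFam.B (𝓔.W j m l) u) (k : Fin 3) :
    𝓔.toFam.B (𝓔.W j m (l+1)) (fun i => pd k (u i)) := sorry

/-- multiplication by `ε` -/
lemma B_eps {j m l : ℕ} {u : 𝓔.I → Q → V} (h : 𝓔.toFam.B (𝓔.W j m l) u) :
    𝓔.toFam.B (𝓔.W j (m+16) l) (fun i z => 𝓔.eps i • u i z) := sorry

/-- division by `ε` -/
lemma B_epsInv {j m l : ℕ} {u : 𝓔.I → Q → V} (h : 𝓔.toFam.B (𝓔.W j (m+16) l) u) :
    𝓔.toFam.B (𝓔.W j m l) (fun i z => (𝓔.eps i)⁻¹ • u i z) := sorry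

/-- division by `a^k` -/
lemma B_div {j m l k : ℕ} {u : 𝓔.I → Q → V} (h : 𝓔.toFam.B (𝓔.W (j+k) m l) u) :
    𝓔.toFam.B (𝓔.W j m l) (fun i z => ((𝓔.a i z.1 ^ k)⁻¹ : ℝ) • u i z) := sorry

/-- division by a quantity comparable to `a^k` -/
lemma B_inv {k : ℕ} {u : 𝓔.I → Q → ℝ} (h : 𝓔.toFam.B (𝓔.W k 0 0) u)
    (hlow : ∃ c, 0 < c ∧ ∀ i, ∀ z ∈ 𝓔.toFam.dom i, c * 𝓔.a i z.1 ^ k ≤ u i z)
    {j m l : ℕ} {v : 𝓔.I → Q → V} (hv : 𝓔.toFam.B (𝓔.W (j+k) m l) v) :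
    𝓔.toFam.B (𝓔.W j m l) (fun i z => (u i z)⁻¹ • v i z) := sorry

end EFam

/-! ## Engine: base state and the four steps.
In all steps: work with weights `W j m l` (cost `Λ^l`) and convert only at the end; `Λ^10 η ≤ 1`.
-/
namespace EData
variable {𝓔 : EFam} {d : EData 𝓔}

/-- Step0.lean : base state (exponents: all six are ≥ 15,15,15,23,27,27) -/
theorem step0 (h : d.Hyp) : d.Good d.base ∧ d.Err0 0 d.base := sorry

/-- Step1.lean : mean-(22) correction, `F' = F + (mean E22 / 2) ξ_C` -/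
theorem step1 (h : d.Hyp) (n : ℕ) {F : 𝓔.I → Q → E4} (hG : d.Good F)
    (hE : d.Err (15+n) (15+n) (15+n) (23+n) (27+n) (27+n) F) :
    ∃ F', d.Good F' ∧ d.Err (15+n) (15+n) (15+n) (23+n) (27+n) (28+n) F' := sorry

/-- Step2.lean : phase shift by `γ = - int2 (mean E12 / (ε a²))` -/
theorem step2 (h : d.Hyp) (n : ℕ) {F : 𝓔.I → Q → E4} (hG : d.Good F)
    (hE : d.Err (15+n) (15+n) (15+n) (23+n) (27+n) (28+n) F) :
    ∃ F', d.Good F' ∧ d.Err (15+n) (15+n) (15+n) (24+n) (27+n) (28+n) F' := sorry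

/-- Step3.lean : amplitude, `F' = F + β osc F`, `β = - mean E11 / (2 a²)` -/
theorem step3 (h : d.Hyp) (n : ℕ) {F : 𝓔.I → Q → E4} (hG : d.Good F)
    (hE : d.Err (15+n) (15+n) (15+n) (24+n) (27+n) (28+n) F) :
    ∃ F', d.Good F' ∧ d.Err (15+n) (16+n) (15+n) (24+n) (27+n) (28+n) F' := sorry

/-- Step4.lean : oscillating correction -/
theorem step4 (h : d.Hyp) (n : ℕ) {F : 𝓔.I → Q → E4} (hG : d.Good F)
    (hE : d.Err (15+n) (16+n) (15+n) (24+n) (27+n) (28+n) F) :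
    ∃ F', d.Good F' ∧ d.Err (16+n) (16+n) (16+n) (24+n) (28+n) (28+n) F' := sorry

/-- Engine.lean -/
theorem engine (h : d.Hyp) (n : ℕ) : ∃ F, d.Good F ∧ d.Err0 n F := by
  induction n with
  | zero => exact ⟨d.base, step0 h⟩
  | succ n ih =>
    obtain ⟨F, hG, hE⟩ := ih
    obtain ⟨F1, hG1, hE1⟩ := step1 h n hG hE
    obtain ⟨F2, hG2, hE2⟩ := step2 h n hG1 hE1
    obtain ⟨F3, hG3, hE3⟩ := step3 h n hG2 hE2
    obtain ⟨F4, hG4, hE4⟩ := step4 h n hG3 hE3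
    refine ⟨F4, hG4, ?_⟩
    have e : ∀ k, k + 1 + n = k + (n + 1) := fun k => by ring
    simpa [Err0, ← e] using hE4

end EData
end Crest.Agent.R216.TE
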