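import Crest.Agent.R216.LoopDefs

/-!
# Row 216, Theorem E: FROZEN INTERFACE, part 2 (algebra + loops). Never import in a proof file.
-/

open Set Topology MeasureTheory
open scoped ContDiff

namespace Crest.Agent.R216.TE

/-! ## Alg.lean : linear algebra in `ℝ⁴` -/

lemma gram_nonneg (B C : E4) : 0 ≤ gram B C := sorry

lemma gram_pos_iff (B C : E4) : 0 < gram B C ↔ LinearIndependent ℝ ![B, C] := sorry

lemma inner_xiB (B C : E4) (h : gram B C ≠ 0) :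
    inner ℝ (xiB B C) B = (1:ℝ) ∧ inner ℝ (xiB B C) C = (0:ℝ) := sorry

lemma inner_xiC (B C : E4) (h : gram B C ≠ 0) :
    inner ℝ (xiC B C) B = (0:ℝ) ∧ inner ℝ (xiC B C) C = (1:ℝ) := sorry

lemma ppr_perp (A B C : E4) (h : gram B C ≠ 0) :
    inner ℝ (ppr A B C) B = (0:ℝ) ∧ inner ℝ (ppr A B C) C = (0:ℝ) := sorry

/-- `Jrot` is an isometry of `Π` rotating by 90 degrees -/
lemma Jrot_perp (B C v : E4) : inner ℝ (Jrot B C v) B = (0:ℝ) ∧ inner ℝ (Jrot B C v) C = (0:ℝ) ∧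
    inner ℝ (Jrot B C v) v = (0:ℝ) := sorry

lemma norm_Jrot (B C v : E4) (h : 0 < gram B C) (hB : inner ℝ v B = (0:ℝ))
    (hC : inner ℝ v C = (0:ℝ)) : ‖Jrot B C v‖ = ‖v‖ := sorry

/-- `b, Jrot b` is an orthonormal basis of `Π` -/
lemma frame_expand (B C b v : E4) (h : 0 < gram B C) (hb : ‖b‖ = 1)
    (hbB : inner ℝ b B = (0:ℝ)) (hbC : inner ℝ b C = (0:ℝ))
    (hvB : inner ℝ v B = (0:ℝ)) (hvC : inner ℝ v C = (0:ℝ)) :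
    v = inner ℝ v b • b + inner ℝ v (Jrot B C b) • Jrot B C b := sorry

/-- same for an arbitrary orthonormal frame of `Π` -/
lemma frame_expand' (B C b b' v : E4) (h : 0 < gram B C) (hb : ‖b‖ = 1) (hb' : ‖b'‖ = 1)
    (hbb : inner ℝ b b' = (0:ℝ)) (hbB : inner ℝ b B = (0:ℝ)) (hbC : inner ℝ b C = (0:ℝ))
    (hbB' : inner ℝ b' B = (0:ℝ)) (hbC' : inner ℝ b' C = (0:ℝ))
    (hvB : inner ℝ v B = (0:ℝ)) (hvC : inner ℝ v C = (0:ℝ)) :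
    v = inner ℝ v b • b + inner ℝ v b' • b' := sorry

section AlgClass
variable {𝓔 : EFam} {A B C : 𝓔.I → Q → E4}

lemma B_gram (hB : 𝓔.toFam.B (𝓔.W 0 0 0) B) (hC : 𝓔.toFam.B (𝓔.W 0 0 0) C) :
    𝓔.toFam.B (𝓔.W 0 0 0) (fun i z => gram (B i z) (C i z)) := sorry

lemma B_xiB (hB : 𝓔.toFam.B (𝓔.W 0 0 0) B) (hC : 𝓔.toFam.B (𝓔.W 0 0 0) C)
    (hg : ∃ c, 0 < c ∧ ∀ i, ∀ z ∈ 𝓔.toFam.dom i, c ≤ gram (B i z) (C i z)) :
    𝓔.toFam.B (𝓔.W 0 0 0) (fun i z => xiB (B i z) (C i z)) ∧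
    𝓔.toFam.B (𝓔.W 0 0 0) (fun i z => xiC (B i z) (C i z)) := sorry

lemma B_cpr (hA : 𝓔.toFam.B (𝓔.W 0 0 0) A) (hB : 𝓔.toFam.B (𝓔.W 0 0 0) B)
    (hC : 𝓔.toFam.B (𝓔.W 0 0 0) C)
    (hg : ∃ c, 0 < c ∧ ∀ i, ∀ z ∈ 𝓔.toFam.dom i, c ≤ gram (B i z) (C i z)) :
    𝓔.toFam.B (𝓔.W 0 0 0) (fun i z => cpr (A i z) (B i z) (C i z)) := sorry

lemma B_Jrot {v : 𝓔.I → Q → E4} (hB : 𝓔.toFam.B (𝓔.W 0 0 0) B)
    (hC : 𝓔.toFam.B (𝓔.W 0 0 0) C) (hv : 𝓔.toFam.B (𝓔.W 0 0 0) v)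
    (hg : ∃ c, 0 < c ∧ ∀ i, ∀ z ∈ 𝓔.toFam.dom i, c ≤ gram (B i z) (C i z)) :
    𝓔.toFam.B (𝓔.W 0 0 0) (fun i z => Jrot (B i z) (C i z) (v i z)) := sorry

end AlgClass

/-! ## Loop.lean -/

/-- exact mean of the loop -/
lemma loop_mean (A B C b : E4) (s : ℝ) (hg : 0 < gram B C) (hb : ‖b‖ = 1)
    (hbB : inner ℝ b B = (0:ℝ)) (hbC : inner ℝ b C = (0:ℝ)) (hr : 0 < lr A B C b s)
    (hd : 0 < lden A B C b s) :
    ∫ t in (0:ℝ)..(2 * Real.pi), loopW A B C b s t = 0 := sorry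

lemma loop_circle (A B C b : E4) (s : ℝ) (hg : 0 < gram B C) (hb : ‖b‖ = 1)
    (hbB : inner ℝ b B = (0:ℝ)) (hbC : inner ℝ b C = (0:ℝ)) (t : ℝ) :
    inner ℝ (loopw A B C b s t) (loopw A B C b s t) = inner ℝ A A + s ^ 2 := sorry

lemma loop_perp (A B C b : E4) (s : ℝ) (hg : 0 < gram B C)
    (hbB : inner ℝ b B = (0:ℝ)) (hbC : inner ℝ b C = (0:ℝ)) (t : ℝ) :
    inner ℝ (loopW A B C b s t) B = (0:ℝ) ∧ inner ℝ (loopW A B C b s t) C = (0:ℝ) := sorry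

section
variable {𝓔 : EFam} {A B C b : 𝓔.I → X2 → E4}

/-- the loops over a family: `W ∈ B(a)` -/
lemma loop_class (h : LoopHyp 𝓔 A B C b) :
    𝓔.toFam.B (𝓔.W 1 0 0)
      (fun i z => loopW (A i z.1) (B i z.1) (C i z.1) (b i z.1) (𝓔.a i z.1) z.2) := sorry

/-- nondegeneracy: with `W1 = ⟪W,b⟫`, `W2 = ⟪W,Jb⟫`, `p1, p2` the components of `A` -/
lemma loop_del (h : LoopHyp 𝓔 A B C b) : ∃ c, 0 < c ∧ ∀ i, ∀ x ∈ 𝓔.D i,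
    let b' := Jrot (B i x) (C i x) (b i x)
    let W := fun t => loopW (A i x) (B i x) (C i x) (b i x) (𝓔.a i x) t
    let m := fun (u : ℝ → ℝ) => (2 * Real.pi)⁻¹ * ∫ t in (0:ℝ)..(2 * Real.pi), u t
    let p1 : ℝ := inner ℝ (A i x) (b i x)
    let p2 : ℝ := inner ℝ (A i x) b'
    let W1 := fun t => (inner ℝ (W t) (b i x) : ℝ)
    let W2 := fun t => (inner ℝ (W t) b' : ℝ)
    c * 𝓔.a i x ^ 2 ≤ p1 ^ 2 * m (fun t => W2 t ^ 2) + p2 ^ 2 * m (fun t => W1 t ^ 2)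
      - 2 * p1 * p2 * m (fun t => W1 t * W2 t)
      + m (fun t => W1 t ^ 2) * m (fun t => W2 t ^ 2) - m (fun t => W1 t * W2 t) ^ 2 := sorry

end

end Crest.Agent.R216.TE
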