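import Crest.Agent.R216.ClsAlg

/-!
# Row 216, Theorem E: definitions for the engine.
`t` has period `2π`. `mean`, `osc`, `prim` act in `t`.
-/

open Set Topology MeasureTheory
open scoped ContDiff

namespace Crest.Agent.R216.TE

section ops
variable {V : Type*} [NormedAddCommGroup V] [NormedSpace ℝ V]

/-- `2π`-periodic in `t` over the set `D` -/
def PerOn (D : Set X2) (u : Q → V) : Prop := ∀ x ∈ D, ∀ t, u (x, t + 2 * Real.pi) = u (x, t)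

/-- mean over `t` -/
noncomputable def mean (u : Q → V) : Q → V :=
  fun z => (2 * Real.pi)⁻¹ • ∫ s in (0:ℝ)..(2 * Real.pi), u (z.1, s)

/-- oscillating part -/
noncomputable def osc (u : Q → V) : Q → V := fun z => u z - mean u z

/-- primitive in `t` from `0` -/
noncomputable def prim0 (u : Q → V) : Q → V := fun z => ∫ s in (0:ℝ)..z.2, u (z.1, s)

/-- mean-zero primitive in `t` of the oscillating part -/
noncomputable def prim (u : Q → V) : Q → V := osc (prim0 (osc u))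

/-- shift in `t` by a function of `x` -/
def shift (g : X2 → ℝ) (u : Q → V) : Q → V := fun z => u (z.1, z.2 + g z.1)

/-- primitive in `x2` from the axis -/
noncomputable def int2 (v : X2 → ℝ) : X2 → ℝ := fun x => ∫ s in (0:ℝ)..x.2, v (x.1, s)

/-- a function of `x` seen as a function of `(x,t)` -/
def lift (v : X2 → V) : Q → V := fun z => v z.1

end ops

/-! ### partial derivatives of functions of `x` -/
noncomputable def d1 {V : Type*} [NormedAddCommGroup V] [NormedSpace ℝ V] (f : X2 → V) : X2 → V :=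
  fun x => fderiv ℝ f x (1, 0)
noncomputable def d2 {V : Type*} [NormedAddCommGroup V] [NormedSpace ℝ V] (f : X2 → V) : X2 → V :=
  fun x => fderiv ℝ f x (0, 1)

/-! ### linear algebra in `ℝ⁴` -/

/-- Gram determinant of two vectors -/
noncomputable def gram (B C : E4) : ℝ :=
  inner ℝ B B * inner ℝ C C - inner ℝ B C ^ 2

/-- dual vector: `⟪xiB, B⟫ = 1`, `⟪xiB, C⟫ = 0` -/
noncomputable def xiB (B C : E4) : E4 := (gram B C)⁻¹ • (inner ℝ C C • B - inner ℝ B C • C)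
/-- dual vector: `⟪xiC, C⟫ = 1`, `⟪xiC, B⟫ = 0` -/
noncomputable def xiC (B C : E4) : E4 := (gram B C)⁻¹ • (inner ℝ B B • C - inner ℝ B C • B)

/-- orthogonal projection to `span(B,C)` -/
noncomputable def cpr (A B C : E4) : E4 := inner ℝ A B • xiB B C + inner ℝ A C • xiC B C
/-- orthogonal projection to `Π = span(B,C)ᗮ` -/
noncomputable def ppr (A B C : E4) : E4 := A - cpr A B C

/-- the vector product of three vectors of `ℝ⁴`: `⟪cross3 a b c, v⟫ = det (v,a,b,c)` -/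
noncomputable def cross3 (a b c : E4) : E4 := (WithLp.equiv 2 (Fin 4 → ℝ)).symm
  ![ a 1 * (b 2 * c 3 - b 3 * c 2) - a 2 * (b 1 * c 3 - b 3 * c 1) + a 3 * (b 1 * c 2 - b 2 * c 1),
     -(a 0 * (b 2 * c 3 - b 3 * c 2) - a 2 * (b 0 * c 3 - b 3 * c 0) + a 3 * (b 0 * c 2 - b 2 * c 0)),
     a 0 * (b 1 * c 3 - b 3 * c 1) - a 1 * (b 0 * c 3 - b 3 * c 0) + a 3 * (b 0 * c 1 - b 1 * c 0),
     -(a 0 * (b 1 * c 2 - b 2 * c 1) - a 1 * (b 0 * c 2 - b 2 * c 0) + a 2 * (b 0 * c 1 - b 1 * c 0)) ]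

/-- rotation by 90 degrees in `Π` -/
noncomputable def Jrot (B C v : E4) : E4 := (Real.sqrt (gram B C))⁻¹ • cross3 B C v

/-! ### families for the engine -/

/-- A family with an amplitude `a` and a small parameter `η` (`ε = η^16`). -/
structure EFam extends Fam where
  a : I → X2 → ℝ
  η : I → ℝ
  a_pos : ∀ i, ∀ x ∈ D i, 0 < a i x
  a_le : ∃ C, 0 < C ∧ ∀ i, ∀ x ∈ D i, a i x ≤ C
  η_pos : ∀ i, 0 < η i
  Lam_η : ∀ i, Lam i ^ 10 * η i ≤ 1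
  a_B : toFam.B a (fun i => lift (a i))

namespace EFam
variable (𝓔 : EFam)

/-- `ε = η^16` -/
def eps (i : 𝓔.I) : ℝ := 𝓔.η i ^ 16

/-- the weight `a^j η^m Λ^l` -/
def W (j m l : ℕ) : 𝓔.I → X2 → ℝ := fun i x => 𝓔.a i x ^ j * 𝓔.η i ^ m * 𝓔.Lam i ^ l

variable {V : Type*} [NormedAddCommGroup V] [NormedSpace ℝ V]

/-- the class with weight `a^j η^m` -/
def C (j m : ℕ) (u : 𝓔.I → Q → V) : Prop := 𝓔.toFam.B (𝓔.W j m 0) u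

/-- `D1 = ∂₁ + ε⁻¹ ∂_t` -/
noncomputable def A1 (F : 𝓔.I → Q → V) : 𝓔.I → Q → V :=
  fun i z => pd 0 (F i) z + (𝓔.eps i)⁻¹ • pd 2 (F i) z

/-- `D2 = ∂₂` -/
noncomputable def A2 (F : 𝓔.I → Q → V) : 𝓔.I → Q → V := fun i z => pd 1 (F i) z

end EFam

/-- The data of the engine over a family. -/
structure EData (𝓔 : EFam) where
  f : 𝓔.I → X2 → E4
  /-- orthonormal frame of `Π = {f₂,f₂₂}ᗮ` (functions of `x`) -/
  b1 : 𝓔.I → X2 → E4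
  b2 : 𝓔.I → X2 → E4
  /-- the loop minus `f₁` -/
  Wl : 𝓔.I → Q → E4
  /-- extra target -/
  G11 : 𝓔.I → X2 → ℝ
  G12 : 𝓔.I → X2 → ℝ
  G22 : 𝓔.I → X2 → ℝ

namespace EData
variable {𝓔 : EFam} (d : EData 𝓔)

noncomputable def f1 : 𝓔.I → Q → E4 := fun i => lift (d1 (d.f i))
noncomputable def f2 : 𝓔.I → Q → E4 := fun i => lift (d2 (d.f i))
noncomputable def f12 : 𝓔.I → Q → E4 := fun i => lift (d1 (d2 (d.f i)))
noncomputable def f22 : 𝓔.I → Q → E4 := fun i => lift (d2 (d2 (d.f i)))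

/-- `c`: projection of `f₁` to `span(f₂,f₂₂)` -/
noncomputable def cc : 𝓔.I → Q → E4 := fun i z => cpr (d.f1 i z) (d.f2 i z) (d.f22 i z)

/-- components of `p` and `W` in the frame -/
noncomputable def p1 : 𝓔.I → Q → ℝ := fun i z => inner ℝ (d.f1 i z) (d.b1 i z.1)
noncomputable def p2 : 𝓔.I → Q → ℝ := fun i z => inner ℝ (d.f1 i z) (d.b2 i z.1)
noncomputable def W1 : 𝓔.I → Q → ℝ := fun i z => inner ℝ (d.Wl i z) (d.b1 i z.1)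
noncomputable def W2 : 𝓔.I → Q → ℝ := fun i z => inner ℝ (d.Wl i z) (d.b2 i z.1)

/-- `r² = |p|² + a²` -/
noncomputable def r2 : 𝓔.I → Q → ℝ :=
  fun i z => d.p1 i z ^ 2 + d.p2 i z ^ 2 + 𝓔.a i z.1 ^ 2

/-- the loop `w = f₁ + W` -/
noncomputable def w : 𝓔.I → Q → E4 := fun i z => d.f1 i z + d.Wl i z

/-- `u₁`, the mean-zero primitive of `W` -/
noncomputable def u1 : 𝓔.I → Q → E4 := fun i => prim (d.Wl i)

/-- `r⁴ det <b_w ⊗ b_w>` -/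
noncomputable def Del : 𝓔.I → Q → ℝ := fun i z =>
  d.p1 i z ^ 2 * mean (fun z' => d.W2 i z' ^ 2) z + d.p2 i z ^ 2 * mean (fun z' => d.W1 i z' ^ 2) z
  - 2 * d.p1 i z * d.p2 i z * mean (fun z' => d.W1 i z' * d.W2 i z') z
  + mean (fun z' => d.W1 i z' ^ 2) z * mean (fun z' => d.W2 i z' ^ 2) z
  - mean (fun z' => d.W1 i z' * d.W2 i z') z ^ 2

/-- Hypotheses of the engine. -/
structure Hyp : Prop where
  fsm : 𝓔.toFam.Sm (fun i => lift (d.f i))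
  f1B : 𝓔.toFam.B (𝓔.W 0 0 0) d.f1
  f2B : 𝓔.toFam.B (𝓔.W 0 0 0) d.f2
  f12B : 𝓔.toFam.B (𝓔.W 0 0 0) d.f12
  f22B : 𝓔.toFam.B (𝓔.W 0 0 0) d.f22
  gram_low : ∃ c, 0 < c ∧ ∀ i, ∀ z ∈ 𝓔.toFam.dom i, c ≤ gram (d.f2 i z) (d.f22 i z)
  b1B : 𝓔.toFam.B (𝓔.W 0 0 0) (fun i => lift (d.b1 i))
  b2B : 𝓔.toFam.B (𝓔.W 0 0 0) (fun i => lift (d.b2 i))
  b_on : ∀ i, ∀ x ∈ 𝓔.D i, ‖d.b1 i x‖ = 1 ∧ ‖d.b2 i x‖ = 1 ∧ inner ℝ (d.b1 i x) (d.b2 i x) = 0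
  b_perp : ∀ i, ∀ z ∈ 𝓔.toFam.dom i,
    inner ℝ (d.b1 i z.1) (d.f2 i z) = 0 ∧ inner ℝ (d.b1 i z.1) (d.f22 i z) = 0 ∧
    inner ℝ (d.b2 i z.1) (d.f2 i z) = 0 ∧ inner ℝ (d.b2 i z.1) (d.f22 i z) = 0
  WB : 𝓔.toFam.B (𝓔.W 1 0 0) d.Wl
  Wper : ∀ i, PerOn (𝓔.D i) (d.Wl i)
  Weven : ∀ i, ∀ x ∈ 𝓔.D i, ∀ t, d.Wl i (x, -t) = d.Wl i (x, t)
  Wmean : ∀ i, ∀ z ∈ 𝓔.toFam.dom i, mean (d.Wl i) z = 0
  Wperp : ∀ i, ∀ z ∈ 𝓔.toFam.dom i,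
    inner ℝ (d.Wl i z) (d.f2 i z) = 0 ∧ inner ℝ (d.Wl i z) (d.f22 i z) = 0
  circle : ∀ i, ∀ z ∈ 𝓔.toFam.dom i,
    inner ℝ (d.w i z) (d.w i z) = inner ℝ (d.f1 i z) (d.f1 i z) + 𝓔.a i z.1 ^ 2
  r2_low : ∃ c, 0 < c ∧ ∀ i, ∀ z ∈ 𝓔.toFam.dom i, c ≤ d.r2 i z
  Del_low : ∃ c, 0 < c ∧ ∀ i, ∀ z ∈ 𝓔.toFam.dom i, c * 𝓔.a i z.1 ^ 2 ≤ d.Del i z
  G11B : 𝓔.toFam.B (𝓔.W 2 48 0) (fun i => lift (d.G11 i))
  G12B : 𝓔.toFam.B (𝓔.W 2 48 0) (fun i => lift (d.G12 i))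
  G22B : 𝓔.toFam.B (𝓔.W 2 48 0) (fun i => lift (d.G22 i))
  star : ∀ i, ∀ x ∈ 𝓔.D i, ∀ l ∈ Icc (0:ℝ) 1, (x.1, l * x.2) ∈ 𝓔.D i
  bdd2 : ∃ L, 0 < L ∧ ∀ i, ∀ x ∈ 𝓔.D i, |x.2| ≤ L

/-- the errors of a state `F` -/
noncomputable def E11 (F : 𝓔.I → Q → E4) : 𝓔.I → Q → ℝ := fun i z =>
  inner ℝ (𝓔.A1 F i z) (𝓔.A1 F i z)
    - (inner ℝ (d.f1 i z) (d.f1 i z) + 𝓔.a i z.1 ^ 2 + d.G11 i z.1)
noncomputable def E12 (F : 𝓔.I → Q → E4) : 𝓔.I → Q → ℝ := fun i z =>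
  inner ℝ (𝓔.A1 F i z) (𝓔.A2 F i z) - (inner ℝ (d.f1 i z) (d.f2 i z) + d.G12 i z.1)
noncomputable def E22 (F : 𝓔.I → Q → E4) : 𝓔.I → Q → ℝ := fun i z =>
  inner ℝ (𝓔.A2 F i z) (𝓔.A2 F i z) - (inner ℝ (d.f2 i z) (d.f2 i z) + d.G22 i z.1)

/-- `ρ = ε⁻¹ (F - f) - u₁` -/
noncomputable def rho (F : 𝓔.I → Q → E4) : 𝓔.I → Q → E4 := fun i z =>
  (𝓔.eps i)⁻¹ • (F i z - d.f i z.1) - d.u1 i z

/-- admissible states -/
structure Good (F : 𝓔.I → Q → E4) : Prop where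
  sm : 𝓔.toFam.Sm F
  per : ∀ i, PerOn (𝓔.D i) (F i)
  rho_osc : 𝓔.toFam.B (𝓔.W 1 7 1) (fun i => osc (d.rho F i))
  rho_mean : 𝓔.toFam.B (𝓔.W 2 7 1) (fun i => mean (d.rho F i))

/-- error classes: exponents of `η` for the six components
(11 osc, 11 mean, 12 osc, 12 mean, 22 osc, 22 mean) -/
structure Err (e11o e11m e12o e12m e22o e22m : ℕ) (F : 𝓔.I → Q → E4) : Prop where
  o11 : 𝓔.toFam.B (𝓔.W 1 e11o 0) (fun i => osc (d.E11 F i))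
  m11 : 𝓔.toFam.B (𝓔.W 2 e11m 0) (fun i => mean (d.E11 F i))
  o12 : 𝓔.toFam.B (𝓔.W 1 e12o 0) (fun i => osc (d.E12 F i))
  m12 : 𝓔.toFam.B (𝓔.W 2 e12m 0) (fun i => mean (d.E12 F i))
  o22 : 𝓔.toFam.B (𝓔.W 1 e22o 0) (fun i => osc (d.E22 F i))
  m22 : 𝓔.toFam.B (𝓔.W 2 e22m 0) (fun i => mean (d.E22 F i))

/-- start of round `n` -/
def Err0 (n : ℕ) (F : 𝓔.I → Q → E4) : Prop := d.Err (15+n) (15+n) (15+n) (23+n) (27+n) (27+n) F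

/-- the base state `F₀ = f + ε u₁` -/
noncomputable def base : 𝓔.I → Q → E4 := fun i z => d.f i z.1 + 𝓔.eps i • d.u1 i z

end EData

end Crest.Agent.R216.TE
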