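import Crest.Agent.R216.EngDefs
import Crest.Agent.R216.ClsT
import Crest.Agent.R216.EngExp

/-!
# Row 216, Theorem E, TE-9: plane lemma for step 4
(helper977)
-/

open Set Topology MeasureTheory
open scoped ContDiff

set_option linter.unusedSimpArgs false

namespace Crest.Agent.R216.TE

/-! ### linear algebra -/

lemma frame_expand_s4a {b1 b2 B C w : E4} (hb1 : ‖b1‖ = 1) (hb2 : ‖b2‖ = 1)
    (hb : inner ℝ b1 b2 = 0) (h1B : inner ℝ b1 B = 0) (h1C : inner ℝ b1 C = 0)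
    (h2B : inner ℝ b2 B = 0) (h2C : inner ℝ b2 C = 0) (hg : 0 < gram B C)
    (hwB : inner ℝ w B = 0) (hwC : inner ℝ w C = 0) :
    w = (inner ℝ w b1 : ℝ) • b1 + (inner ℝ w b2 : ℝ) • b2 := by
  set v : E4 := w - ((inner ℝ w b1 : ℝ) • b1 + (inner ℝ w b2 : ℝ) • b2) with hv
  have hb11 : (inner ℝ b1 b1 : ℝ) = 1 := by rw [real_inner_self_eq_norm_sq, hb1]; norm_num
  have hb22 : (inner ℝ b2 b2 : ℝ) = 1 := by rw [real_inner_self_eq_norm_sq, hb2]; norm_num
  have hb' : (inner ℝ b2 b1 : ℝ) = 0 := by rw [real_inner_comm]; exact hb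
  have v1 : (inner ℝ v b1 : ℝ) = 0 := by
    simp only [hv, inner_sub_left, inner_add_left, real_inner_smul_left, hb11, hb']; ring
  have v2 : (inner ℝ v b2 : ℝ) = 0 := by
    simp only [hv, inner_sub_left, inner_add_left, real_inner_smul_left, hb22, hb]; ring
  have vB : (inner ℝ v B : ℝ) = 0 := by
    simp only [hv, inner_sub_left, inner_add_left, real_inner_smul_left, hwB, h1B, h2B]; ring
  have vC : (inner ℝ v C : ℝ) = 0 := by
    simp only [hv, inner_sub_left, inner_add_left, real_inner_smul_left, hwC, h1C, h2C]; ring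
  by_contra hne
  have hv0 : v ≠ 0 := fun h => hne (sub_eq_zero.1 h)
  have hvv : (inner ℝ v v : ℝ) ≠ 0 := fun h => hv0 (inner_self_eq_zero.1 h)
  have hli : LinearIndependent ℝ (![b1, b2, v, B, C] : Fin 5 → E4) := by
    rw [Fintype.linearIndependent_iff]
    intro g hg0
    simp only [Fin.sum_univ_five, Matrix.cons_val_zero, Matrix.cons_val_one, Matrix.cons_val] at hg0
    have e1 := congrArg (fun y : E4 => (inner ℝ y b1 : ℝ)) hg0
    have e2 := congrArg (fun y : E4 => (inner ℝ y b2 : ℝ)) hg0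
    have e3 := congrArg (fun y : E4 => (inner ℝ y v : ℝ)) hg0
    have e4 := congrArg (fun y : E4 => (inner ℝ y B : ℝ)) hg0
    have e5 := congrArg (fun y : E4 => (inner ℝ y C : ℝ)) hg0
    have c1B : (inner ℝ B b1 : ℝ) = 0 := by rw [real_inner_comm]; exact h1B
    have c1C : (inner ℝ C b1 : ℝ) = 0 := by rw [real_inner_comm]; exact h1C
    have c2B : (inner ℝ B b2 : ℝ) = 0 := by rw [real_inner_comm]; exact h2B
    have c2C : (inner ℝ C b2 : ℝ) = 0 := by rw [real_inner_comm]; exact h2C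
    have cv1 : (inner ℝ b1 v : ℝ) = 0 := by rw [real_inner_comm]; exact v1
    have cv2 : (inner ℝ b2 v : ℝ) = 0 := by rw [real_inner_comm]; exact v2
    have cvB : (inner ℝ B v : ℝ) = 0 := by rw [real_inner_comm]; exact vB
    have cvC : (inner ℝ C v : ℝ) = 0 := by rw [real_inner_comm]; exact vC
    have cCB : (inner ℝ C B : ℝ) = inner ℝ B C := real_inner_comm _ _
    simp only [inner_add_left, real_inner_smul_left, inner_zero_left, hb11, hb', v1, c1B, c1C,
      mul_zero, add_zero, mul_one, zero_add] at e1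
    simp only [inner_add_left, real_inner_smul_left, inner_zero_left, hb22, hb, v2, c2B, c2C,
      mul_zero, add_zero, mul_one, zero_add] at e2
    simp only [inner_add_left, real_inner_smul_left, inner_zero_left, cv1, cv2, cvB, cvC,
      mul_zero, add_zero, mul_one, zero_add] at e3
    simp only [inner_add_left, real_inner_smul_left, inner_zero_left, h1B, h2B, vB, cCB,
      mul_zero, add_zero, mul_one, zero_add] at e4
    simp only [inner_add_left, real_inner_smul_left, inner_zero_left, h1C, h2C, vC,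
      mul_zero, add_zero, mul_one, zero_add] at e5
    have g2 : g 2 = 0 := by
      rcases mul_eq_zero.1 e3 with h | h
      · exact h
      · exact absurd h hvv
    unfold gram at hg
    have g3 : g 3 * (inner ℝ B B * inner ℝ C C - inner ℝ B C ^ 2) = 0 := by
      linear_combination (inner ℝ C C : ℝ) * e4 - (inner ℝ B C : ℝ) * e5
    have g4 : g 4 * (inner ℝ B B * inner ℝ C C - inner ℝ B C ^ 2) = 0 := by
      linear_combination (inner ℝ B B : ℝ) * e5 - (inner ℝ B C : ℝ) * e4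
    have g3' : g 3 = 0 := by
      rcases mul_eq_zero.1 g3 with h | h
      · exact h
      · exact absurd h hg.ne'
    have g4' : g 4 = 0 := by
      rcases mul_eq_zero.1 g4 with h | h
      · exact h
      · exact absurd h hg.ne'
    intro i
    fin_cases i
    · exact e1
    · exact e2
    · exact g2
    · exact g3'
    · exact g4'
  have := hli.fintype_card_le_finrank
  simp at this

/-! ### means -/

section mean
variable {V : Type*} [NormedAddCommGroup V] [NormedSpace ℝ V]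

lemma cont_t_s4a {D : Set X2} {u : Q → V} (hu : ContDiffOn ℝ ∞ u {z | z.1 ∈ D}) {x : X2}
    (hx : x ∈ D) : Continuous (fun s : ℝ => u (x, s)) := by
  have h1 : ContinuousOn u {z | z.1 ∈ D} := hu.continuousOn
  rw [← continuousOn_univ]
  exact h1.comp (by fun_prop) (fun s _ => hx)

lemma mean_add_s4a {u v : Q → V} {z : Q} (hu : Continuous (fun s : ℝ => u (z.1, s)))
    (hv : Continuous (fun s : ℝ => v (z.1, s))) :
    mean (fun z' => u z' + v z') z = mean u z + mean v z := by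
  simp only [mean]
  rw [intervalIntegral.integral_add (hu.intervalIntegrable _ _) (hv.intervalIntegrable _ _),
    smul_add]

lemma mean_sub_s4a {u v : Q → V} {z : Q} (hu : Continuous (fun s : ℝ => u (z.1, s)))
    (hv : Continuous (fun s : ℝ => v (z.1, s))) :
    mean (fun z' => u z' - v z') z = mean u z - mean v z := by
  simp only [mean]
  rw [intervalIntegral.integral_sub (hu.intervalIntegrable _ _) (hv.intervalIntegrable _ _),
    smul_sub]

lemma mean_cmul_s4a {u : Q → ℝ} {c : Q → ℝ} {z : Q} (hc : ∀ s, c (z.1, s) = c z) :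
    mean (fun z' => c z' * u z') z = c z * mean u z := by
  simp only [mean, hc, intervalIntegral.integral_const_mul, smul_eq_mul]
  ring

lemma mean_congr_s4a {u v : Q → V} {z : Q} (h : ∀ s, u (z.1, s) = v (z.1, s)) :
    mean u z = mean v z := by
  simp only [mean, h]

lemma mean_t_s4a (u : Q → V) (z : Q) (s : ℝ) : mean u (z.1, s) = mean u z := rfl

lemma mean_prod_s4a {p q u v : Q → ℝ} {z : Q} (hp : ∀ s, p (z.1, s) = p z)
    (hq : ∀ s, q (z.1, s) = q z) (hu : Continuous (fun s : ℝ => u (z.1, s)))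
    (hv : Continuous (fun s : ℝ => v (z.1, s))) :
    mean (fun z' => (p z' + u z') * (q z' + v z')) z
      = p z * q z + p z * mean v z + q z * mean u z + mean (fun z' => u z' * v z') z := by
  have hc : mean (fun _ : Q => p z * q z) z = p z * q z := by
    simp only [mean, intervalIntegral.integral_const, smul_eq_mul, sub_zero]
    have := Real.pi_pos.ne'
    field_simp
  rw [mean_congr_s4a (v := fun z' => ((p z * q z + p z' * v z') + q z' * u z') + u z' * v z')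
    (fun s => by rw [hp, hq]; ring)]
  rw [mean_add_s4a, mean_add_s4a, mean_add_s4a, mean_cmul_s4a hp, mean_cmul_s4a hq, hc]
  · exact continuous_const
  · simp only [hp]; exact continuous_const.mul hv
  · simp only [hp]; exact continuous_const.add (continuous_const.mul hv)
  · simp only [hq]; exact continuous_const.mul hu
  · simp only [hp, hq]
    exact (continuous_const.add (continuous_const.mul hv)).add (continuous_const.mul hu)
  · exact hu.mul hv

lemma mean_inner_zero_s4a {u : Q → E4} {b : X2 → E4} {z : Q}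
    (hu : Continuous (fun s : ℝ => u (z.1, s)))
    (hm : (2 * Real.pi)⁻¹ • ∫ s in (0:ℝ)..(2 * Real.pi), u (z.1, s) = 0) :
    mean (fun z' => (inner ℝ (u z') (b z'.1) : ℝ)) z = 0 := by
  have h1 : (∫ s in (0:ℝ)..(2 * Real.pi), u (z.1, s)) = 0 := by
    rcases smul_eq_zero.1 hm with h | h
    · exact absurd h (inv_ne_zero (by positivity))
    · exact h
  simp only [mean]
  have h2 : (∫ s in (0:ℝ)..(2 * Real.pi), (inner ℝ (u (z.1, s)) (b z.1) : ℝ))
      = innerSL ℝ (b z.1) (∫ s in (0:ℝ)..(2 * Real.pi), u (z.1, s)) := by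
    rw [← ContinuousLinearMap.intervalIntegral_comp_comm _ (hu.intervalIntegrable _ _)]
    congr 1
    ext s
    simp only [innerSL_apply_apply]
    exact real_inner_comm _ _
  rw [h2, h1]
  simp

end mean

namespace EData
variable {𝓔 : EFam} {d : EData 𝓔}

lemma Wnn_s4a (𝓔 : EFam) (j m l : ℕ) : Fam.Nn (𝓔.W j m l) := by
  intro i x hx
  have h1 := (𝓔.a_pos i x hx).le
  have h2 := (𝓔.η_pos i).le
  have h3 := (Fam.Lam_pos (𝓕 := 𝓔.toFam) i).le
  unfold EFam.W
  positivity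

theorem Wl_frame (h : d.Hyp) (i : 𝓔.I) (z : Q) (hz : z ∈ 𝓔.toFam.dom i) :
    d.Wl i z = d.W1 i z • d.b1 i z.1 + d.W2 i z • d.b2 i z.1 := by
  obtain ⟨hb1, hb2, hb⟩ := h.b_on i z.1 hz
  obtain ⟨h1, h2, h3, h4⟩ := h.b_perp i z hz
  obtain ⟨h5, h6⟩ := h.Wperp i z hz
  obtain ⟨c, hc, hg⟩ := h.gram_low
  exact frame_expand_s4a hb1 hb2 hb h1 h2 h3 h4 (lt_of_lt_of_le hc (hg i z hz)) h5 h6

/-- `2 p·W = a² - |W|²` -/
theorem two_pW (h : d.Hyp) (i : 𝓔.I) (z : Q) (hz : z ∈ 𝓔.toFam.dom i) :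
    2 * (d.p1 i z * d.W1 i z + d.p2 i z * d.W2 i z)
      = 𝓔.a i z.1 ^ 2 - (d.W1 i z ^ 2 + d.W2 i z ^ 2) := by
  obtain ⟨hb1, hb2, hb⟩ := h.b_on i z.1 hz
  have hb11 : (inner ℝ (d.b1 i z.1) (d.b1 i z.1) : ℝ) = 1 := by
    rw [real_inner_self_eq_norm_sq, hb1]; norm_num
  have hb22 : (inner ℝ (d.b2 i z.1) (d.b2 i z.1) : ℝ) = 1 := by
    rw [real_inner_self_eq_norm_sq, hb2]; norm_num
  have hb' : (inner ℝ (d.b2 i z.1) (d.b1 i z.1) : ℝ) = 0 := by rw [real_inner_comm]; exact hb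
  have hW := Wl_frame h i z hz
  have hc := h.circle i z hz
  have e1 : (inner ℝ (d.f1 i z) (d.Wl i z) : ℝ)
      = d.p1 i z * d.W1 i z + d.p2 i z * d.W2 i z := by
    conv_lhs => rw [hW]
    simp only [inner_add_right, real_inner_smul_right]
    simp only [p1, p2]
    ring
  have e2 : (inner ℝ (d.Wl i z) (d.Wl i z) : ℝ) = d.W1 i z ^ 2 + d.W2 i z ^ 2 := by
    conv_lhs => rw [hW]
    simp only [inner_add_right, real_inner_smul_right, inner_add_left, real_inner_smul_left,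
      hb11, hb22, hb, hb']
    ring
  have e3 : (inner ℝ (d.w i z) (d.w i z) : ℝ) = inner ℝ (d.f1 i z) (d.f1 i z)
      + 2 * inner ℝ (d.f1 i z) (d.Wl i z) + inner ℝ (d.Wl i z) (d.Wl i z) := by
    simp only [w, inner_add_left, inner_add_right]
    rw [real_inner_comm (d.f1 i z) (d.Wl i z)]
    ring
  rw [e3, e1, e2] at hc
  linarith

theorem circle_plane (h : d.Hyp) (i : 𝓔.I) (z : Q) (hz : z ∈ 𝓔.toFam.dom i) :
    (d.p1 i z + d.W1 i z) ^ 2 + (d.p2 i z + d.W2 i z) ^ 2 = d.r2 i z := by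
  have := two_pW h i z hz
  unfold r2
  linarith

/-! ### classes -/

lemma p1_B (h : d.Hyp) : 𝓔.toFam.B (𝓔.W 0 0 0) d.p1 :=
  EFam.B_inner h.f1B h.b1B

lemma p2_B (h : d.Hyp) : 𝓔.toFam.B (𝓔.W 0 0 0) d.p2 :=
  EFam.B_inner h.f1B h.b2B

lemma W1_B (h : d.Hyp) : 𝓔.toFam.B (𝓔.W 1 0 0) d.W1 :=
  EFam.B_inner h.WB h.b1B

lemma W2_B (h : d.Hyp) : 𝓔.toFam.B (𝓔.W 1 0 0) d.W2 :=
  EFam.B_inner h.WB h.b2B

lemma a_B1_s4a (𝓔 : EFam) : 𝓔.toFam.B (𝓔.W 1 0 0) (fun i => lift (𝓔.a i)) :=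
  𝓔.a_B.weight_congr (fun i x _ => by simp [EFam.W])

lemma a2_B_s4a (𝓔 : EFam) : 𝓔.toFam.B (𝓔.W 2 0 0) (fun i z => 𝓔.a i z.1 ^ 2) := by
  have := EFam.B_mul (a_B1_s4a 𝓔) (a_B1_s4a 𝓔)
  simp only [lift, ← pow_two] at this
  exact this

lemma r2_B (h : d.Hyp) : 𝓔.toFam.B (𝓔.W 0 0 0) d.r2 := by
  have h1 : 𝓔.toFam.B (𝓔.W 0 0 0) (fun i z => d.p1 i z * d.p1 i z) := by
    simpa using EFam.B_mul (p1_B h) (p1_B h)
  have h2 : 𝓔.toFam.B (𝓔.W 0 0 0) (fun i z => d.p2 i z * d.p2 i z) := by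
    simpa using EFam.B_mul (p2_B h) (p2_B h)
  have h3 : 𝓔.toFam.B (𝓔.W 0 0 0) (fun i z => 𝓔.a i z.1 ^ 2) :=
    EFam.B_le (a2_B_s4a 𝓔) (by omega) (by omega) (by omega)
  refine ((h1.add h2).add h3).congr (fun i z hz => ?_)
  simp only [r2]; ring

/-- `p·W` is in `B(a²)` -/
lemma pW_B (h : d.Hyp) :
    𝓔.toFam.B (𝓔.W 2 0 0) (fun i z => d.p1 i z * d.W1 i z + d.p2 i z * d.W2 i z) := by
  have h1 : 𝓔.toFam.B (𝓔.W 2 0 0) (fun i z => d.W1 i z * d.W1 i z) := by
    simpa using EFam.B_mul (W1_B h) (W1_B h)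
  have h2 : 𝓔.toFam.B (𝓔.W 2 0 0) (fun i z => d.W2 i z * d.W2 i z) := by
    simpa using EFam.B_mul (W2_B h) (W2_B h)
  have h3 := ((a2_B_s4a 𝓔).sub (Wnn_s4a 𝓔 2 0 0) (h1.add h2)).const_smul (2⁻¹ : ℝ)
    (Wnn_s4a 𝓔 2 0 0)
  refine h3.congr (fun i z hz => ?_)
  have := two_pW h i z hz
  simp only [smul_eq_mul]
  linarith

/-- the plane lemma -/
theorem plane (h : d.Hyp) {g l : ℕ} {G : 𝓔.I → Q → ℝ} (hG : 𝓔.toFam.B (𝓔.W 1 g l) G)
    (hper : ∀ i, PerOn (𝓔.D i) (G i)) (hm : ∀ i, ∀ z ∈ 𝓔.toFam.dom i, mean (G i) z = 0) :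
    ∃ zeta : 𝓔.I → Q → ℝ, 𝓔.toFam.B (𝓔.W 1 g l) zeta ∧ (∀ i, PerOn (𝓔.D i) (zeta i)) ∧
      ∀ i, ∀ z ∈ 𝓔.toFam.dom i,
        mean (fun z' => G i z' / d.r2 i z' * (d.p1 i z' + d.W1 i z')
          - zeta i z' * (d.p2 i z' + d.W2 i z')) z = 0 ∧
        mean (fun z' => G i z' / d.r2 i z' * (d.p2 i z' + d.W2 i z')
          + zeta i z' * (d.p1 i z' + d.W1 i z')) z = 0 := by
  have hW1 := W1_B h
  have hW2 := W2_B h
  have hp1 := p1_B h
  have hp2 := p2_B h
  have nn := Wnn_s4a 𝓔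
  -- the second moments
  have hm11 : 𝓔.toFam.B (𝓔.W 2 0 0) (fun i => mean (fun z' => d.W1 i z' * d.W1 i z')) := by
    simpa using Fam.B.mean (nn _ _ _) (EFam.B_mul hW1 hW1)
  have hm12 : 𝓔.toFam.B (𝓔.W 2 0 0) (fun i => mean (fun z' => d.W1 i z' * d.W2 i z')) := by
    simpa using Fam.B.mean (nn _ _ _) (EFam.B_mul hW1 hW2)
  have hm22 : 𝓔.toFam.B (𝓔.W 2 0 0) (fun i => mean (fun z' => d.W2 i z' * d.W2 i z')) := by
    simpa using Fam.B.mean (nn _ _ _) (EFam.B_mul hW2 hW2)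
  have hn1 : 𝓔.toFam.B (𝓔.W 2 g l) (fun i => mean (fun z' => G i z' * d.W1 i z')) := by
    simpa using Fam.B.mean (nn _ _ _) (EFam.B_mul hG hW1)
  have hn2 : 𝓔.toFam.B (𝓔.W 2 g l) (fun i => mean (fun z' => G i z' * d.W2 i z')) := by
    simpa using Fam.B.mean (nn _ _ _) (EFam.B_mul hG hW2)
  have hnp : 𝓔.toFam.B (𝓔.W 3 g l) (fun i => mean (fun z' => G i z' *
      (d.p1 i z' * d.W1 i z' + d.p2 i z' * d.W2 i z'))) := by
    simpa using Fam.B.mean (nn _ _ _) (EFam.B_mul hG (pW_B h))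
  set m11 : 𝓔.I → Q → ℝ := fun i => mean (fun z' => d.W1 i z' * d.W1 i z') with dm11
  set m12 : 𝓔.I → Q → ℝ := fun i => mean (fun z' => d.W1 i z' * d.W2 i z') with dm12
  set m22 : 𝓔.I → Q → ℝ := fun i => mean (fun z' => d.W2 i z' * d.W2 i z') with dm22
  set n1 : 𝓔.I → Q → ℝ := fun i => mean (fun z' => G i z' * d.W1 i z') with dn1
  set n2 : 𝓔.I → Q → ℝ := fun i => mean (fun z' => G i z' * d.W2 i z') with dn2
  set np : 𝓔.I → Q → ℝ := fun i => mean (fun z' => G i z' *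
      (d.p1 i z' * d.W1 i z' + d.p2 i z' * d.W2 i z')) with dnp
  -- Del
  have hDelB : 𝓔.toFam.B (𝓔.W 2 0 0) d.Del := by
    have t1 : 𝓔.toFam.B (𝓔.W 2 0 0) (fun i z => d.p1 i z * d.p1 i z * m22 i z) := by
      simpa using EFam.B_mul (EFam.B_mul hp1 hp1) hm22
    have t2 : 𝓔.toFam.B (𝓔.W 2 0 0) (fun i z => d.p2 i z * d.p2 i z * m11 i z) := by
      simpa using EFam.B_mul (EFam.B_mul hp2 hp2) hm11
    have t3 : 𝓔.toFam.B (𝓔.W 2 0 0) (fun i z => d.p1 i z * d.p2 i z * m12 i z) := by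
      simpa using EFam.B_mul (EFam.B_mul hp1 hp2) hm12
    have t4 : 𝓔.toFam.B (𝓔.W 2 0 0) (fun i z => m11 i z * m22 i z) :=
      EFam.B_le (EFam.B_mul hm11 hm22) (by omega) (by omega) (by omega)
    have t5 : 𝓔.toFam.B (𝓔.W 2 0 0) (fun i z => m12 i z * m12 i z) :=
      EFam.B_le (EFam.B_mul hm12 hm12) (by omega) (by omega) (by omega)
    have t := ((((t1.add t2).sub (nn 2 0 0) (t3.add t3)).add t4).sub (nn 2 0 0) t5)
    refine t.congr (fun i z hz => ?_)
    simp only [Del, pow_two, dm11, dm12, dm22]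
    ring
  -- the vector e
  set X1 : 𝓔.I → Q → ℝ := fun i z =>
    d.p1 i z * np i z + m11 i z * n1 i z + m12 i z * n2 i z with dX1
  set X2' : 𝓔.I → Q → ℝ := fun i z =>
    d.p2 i z * np i z + m12 i z * n1 i z + m22 i z * n2 i z with dX2
  have hX1 : 𝓔.toFam.B (𝓔.W 3 g l) X1 := by
    have t1 : 𝓔.toFam.B (𝓔.W 3 g l) (fun i z => d.p1 i z * np i z) := by
      simpa using EFam.B_mul hp1 hnp
    have t2 : 𝓔.toFam.B (𝓔.W 3 g l) (fun i z => m11 i z * n1 i z) :=
      EFam.B_le (EFam.B_mul hm11 hn1) (by omega) (by omega) (by omega)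
    have t3 : 𝓔.toFam.B (𝓔.W 3 g l) (fun i z => m12 i z * n2 i z) :=
      EFam.B_le (EFam.B_mul hm12 hn2) (by omega) (by omega) (by omega)
    exact (t1.add t2).add t3
  have hX2 : 𝓔.toFam.B (𝓔.W 3 g l) X2' := by
    have t1 : 𝓔.toFam.B (𝓔.W 3 g l) (fun i z => d.p2 i z * np i z) := by
      simpa using EFam.B_mul hp2 hnp
    have t2 : 𝓔.toFam.B (𝓔.W 3 g l) (fun i z => m12 i z * n1 i z) :=
      EFam.B_le (EFam.B_mul hm12 hn1) (by omega) (by omega) (by omega)
    have t3 : 𝓔.toFam.B (𝓔.W 3 g l) (fun i z => m22 i z * n2 i z) :=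
      EFam.B_le (EFam.B_mul hm22 hn2) (by omega) (by omega) (by omega)
    exact (t1.add t2).add t3
  have hr2low : ∃ c, 0 < c ∧ ∀ i, ∀ z ∈ 𝓔.toFam.dom i, c * 𝓔.a i z.1 ^ 0 ≤ d.r2 i z := by
    obtain ⟨c, hc, h1⟩ := h.r2_low
    exact ⟨c, hc, fun i z hz => by simpa using h1 i z hz⟩
  have he1 : 𝓔.toFam.B (𝓔.W 1 g l) (fun i z => (d.Del i z)⁻¹ • (d.r2 i z)⁻¹ • X1 i z) :=
    EFam.B_inv hDelB h.Del_low (EFam.B_inv (r2_B h) hr2low hX1)
  have he2 : 𝓔.toFam.B (𝓔.W 1 g l) (fun i z => (d.Del i z)⁻¹ • (d.r2 i z)⁻¹ • X2' i z) :=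
    EFam.B_inv hDelB h.Del_low (EFam.B_inv (r2_B h) hr2low hX2)
  set e1 : 𝓔.I → Q → ℝ := fun i z => (d.Del i z)⁻¹ • (d.r2 i z)⁻¹ • X1 i z with de1
  set e2 : 𝓔.I → Q → ℝ := fun i z => (d.Del i z)⁻¹ • (d.r2 i z)⁻¹ • X2' i z with de2
  have hβ1 : 𝓔.toFam.B (𝓔.W 0 0 0) (fun i z => d.p1 i z + d.W1 i z) :=
    hp1.add (EFam.B_le hW1 (by omega) (by omega) (by omega))
  have hβ2 : 𝓔.toFam.B (𝓔.W 0 0 0) (fun i z => d.p2 i z + d.W2 i z) :=
    hp2.add (EFam.B_le hW2 (by omega) (by omega) (by omega))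
  refine ⟨fun i z => e1 i z * (d.p2 i z + d.W2 i z) - e2 i z * (d.p1 i z + d.W1 i z), ?_, ?_, ?_⟩
  · have t1 : 𝓔.toFam.B (𝓔.W 1 g l) (fun i z => e1 i z * (d.p2 i z + d.W2 i z)) := by
      simpa using EFam.B_mul he1 hβ2
    have t2 : 𝓔.toFam.B (𝓔.W 1 g l) (fun i z => e2 i z * (d.p1 i z + d.W1 i z)) := by
      simpa using EFam.B_mul he2 hβ1
    exact t1.sub (nn 1 g l) t2
  · intro i x hx t
    have c1 : d.W1 i (x, t + 2 * Real.pi) = d.W1 i (x, t) := by
      simp only [W1, h.Wper i x hx t]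
    have c2 : d.W2 i (x, t + 2 * Real.pi) = d.W2 i (x, t) := by
      simp only [W2, h.Wper i x hx t]
    show e1 i (x, t + 2 * Real.pi) * (d.p2 i (x, t + 2 * Real.pi) + d.W2 i (x, t + 2 * Real.pi))
      - e2 i (x, t + 2 * Real.pi) * (d.p1 i (x, t + 2 * Real.pi) + d.W1 i (x, t + 2 * Real.pi)) = _
    rw [c1, c2]
    rfl
  · intro i z hz
    have hx : z.1 ∈ 𝓔.D i := hz
    have cG : Continuous (fun s : ℝ => G i (z.1, s)) := cont_t_s4a (hG.smooth i) hx
    have cW1 : Continuous (fun s : ℝ => d.W1 i (z.1, s)) := cont_t_s4a (hW1.smooth i) hx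
    have cW2 : Continuous (fun s : ℝ => d.W2 i (z.1, s)) := cont_t_s4a (hW2.smooth i) hx
    have cWl : Continuous (fun s : ℝ => d.Wl i (z.1, s)) := cont_t_s4a (h.WB.smooth i) hx
    have mW : (2 * Real.pi)⁻¹ • ∫ s in (0:ℝ)..(2 * Real.pi), d.Wl i (z.1, s) = 0 :=
      h.Wmean i z hz
    have mW1 : mean (d.W1 i) z = 0 := mean_inner_zero_s4a cWl mW
    have mW2 : mean (d.W2 i) z = 0 := mean_inner_zero_s4a cWl mW
    have mG : mean (G i) z = 0 := hm i z hz
    have cp1 : Continuous (fun s : ℝ => d.p1 i (z.1, s)) :=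
      (continuous_const : Continuous (fun _ : ℝ => d.p1 i z))
    have cp2 : Continuous (fun s : ℝ => d.p2 i (z.1, s)) :=
      (continuous_const : Continuous (fun _ : ℝ => d.p2 i z))
    have cr2 : Continuous (fun s : ℝ => (d.r2 i (z.1, s))⁻¹) :=
      (continuous_const : Continuous (fun _ : ℝ => (d.r2 i z)⁻¹))
    have ce1 : Continuous (fun s : ℝ => e1 i (z.1, s)) :=
      (continuous_const : Continuous (fun _ : ℝ => e1 i z))
    have ce2 : Continuous (fun s : ℝ => e2 i (z.1, s)) :=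
      (continuous_const : Continuous (fun _ : ℝ => e2 i z))
    -- names
    obtain ⟨c0, hc0, hr0⟩ := h.r2_low
    obtain ⟨c1, hc1, hD0⟩ := h.Del_low
    have hr : d.r2 i z ≠ 0 := (lt_of_lt_of_le hc0 (hr0 i z hz)).ne'
    have hD : d.Del i z ≠ 0 :=
      (lt_of_lt_of_le (mul_pos hc1 (pow_pos (𝓔.a_pos i z.1 hx) 2)) (hD0 i z hz)).ne'
    have hDel : d.Del i z = (d.p1 i z ^ 2 + m11 i z) * (d.p2 i z ^ 2 + m22 i z)
        - (d.p1 i z * d.p2 i z + m12 i z) ^ 2 := by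
      simp only [Del, pow_two, dm11, dm12, dm22]
      ring
    have hnp' : np i z = d.p1 i z * n1 i z + d.p2 i z * n2 i z := by
      show mean (fun z' => G i z' * (d.p1 i z' * d.W1 i z' + d.p2 i z' * d.W2 i z')) z = _
      rw [mean_congr_s4a (v := fun z' => d.p1 i z' * (G i z' * d.W1 i z')
        + d.p2 i z' * (G i z' * d.W2 i z')) (fun s => by ring)]
      rw [mean_add_s4a, mean_cmul_s4a (c := d.p1 i) (fun s => rfl),
        mean_cmul_s4a (c := d.p2 i) (fun s => rfl)]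
      · exact cp1.mul (cG.mul cW1)
      · exact cp2.mul (cG.mul cW2)
    -- means of products
    have q11 : mean (fun z' => (d.p1 i z' + d.W1 i z') * (d.p1 i z' + d.W1 i z')) z
        = d.p1 i z ^ 2 + m11 i z := by
      rw [mean_prod_s4a (fun s => rfl) (fun s => rfl) cW1 cW1, mW1]
      simp only [dm11]; ring
    have q12 : mean (fun z' => (d.p1 i z' + d.W1 i z') * (d.p2 i z' + d.W2 i z')) z
        = d.p1 i z * d.p2 i z + m12 i z := by
      rw [mean_prod_s4a (fun s => rfl) (fun s => rfl) cW1 cW2, mW1, mW2]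
      simp only [dm12]; ring
    have q22 : mean (fun z' => (d.p2 i z' + d.W2 i z') * (d.p2 i z' + d.W2 i z')) z
        = d.p2 i z ^ 2 + m22 i z := by
      rw [mean_prod_s4a (fun s => rfl) (fun s => rfl) cW2 cW2, mW2]
      simp only [dm22]; ring
    have g1 : mean (fun z' => G i z' * (d.p1 i z' + d.W1 i z')) z = n1 i z := by
      rw [mean_congr_s4a (v := fun z' => d.p1 i z' * G i z' + G i z' * d.W1 i z')
        (fun s => by ring), mean_add_s4a, mean_cmul_s4a (c := d.p1 i) (fun s => rfl), mG]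
      · simp only [dn1]; ring
      · exact cp1.mul cG
      · exact cG.mul cW1
    have g2 : mean (fun z' => G i z' * (d.p2 i z' + d.W2 i z')) z = n2 i z := by
      rw [mean_congr_s4a (v := fun z' => d.p2 i z' * G i z' + G i z' * d.W2 i z')
        (fun s => by ring), mean_add_s4a, mean_cmul_s4a (c := d.p2 i) (fun s => rfl), mG]
      · simp only [dn2]; ring
      · exact cp2.mul cG
      · exact cG.mul cW2
    have cβ1 : Continuous (fun s : ℝ => d.p1 i (z.1, s) + d.W1 i (z.1, s)) :=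
      cp1.add cW1
    have cβ2 : Continuous (fun s : ℝ => d.p2 i (z.1, s) + d.W2 i (z.1, s)) :=
      cp2.add cW2
    have E1 : e1 i z = (d.Del i z)⁻¹ * (d.r2 i z)⁻¹ *
        ((d.p1 i z ^ 2 + m11 i z) * n1 i z + (d.p1 i z * d.p2 i z + m12 i z) * n2 i z) := by
      simp only [de1, dX1, smul_eq_mul]
      rw [hnp']; ring
    have E2 : e2 i z = (d.Del i z)⁻¹ * (d.r2 i z)⁻¹ *
        ((d.p1 i z * d.p2 i z + m12 i z) * n1 i z + (d.p2 i z ^ 2 + m22 i z) * n2 i z) := by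
      simp only [de2, dX2, smul_eq_mul]
      rw [hnp']; ring
    constructor
    · rw [mean_congr_s4a (v := fun z' => ((d.r2 i z')⁻¹ * (G i z' * (d.p1 i z' + d.W1 i z'))
        - e1 i z' * ((d.p2 i z' + d.W2 i z') * (d.p2 i z' + d.W2 i z')))
        + e2 i z' * ((d.p1 i z' + d.W1 i z') * (d.p2 i z' + d.W2 i z')))
        (fun s => by rw [div_eq_mul_inv]; ring)]
      rw [mean_add_s4a, mean_sub_s4a, mean_cmul_s4a (c := fun z' => (d.r2 i z')⁻¹) (fun s => rfl),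
        mean_cmul_s4a (c := e1 i) (fun s => rfl),
        mean_cmul_s4a (c := e2 i) (fun s => rfl), g1, q22, q12, E1, E2]
      · field_simp
        rw [hDel]; ring
      · exact cr2.mul (cG.mul cβ1)
      · exact ce1.mul (cβ2.mul cβ2)
      · exact (cr2.mul (cG.mul cβ1)).sub (ce1.mul (cβ2.mul cβ2))
      · exact ce2.mul (cβ1.mul cβ2)
    · rw [mean_congr_s4a (v := fun z' => ((d.r2 i z')⁻¹ * (G i z' * (d.p2 i z' + d.W2 i z'))
        + e1 i z' * ((d.p1 i z' + d.W1 i z') * (d.p2 i z' + d.W2 i z')))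
        - e2 i z' * ((d.p1 i z' + d.W1 i z') * (d.p1 i z' + d.W1 i z')))
        (fun s => by rw [div_eq_mul_inv]; ring)]
      rw [mean_sub_s4a, mean_add_s4a, mean_cmul_s4a (c := fun z' => (d.r2 i z')⁻¹) (fun s => rfl),
        mean_cmul_s4a (c := e1 i) (fun s => rfl),
        mean_cmul_s4a (c := e2 i) (fun s => rfl), g2, q12, q11, E1, E2]
      · field_simp
        rw [hDel]; ring
      · exact cr2.mul (cG.mul cβ2)
      · exact ce1.mul (cβ1.mul cβ2)
      · exact (cr2.mul (cG.mul cβ2)).add (ce1.mul (cβ1.mul cβ2))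
      · exact ce2.mul (cβ1.mul cβ1)

end EData
end Crest.Agent.R216.TE
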