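import Crest.Agent.R216.EngBase
import Crest.Agent.R216.EngExp
import Crest.Agent.R216.Step4a

/-!
# Row 216, Theorem E: facts shared by the steps of the engine
-/

open Set Topology MeasureTheory
open scoped ContDiff

set_option linter.unusedSectionVars false

namespace Crest.Agent.R216.TE.S4

open EB

/-! ### pointwise linear algebra -/

section alg
variable {B C : E4}

lemma g_xiB_B (h : gram B C ≠ 0) : inner ℝ (xiB B C) B = (1 : ℝ) := by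
  simp only [xiB, real_inner_smul_left, inner_sub_left, real_inner_comm B C]
  rw [inv_mul_eq_div, div_eq_one_iff_eq h]
  simp only [gram]; ring

lemma g_xiB_C (B C : E4) : inner ℝ (xiB B C) C = (0 : ℝ) := by
  simp only [xiB, real_inner_smul_left, inner_sub_left]
  ring

lemma g_xiC_C (h : gram B C ≠ 0) : inner ℝ (xiC B C) C = (1 : ℝ) := by
  simp only [xiC, real_inner_smul_left, inner_sub_left]
  rw [inv_mul_eq_div, div_eq_one_iff_eq h]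
  simp only [gram]; ring

lemma g_xiC_B (B C : E4) : inner ℝ (xiC B C) B = (0 : ℝ) := by
  simp only [xiC, real_inner_smul_left, inner_sub_left, real_inner_comm B C]
  ring

lemma g_perp_xiB {v : E4} (h1 : inner ℝ v B = (0 : ℝ)) (h2 : inner ℝ v C = (0 : ℝ)) :
    inner ℝ v (xiB B C) = (0 : ℝ) := by
  simp [xiB, real_inner_smul_right, inner_sub_right, h1, h2]

lemma g_perp_xiC {v : E4} (h1 : inner ℝ v B = (0 : ℝ)) (h2 : inner ℝ v C = (0 : ℝ)) :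
    inner ℝ v (xiC B C) = (0 : ℝ) := by
  simp [xiC, real_inner_smul_right, inner_sub_right, h1, h2]

/-- a vector orthogonal to `B, C, b1, b2` vanishes -/
lemma g_complete {b1 b2 v : E4} (hg : gram B C ≠ 0) (h1 : ‖b1‖ = 1) (h2 : ‖b2‖ = 1)
    (h12 : inner ℝ b1 b2 = (0 : ℝ)) (h1B : inner ℝ b1 B = (0 : ℝ)) (h1C : inner ℝ b1 C = (0 : ℝ))
    (h2B : inner ℝ b2 B = (0 : ℝ)) (h2C : inner ℝ b2 C = (0 : ℝ))
    (hvB : inner ℝ v B = (0 : ℝ)) (hvC : inner ℝ v C = (0 : ℝ))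
    (hv1 : inner ℝ v b1 = (0 : ℝ)) (hv2 : inner ℝ v b2 = (0 : ℝ)) : v = 0 := by
  have h11 : inner ℝ b1 b1 = (1 : ℝ) := by rw [real_inner_self_eq_norm_sq, h1]; norm_num
  have h22 : inner ℝ b2 b2 = (1 : ℝ) := by rw [real_inner_self_eq_norm_sq, h2]; norm_num
  have li : LinearIndependent ℝ ![B, C, b1, b2] := by
    rw [Fintype.linearIndependent_iff]
    intro g hg0
    simp only [Fin.sum_univ_four, Matrix.cons_val_zero, Matrix.cons_val_one,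
      Matrix.cons_val] at hg0
    have e1 : g 2 = 0 := by
      have := congrArg (fun x => (inner ℝ b1 x : ℝ)) hg0
      simp only [inner_add_right, real_inner_smul_right, h1B, h1C, h12, h11, inner_zero_right]
        at this
      linarith
    have e2 : g 3 = 0 := by
      have := congrArg (fun x => (inner ℝ b2 x : ℝ)) hg0
      simp only [inner_add_right, real_inner_smul_right, h2B, h2C, real_inner_comm b1 b2, h12, h22,
        inner_zero_right] at this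
      linarith
    rw [e1, e2] at hg0
    simp only [zero_smul, add_zero] at hg0
    have e3 : g 0 * inner ℝ B B + g 1 * inner ℝ B C = (0 : ℝ) := by
      have := congrArg (fun x => inner ℝ B x) hg0
      simpa [inner_add_right, real_inner_smul_right] using this
    have e4 : g 0 * inner ℝ B C + g 1 * inner ℝ C C = (0 : ℝ) := by
      have := congrArg (fun x => inner ℝ C x) hg0
      simpa [inner_add_right, real_inner_smul_right, real_inner_comm B C] using this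
    have e5 : g 0 * gram B C = 0 := by
      simp only [gram]; linear_combination (inner ℝ C C : ℝ) * e3 - (inner ℝ B C : ℝ) * e4
    have e6 : g 1 * gram B C = 0 := by
      simp only [gram]; linear_combination (inner ℝ B B : ℝ) * e4 - (inner ℝ B C : ℝ) * e3
    have e7 : g 0 = 0 := by
      rcases mul_eq_zero.1 e5 with h | h
      · exact h
      · exact absurd h hg
    have e8 : g 1 = 0 := by
      rcases mul_eq_zero.1 e6 with h | h
      · exact h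
      · exact absurd h hg
    intro i
    fin_cases i
    · exact e7
    · exact e8
    · exact e1
    · exact e2
  have hs : Submodule.span ℝ (Set.range ![B, C, b1, b2]) = ⊤ :=
    li.span_eq_top_of_card_eq_finrank (by simp)
  have hv : ∀ x : E4, inner ℝ v x = (0 : ℝ) := by
    intro x
    have hx : x ∈ Submodule.span ℝ (Set.range ![B, C, b1, b2]) := by rw [hs]; trivial
    induction hx using Submodule.span_induction with
    | mem x hx =>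
      obtain ⟨i, rfl⟩ := hx
      fin_cases i
      · exact hvB
      · exact hvC
      · exact hv1
      · exact hv2
    | zero => simp
    | add x y _ _ hx hy => rw [inner_add_right, hx, hy, add_zero]
    | smul a x _ hx => rw [real_inner_smul_right, hx, mul_zero]
  exact inner_self_eq_zero.1 (hv v)

/-- decomposition in `Π` -/
lemma g_decomp {b1 b2 v : E4} (hg : gram B C ≠ 0) (h1 : ‖b1‖ = 1) (h2 : ‖b2‖ = 1)
    (h12 : inner ℝ b1 b2 = (0 : ℝ)) (h1B : inner ℝ b1 B = (0 : ℝ)) (h1C : inner ℝ b1 C = (0 : ℝ))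
    (h2B : inner ℝ b2 B = (0 : ℝ)) (h2C : inner ℝ b2 C = (0 : ℝ))
    (hvB : inner ℝ v B = (0 : ℝ)) (hvC : inner ℝ v C = (0 : ℝ)) :
    v = (inner ℝ v b1 : ℝ) • b1 + (inner ℝ v b2 : ℝ) • b2 := by
  have h11 : inner ℝ b1 b1 = (1 : ℝ) := by rw [real_inner_self_eq_norm_sq, h1]; norm_num
  have h22 : inner ℝ b2 b2 = (1 : ℝ) := by rw [real_inner_self_eq_norm_sq, h2]; norm_num
  have h21 : inner ℝ b2 b1 = (0 : ℝ) := by rw [real_inner_comm]; exact h12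
  have : v - ((inner ℝ v b1 : ℝ) • b1 + (inner ℝ v b2 : ℝ) • b2) = 0 := by
    apply g_complete hg h1 h2 h12 h1B h1C h2B h2C
    · simp [inner_sub_left, inner_add_left, real_inner_smul_left, hvB, h1B, h2B]
    · simp [inner_sub_left, inner_add_left, real_inner_smul_left, hvC, h1C, h2C]
    · simp only [inner_sub_left, inner_add_left, real_inner_smul_left, h11, h21]; ring
    · simp only [inner_sub_left, inner_add_left, real_inner_smul_left, h12, h22]; ring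
  exact sub_eq_zero.1 this

end alg

section main
variable {𝓔 : EFam} {d : EData 𝓔}

/-! ### consequences of `Hyp` -/

lemma f_sm (h : d.Hyp) (i : 𝓔.I) : ContDiffOn ℝ ∞ (d.f i) (𝓔.D i) :=
  contDiffOn_of_lift (h.fsm i)

lemma pd0_f2 (i : 𝓔.I) (z : Q) : pd 0 (d.f2 i) z = d.f12 i z := pd0_lift _ _
lemma pd1_f2 (i : 𝓔.I) (z : Q) : pd 1 (d.f2 i) z = d.f22 i z := pd1_lift _ _
lemma pd2_f2 (i : 𝓔.I) (z : Q) : pd 2 (d.f2 i) z = 0 := pd2_lift _ _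
lemma pd2_f1 (i : 𝓔.I) (z : Q) : pd 2 (d.f1 i) z = 0 := pd2_lift _ _

/-- symmetry of second derivatives -/
lemma pd1_f1 (h : d.Hyp) (i : 𝓔.I) {z : Q} (hz : z ∈ 𝓔.toFam.dom i) :
    pd 1 (d.f1 i) z = d.f12 i z := by
  have hs := f_sm h i
  have hz' : z.1 ∈ 𝓔.D i := hz
  have ho := 𝓔.isOpen i
  have hc : ContDiffAt ℝ ∞ (d.f i) z.1 := hs.contDiffAt (ho.mem_nhds hz')
  have hsym : IsSymmSndFDerivAt ℝ (d.f i) z.1 :=
    hc.isSymmSndFDerivAt (by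
      rw [minSmoothness_of_isRCLikeNormedField]
      exact WithTop.coe_le_coe.2 le_top)
  have hd : DifferentiableAt ℝ (fderiv ℝ (d.f i)) z.1 :=
    ((hs.fderiv_of_isOpen ho (m := 1) (by norm_cast)).contDiffAt
      (ho.mem_nhds hz')).differentiableAt (by simp)
  have e1 : pd 1 (d.f1 i) z = fderiv ℝ (fderiv ℝ (d.f i)) z.1 (0, 1) (1, 0) := by
    rw [EData.f1, pd1_lift]
    have := (hd.hasFDerivAt.clm_apply (hasFDerivAt_const ((1 : ℝ), (0 : ℝ)) z.1)).fderiv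
    have e : d1 (d.f i) = fun y => (fderiv ℝ (d.f i) y) (1, 0) := rfl
    rw [d2, e, this]
    simp
  have e2 : d.f12 i z = fderiv ℝ (fderiv ℝ (d.f i)) z.1 (1, 0) (0, 1) := by
    have := (hd.hasFDerivAt.clm_apply (hasFDerivAt_const ((0 : ℝ), (1 : ℝ)) z.1)).fderiv
    have e : d2 (d.f i) = fun y => (fderiv ℝ (d.f i) y) (0, 1) := rfl
    rw [EData.f12, lift, d1, e, this]
    simp
  rw [e1, e2]
  exact hsym.eq _ _

lemma gram_ne (h : d.Hyp) (i : 𝓔.I) {z : Q} (hz : z ∈ 𝓔.toFam.dom i) :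
    gram (d.f2 i z) (d.f22 i z) ≠ 0 := by
  obtain ⟨c, hc, hl⟩ := h.gram_low
  exact (lt_of_lt_of_le hc (hl i z hz)).ne'

lemma B_gram (h : d.Hyp) : 𝓔.toFam.B (𝓔.W 0 0 0) (fun i z => gram (d.f2 i z) (d.f22 i z)) := by
  have h1 := EFam.B_mul (EFam.B_inner h.f2B h.f2B) (EFam.B_inner h.f22B h.f22B)
  have h2 := EFam.B_mul (EFam.B_inner h.f2B h.f22B) (EFam.B_inner h.f2B h.f22B)
  have := EFam.B_sub h1 h2
  simpa [gram, sq] using this

lemma B_xiB (h : d.Hyp) : 𝓔.toFam.B (𝓔.W 0 0 0) (fun i z => xiB (d.f2 i z) (d.f22 i z)) := by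
  have h1 := EFam.B_smul (EFam.B_inner h.f22B h.f22B) h.f2B
  have h2 := EFam.B_smul (EFam.B_inner h.f2B h.f22B) h.f22B
  have h3 := EFam.B_sub h1 h2
  obtain ⟨c, hc, hl⟩ := h.gram_low
  exact EFam.B_inv (k := 0) (B_gram h) ⟨c, hc, fun i z hz => by simpa using hl i z hz⟩ h3

lemma B_xiC (h : d.Hyp) : 𝓔.toFam.B (𝓔.W 0 0 0) (fun i z => xiC (d.f2 i z) (d.f22 i z)) := by
  have h1 := EFam.B_smul (EFam.B_inner h.f2B h.f2B) h.f22B
  have h2 := EFam.B_smul (EFam.B_inner h.f2B h.f22B) h.f2B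
  have h3 := EFam.B_sub h1 h2
  obtain ⟨c, hc, hl⟩ := h.gram_low
  exact EFam.B_inv (k := 0) (B_gram h) ⟨c, hc, fun i z hz => by simpa using hl i z hz⟩ h3

lemma B_p1 (h : d.Hyp) : 𝓔.toFam.B (𝓔.W 0 0 0) d.p1 := EFam.B_inner h.f1B h.b1B
lemma B_p2 (h : d.Hyp) : 𝓔.toFam.B (𝓔.W 0 0 0) d.p2 := EFam.B_inner h.f1B h.b2B
lemma B_W1 (h : d.Hyp) : 𝓔.toFam.B (𝓔.W 1 0 0) d.W1 := EFam.B_inner h.WB h.b1B
lemma B_W2 (h : d.Hyp) : 𝓔.toFam.B (𝓔.W 1 0 0) d.W2 := EFam.B_inner h.WB h.b2B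

lemma B_w (h : d.Hyp) : 𝓔.toFam.B (𝓔.W 0 0 0) d.w :=
  EFam.B_add h.f1B (EFam.B_le h.WB (by omega) (by omega) (by omega))

lemma B_u1 (h : d.Hyp) : 𝓔.toFam.B (𝓔.W 1 0 0) d.u1 := Fam.B.prim (EFam.W_nn _ _ _) h.WB h.Wper

/-- `W = W1 b1 + W2 b2` -/
lemma W_decomp (h : d.Hyp) (i : 𝓔.I) {z : Q} (hz : z ∈ 𝓔.toFam.dom i) :
    d.Wl i z = d.W1 i z • d.b1 i z.1 + d.W2 i z • d.b2 i z.1 := by
  obtain ⟨h1, h2, h3⟩ := h.b_on i z.1 hz
  obtain ⟨p1, p2, p3, p4⟩ := h.b_perp i z hz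
  obtain ⟨q1, q2⟩ := h.Wperp i z hz
  exact g_decomp (gram_ne h i hz) h1 h2 h3 p1 p2 p3 p4 q1 q2

lemma b_self (h : d.Hyp) (i : 𝓔.I) {x : X2} (hx : x ∈ 𝓔.D i) :
    inner ℝ (d.b1 i x) (d.b1 i x) = (1 : ℝ) ∧ inner ℝ (d.b2 i x) (d.b2 i x) = (1 : ℝ) ∧
    inner ℝ (d.b1 i x) (d.b2 i x) = (0 : ℝ) ∧ inner ℝ (d.b2 i x) (d.b1 i x) = (0 : ℝ) := by
  obtain ⟨h1, h2, h3⟩ := h.b_on i x hx
  refine ⟨?_, ?_, h3, ?_⟩
  · rw [real_inner_self_eq_norm_sq, h1]; norm_num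
  · rw [real_inner_self_eq_norm_sq, h2]; norm_num
  · rw [real_inner_comm]; exact h3

/-- `|W|² = W1² + W2²` -/
lemma W_sq (h : d.Hyp) (i : 𝓔.I) {z : Q} (hz : z ∈ 𝓔.toFam.dom i) :
    inner ℝ (d.Wl i z) (d.Wl i z) = d.W1 i z ^ 2 + d.W2 i z ^ 2 := by
  obtain ⟨h1, h2, h3, h4⟩ := b_self h i (show z.1 ∈ 𝓔.D i from hz)
  have e := W_decomp h i hz
  nth_rewrite 1 [e]
  nth_rewrite 1 [e]
  simp only [inner_add_left, inner_add_right, real_inner_smul_left, real_inner_smul_right, h1, h2,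
    h3, h4]
  ring

/-- `⟪f1, W⟫ = p1 W1 + p2 W2` -/
lemma f1_W (h : d.Hyp) (i : 𝓔.I) {z : Q} (hz : z ∈ 𝓔.toFam.dom i) :
    inner ℝ (d.f1 i z) (d.Wl i z) = d.p1 i z * d.W1 i z + d.p2 i z * d.W2 i z := by
  have e := W_decomp h i hz
  nth_rewrite 1 [e]
  simp only [inner_add_right, real_inner_smul_right, EData.p1, EData.p2]
  ring

/-- `p1 W1 + p2 W2 = (a² - |W|²)/2` -/
lemma p_W (h : d.Hyp) (i : 𝓔.I) {z : Q} (hz : z ∈ 𝓔.toFam.dom i) :
    d.p1 i z * d.W1 i z + d.p2 i z * d.W2 i z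
      = (𝓔.a i z.1 ^ 2 - (d.W1 i z ^ 2 + d.W2 i z ^ 2)) / 2 := by
  have hc := h.circle i z hz
  simp only [EData.w, inner_add_left, inner_add_right] at hc
  rw [real_inner_comm (d.f1 i z) (d.Wl i z), f1_W h i hz, W_sq h i hz] at hc
  linarith

/-- `(p1 + W1)² + (p2 + W2)² = r²` -/
lemma circ_eq (h : d.Hyp) (i : 𝓔.I) {z : Q} (hz : z ∈ 𝓔.toFam.dom i) :
    (d.p1 i z + d.W1 i z) ^ 2 + (d.p2 i z + d.W2 i z) ^ 2 = d.r2 i z := by
  have := p_W h i hz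
  simp only [EData.r2]
  nlinarith

lemma B_r2 (h : d.Hyp) : 𝓔.toFam.B (𝓔.W 0 0 0) d.r2 := by
  have h1 := EFam.B_mul (B_p1 h) (B_p1 h)
  have h2 := EFam.B_mul (B_p2 h) (B_p2 h)
  have h3 : 𝓔.toFam.B (𝓔.W 0 0 0) (fun i z => 𝓔.a i z.1 ^ 2) :=
    EFam.B_le (EFam.B_apow 2) (by omega) (by omega) (by omega)
  have := EFam.B_add (EFam.B_add h1 h2) h3
  refine this.congr (fun i z hz => ?_)
  simp only [EData.r2]; ring

/-- division by `r²` -/
lemma B_r2_div (h : d.Hyp) {V : Type*} [NormedAddCommGroup V] [NormedSpace ℝ V] {j m l : ℕ}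
    {u : 𝓔.I → Q → V} (hu : 𝓔.toFam.B (𝓔.W j m l) u) :
    𝓔.toFam.B (𝓔.W j m l) (fun i z => (d.r2 i z)⁻¹ • u i z) := by
  obtain ⟨c, hc, hl⟩ := h.r2_low
  exact EFam.B_inv (k := 0) (B_r2 h) ⟨c, hc, fun i z hz => by simpa using hl i z hz⟩ hu

lemma r2_ne (h : d.Hyp) (i : 𝓔.I) {z : Q} (hz : z ∈ 𝓔.toFam.dom i) : d.r2 i z ≠ 0 := by
  obtain ⟨c, hc, hl⟩ := h.r2_low
  exact (lt_of_lt_of_le hc (hl i z hz)).ne'

lemma Del_ne (h : d.Hyp) (i : 𝓔.I) {z : Q} (hz : z ∈ 𝓔.toFam.dom i) : d.Del i z ≠ 0 := by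
  obtain ⟨c, hc, hl⟩ := h.Del_low
  have := 𝓔.a_pos i z.1 hz
  exact (lt_of_lt_of_le (by positivity) (hl i z hz)).ne'

lemma B_mean' {V : Type*} [NormedAddCommGroup V] [NormedSpace ℝ V] [CompleteSpace V] {j m l : ℕ}
    {u : 𝓔.I → Q → V} (hu : 𝓔.toFam.B (𝓔.W j m l) u) :
    𝓔.toFam.B (𝓔.W j m l) (fun i => mean (u i)) := Fam.B.mean (EFam.W_nn _ _ _) hu

lemma B_osc' {V : Type*} [NormedAddCommGroup V] [NormedSpace ℝ V] [CompleteSpace V] {j m l : ℕ}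
    {u : 𝓔.I → Q → V} (hu : 𝓔.toFam.B (𝓔.W j m l) u) :
    𝓔.toFam.B (𝓔.W j m l) (fun i => osc (u i)) := Fam.B.osc (EFam.W_nn _ _ _) hu

lemma B_prim' {V : Type*} [NormedAddCommGroup V] [NormedSpace ℝ V] [CompleteSpace V] {j m l : ℕ}
    {u : 𝓔.I → Q → V} (hu : 𝓔.toFam.B (𝓔.W j m l) u) (hp : ∀ i, PerOn (𝓔.D i) (u i)) :
    𝓔.toFam.B (𝓔.W j m l) (fun i => prim (u i)) := Fam.B.prim (EFam.W_nn _ _ _) hu hp

lemma B_C11 (h : d.Hyp) : 𝓔.toFam.B (𝓔.W 2 0 0) (fun i => mean (fun z => d.W1 i z ^ 2)) := by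
  have := B_mean' (EFam.B_mul (B_W1 h) (B_W1 h))
  simpa [sq] using this
lemma B_C22 (h : d.Hyp) : 𝓔.toFam.B (𝓔.W 2 0 0) (fun i => mean (fun z => d.W2 i z ^ 2)) := by
  have := B_mean' (EFam.B_mul (B_W2 h) (B_W2 h))
  simpa [sq] using this
lemma B_C12 (h : d.Hyp) : 𝓔.toFam.B (𝓔.W 2 0 0) (fun i => mean (fun z => d.W1 i z * d.W2 i z)) :=
  B_mean' (EFam.B_mul (B_W1 h) (B_W2 h))

lemma B_Del (h : d.Hyp) : 𝓔.toFam.B (𝓔.W 2 0 0) d.Del := by
  have a1 := EFam.B_mul (EFam.B_mul (B_p1 h) (B_p1 h)) (B_C22 h)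
  have a2 := EFam.B_mul (EFam.B_mul (B_p2 h) (B_p2 h)) (B_C11 h)
  have a3 := EFam.B_cmul 2 (EFam.B_mul (EFam.B_mul (B_p1 h) (B_p2 h)) (B_C12 h))
  have a4 := EFam.B_le (j' := 2) (m' := 0) (l' := 0) (EFam.B_mul (B_C11 h) (B_C22 h))
    (by omega) (by omega) (by omega)
  have a5 := EFam.B_le (j' := 2) (m' := 0) (l' := 0) (EFam.B_mul (B_C12 h) (B_C12 h))
    (by omega) (by omega) (by omega)
  have := EFam.B_sub (EFam.B_add (EFam.B_sub (EFam.B_add a1 a2) a3) a4) a5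
  refine this.congr (fun i z hz => ?_)
  simp only [EData.Del]; ring

/-- division by `Del` -/
lemma B_Del_div (h : d.Hyp) {V : Type*} [NormedAddCommGroup V] [NormedSpace ℝ V] {j m l : ℕ}
    {u : 𝓔.I → Q → V} (hu : 𝓔.toFam.B (𝓔.W (j+2) m l) u) :
    𝓔.toFam.B (𝓔.W j m l) (fun i z => (d.Del i z)⁻¹ • u i z) :=
  EFam.B_inv (k := 2) (B_Del h) h.Del_low hu

/-! ### good states -/

section good
variable {F : 𝓔.I → Q → E4}

lemma B_rho (hG : d.Good F) : 𝓔.toFam.B (𝓔.W 1 7 1) (d.rho F) := by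
  have h1 := EFam.B_le (j' := 1) (m' := 7) (l' := 1) hG.rho_mean (by omega) (by omega) (by omega)
  refine (EFam.B_add hG.rho_osc h1).congr (fun i z hz => ?_)
  exact osc_add_mean _ _

/-- `F = f + ε (u₁ + ρ)` -/
lemma F_eq (F : 𝓔.I → Q → E4) (i : 𝓔.I) (z : Q) :
    F i z = d.f i z.1 + 𝓔.eps i • (d.u1 i z + d.rho F i z) := by
  have h := (EFam.eps_pos (𝓔 := 𝓔) i).ne'
  simp only [EData.rho]
  rw [add_sub_cancel, smul_smul, mul_inv_cancel₀ h, one_smul]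
  abel

/-- `A1 F - w` -/
noncomputable def RR (d : EData 𝓔) (F : 𝓔.I → Q → E4) : 𝓔.I → Q → E4 := fun i z =>
  𝓔.eps i • pd 0 (d.u1 i) z + 𝓔.eps i • pd 0 (d.rho F i) z + pd 2 (d.rho F i) z

/-- `A2 F - f2` -/
noncomputable def SS (d : EData 𝓔) (F : 𝓔.I → Q → E4) : 𝓔.I → Q → E4 := fun i z =>
  𝓔.eps i • pd 1 (d.u1 i) z + 𝓔.eps i • pd 1 (d.rho F i) z

lemma B_RR (h : d.Hyp) (hG : d.Good F) : 𝓔.toFam.B (𝓔.W 1 7 2) (RR d F) := by
  have h1 := EFam.B_eps (EFam.B_pd (B_u1 h) 0)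
  have h2 := EFam.B_eps (EFam.B_pd (B_rho hG) 0)
  have h3 := EFam.B_pd (B_rho hG) 2
  exact EFam.B_add (EFam.B_add (EFam.B_le h1 (by omega) (by omega) (by omega))
    (EFam.B_le h2 (by omega) (by omega) (by omega)))
    (EFam.B_le h3 (by omega) (by omega) (by omega))

lemma B_SS (h : d.Hyp) (hG : d.Good F) : 𝓔.toFam.B (𝓔.W 1 16 1) (SS d F) := by
  have h1 := EFam.B_eps (EFam.B_pd (B_u1 h) 1)
  have h2 := EFam.B_eps (EFam.B_pd (B_rho hG) 1)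
  exact (EFam.B_add (EFam.B_le h1 (by omega) (by omega) (by omega))
    (EFam.B_le h2 (by omega) (by omega) (by omega)))

lemma pd_F (h : d.Hyp) (hG : d.Good F) (i : 𝓔.I) {z : Q} (hz : z ∈ 𝓔.toFam.dom i) (j : Fin 3) :
    pd j (F i) z = pd j (lift (d.f i)) z
      + 𝓔.eps i • (pd j (d.u1 i) z + pd j (d.rho F i) z) := by
  have ho := 𝓔.toFam.isOpen_dom i
  have d1 : DifferentiableAt ℝ (lift (d.f i)) z := diffAt ho (h.fsm i) hz
  have d2 : DifferentiableAt ℝ (d.u1 i) z := diffAt ho ((B_u1 h).smooth i) hz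
  have d3 : DifferentiableAt ℝ (d.rho F i) z := diffAt ho ((B_rho hG).smooth i) hz
  have e : F i = fun z => lift (d.f i) z + 𝓔.eps i • (d.u1 i z + d.rho F i z) := by
    funext z; exact F_eq F i z
  have d4 : DifferentiableAt ℝ (fun z => d.u1 i z + d.rho F i z) z := d2.add d3
  have d5 : DifferentiableAt ℝ (fun z => 𝓔.eps i • (d.u1 i z + d.rho F i z)) z :=
    d4.fun_const_smul _
  calc pd j (F i) z = pd j (fun z => lift (d.f i) z + 𝓔.eps i • (d.u1 i z + d.rho F i z)) z := by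
        rw [← e]
    _ = _ := by rw [pd_add d1 d5, pd_const_smul d4, pd_add d2 d3]

/-- `A1 F = w + R` -/
lemma A1_F (h : d.Hyp) (hG : d.Good F) (i : 𝓔.I) {z : Q} (hz : z ∈ 𝓔.toFam.dom i) :
    𝓔.A1 F i z = d.w i z + RR d F i z := by
  have he := (EFam.eps_pos (𝓔 := 𝓔) i).ne'
  simp only [EFam.A1]
  rw [pd_F h hG i hz 0, pd_F h hG i hz 2, pd2_lift, zero_add, smul_smul, inv_mul_cancel₀ he,
    one_smul, pd0_lift]
  have e1 : pd 2 (d.u1 i) z = d.Wl i z := by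
    have := pd2_prim (𝓔.isOpen i) (h.WB.smooth i) (show z.1 ∈ 𝓔.D i from hz)
    rw [show d.u1 i = prim (d.Wl i) from rfl, this]
    exact osc_of_mean_zero (h.Wmean i z hz)
  rw [e1]
  simp only [EData.w, RR, EData.f1, lift, smul_add]
  abel

/-- `A2 F = f2 + S` -/
lemma A2_F (h : d.Hyp) (hG : d.Good F) (i : 𝓔.I) {z : Q} (hz : z ∈ 𝓔.toFam.dom i) :
    𝓔.A2 F i z = d.f2 i z + SS d F i z := by
  simp only [EFam.A2]
  rw [pd_F h hG i hz 1, pd1_lift]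
  simp only [SS, EData.f2, lift, smul_add]

lemma B_A1F (h : d.Hyp) (hG : d.Good F) : 𝓔.toFam.B (𝓔.W 0 0 0) (𝓔.A1 F) := by
  refine (EFam.B_add (B_w h) (EFam.B_le (B_RR h hG) (by omega) (by omega) (by omega))).congr
    (fun i z hz => ?_)
  exact (A1_F h hG i hz).symm

lemma B_A2F (h : d.Hyp) (hG : d.Good F) : 𝓔.toFam.B (𝓔.W 0 0 0) (𝓔.A2 F) := by
  refine (EFam.B_add h.f2B (EFam.B_le (B_SS h hG) (by omega) (by omega) (by omega))).congr
    (fun i z hz => ?_)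
  exact (A2_F h hG i hz).symm

/-- `A1 F - f1` -/
lemma B_A1F_sub (h : d.Hyp) (hG : d.Good F) :
    𝓔.toFam.B (𝓔.W 1 0 0) (fun i z => 𝓔.A1 F i z - d.f1 i z) := by
  refine (EFam.B_add h.WB (EFam.B_le (B_RR h hG) (by omega) (by omega) (by omega))).congr
    (fun i z hz => ?_)
  simp only [A1_F h hG i hz, EData.w]; abel

lemma per_pdF (hG : d.Good F) (j : Fin 3) (i : 𝓔.I) : PerOn (𝓔.D i) (pd j (F i)) :=
  PerOn.pd (𝓔.isOpen i) (hG.per i) j

lemma per_A1 (hG : d.Good F) (i : 𝓔.I) : PerOn (𝓔.D i) (𝓔.A1 F i) :=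
  PerOn.add (per_pdF hG 0 i) (PerOn.const_smul _ (per_pdF hG 2 i))

lemma per_A2 (hG : d.Good F) (i : 𝓔.I) : PerOn (𝓔.D i) (𝓔.A2 F i) := per_pdF hG 1 i

lemma per_E11 (hG : d.Good F) (i : 𝓔.I) : PerOn (𝓔.D i) (d.E11 F i) := fun x hx t => by
  simp only [EData.E11, per_A1 hG i x hx t]; rfl

lemma per_E12 (hG : d.Good F) (i : 𝓔.I) : PerOn (𝓔.D i) (d.E12 F i) := fun x hx t => by
  simp only [EData.E12, per_A1 hG i x hx t, per_A2 hG i x hx t]; rfl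

lemma per_E22 (hG : d.Good F) (i : 𝓔.I) : PerOn (𝓔.D i) (d.E22 F i) := fun x hx t => by
  simp only [EData.E22, per_A2 hG i x hx t]; rfl

lemma sm_A1 (hG : d.Good F) (i : 𝓔.I) : ContDiffOn ℝ ∞ (𝓔.A1 F i) (𝓔.toFam.dom i) :=
  (pd_contDiffOn (𝓔.toFam.isOpen_dom i) (hG.sm i) 0).add
    ((pd_contDiffOn (𝓔.toFam.isOpen_dom i) (hG.sm i) 2).const_smul _)

lemma sm_A2 (hG : d.Good F) (i : 𝓔.I) : ContDiffOn ℝ ∞ (𝓔.A2 F i) (𝓔.toFam.dom i) :=
  pd_contDiffOn (𝓔.toFam.isOpen_dom i) (hG.sm i) 1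

lemma sm_a (i : 𝓔.I) : ContDiffOn ℝ ∞ (fun z : Q => 𝓔.a i z.1) (𝓔.toFam.dom i) :=
  𝓔.a_B.smooth i

lemma sm_E11 (h : d.Hyp) (hG : d.Good F) (i : 𝓔.I) :
    ContDiffOn ℝ ∞ (d.E11 F i) (𝓔.toFam.dom i) :=
  ((sm_A1 hG i).inner ℝ (sm_A1 hG i)).sub
    ((((h.f1B.smooth i).inner ℝ (h.f1B.smooth i)).add ((sm_a i).pow 2)).add (h.G11B.smooth i))

lemma sm_E12 (h : d.Hyp) (hG : d.Good F) (i : 𝓔.I) :
    ContDiffOn ℝ ∞ (d.E12 F i) (𝓔.toFam.dom i) :=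
  ((sm_A1 hG i).inner ℝ (sm_A2 hG i)).sub
    (((h.f1B.smooth i).inner ℝ (h.f2B.smooth i)).add (h.G12B.smooth i))

lemma sm_E22 (h : d.Hyp) (hG : d.Good F) (i : 𝓔.I) :
    ContDiffOn ℝ ∞ (d.E22 F i) (𝓔.toFam.dom i) :=
  ((sm_A2 hG i).inner ℝ (sm_A2 hG i)).sub
    (((h.f2B.smooth i).inner ℝ (h.f2B.smooth i)).add (h.G22B.smooth i))

/-- adding a small correction to a good state -/
lemma Good_add (hG : d.Good F) {v : 𝓔.I → Q → E4} (hp : ∀ i, PerOn (𝓔.D i) (v i))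
    (hs : 𝓔.toFam.Sm v) (ho : 𝓔.toFam.B (𝓔.W 1 23 1) (fun i => osc (v i)))
    (hm : 𝓔.toFam.B (𝓔.W 2 23 1) (fun i => mean (v i))) :
    d.Good (fun i z => F i z + v i z) := by
  have hr : ∀ i z, d.rho (fun i z => F i z + v i z) i z
      = d.rho F i z + (𝓔.eps i)⁻¹ • v i z := by
    intro i z
    simp only [EData.rho, smul_sub, smul_add]
    abel
  have hrs : ∀ i, ContDiffOn ℝ ∞ (d.rho F i) (cyl (𝓔.D i)) := fun i => (B_rho hG).smooth i
  have hvs : ∀ i, ContDiffOn ℝ ∞ (fun z => (𝓔.eps i)⁻¹ • v i z) (cyl (𝓔.D i)) :=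
    fun i => (hs i).const_smul _
  have hm' : ∀ i, ∀ z ∈ 𝓔.toFam.dom i, mean (d.rho (fun i z => F i z + v i z) i) z
      = mean (d.rho F i) z + (𝓔.eps i)⁻¹ • mean (v i) z := by
    intro i z hz
    have e : d.rho (fun i z => F i z + v i z) i = fun z => d.rho F i z + (𝓔.eps i)⁻¹ • v i z := by
      funext z; exact hr i z
    rw [e, mean_add (hrs i) (hvs i) (show z.1 ∈ 𝓔.D i from hz), mean_const_smul]
  refine ⟨fun i => (hG.sm i).add (hs i), fun i => PerOn.add (hG.per i) (hp i), ?_, ?_⟩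
  · have h1 := EFam.B_epsInv (j := 1) (m := 7) (l := 1) ho
    refine (EFam.B_add hG.rho_osc h1).congr (fun i z hz => ?_)
    simp only [osc, hm' i z hz, hr i z, smul_sub]
    abel
  · have h1 := EFam.B_epsInv (j := 2) (m := 7) (l := 1) hm
    refine (EFam.B_add hG.rho_mean h1).congr (fun i z hz => ?_)
    exact (hm' i z hz).symm

end good

/-- the oscillating and the mean part of `u = u0 + u1` with `mean u0 = 0` -/
lemma split {V : Type*} [NormedAddCommGroup V] [NormedSpace ℝ V] [CompleteSpace V]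
    {j j' m m' l l' : ℕ} {u0 u1 : 𝓔.I → Q → V}
    (h0 : 𝓔.toFam.B (𝓔.W j m l) u0) (h1 : 𝓔.toFam.B (𝓔.W j' m' l') u1)
    (hm : ∀ i, ∀ z ∈ 𝓔.toFam.dom i, mean (u0 i) z = 0) (hj : j ≤ j') (hmm : m ≤ m')
    (hl : l' + 10 * m ≤ l + 10 * m') :
    𝓔.toFam.B (𝓔.W j m l) (fun i => osc (fun z => u0 i z + u1 i z)) ∧
    𝓔.toFam.B (𝓔.W j' m' l') (fun i => mean (fun z => u0 i z + u1 i z)) := by
  constructor
  · exact B_osc' (EFam.B_add h0 (EFam.B_le h1 hj hmm hl))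
  · refine (B_mean' h1).congr (fun i z hz => ?_)
    rw [mean_add (h0.smooth i) (h1.smooth i) (show z.1 ∈ 𝓔.D i from hz), hm i z hz, zero_add]

end main
end Crest.Agent.R216.TE.S4
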