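import Crest.Agent.R216.EngState

/-!
# Row 216, Theorem E: step 1 of a round (mean-(22) correction).
-/

open Set Topology MeasureTheory
open scoped ContDiff

namespace Crest.Agent.R216.TE

namespace Step1

lemma gramB {𝓔 : EFam} {d : EData 𝓔} (h : d.Hyp) :
    𝓔.toFam.B (𝓔.W 0 0 0) (fun i z => gram (d.f2 i z) (d.f22 i z)) := by
  have h1 : 𝓔.toFam.B (𝓔.W 0 0 0) (fun i z => inner ℝ (d.f2 i z) (d.f2 i z)) :=
    EFam.B_inner h.f2B h.f2B
  have h2 : 𝓔.toFam.B (𝓔.W 0 0 0) (fun i z => inner ℝ (d.f22 i z) (d.f22 i z)) :=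
    EFam.B_inner h.f22B h.f22B
  have h3 : 𝓔.toFam.B (𝓔.W 0 0 0) (fun i z => inner ℝ (d.f2 i z) (d.f22 i z)) :=
    EFam.B_inner h.f2B h.f22B
  have h4 : 𝓔.toFam.B (𝓔.W 0 0 0)
      (fun i z => inner ℝ (d.f2 i z) (d.f2 i z) * inner ℝ (d.f22 i z) (d.f22 i z)) :=
    EFam.B_mul h1 h2
  have h5 : 𝓔.toFam.B (𝓔.W 0 0 0)
      (fun i z => inner ℝ (d.f2 i z) (d.f22 i z) * inner ℝ (d.f2 i z) (d.f22 i z)) :=
    EFam.B_mul h3 h3
  exact (h4.sub (EFam.W_nn _ _ _) h5).congr (fun i z _ => by simp only [gram, sq])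

lemma xiCB {𝓔 : EFam} {d : EData 𝓔} (h : d.Hyp) :
    𝓔.toFam.B (𝓔.W 0 0 0) (fun i z => xiC (d.f2 i z) (d.f22 i z)) := by
  have h1 : 𝓔.toFam.B (𝓔.W 0 0 0) (fun i z => inner ℝ (d.f2 i z) (d.f2 i z) • d.f22 i z) :=
    EFam.B_smul (EFam.B_inner h.f2B h.f2B) h.f22B
  have h2 : 𝓔.toFam.B (𝓔.W 0 0 0) (fun i z => inner ℝ (d.f2 i z) (d.f22 i z) • d.f2 i z) :=
    EFam.B_smul (EFam.B_inner h.f2B h.f22B) h.f2B
  obtain ⟨c, hc, hlow⟩ := h.gram_low
  exact EFam.B_inv (k := 0) (gramB h) ⟨c, hc, fun i z hz => by simpa using hlow i z hz⟩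
    (h1.sub (EFam.W_nn _ _ _) h2)

lemma inner_xiC_left {B C : E4} : inner ℝ B (xiC B C) = 0 := by
  simp only [xiC, inner_smul_right, inner_sub_right]
  ring

lemma inner_xiC_right {B C : E4} (hg : gram B C ≠ 0) : inner ℝ C (xiC B C) = 1 := by
  simp only [xiC, inner_smul_right, inner_sub_right, real_inner_comm B C]
  have : inner ℝ B B * inner ℝ C C - inner ℝ B C * inner ℝ B C = gram B C := by
    simp only [gram]; ring
  rw [this, inv_mul_cancel₀ hg]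

end Step1

namespace EData
variable {𝓔 : EFam} {d : EData 𝓔}

open Step1 St in
/-- Step1.lean : mean-(22) correction, `F' = F + (mean E22 / 2) ξ_C` -/
theorem step1 (h : d.Hyp) (n : ℕ) {F : 𝓔.I → Q → E4} (hG : d.Good F)
    (hE : d.Err (15+n) (15+n) (15+n) (23+n) (27+n) (27+n) F) :
    ∃ F', d.Good F' ∧ d.Err (15+n) (15+n) (15+n) (23+n) (27+n) (28+n) F' := by
  -- the correction
  set X : 𝓔.I → X2 → E4 := fun i x =>
    ((2:ℝ)⁻¹ * mean (d.E22 F i) (x, 0)) • xiC (d.f2 i (x, 0)) (d.f22 i (x, 0)) with hX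
  set V : 𝓔.I → Q → E4 := fun i => lift (X i) with hVdef
  have hVeq : ∀ i z, V i z = ((2:ℝ)⁻¹ * mean (d.E22 F i) z) • xiC (d.f2 i z) (d.f22 i z) :=
    fun i z => rfl
  have hVB : 𝓔.toFam.B (𝓔.W 2 (27+n) 0) V := by
    have h1 : 𝓔.toFam.B (𝓔.W 2 (27+n) 0) (fun i z => (2:ℝ)⁻¹ * mean (d.E22 F i) z) :=
      hE.m22.const_smul (2:ℝ)⁻¹ (EFam.W_nn _ _ _)
    have h2 := EFam.B_smul h1 (xiCB h)
    exact h2
  have sV : 𝓔.toFam.Sm V := hVB.smooth
  have A1V : 𝓔.toFam.B (𝓔.W 2 (27+n) 1) (𝓔.A1 V) := A1_lift_B hVB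
  have A2V : 𝓔.toFam.B (𝓔.W 2 (27+n) 1) (𝓔.A2 V) := EFam.B_A2 hVB
  have sE11 := (hG.E11B h).smooth
  have sE12 := (hG.E12B h).smooth
  have sE22 := (hG.E22B h).smooth
  refine ⟨fun i z => F i z + V i z, ?_, ?_⟩
  · refine hG.add sV (fun i x _ t => rfl) ?_ ?_
    · exact (EFam.B_le hVB (by omega) (by omega) (by omega)).osc (EFam.W_nn _ _ _)
    · exact (EFam.B_le hVB (by omega) (by omega) (by omega)).mean (EFam.W_nn _ _ _)
  · -- remainders
    set R11 : 𝓔.I → Q → ℝ := fun i z =>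
      2 * inner ℝ (𝓔.A1 F i z) (𝓔.A1 V i z) + inner ℝ (𝓔.A1 V i z) (𝓔.A1 V i z) with hR11
    set R12 : 𝓔.I → Q → ℝ := fun i z =>
      inner ℝ (𝓔.A1 F i z) (𝓔.A2 V i z) + inner ℝ (𝓔.A1 V i z) (𝓔.A2 F i z)
        + inner ℝ (𝓔.A1 V i z) (𝓔.A2 V i z) with hR12
    have VV : ∀ {p q : 𝓔.I → Q → E4}, 𝓔.toFam.B (𝓔.W 2 (27+n) 1) p →
        𝓔.toFam.B (𝓔.W 2 (27+n) 1) q →
        𝓔.toFam.B (𝓔.W 2 (28+n) 0) (fun i z => inner ℝ (p i z) (q i z)) := fun hp hq =>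
      EFam.B_le (EFam.B_inner hp hq) (by omega) (by omega) (by omega)
    have VV' : ∀ {p q : 𝓔.I → Q → E4}, 𝓔.toFam.B (𝓔.W 2 (27+n) 1) p →
        𝓔.toFam.B (𝓔.W 2 (27+n) 1) q →
        𝓔.toFam.B (𝓔.W 2 (27+n) 1) (fun i z => inner ℝ (p i z) (q i z)) := fun hp hq =>
      EFam.B_le (EFam.B_inner hp hq) (by omega) (by omega) (by omega)
    have R11B : 𝓔.toFam.B (𝓔.W 2 (27+n) 1) R11 := by
      have h1 : 𝓔.toFam.B (𝓔.W 2 (27+n) 1) (fun i z => inner ℝ (𝓔.A1 F i z) (𝓔.A1 V i z)) := by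
        simpa using EFam.B_inner (hG.A1B h) A1V
      exact (h1.const_smul 2 (EFam.W_nn _ _ _)).add (VV' A1V A1V)
    have R12B : 𝓔.toFam.B (𝓔.W 2 (27+n) 1) R12 := by
      have h1 : 𝓔.toFam.B (𝓔.W 2 (27+n) 1) (fun i z => inner ℝ (𝓔.A1 F i z) (𝓔.A2 V i z)) := by
        simpa using EFam.B_inner (hG.A1B h) A2V
      have h2 : 𝓔.toFam.B (𝓔.W 2 (27+n) 1) (fun i z => inner ℝ (𝓔.A1 V i z) (𝓔.A2 F i z)) := by
        simpa using EFam.B_inner A1V (hG.A2B h)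
      exact (h1.add h2).add (VV' A1V A2V)
    -- the (22) remainder
    set R22 : 𝓔.I → Q → ℝ := fun i z =>
      2 * inner ℝ (𝓔.A2 F i z - d.f2 i z) (𝓔.A2 V i z)
        + inner ℝ (𝓔.A2 V i z) (𝓔.A2 V i z) with hR22
    have R22B : 𝓔.toFam.B (𝓔.W 2 (28+n) 0) R22 := by
      have h1 : 𝓔.toFam.B (𝓔.W 2 (28+n) 0)
          (fun i z => inner ℝ (𝓔.A2 F i z - d.f2 i z) (𝓔.A2 V i z)) :=
        EFam.B_le (EFam.B_inner (hG.A2_sub_f2 h) A2V) (by omega) (by omega) (by omega)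
      exact (h1.const_smul 2 (EFam.W_nn _ _ _)).add (VV A2V A2V)
    have key : ∀ i, ∀ z ∈ 𝓔.toFam.dom i,
        2 * inner ℝ (d.f2 i z) (𝓔.A2 V i z) = - mean (d.E22 F i) z := by
      intro i z hz
      have hg : ∀ z ∈ 𝓔.toFam.dom i, gram (d.f2 i z) (d.f22 i z) ≠ 0 := by
        obtain ⟨c, hc, hlow⟩ := h.gram_low
        exact fun z hz => (lt_of_lt_of_le hc (hlow i z hz)).ne'
      have e0 : EqOn (fun z => inner ℝ (d.f2 i z) (V i z)) (fun _ => (0:ℝ)) (𝓔.toFam.dom i) := by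
        intro z hz
        simp only [hVeq, inner_smul_right, inner_xiC_left, mul_zero]
      have e1 := pd_eqOn (𝓔.toFam.isOpen_dom i) e0 1 hz
      rw [pd_inner (sm_diffAt h.f2B.smooth hz) (sm_diffAt sV hz), h.pd1_f2 hz] at e1
      have e2 : inner ℝ (d.f22 i z) (V i z) = (2:ℝ)⁻¹ * mean (d.E22 F i) z := by
        simp only [hVeq, inner_smul_right, inner_xiC_right (hg z hz), mul_one]
      have e3 : pd 1 (fun _ : Q => (0:ℝ)) z = 0 := by simp [pd]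
      rw [e2, e3] at e1
      have e4 : 𝓔.A2 V i z = pd 1 (V i) z := rfl
      rw [e4]
      linarith
    have eq22 : ∀ i, ∀ z ∈ 𝓔.toFam.dom i,
        d.E22 (fun i z => F i z + V i z) i z = osc (d.E22 F i) z + R22 i z := by
      intro i z hz
      rw [E22_add hG.sm sV hz]
      have h1 := key i z hz
      simp only [hR22, osc, inner_sub_left]
      linarith
    have sosc : 𝓔.toFam.Sm (fun i => osc (d.E22 F i)) := hE.o22.smooth
    refine ⟨?_, ?_, ?_, ?_, ?_, ?_⟩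
    · exact B_osc_add sE11 R11B.smooth hE.o11
        ((EFam.B_le R11B (by omega) (by omega) (by omega)).osc (EFam.W_nn _ _ _))
        (fun i z hz => E11_add hG.sm sV hz)
    · exact B_mean_add sE11 R11B.smooth hE.m11
        ((EFam.B_le R11B (by omega) (by omega) (by omega)).mean (EFam.W_nn _ _ _))
        (fun i z hz => E11_add hG.sm sV hz)
    · exact B_osc_add sE12 R12B.smooth hE.o12
        ((EFam.B_le R12B (by omega) (by omega) (by omega)).osc (EFam.W_nn _ _ _))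
        (fun i z hz => E12_add hG.sm sV hz)
    · exact B_mean_add sE12 R12B.smooth hE.m12
        ((EFam.B_le R12B (by omega) (by omega) (by omega)).mean (EFam.W_nn _ _ _))
        (fun i z hz => E12_add hG.sm sV hz)
    · refine B_osc_add sosc R22B.smooth ?_
        ((EFam.B_le R22B (by omega) (by omega) (by omega)).osc (EFam.W_nn _ _ _)) eq22
      refine hE.o22.congr (fun i z hz => ?_)
      show _ = osc (osc (d.E22 F i)) z
      exact (osc_osc (sm_cont sE22 i) hz).symm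
    · refine B_mean_add sosc R22B.smooth ?_
        (R22B.mean (EFam.W_nn _ _ _)) eq22
      refine (Fam.B.zero (EFam.W_nn _ _ _)).congr (fun i z hz => ?_)
      exact (St.mean_osc (sm_cont sE22 i) hz).symm

end EData
end Crest.Agent.R216.TE
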