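import Crest.Agent.R216.ClsT
import Crest.Agent.R216.ClsInt2
import Crest.Agent.R216.ClsShift
import Crest.Agent.R216.EngExp

/-!
# Row 216, Theorem E, step 2: phase shift (TE-7).
-/

open Set Topology MeasureTheory
open scoped ContDiff

set_option linter.unusedSectionVars false

namespace Crest.Agent.R216.TE

namespace Stp2
open Shf CT

section basic
variable {V : Type*} [NormedAddCommGroup V] [NormedSpace ℝ V]

/-- slice continuity -/
def Sl (u : Q → V) (x : X2) : Prop := Continuous (fun s : ℝ => u (x, s))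

lemma Sl.of {D : Set X2} {u : Q → V} (hu : ContDiffOn ℝ ∞ u {z | z.1 ∈ D}) {x : X2} (hx : x ∈ D) :
    Sl u x :=
  hu.continuousOn.comp_continuous (by fun_prop) (fun _ => hx)

lemma mean_congr {u v : Q → V} {z : Q} (h : ∀ s, u (z.1, s) = v (z.1, s)) :
    mean u z = mean v z := by
  unfold mean
  congr 1
  exact intervalIntegral.integral_congr (fun s _ => h s)

lemma mean_add {u v : Q → V} {z : Q} (hu : Sl u z.1) (hv : Sl v z.1) :
    mean (fun z => u z + v z) z = mean u z + mean v z := by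
  unfold mean
  rw [intervalIntegral.integral_add (Continuous.intervalIntegrable hu _ _)
    (Continuous.intervalIntegrable hv _ _), smul_add]

lemma mean_sub {u v : Q → V} {z : Q} (hu : Sl u z.1) (hv : Sl v z.1) :
    mean (fun z => u z - v z) z = mean u z - mean v z := by
  unfold mean
  rw [intervalIntegral.integral_sub (Continuous.intervalIntegrable hu _ _)
    (Continuous.intervalIntegrable hv _ _), smul_sub]

lemma mean_cmul {c u : Q → ℝ} {z : Q} (hc : ∀ s, c (z.1, s) = c z) :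
    mean (fun z => c z * u z) z = c z * mean u z := by
  unfold mean
  simp only [hc, intervalIntegral.integral_const_mul, smul_eq_mul]
  ring

lemma mean_const [CompleteSpace V] {u : Q → V} {z : Q} (hc : ∀ s, u (z.1, s) = u z) :
    mean u z = u z := by
  have h : (2 * Real.pi) ≠ 0 := by positivity
  unfold mean
  simp only [hc, intervalIntegral.integral_const, sub_zero, smul_smul]
  rw [inv_mul_cancel₀ h, one_smul]

lemma mean_csmul (c : ℝ) (u : Q → V) (z : Q) : mean (fun z => c • u z) z = c • mean u z := by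
  unfold mean
  rw [intervalIntegral.integral_smul, smul_comm]

lemma mean_inner_c {c u : Q → E4} {z : Q} (hc : ∀ s, c (z.1, s) = c z) (hu : Sl u z.1) :
    mean (fun z => (inner ℝ (c z) (u z) : ℝ)) z = inner ℝ (c z) (mean u z) := by
  unfold mean
  simp only [hc]
  have := (innerSL ℝ (c z)).intervalIntegral_comp_comm
    (Continuous.intervalIntegrable (μ := volume) hu 0 (2*Real.pi))
  simp only [innerSL_apply_apply] at this
  rw [this, inner_smul_right]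
  rfl

lemma Sl.add {u v : Q → V} {x : X2} (hu : Sl u x) (hv : Sl v x) : Sl (fun z => u z + v z) x :=
  Continuous.add hu hv
lemma Sl.cmul {c u : Q → ℝ} {x : X2} (hc : ∀ s t, c (x, s) = c (x, t)) (hu : Sl u x) :
    Sl (fun z => c z * u z) x := by
  have : (fun s : ℝ => c (x, s) * u (x, s)) = fun s : ℝ => c (x, 0) * u (x, s) := by
    funext s; rw [hc s 0]
  show Continuous (fun s : ℝ => c (x, s) * u (x, s))
  rw [this]
  exact continuous_const.mul hu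
lemma Sl.sub {u v : Q → V} {x : X2} (hu : Sl u x) (hv : Sl v x) : Sl (fun z => u z - v z) x :=
  Continuous.sub hu hv
lemma Sl.csmul {u : Q → V} {x : X2} (hu : Sl u x) (c : ℝ) : Sl (fun z => c • u z) x :=
  (continuous_const_smul c).comp hu
lemma Sl.inner {u v : Q → E4} {x : X2} (hu : Sl u x) (hv : Sl v x) :
    Sl (fun z => (inner ℝ (u z) (v z) : ℝ)) x := Continuous.inner hu hv
lemma Sl.shift {D : Set X2} {u : Q → V} (hu : ContDiffOn ℝ ∞ u {z | z.1 ∈ D}) {x : X2}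
    (hx : x ∈ D) (γ : X2 → ℝ) : Sl (Crest.Agent.R216.TE.shift γ u) x := by
  have h1 : Continuous (fun s : ℝ => u (x, s)) := Sl.of hu hx
  exact h1.comp (by fun_prop : Continuous (fun s : ℝ => s + γ x))

/-- mean of a combination of shifted functions with coefficients depending on `x` only -/
lemma comb {D : Set X2} {γ : X2 → ℝ} {E' E N H L : Q → ℝ} {c1 c2 c3 : Q → ℝ}
    (sE : ContDiffOn ℝ ∞ E {z | z.1 ∈ D}) (sN : ContDiffOn ℝ ∞ N {z | z.1 ∈ D})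
    (sH : ContDiffOn ℝ ∞ H {z | z.1 ∈ D}) (sL : ContDiffOn ℝ ∞ L {z | z.1 ∈ D})
    (pE : PerOn D E) (pN : PerOn D N) (pH : PerOn D H) (pL : PerOn D L)
    (h : ∀ z : Q, z.1 ∈ D → E' z =
      shift γ E z + c1 z * shift γ N z + c2 z * shift γ H z + c3 z * shift γ L z)
    (k1 : ∀ x ∈ D, ∀ s t, c1 (x, s) = c1 (x, t)) (k2 : ∀ x ∈ D, ∀ s t, c2 (x, s) = c2 (x, t))
    (k3 : ∀ x ∈ D, ∀ s t, c3 (x, s) = c3 (x, t)) {z : Q} (hz : z.1 ∈ D) :
    mean E' z = mean E z + c1 z * mean N z + c2 z * mean H z + c3 z * mean L z := by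
  have e : mean E' z = mean (fun z =>
      shift γ E z + c1 z * shift γ N z + c2 z * shift γ H z + c3 z * shift γ L z) z :=
    mean_congr (fun s => h (z.1, s) hz)
  have cE : Sl (shift γ E) z.1 := Sl.shift sE hz γ
  have cN := Sl.cmul (k1 z.1 hz) (Sl.shift sN hz γ)
  have cH := Sl.cmul (k2 z.1 hz) (Sl.shift sH hz γ)
  have cL := Sl.cmul (k3 z.1 hz) (Sl.shift sL hz γ)
  rw [e, mean_add ((cE.add cN).add cH) cL, mean_add (cE.add cN) cH, mean_add cE cN,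
    mean_cmul (fun s => k1 z.1 hz s z.2), mean_cmul (fun s => k2 z.1 hz s z.2),
    mean_cmul (fun s => k3 z.1 hz s z.2),
    mean_shift sE pE γ hz, mean_shift sN pN γ hz, mean_shift sH pH γ hz, mean_shift sL pL γ hz]

lemma comb_osc {D : Set X2} {γ : X2 → ℝ} {E' E N H L : Q → ℝ} {c1 c2 c3 : Q → ℝ}
    (sE : ContDiffOn ℝ ∞ E {z | z.1 ∈ D}) (sN : ContDiffOn ℝ ∞ N {z | z.1 ∈ D})
    (sH : ContDiffOn ℝ ∞ H {z | z.1 ∈ D}) (sL : ContDiffOn ℝ ∞ L {z | z.1 ∈ D})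
    (pE : PerOn D E) (pN : PerOn D N) (pH : PerOn D H) (pL : PerOn D L)
    (h : ∀ z : Q, z.1 ∈ D → E' z =
      shift γ E z + c1 z * shift γ N z + c2 z * shift γ H z + c3 z * shift γ L z)
    (k1 : ∀ x ∈ D, ∀ s t, c1 (x, s) = c1 (x, t)) (k2 : ∀ x ∈ D, ∀ s t, c2 (x, s) = c2 (x, t))
    (k3 : ∀ x ∈ D, ∀ s t, c3 (x, s) = c3 (x, t)) {z : Q} (hz : z.1 ∈ D) :
    osc E' z = shift γ (osc E) z + c1 z * shift γ (osc N) z + c2 z * shift γ (osc H) z
      + c3 z * shift γ (osc L) z := by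
  have h1 := comb sE sN sH sL pE pN pH pL h k1 k2 k3 hz
  have h2 := h z hz
  have k : ∀ G : Q → ℝ, shift γ (osc G) z = shift γ G z - mean G z := fun G => rfl
  rw [k, k, k, k]
  show E' z - mean E' z = _
  rw [h1, h2]
  ring

end basic

section data
variable {𝓔 : EFam} (d : EData 𝓔) (F : 𝓔.I → Q → E4)

/-- `∂_t` of the oscillating part of `ρ` -/
noncomputable def P : 𝓔.I → Q → E4 := fun i => pd 2 (osc (d.rho F i))
/-- `ε⁻¹ ∂_t F` -/
noncomputable def U2 : 𝓔.I → Q → E4 := fun i z => d.Wl i z + P d F i z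
/-- `∂_j (ρ + u₁)` -/
noncomputable def Y (j : Fin 3) : 𝓔.I → Q → E4 := fun i z =>
  pd j (osc (d.rho F i)) z + pd j (mean (d.rho F i)) z + pd j (d.u1 i) z
/-- `A1 F - w` -/
noncomputable def R : 𝓔.I → Q → E4 := fun i z => P d F i z + 𝓔.eps i • Y d F 0 i z
/-- oscillating part of `∂₂ (ρ + u₁)` -/
noncomputable def S' : 𝓔.I → Q → E4 := fun i z => pd 1 (osc (d.rho F i)) z + pd 1 (d.u1 i) z
/-- `ε⁻¹ <A1 F, ∂_t F>` -/
noncomputable def N : 𝓔.I → Q → ℝ := fun i z => inner ℝ (𝓔.A1 F i z) (U2 d F i z)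
/-- `ε⁻¹ <A2 F, ∂_t F>` -/
noncomputable def H : 𝓔.I → Q → ℝ := fun i z => inner ℝ (𝓔.A2 F i z) (U2 d F i z)
/-- `ε⁻² |∂_t F|²` -/
noncomputable def L : 𝓔.I → Q → ℝ := fun i z => inner ℝ (U2 d F i z) (U2 d F i z)

variable {d F}

lemma u1B (h : d.Hyp) : 𝓔.toFam.B (𝓔.W 1 0 0) d.u1 :=
  Fam.B.prim (EFam.W_nn _ _ _) h.WB h.Wper

lemma f_smooth (h : d.Hyp) (i : 𝓔.I) : ContDiffOn ℝ ∞ (d.f i) (𝓔.D i) :=
  contDiffOn_of_lift (h.fsm i)

lemma rho_sm (h : d.Hyp) (hF : 𝓔.toFam.Sm F) : 𝓔.toFam.Sm (d.rho F) := fun i =>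
  ((contDiffOn_const (c := (𝓔.eps i)⁻¹)).smul ((hF i).sub (h.fsm i))).sub ((u1B h).smooth i)

lemma u1_per (h : d.Hyp) (i : 𝓔.I) : PerOn (𝓔.D i) (d.u1 i) := fun _ hx t =>
  per_prim (h.WB.smooth i) (h.Wper i) hx t

lemma rho_per (h : d.Hyp) (hG : d.Good F) (i : 𝓔.I) : PerOn (𝓔.D i) (d.rho F i) := by
  intro x hx t
  show (𝓔.eps i)⁻¹ • (F i (x, t + 2 * Real.pi) - d.f i x) - d.u1 i (x, t + 2 * Real.pi)
    = (𝓔.eps i)⁻¹ • (F i (x, t) - d.f i x) - d.u1 i (x, t)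
  rw [hG.per i x hx t, u1_per h i x hx t]

lemma F_eq (i : 𝓔.I) : F i = fun z => lift (d.f i) z + 𝓔.eps i •
    ((osc (d.rho F i) z + mean (d.rho F i) z) + d.u1 i z) := by
  funext z
  have h1 := (EFam.eps_pos (𝓔 := 𝓔) i).ne'
  have h2 : osc (d.rho F i) z + mean (d.rho F i) z = d.rho F i z := by
    show d.rho F i z - mean (d.rho F i) z + mean (d.rho F i) z = _
    abel
  rw [h2]
  show F i z = d.f i z.1 + 𝓔.eps i • ((𝓔.eps i)⁻¹ • (F i z - d.f i z.1) - d.u1 i z + d.u1 i z)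
  rw [sub_add_cancel, smul_smul, mul_inv_cancel₀ h1, one_smul]
  abel

lemma pdF (h : d.Hyp) (hG : d.Good F) (i : 𝓔.I) (j : Fin 3) {z : Q} (hz : z.1 ∈ 𝓔.D i) :
    pd j (F i) z = pd j (lift (d.f i)) z + 𝓔.eps i • Y d F j i z := by
  have hD := 𝓔.toFam.isOpen_dom i
  have d1 := diffAt hD (h.fsm i) hz
  have d2 := diffAt hD (hG.rho_osc.smooth i) hz
  have d3 := diffAt hD (hG.rho_mean.smooth i) hz
  have d4 := diffAt hD ((u1B h).smooth i) hz
  have e : pd j (F i) z = fderiv ℝ (fun z => lift (d.f i) z + 𝓔.eps i •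
    ((osc (d.rho F i) z + mean (d.rho F i) z) + d.u1 i z)) z (bas j) := by
    rw [pd, ← F_eq]
  rw [e, fderiv_fun_add d1 (((d2.fun_add d3).fun_add d4).fun_const_smul _),
    fderiv_fun_const_smul ((d2.fun_add d3).fun_add d4),
    fderiv_fun_add (d2.fun_add d3) d4, fderiv_fun_add d2 d3]
  rfl

lemma pd0_f (h : d.Hyp) (i : 𝓔.I) {z : Q} (hz : z.1 ∈ 𝓔.D i) :
    pd 0 (lift (d.f i)) z = d.f1 i z := by
  rw [pd, (lift_hasFDerivAt (𝓔.isOpen i) (f_smooth h i) hz).fderiv]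
  rfl

lemma pd1_f (h : d.Hyp) (i : 𝓔.I) {z : Q} (hz : z.1 ∈ 𝓔.D i) :
    pd 1 (lift (d.f i)) z = d.f2 i z := by
  rw [pd, (lift_hasFDerivAt (𝓔.isOpen i) (f_smooth h i) hz).fderiv]
  rfl

lemma Y2 (h : d.Hyp) (i : 𝓔.I) {z : Q} (hz : z.1 ∈ 𝓔.D i) :
    Y d F 2 i z = U2 d F i z := by
  have h1 : pd 2 (d.u1 i) z = d.Wl i z := by
    rw [EData.u1, pd2_prim (𝓔.isOpen i) (h.WB.smooth i) hz]
    show d.Wl i z - mean (d.Wl i) z = _
    rw [h.Wmean i z hz, sub_zero]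
  show pd 2 (osc (d.rho F i)) z + pd 2 (mean (d.rho F i)) z + pd 2 (d.u1 i) z = _
  rw [h1, pd2_mean, add_zero, add_comm]
  rfl

lemma pd2F (h : d.Hyp) (hG : d.Good F) (i : 𝓔.I) {z : Q} (hz : z.1 ∈ 𝓔.D i) :
    pd 2 (F i) z = 𝓔.eps i • U2 d F i z := by
  rw [pdF h hG i 2 hz, Y2 h i hz, Shf.pd2_lift (𝓔.isOpen i) (f_smooth h i) hz, zero_add]

lemma pd0F (h : d.Hyp) (hG : d.Good F) (i : 𝓔.I) {z : Q} (hz : z.1 ∈ 𝓔.D i) :
    pd 0 (F i) z = d.f1 i z + 𝓔.eps i • Y d F 0 i z := by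
  rw [pdF h hG i 0 hz, pd0_f h i hz]

lemma pd1F (h : d.Hyp) (hG : d.Good F) (i : 𝓔.I) {z : Q} (hz : z.1 ∈ 𝓔.D i) :
    𝓔.A2 F i z = d.f2 i z + 𝓔.eps i • Y d F 1 i z := by
  show pd 1 (F i) z = _
  rw [pdF h hG i 1 hz, pd1_f h i hz]

lemma A1F (h : d.Hyp) (hG : d.Good F) (i : 𝓔.I) {z : Q} (hz : z.1 ∈ 𝓔.D i) :
    𝓔.A1 F i z = pd 0 (F i) z + U2 d F i z := by
  show pd 0 (F i) z + (𝓔.eps i)⁻¹ • pd 2 (F i) z = _
  rw [pd2F h hG i hz, smul_smul, inv_mul_cancel₀ (EFam.eps_pos i).ne', one_smul]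

lemma A1F' (h : d.Hyp) (hG : d.Good F) (i : 𝓔.I) {z : Q} (hz : z.1 ∈ 𝓔.D i) :
    𝓔.A1 F i z = d.f1 i z + (d.Wl i z + R d F i z) := by
  rw [A1F h hG i hz, pd0F h hG i hz]
  show d.f1 i z + 𝓔.eps i • Y d F 0 i z + (d.Wl i z + P d F i z) =
    d.f1 i z + (d.Wl i z + (P d F i z + 𝓔.eps i • Y d F 0 i z))
  abel

/-! classes -/

lemma PB (hG : d.Good F) : 𝓔.toFam.B (𝓔.W 1 7 2) (P d F) := EFam.B_pd hG.rho_osc 2

lemma U2B (h : d.Hyp) (hG : d.Good F) : 𝓔.toFam.B (𝓔.W 1 0 0) (U2 d F) :=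
  EFam.B_add h.WB (EFam.B_le (PB hG) (by omega) (by omega) (by omega))

lemma YB (h : d.Hyp) (hG : d.Good F) (j : Fin 3) : 𝓔.toFam.B (𝓔.W 1 0 1) (Y d F j) :=
  EFam.B_add (EFam.B_add (EFam.B_le (EFam.B_pd hG.rho_osc j) (by omega) (by omega) (by omega))
    (EFam.B_le (EFam.B_pd hG.rho_mean j) (by omega) (by omega) (by omega)))
    (EFam.B_pd (u1B h) j)

lemma RB (h : d.Hyp) (hG : d.Good F) : 𝓔.toFam.B (𝓔.W 1 7 2) (R d F) :=
  EFam.B_add (PB hG) (EFam.B_le (EFam.B_eps (YB h hG 0)) (by omega) (by omega) (by omega))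

lemma S'B (h : d.Hyp) (hG : d.Good F) : 𝓔.toFam.B (𝓔.W 1 0 1) (S' d F) :=
  EFam.B_add (EFam.B_le (EFam.B_pd hG.rho_osc 1) (by omega) (by omega) (by omega))
    (EFam.B_pd (u1B h) 1)

lemma A1B (h : d.Hyp) (hG : d.Good F) : 𝓔.toFam.B (𝓔.W 0 0 0) (𝓔.A1 F) := by
  have h1 := EFam.B_add h.f1B (EFam.B_add (EFam.B_le (j' := 0) (m' := 0) (l' := 0) h.WB
    (by omega) (by omega) (by omega))
    (EFam.B_le (j' := 0) (m' := 0) (l' := 0) (RB h hG) (by omega) (by omega) (by omega)))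
  exact h1.congr (fun i z hz => (A1F' h hG i hz).symm)

lemma A2B (h : d.Hyp) (hG : d.Good F) : 𝓔.toFam.B (𝓔.W 0 0 0) (𝓔.A2 F) := by
  have h1 := EFam.B_add h.f2B (EFam.B_le (j' := 0) (m' := 0) (l' := 0) (EFam.B_eps (YB h hG 1))
    (by omega) (by omega) (by omega))
  exact h1.congr (fun i z hz => (pd1F h hG i hz).symm)

lemma NB (h : d.Hyp) (hG : d.Good F) : 𝓔.toFam.B (𝓔.W 1 0 0) (N d F) :=
  EFam.B_innerR (A1B h hG) (U2B h hG) (by omega) (by omega) (by omega)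

lemma HB0 (h : d.Hyp) (hG : d.Good F) : 𝓔.toFam.B (𝓔.W 1 0 0) (H d F) :=
  EFam.B_innerR (A2B h hG) (U2B h hG) (by omega) (by omega) (by omega)

lemma LB (h : d.Hyp) (hG : d.Good F) : 𝓔.toFam.B (𝓔.W 2 0 0) (L d F) :=
  EFam.B_inner (U2B h hG) (U2B h hG)

/-- the refined bound for `<A2 F, ∂_t F>` -/
lemma HB (h : d.Hyp) (hG : d.Good F) (h12 : 𝓔.toFam.B (𝓔.W 1 15 0) (d.E12 F)) :
    𝓔.toFam.B (𝓔.W 1 15 0) (H d F) := by
  have hY0 := YB h hG 0
  have hY1 := YB h hG 1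
  have t1 := EFam.B_le (EFam.B_eps (EFam.B_inner h.f1B hY1)) (j' := 1) (m' := 15) (l' := 0)
    (by omega) (by omega) (by omega)
  have t2 := EFam.B_le (EFam.B_eps (EFam.B_inner h.f2B hY0)) (j' := 1) (m' := 15) (l' := 0)
    (by omega) (by omega) (by omega)
  have t3 := EFam.B_le (EFam.B_eps (EFam.B_eps (EFam.B_inner hY1 hY0)))
    (j' := 1) (m' := 15) (l' := 0) (by omega) (by omega) (by omega)
  have tG := EFam.B_le h.G12B (j' := 1) (m' := 15) (l' := 0) (by omega) (by omega) (by omega)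
  have key := EFam.B_sub (EFam.B_sub (EFam.B_sub (EFam.B_add h12 tG) t1) t2) t3
  refine key.congr (fun i z hz => ?_)
  have e1 := A1F h hG i hz
  have e2 := pd1F h hG i hz
  have e3 := pd0F h hG i hz
  have e4 : U2 d F i z = 𝓔.A1 F i z - pd 0 (F i) z := by rw [e1]; abel
  show d.E12 F i z + lift (d.G12 i) z - 𝓔.eps i • inner ℝ (d.f1 i z) (Y d F 1 i z)
    - 𝓔.eps i • inner ℝ (d.f2 i z) (Y d F 0 i z)
    - 𝓔.eps i • 𝓔.eps i • inner ℝ (Y d F 1 i z) (Y d F 0 i z)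
    = inner ℝ (𝓔.A2 F i z) (U2 d F i z)
  have e5 : (inner ℝ (𝓔.A2 F i z) (U2 d F i z) : ℝ)
      = inner ℝ (𝓔.A1 F i z) (𝓔.A2 F i z) - inner ℝ (𝓔.A2 F i z) (pd 0 (F i) z) := by
    rw [e4, inner_sub_right, real_inner_comm]
  have e6 : (inner ℝ (𝓔.A2 F i z) (pd 0 (F i) z) : ℝ)
      = inner ℝ (d.f1 i z) (d.f2 i z) + 𝓔.eps i * inner ℝ (d.f1 i z) (Y d F 1 i z)
        + 𝓔.eps i * inner ℝ (d.f2 i z) (Y d F 0 i z)
        + 𝓔.eps i * (𝓔.eps i * inner ℝ (Y d F 1 i z) (Y d F 0 i z)) := by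
    rw [e2, e3, inner_add_left, inner_add_right, inner_add_right]
    simp only [real_inner_smul_left, real_inner_smul_right]
    rw [real_inner_comm (d.f1 i z) (d.f2 i z), real_inner_comm (d.f1 i z) (Y d F 1 i z)]
    ring
  have e7 : (inner ℝ (𝓔.A1 F i z) (𝓔.A2 F i z) : ℝ)
      = d.E12 F i z + (inner ℝ (d.f1 i z) (d.f2 i z) + d.G12 i z.1) := by
    simp only [EData.E12]; ring
  rw [e5, e6, e7]
  simp only [smul_eq_mul, lift]
  ring

/-! means -/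

/-- `K = <W, P> + <R, U2>` -/
noncomputable def K (d : EData 𝓔) (F : 𝓔.I → Q → E4) : 𝓔.I → Q → ℝ := fun i z =>
  inner ℝ (d.Wl i z) (P d F i z) + inner ℝ (R d F i z) (U2 d F i z)

lemma KB (h : d.Hyp) (hG : d.Good F) : 𝓔.toFam.B (𝓔.W 2 7 2) (K d F) :=
  EFam.B_add (EFam.B_innerR h.WB (PB hG) (by omega) (by omega) (by omega))
    (EFam.B_innerR (RB h hG) (U2B h hG) (by omega) (by omega) (by omega))

lemma mean_P (h : d.Hyp) (hG : d.Good F) (i : 𝓔.I) {z : Q} (hz : z.1 ∈ 𝓔.D i) :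
    mean (P d F i) z = 0 :=
  mean_pd2 (𝓔.isOpen i) (hG.rho_osc.smooth i) (perOn_osc (rho_per h hG i)) hz

lemma mean_U2 (h : d.Hyp) (hG : d.Good F) (i : 𝓔.I) {z : Q} (hz : z.1 ∈ 𝓔.D i) :
    mean (U2 d F i) z = 0 := by
  have : mean (U2 d F i) z = mean (d.Wl i) z + mean (P d F i) z :=
    mean_add (Sl.of (h.WB.smooth i) hz) (Sl.of ((PB hG).smooth i) hz)
  rw [this, h.Wmean i z hz, mean_P h hG i hz, add_zero]

lemma mean_N (h : d.Hyp) (hG : d.Good F) (i : 𝓔.I) {z : Q} (hz : z.1 ∈ 𝓔.D i) :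
    mean (N d F i) z = 𝓔.a i z.1 ^ 2 + mean (K d F i) z := by
  -- `N = a² + <f1, P> - <f1, W> + K`
  have e : ∀ s, N d F i (z.1, s) = (fun z => ((fun z => (fun z => 𝓔.a i z.1 ^ 2) z
      + (fun z => (inner ℝ (d.f1 i z) (P d F i z) : ℝ)) z) z
      - (fun z => (inner ℝ (d.f1 i z) (d.Wl i z) : ℝ)) z) + K d F i z) (z.1, s) := by
    intro s
    have hz' : ((z.1, s) : Q).1 ∈ 𝓔.D i := hz
    have h1 := A1F' h hG i hz'
    have h2 := h.circle i (z.1, s) hz'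
    simp only [EData.w] at h2
    rw [inner_add_left, inner_add_right, inner_add_right] at h2
    rw [real_inner_comm (d.f1 i (z.1, s)) (d.Wl i (z.1, s))] at h2
    simp only [N, h1, U2, K]
    simp only [inner_add_left, inner_add_right]
    linarith
  have cf : ∀ s, d.f1 i (z.1, s) = d.f1 i z := fun s => rfl
  have sW := Sl.of (h.WB.smooth i) hz
  have sP := Sl.of ((PB hG).smooth i) hz
  have sf : Sl (d.f1 i) z.1 := show Continuous (fun _ : ℝ => d.f1 i (z.1, 0)) from continuous_const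
  have sK := Sl.of ((KB h hG).smooth i) hz
  have sa : Sl (fun z : Q => 𝓔.a i z.1 ^ 2) z.1 :=
    show Continuous (fun _ : ℝ => 𝓔.a i z.1 ^ 2) from continuous_const
  rw [mean_congr (v := fun z => ((fun z => (fun z => 𝓔.a i z.1 ^ 2) z
      + (fun z => (inner ℝ (d.f1 i z) (P d F i z) : ℝ)) z) z
      - (fun z => (inner ℝ (d.f1 i z) (d.Wl i z) : ℝ)) z) + K d F i z) e,
    mean_add (u := fun z => ((fun z => (fun z => 𝓔.a i z.1 ^ 2) z
      + (fun z => (inner ℝ (d.f1 i z) (P d F i z) : ℝ)) z) z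
      - (fun z => (inner ℝ (d.f1 i z) (d.Wl i z) : ℝ)) z)) ?_ sK]
  · rw [mean_sub (u := (fun z => (fun z => 𝓔.a i z.1 ^ 2) z
      + (fun z => (inner ℝ (d.f1 i z) (P d F i z) : ℝ)) z)) (sa.add (sf.inner sP)) (sf.inner sW),
      mean_add sa (sf.inner sP), mean_inner_c cf sP, mean_inner_c cf sW, mean_P h hG i hz,
      h.Wmean i z hz, inner_zero_right, mean_const (fun s => rfl)]
    ring
  · exact Continuous.sub (sa.add (sf.inner sP)) (sf.inner sW)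

lemma mean_H (h : d.Hyp) (hG : d.Good F) (i : 𝓔.I) {z : Q} (hz : z.1 ∈ 𝓔.D i) :
    mean (H d F i) z = 𝓔.eps i • mean (fun z => (inner ℝ (S' d F i z) (U2 d F i z) : ℝ)) z := by
  let c : Q → E4 := fun z => d.f2 i z + 𝓔.eps i • pd 1 (mean (d.rho F i)) z
  have hc : ∀ s, c (z.1, s) = c z := by
    intro s
    have : pd 1 (mean (d.rho F i)) (z.1, s) = pd 1 (mean (d.rho F i)) z := by
      rw [pd_mean (𝓔.isOpen i) (rho_sm h hG.sm i) 1 (by decide) (z := (z.1, s)) hz,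
        pd_mean (𝓔.isOpen i) (rho_sm h hG.sm i) 1 (by decide) hz]
      rfl
    show d.f2 i (z.1, s) + 𝓔.eps i • pd 1 (mean (d.rho F i)) (z.1, s) = _
    rw [this]
    rfl
  have e : ∀ s, H d F i (z.1, s) = (fun z => (inner ℝ (c z) (U2 d F i z) : ℝ)
      + (fun z => 𝓔.eps i • (inner ℝ (S' d F i z) (U2 d F i z) : ℝ)) z) (z.1, s) := by
    intro s
    have hz' : ((z.1, s) : Q).1 ∈ 𝓔.D i := hz
    have h1 := pd1F h hG i hz'
    simp only [H, h1, c]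
    have h2 : d.f2 i (z.1, s) + 𝓔.eps i • Y d F 1 i (z.1, s)
        = (d.f2 i (z.1, s) + 𝓔.eps i • pd 1 (mean (d.rho F i)) (z.1, s))
          + 𝓔.eps i • S' d F i (z.1, s) := by
      simp only [Y, S', smul_add]; abel
    rw [h2, inner_add_left, real_inner_smul_left, smul_eq_mul]
  have sU := Sl.of ((U2B h hG).smooth i) hz
  have sS := Sl.of ((S'B h hG).smooth i) hz
  have sc : Sl c z.1 := by
    have : (fun s : ℝ => c (z.1, s)) = fun _ => c z := by funext s; exact hc s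
    show Continuous (fun s : ℝ => c (z.1, s))
    rw [this]; exact continuous_const
  rw [mean_congr (v := fun z => (inner ℝ (c z) (U2 d F i z) : ℝ)
      + (fun z => 𝓔.eps i • (inner ℝ (S' d F i z) (U2 d F i z) : ℝ)) z) e,
    mean_add (sc.inner sU)
    (show Sl (fun z => 𝓔.eps i • (inner ℝ (S' d F i z) (U2 d F i z) : ℝ)) z.1 from
      (sS.inner sU).csmul _), mean_inner_c hc sU, mean_U2 h hG i hz,
    inner_zero_right, zero_add, mean_csmul]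

/-! errors of the shifted state -/

lemma pd_F' (hG : d.Good F) {γ : 𝓔.I → X2 → ℝ} (hγ : ∀ i, ContDiffOn ℝ ∞ (γ i) (𝓔.D i))
    (i : 𝓔.I) (j : Fin 3) {z : Q} (hz : z.1 ∈ 𝓔.D i) :
    pd j (shift (γ i) (F i)) z = pd j (F i) (shm (γ i) z)
      + pd j (lift (γ i)) z • pd 2 (F i) (shm (γ i) z) :=
  pd_shift (𝓔.isOpen i) (hG.sm i) (hγ i) j hz

lemma A1_F' (h : d.Hyp) (hG : d.Good F) {γ : 𝓔.I → X2 → ℝ}
    (hγ : ∀ i, ContDiffOn ℝ ∞ (γ i) (𝓔.D i)) (i : 𝓔.I) {z : Q} (hz : z.1 ∈ 𝓔.D i) :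
    𝓔.A1 (fun i => shift (γ i) (F i)) i z = 𝓔.A1 F i (shm (γ i) z)
      + (𝓔.eps i • pd 0 (lift (γ i)) z) • U2 d F i (shm (γ i) z) := by
  have hz' : (shm (γ i) z).1 ∈ 𝓔.D i := hz
  show pd 0 (shift (γ i) (F i)) z + (𝓔.eps i)⁻¹ • pd 2 (shift (γ i) (F i)) z
    = pd 0 (F i) (shm (γ i) z) + (𝓔.eps i)⁻¹ • pd 2 (F i) (shm (γ i) z) + _
  rw [pd_F' hG hγ i 0 hz, pd_F' hG hγ i 2 hz, Shf.pd2_lift (𝓔.isOpen i) (hγ i) hz, zero_smul,
    add_zero, pd2F h hG i hz', smul_smul, smul_eq_mul, mul_comm (pd 0 (lift (γ i)) z)]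
  abel

lemma A2_F' (h : d.Hyp) (hG : d.Good F) {γ : 𝓔.I → X2 → ℝ}
    (hγ : ∀ i, ContDiffOn ℝ ∞ (γ i) (𝓔.D i)) (i : 𝓔.I) {z : Q} (hz : z.1 ∈ 𝓔.D i) :
    𝓔.A2 (fun i => shift (γ i) (F i)) i z = 𝓔.A2 F i (shm (γ i) z)
      + (𝓔.eps i • pd 1 (lift (γ i)) z) • U2 d F i (shm (γ i) z) := by
  have hz' : (shm (γ i) z).1 ∈ 𝓔.D i := hz
  show pd 1 (shift (γ i) (F i)) z = pd 1 (F i) (shm (γ i) z) + _
  rw [pd_F' hG hγ i 1 hz, pd2F h hG i hz', smul_smul, smul_eq_mul,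
    mul_comm (pd 1 (lift (γ i)) z)]

lemma E11_F' (h : d.Hyp) (hG : d.Good F) {γ : 𝓔.I → X2 → ℝ}
    (hγ : ∀ i, ContDiffOn ℝ ∞ (γ i) (𝓔.D i)) (i : 𝓔.I) (z : Q) (hz : z.1 ∈ 𝓔.D i) :
    d.E11 (fun i => shift (γ i) (F i)) i z = shift (γ i) (d.E11 F i) z
      + (2 * (𝓔.eps i • pd 0 (lift (γ i)) z)) * shift (γ i) (N d F i) z
      + 0 * shift (γ i) (H d F i) z
      + ((𝓔.eps i • pd 0 (lift (γ i)) z) * (𝓔.eps i • pd 0 (lift (γ i)) z))
        * shift (γ i) (L d F i) z := by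
  have e1 := A1_F' h hG hγ i hz
  show (inner ℝ (𝓔.A1 (fun i => shift (γ i) (F i)) i z)
      (𝓔.A1 (fun i => shift (γ i) (F i)) i z) : ℝ)
      - (inner ℝ (d.f1 i z) (d.f1 i z) + 𝓔.a i z.1 ^ 2 + d.G11 i z.1)
    = (inner ℝ (𝓔.A1 F i (shm (γ i) z)) (𝓔.A1 F i (shm (γ i) z))
      - (inner ℝ (d.f1 i z) (d.f1 i z) + 𝓔.a i z.1 ^ 2 + d.G11 i z.1))
      + (2 * (𝓔.eps i • pd 0 (lift (γ i)) z))
        * inner ℝ (𝓔.A1 F i (shm (γ i) z)) (U2 d F i (shm (γ i) z))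
      + 0 * inner ℝ (𝓔.A2 F i (shm (γ i) z)) (U2 d F i (shm (γ i) z))
      + ((𝓔.eps i • pd 0 (lift (γ i)) z) * (𝓔.eps i • pd 0 (lift (γ i)) z))
        * inner ℝ (U2 d F i (shm (γ i) z)) (U2 d F i (shm (γ i) z))
  rw [e1, inner_add_left, inner_add_right, inner_add_right, real_inner_smul_left,
    real_inner_smul_left, real_inner_smul_right, real_inner_smul_right,
    real_inner_comm (𝓔.A1 F i (shm (γ i) z)) (U2 d F i (shm (γ i) z))]
  ring

lemma E12_F' (h : d.Hyp) (hG : d.Good F) {γ : 𝓔.I → X2 → ℝ}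
    (hγ : ∀ i, ContDiffOn ℝ ∞ (γ i) (𝓔.D i)) (i : 𝓔.I) (z : Q) (hz : z.1 ∈ 𝓔.D i) :
    d.E12 (fun i => shift (γ i) (F i)) i z = shift (γ i) (d.E12 F i) z
      + (𝓔.eps i • pd 1 (lift (γ i)) z) * shift (γ i) (N d F i) z
      + (𝓔.eps i • pd 0 (lift (γ i)) z) * shift (γ i) (H d F i) z
      + ((𝓔.eps i • pd 0 (lift (γ i)) z) * (𝓔.eps i • pd 1 (lift (γ i)) z))
        * shift (γ i) (L d F i) z := by
  have e1 := A1_F' h hG hγ i hz
  have e2 := A2_F' h hG hγ i hz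
  show (inner ℝ (𝓔.A1 (fun i => shift (γ i) (F i)) i z)
      (𝓔.A2 (fun i => shift (γ i) (F i)) i z) : ℝ)
      - (inner ℝ (d.f1 i z) (d.f2 i z) + d.G12 i z.1)
    = (inner ℝ (𝓔.A1 F i (shm (γ i) z)) (𝓔.A2 F i (shm (γ i) z))
      - (inner ℝ (d.f1 i z) (d.f2 i z) + d.G12 i z.1))
      + (𝓔.eps i • pd 1 (lift (γ i)) z)
        * inner ℝ (𝓔.A1 F i (shm (γ i) z)) (U2 d F i (shm (γ i) z))
      + (𝓔.eps i • pd 0 (lift (γ i)) z)
        * inner ℝ (𝓔.A2 F i (shm (γ i) z)) (U2 d F i (shm (γ i) z))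
      + ((𝓔.eps i • pd 0 (lift (γ i)) z) * (𝓔.eps i • pd 1 (lift (γ i)) z))
        * inner ℝ (U2 d F i (shm (γ i) z)) (U2 d F i (shm (γ i) z))
  rw [e1, e2, inner_add_left, inner_add_right, inner_add_right, real_inner_smul_left,
    real_inner_smul_left, real_inner_smul_right, real_inner_smul_right,
    real_inner_comm (𝓔.A2 F i (shm (γ i) z)) (U2 d F i (shm (γ i) z))]
  ring

lemma E22_F' (h : d.Hyp) (hG : d.Good F) {γ : 𝓔.I → X2 → ℝ}
    (hγ : ∀ i, ContDiffOn ℝ ∞ (γ i) (𝓔.D i)) (i : 𝓔.I) (z : Q) (hz : z.1 ∈ 𝓔.D i) :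
    d.E22 (fun i => shift (γ i) (F i)) i z = shift (γ i) (d.E22 F i) z
      + 0 * shift (γ i) (N d F i) z
      + (2 * (𝓔.eps i • pd 1 (lift (γ i)) z)) * shift (γ i) (H d F i) z
      + ((𝓔.eps i • pd 1 (lift (γ i)) z) * (𝓔.eps i • pd 1 (lift (γ i)) z))
        * shift (γ i) (L d F i) z := by
  have e2 := A2_F' h hG hγ i hz
  show (inner ℝ (𝓔.A2 (fun i => shift (γ i) (F i)) i z)
      (𝓔.A2 (fun i => shift (γ i) (F i)) i z) : ℝ)
      - (inner ℝ (d.f2 i z) (d.f2 i z) + d.G22 i z.1)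
    = (inner ℝ (𝓔.A2 F i (shm (γ i) z)) (𝓔.A2 F i (shm (γ i) z))
      - (inner ℝ (d.f2 i z) (d.f2 i z) + d.G22 i z.1))
      + 0 * inner ℝ (𝓔.A1 F i (shm (γ i) z)) (U2 d F i (shm (γ i) z))
      + (2 * (𝓔.eps i • pd 1 (lift (γ i)) z))
        * inner ℝ (𝓔.A2 F i (shm (γ i) z)) (U2 d F i (shm (γ i) z))
      + ((𝓔.eps i • pd 1 (lift (γ i)) z) * (𝓔.eps i • pd 1 (lift (γ i)) z))
        * inner ℝ (U2 d F i (shm (γ i) z)) (U2 d F i (shm (γ i) z))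
  rw [e2, inner_add_left, inner_add_right, inner_add_right, real_inner_smul_left,
    real_inner_smul_left, real_inner_smul_right, real_inner_smul_right,
    real_inner_comm (𝓔.A2 F i (shm (γ i) z)) (U2 d F i (shm (γ i) z))]
  ring

/-! smoothness and periodicity of the errors -/

lemma E11_sm (h : d.Hyp) (hG : d.Good F) : 𝓔.toFam.Sm (d.E11 F) := fun i =>
  ((A1B h hG).smooth i |>.inner ℝ ((A1B h hG).smooth i)).sub
    ((((h.f1B.smooth i).inner ℝ (h.f1B.smooth i)).add ((EFam.B_apow 2).smooth i)).add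
      (h.G11B.smooth i))

lemma E12_sm (h : d.Hyp) (hG : d.Good F) : 𝓔.toFam.Sm (d.E12 F) := fun i =>
  ((A1B h hG).smooth i |>.inner ℝ ((A2B h hG).smooth i)).sub
    (((h.f1B.smooth i).inner ℝ (h.f2B.smooth i)).add (h.G12B.smooth i))

lemma E22_sm (h : d.Hyp) (hG : d.Good F) : 𝓔.toFam.Sm (d.E22 F) := fun i =>
  ((A2B h hG).smooth i |>.inner ℝ ((A2B h hG).smooth i)).sub
    (((h.f2B.smooth i).inner ℝ (h.f2B.smooth i)).add (h.G22B.smooth i))

lemma A1_per (hG : d.Good F) (i : 𝓔.I) : PerOn (𝓔.D i) (𝓔.A1 F i) := by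
  intro x hx t
  show pd 0 (F i) (x, t + 2 * Real.pi) + (𝓔.eps i)⁻¹ • pd 2 (F i) (x, t + 2 * Real.pi)
    = pd 0 (F i) (x, t) + (𝓔.eps i)⁻¹ • pd 2 (F i) (x, t)
  rw [perOn_pd (𝓔.isOpen i) (hG.per i) 0 x hx t, perOn_pd (𝓔.isOpen i) (hG.per i) 2 x hx t]

lemma A2_per (hG : d.Good F) (i : 𝓔.I) : PerOn (𝓔.D i) (𝓔.A2 F i) :=
  perOn_pd (𝓔.isOpen i) (hG.per i) 1

lemma U2_per (h : d.Hyp) (hG : d.Good F) (i : 𝓔.I) : PerOn (𝓔.D i) (U2 d F i) := by
  intro x hx t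
  show d.Wl i (x, t + 2 * Real.pi) + pd 2 (osc (d.rho F i)) (x, t + 2 * Real.pi)
    = d.Wl i (x, t) + pd 2 (osc (d.rho F i)) (x, t)
  rw [h.Wper i x hx t, perOn_pd (𝓔.isOpen i) (perOn_osc (rho_per h hG i)) 2 x hx t]

lemma inner_per {D : Set X2} {u v : Q → E4} (hu : PerOn D u) (hv : PerOn D v) :
    PerOn D (fun z => (inner ℝ (u z) (v z) : ℝ)) := fun x hx t => by
  simp only [hu x hx t, hv x hx t]

lemma E11_per (hG : d.Good F) (i : 𝓔.I) : PerOn (𝓔.D i) (d.E11 F i) := fun x hx t => by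
  have h1 := A1_per hG i x hx t
  simp only [EData.E11, h1]
  rfl

lemma E12_per (hG : d.Good F) (i : 𝓔.I) : PerOn (𝓔.D i) (d.E12 F i) := fun x hx t => by
  have h1 := A1_per hG i x hx t
  have h2 := A2_per hG i x hx t
  simp only [EData.E12, h1, h2]
  rfl

lemma E22_per (hG : d.Good F) (i : 𝓔.I) : PerOn (𝓔.D i) (d.E22 F i) := fun x hx t => by
  have h2 := A2_per hG i x hx t
  simp only [EData.E22, h2]
  rfl

/-- classes of the means -/
lemma mNB (h : d.Hyp) (hG : d.Good F) : 𝓔.toFam.B (𝓔.W 2 0 0) (fun i => mean (N d F i)) := by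
  have h1 := EFam.B_add (EFam.B_apow (𝓔 := 𝓔) 2)
    (EFam.B_le (j' := 2) (m' := 0) (l' := 0) (Fam.B.mean (EFam.W_nn _ _ _) (KB h hG))
      (by omega) (by omega) (by omega))
  exact h1.congr (fun i z hz => (mean_N h hG i hz).symm)

lemma mHB (h : d.Hyp) (hG : d.Good F) : 𝓔.toFam.B (𝓔.W 2 16 1) (fun i => mean (H d F i)) := by
  have h1 := EFam.B_eps (Fam.B.mean (EFam.W_nn _ _ _) (EFam.B_inner (S'B h hG) (U2B h hG)))
  exact h1.congr (fun i z hz => (mean_H h hG i hz).symm)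

/-! the new `ρ` -/

lemma rhoF' (d : EData 𝓔) (F : 𝓔.I → Q → E4) (γ : 𝓔.I → X2 → ℝ) (i : 𝓔.I) (z : Q) :
    d.rho (fun i => shift (γ i) (F i)) i z
      = shift (γ i) (d.rho F i) z + (shift (γ i) (d.u1 i) z - d.u1 i z) := by
  show (𝓔.eps i)⁻¹ • (F i (shm (γ i) z) - d.f i z.1) - d.u1 i z
    = ((𝓔.eps i)⁻¹ • (F i (shm (γ i) z) - d.f i z.1) - d.u1 i (shm (γ i) z))
      + (d.u1 i (shm (γ i) z) - d.u1 i z)
  abel

lemma rhoF'_mean (h : d.Hyp) (hG : d.Good F) (γ : 𝓔.I → X2 → ℝ) (i : 𝓔.I) {z : Q}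
    (hz : z.1 ∈ 𝓔.D i) :
    mean (d.rho (fun i => shift (γ i) (F i)) i) z = mean (d.rho F i) z := by
  have s1 : Sl (shift (γ i) (d.rho F i)) z.1 := Sl.shift (rho_sm h hG.sm i) hz (γ i)
  have s2 : Sl (shift (γ i) (d.u1 i)) z.1 := Sl.shift ((u1B h).smooth i) hz (γ i)
  have s3 : Sl (d.u1 i) z.1 := Sl.of ((u1B h).smooth i) hz
  rw [mean_congr (v := fun z => shift (γ i) (d.rho F i) z
      + (fun z => shift (γ i) (d.u1 i) z - d.u1 i z) z) (fun s => rhoF' d F γ i (z.1, s)),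
    mean_add s1 (s2.sub s3), mean_sub s2 s3,
    mean_shift (rho_sm h hG.sm i) (rho_per h hG i) (γ i) hz,
    mean_shift ((u1B h).smooth i) (u1_per h i) (γ i) hz]
  abel

lemma rhoF'_osc (h : d.Hyp) (hG : d.Good F) (γ : 𝓔.I → X2 → ℝ) (i : 𝓔.I) {z : Q}
    (hz : z.1 ∈ 𝓔.D i) :
    osc (d.rho (fun i => shift (γ i) (F i)) i) z
      = shift (γ i) (osc (d.rho F i)) z + (shift (γ i) (d.u1 i) z - d.u1 i z) := by
  have h1 := rhoF'_mean h hG γ i hz
  have h2 := rhoF' d F γ i z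
  have h3 : shift (γ i) (osc (d.rho F i)) z
      = shift (γ i) (d.rho F i) z - mean (d.rho F i) z := rfl
  show d.rho (fun i => shift (γ i) (F i)) i z - mean (d.rho (fun i => shift (γ i) (F i)) i) z = _
  rw [h1, h2, h3]
  abel

end data
end Stp2

namespace EData
open Stp2 Shf CT
variable {𝓔 : EFam} {d : EData 𝓔}

/-- Step 2: phase shift by `γ = - int2 (mean E12 / (ε a²))` -/
theorem step2 (h : d.Hyp) (n : ℕ) {F : 𝓔.I → Q → E4} (hG : d.Good F)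
    (hE : d.Err (15+n) (15+n) (15+n) (23+n) (27+n) (28+n) F) :
    ∃ F', d.Good F' ∧ d.Err (15+n) (15+n) (15+n) (24+n) (27+n) (28+n) F' := by
  -- the shift
  set v : 𝓔.I → X2 → ℝ := fun i x =>
    -((𝓔.eps i)⁻¹ • ((𝓔.a i x ^ 2)⁻¹ • mean (d.E12 F i) (x, 0))) with hvdef
  have hq : 𝓔.toFam.B (𝓔.W 0 (23+n) 0)
      (fun i z => (𝓔.a i z.1 ^ 2)⁻¹ • mean (d.E12 F i) z) :=
    EFam.B_div (j := 0) (k := 2) (u := fun i => mean (d.E12 F i)) hE.m12
  have hv0 : 𝓔.toFam.B (𝓔.W 0 (7+n) 0) (fun i => lift (v i)) := by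
    have h1 := EFam.B_neg (EFam.B_epsInv (EFam.B_le (j' := 0) (m' := (7+n)+16) (l' := 0) hq
      (by omega) (by omega) (by omega)))
    exact h1
  have hvc : 𝓔.toFam.B (fun i _ => 𝓔.η i ^ (7+n)) (fun i => lift (v i)) :=
    hv0.weight_congr (fun i x _ => by simp [EFam.W])
  have hη0 : ∀ i, 0 ≤ 𝓔.η i ^ (7+n) := fun i => pow_nonneg (𝓔.η_pos i).le _
  set γ : 𝓔.I → X2 → ℝ := fun i => int2 (v i) with hγdef
  have hγ0 : 𝓔.toFam.B (fun i _ => 𝓔.η i ^ (7+n)) (fun i => lift (γ i)) :=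
    Fam.B.int2 hη0 h.star h.bdd2 hvc
  have hγW : 𝓔.toFam.B (𝓔.W 0 (7+n) 0) (fun i => lift (γ i)) :=
    hγ0.weight_congr (fun i x _ => by simp [EFam.W])
  have hγs : ∀ i, ContDiffOn ℝ ∞ (γ i) (𝓔.D i) := fun i => contDiffOn_of_lift (hγ0.smooth i)
  have hvs : ∀ i, ContDiffOn ℝ ∞ (v i) (𝓔.D i) := fun i => contDiffOn_of_lift (hv0.smooth i)
  have hLg : ∃ C, ∀ i, 𝓔.Lam i * 𝓔.η i ^ (7+n) ≤ C := by
    refine ⟨1, fun i => le_trans ?_ (𝓔.Lam_η i)⟩
    have h1 : 𝓔.Lam i ≤ 𝓔.Lam i ^ 10 := le_self_pow₀ (𝓔.one_le i) (by norm_num)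
    have h2 : 𝓔.η i ^ (7+n) ≤ 𝓔.η i :=
      pow_le_of_le_one (𝓔.η_pos i).le (EFam.η_le_one i) (by omega)
    exact mul_le_mul h1 h2 (hη0 i) (pow_nonneg (EFam.Lam_pos' i).le _)
  have shiftB : ∀ {j m l : ℕ} {u : 𝓔.I → Q → ℝ}, 𝓔.toFam.B (𝓔.W j m l) u →
      𝓔.toFam.B (𝓔.W j m l) (fun i => shift (γ i) (u i)) := fun hu =>
    Fam.B.shift (EFam.W_nn _ _ _) hη0 hu hγ0 hLg
  -- coefficients
  have hg2 : ∀ i, ∀ z ∈ 𝓔.toFam.dom i, pd 1 (lift (γ i)) z = v i z.1 := fun i z hz =>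
    pd1_int2 (𝓔.isOpen i) (h.star i) (hvs i) hz
  have he1 : 𝓔.toFam.B (𝓔.W 0 (7+n+16) 1) (fun i z => 𝓔.eps i • pd 0 (lift (γ i)) z) :=
    EFam.B_eps (EFam.B_pd hγW 0)
  have he2 : 𝓔.toFam.B (𝓔.W 0 (7+n+16) 0) (fun i z => 𝓔.eps i • pd 1 (lift (γ i)) z) :=
    (EFam.B_eps hv0).congr (fun i z hz => by
      show 𝓔.eps i • v i z.1 = 𝓔.eps i • pd 1 (lift (γ i)) z
      rw [hg2 i z hz])
  have ind : ∀ (j : Fin 3) i, ∀ x ∈ 𝓔.D i, ∀ s t,
      pd j (lift (γ i)) (x, s) = pd j (lift (γ i)) (x, t) := by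
    intro j i x hx s t
    rw [pd, pd, (lift_hasFDerivAt (𝓔.isOpen i) (hγs i) (z := (x, s)) hx).fderiv,
      (lift_hasFDerivAt (𝓔.isOpen i) (hγs i) (z := (x, t)) hx).fderiv]
  -- classes of the ingredients
  have h12 : 𝓔.toFam.B (𝓔.W 1 15 0) (d.E12 F) := by
    have h1 := EFam.B_add (EFam.B_le (j' := 1) (m' := 15) (l' := 0) hE.o12
      (by omega) (by omega) (by omega))
      (EFam.B_le (j' := 1) (m' := 15) (l' := 0) hE.m12 (by omega) (by omega) (by omega))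
    refine h1.congr (fun i z _ => ?_)
    show d.E12 F i z - mean (d.E12 F i) z + mean (d.E12 F i) z = _
    ring
  have bN := NB h hG
  have bH := HB h hG h12
  have bL := LB h hG
  have oN := shiftB (Fam.B.osc (EFam.W_nn _ _ _) bN)
  have oH := shiftB (Fam.B.osc (EFam.W_nn _ _ _) bH)
  have oL := shiftB (Fam.B.osc (EFam.W_nn _ _ _) bL)
  have mN := mNB h hG
  have mH := mHB h hG
  have mL := Fam.B.mean (EFam.W_nn _ _ _) bL
  have pN : ∀ i, PerOn (𝓔.D i) (N d F i) := fun i => inner_per (A1_per hG i) (U2_per h hG i)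
  have pH : ∀ i, PerOn (𝓔.D i) (H d F i) := fun i => inner_per (A2_per hG i) (U2_per h hG i)
  have pL : ∀ i, PerOn (𝓔.D i) (L d F i) := fun i => inner_per (U2_per h hG i) (U2_per h hG i)
  have z0' : ∀ m : ℕ, 𝓔.toFam.B (𝓔.W 0 m 0) (fun _ _ => (0:ℝ)) := fun m => EFam.B_zero
  have z0 := z0' (7+n+16)
  refine ⟨fun i => shift (γ i) (F i), ⟨?_, ?_, ?_, ?_⟩, ⟨?_, ?_, ?_, ?_, ?_, ?_⟩⟩
  · exact fun i => shift_contDiffOn (hG.sm i) (hγs i)
  · intro i x hx t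
    show F i (x, t + 2 * Real.pi + γ i x) = F i (x, t + γ i x)
    rw [show t + 2 * Real.pi + γ i x = (t + γ i x) + 2 * Real.pi by ring]
    exact hG.per i x hx _
  · -- rho_osc
    have hs1 := Fam.B.shift (EFam.W_nn _ _ _) hη0 hG.rho_osc hγ0 hLg
    have hs2 : 𝓔.toFam.B (𝓔.W 1 7 1) (fun i z => shift (γ i) (d.u1 i) z - d.u1 i z) :=
      EFam.B_le (EFam.B_weq (j := 1) (m := 7+n) (l := 1)
        (Fam.B.shift_sub (EFam.W_nn _ _ _) hη0 (u1B h) hγ0 hLg)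
        (fun i x _ => by simp only [EFam.W]; ring)) (by omega) (by omega) (by omega)
    refine (EFam.B_add hs1 hs2).congr (fun i z hz => ?_)
    exact (rhoF'_osc h hG γ i hz).symm
  · -- rho_mean
    exact hG.rho_mean.congr (fun i z hz => (rhoF'_mean h hG γ i hz).symm)
  · -- o11
    refine (EFam.B_add (EFam.B_add (EFam.B_add (shiftB hE.o11)
      (EFam.B_mulR (j'' := 1) (m'' := 15+n) (l'' := 0) (EFam.B_cmul 2 he1) oN
        (by omega) (by omega) (by omega)))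
      (EFam.B_mulR (j'' := 1) (m'' := 15+n) (l'' := 0) z0 oH (by omega) (by omega) (by omega)))
      (EFam.B_mulR (j'' := 1) (m'' := 15+n) (l'' := 0) (EFam.B_mul he1 he1) oL
        (by omega) (by omega) (by omega))).congr (fun i z hz => ?_)
    exact (comb_osc (E11_sm h hG i) (bN.smooth i) (bH.smooth i) (bL.smooth i)
      (E11_per hG i) (pN i) (pH i) (pL i) (c1 := fun z => 2 * (𝓔.eps i • pd 0 (lift (γ i)) z))
      (c2 := fun _ => 0)
      (c3 := fun z => (𝓔.eps i • pd 0 (lift (γ i)) z) * (𝓔.eps i • pd 0 (lift (γ i)) z))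
      (E11_F' h hG hγs i)
      (fun x hx s t => by simp only [ind 0 i x hx s t]) (fun _ _ _ _ => rfl)
      (fun x hx s t => by simp only [ind 0 i x hx s t]) hz).symm
  · -- m11
    refine (EFam.B_add (EFam.B_add (EFam.B_add hE.m11
      (EFam.B_mulR (j'' := 2) (m'' := 15+n) (l'' := 0) (EFam.B_cmul 2 he1) mN
        (by omega) (by omega) (by omega)))
      (EFam.B_mulR (j'' := 2) (m'' := 15+n) (l'' := 0) z0 mH (by omega) (by omega) (by omega)))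
      (EFam.B_mulR (j'' := 2) (m'' := 15+n) (l'' := 0) (EFam.B_mul he1 he1) mL
        (by omega) (by omega) (by omega))).congr (fun i z hz => ?_)
    exact (comb (E11_sm h hG i) (bN.smooth i) (bH.smooth i) (bL.smooth i)
      (E11_per hG i) (pN i) (pH i) (pL i) (c1 := fun z => 2 * (𝓔.eps i • pd 0 (lift (γ i)) z))
      (c2 := fun _ => 0)
      (c3 := fun z => (𝓔.eps i • pd 0 (lift (γ i)) z) * (𝓔.eps i • pd 0 (lift (γ i)) z))
      (E11_F' h hG hγs i)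
      (fun x hx s t => by simp only [ind 0 i x hx s t]) (fun _ _ _ _ => rfl)
      (fun x hx s t => by simp only [ind 0 i x hx s t]) hz).symm
  · -- o12
    refine (EFam.B_add (EFam.B_add (EFam.B_add (shiftB hE.o12)
      (EFam.B_mulR (j'' := 1) (m'' := 15+n) (l'' := 0) he2 oN
        (by omega) (by omega) (by omega)))
      (EFam.B_mulR (j'' := 1) (m'' := 15+n) (l'' := 0) he1 oH (by omega) (by omega) (by omega)))
      (EFam.B_mulR (j'' := 1) (m'' := 15+n) (l'' := 0) (EFam.B_mul he1 he2) oL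
        (by omega) (by omega) (by omega))).congr (fun i z hz => ?_)
    exact (comb_osc (E12_sm h hG i) (bN.smooth i) (bH.smooth i) (bL.smooth i)
      (E12_per hG i) (pN i) (pH i) (pL i) (c1 := fun z => 𝓔.eps i • pd 1 (lift (γ i)) z)
      (c2 := fun z => 𝓔.eps i • pd 0 (lift (γ i)) z)
      (c3 := fun z => (𝓔.eps i • pd 0 (lift (γ i)) z) * (𝓔.eps i • pd 1 (lift (γ i)) z))
      (E12_F' h hG hγs i)
      (fun x hx s t => by simp only [ind 1 i x hx s t])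
      (fun x hx s t => by simp only [ind 0 i x hx s t])
      (fun x hx s t => by simp only [ind 0 i x hx s t, ind 1 i x hx s t]) hz).symm
  · -- m12
    have hK := Fam.B.mean (EFam.W_nn _ _ _) (KB h hG)
    refine (EFam.B_add (EFam.B_add (EFam.B_neg
      (EFam.B_mulR (j'' := 2) (m'' := 24+n) (l'' := 0) hq hK (by omega) (by omega) (by omega)))
      (EFam.B_mulR (j'' := 2) (m'' := 24+n) (l'' := 0) he1 mH (by omega) (by omega) (by omega)))
      (EFam.B_mulR (j'' := 2) (m'' := 24+n) (l'' := 0) (EFam.B_mul he1 he2) mL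
        (by omega) (by omega) (by omega))).congr (fun i z hz => ?_)
    have hc := comb (E12_sm h hG i) (bN.smooth i) (bH.smooth i) (bL.smooth i)
      (E12_per hG i) (pN i) (pH i) (pL i) (c1 := fun z => 𝓔.eps i • pd 1 (lift (γ i)) z)
      (c2 := fun z => 𝓔.eps i • pd 0 (lift (γ i)) z)
      (c3 := fun z => (𝓔.eps i • pd 0 (lift (γ i)) z) * (𝓔.eps i • pd 1 (lift (γ i)) z))
      (E12_F' h hG hγs i)
      (fun x hx s t => by simp only [ind 1 i x hx s t])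
      (fun x hx s t => by simp only [ind 0 i x hx s t])
      (fun x hx s t => by simp only [ind 0 i x hx s t, ind 1 i x hx s t]) hz
    rw [hc, mean_N h hG i hz]
    have ha := (𝓔.a_pos i z.1 hz).ne'
    have he := (EFam.eps_pos (𝓔 := 𝓔) i).ne'
    have e1 : 𝓔.eps i • pd 1 (lift (γ i)) z = -((𝓔.a i z.1 ^ 2)⁻¹ * mean (d.E12 F i) z) := by
      rw [hg2 i z hz]
      show 𝓔.eps i * (-((𝓔.eps i)⁻¹ * ((𝓔.a i z.1 ^ 2)⁻¹ * mean (d.E12 F i) z))) = _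
      field_simp
    have e2 : -((𝓔.a i z.1 ^ 2)⁻¹ * mean (d.E12 F i) z) * (𝓔.a i z.1 ^ 2 + mean (K d F i) z)
        = - mean (d.E12 F i) z - (𝓔.a i z.1 ^ 2)⁻¹ * mean (d.E12 F i) z * mean (K d F i) z := by
      field_simp
      ring
    simp only [e1, e2, smul_eq_mul]
    ring
  · -- o22
    refine (EFam.B_add (EFam.B_add (EFam.B_add (shiftB hE.o22)
      (EFam.B_mulR (j'' := 1) (m'' := 27+n) (l'' := 0) (z0' (27+n)) oN
        (by omega) (by omega) (by omega)))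
      (EFam.B_mulR (j'' := 1) (m'' := 27+n) (l'' := 0) (EFam.B_cmul 2 he2) oH
        (by omega) (by omega) (by omega)))
      (EFam.B_mulR (j'' := 1) (m'' := 27+n) (l'' := 0) (EFam.B_mul he2 he2) oL
        (by omega) (by omega) (by omega))).congr (fun i z hz => ?_)
    exact (comb_osc (E22_sm h hG i) (bN.smooth i) (bH.smooth i) (bL.smooth i)
      (E22_per hG i) (pN i) (pH i) (pL i) (c1 := fun _ => 0)
      (c2 := fun z => 2 * (𝓔.eps i • pd 1 (lift (γ i)) z))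
      (c3 := fun z => (𝓔.eps i • pd 1 (lift (γ i)) z) * (𝓔.eps i • pd 1 (lift (γ i)) z))
      (E22_F' h hG hγs i) (fun _ _ _ _ => rfl)
      (fun x hx s t => by simp only [ind 1 i x hx s t])
      (fun x hx s t => by simp only [ind 1 i x hx s t]) hz).symm
  · -- m22
    refine (EFam.B_add (EFam.B_add (EFam.B_add hE.m22
      (EFam.B_mulR (j'' := 2) (m'' := 28+n) (l'' := 0) (z0' (28+n)) mN
        (by omega) (by omega) (by omega)))
      (EFam.B_mulR (j'' := 2) (m'' := 28+n) (l'' := 0) (EFam.B_cmul 2 he2) mH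
        (by omega) (by omega) (by omega)))
      (EFam.B_mulR (j'' := 2) (m'' := 28+n) (l'' := 0) (EFam.B_mul he2 he2) mL
        (by omega) (by omega) (by omega))).congr (fun i z hz => ?_)
    exact (comb (E22_sm h hG i) (bN.smooth i) (bH.smooth i) (bL.smooth i)
      (E22_per hG i) (pN i) (pH i) (pL i) (c1 := fun _ => 0)
      (c2 := fun z => 2 * (𝓔.eps i • pd 1 (lift (γ i)) z))
      (c3 := fun z => (𝓔.eps i • pd 1 (lift (γ i)) z) * (𝓔.eps i • pd 1 (lift (γ i)) z))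
      (E22_F' h hG hγs i) (fun _ _ _ _ => rfl)
      (fun x hx s t => by simp only [ind 1 i x hx s t])
      (fun x hx s t => by simp only [ind 1 i x hx s t]) hz).symm

end EData

end Crest.Agent.R216.TE
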