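import Crest.Agent.R216.ClsT
import Crest.Agent.R216.EngExp

/-!
# Row 216, Theorem E, Step 3 of the engine: amplitude correction
`F' = F + β osc F`, `β = - mean E11 / (2 a²)`. All helpers are in the namespace `TE.S3`.
-/

open Set Topology MeasureTheory
open scoped ContDiff

set_option linter.unusedSectionVars false

namespace Crest.Agent.R216.TE
namespace S3

section slice
variable {V V' : Type*} [NormedAddCommGroup V] [NormedSpace ℝ V]
  [NormedAddCommGroup V'] [NormedSpace ℝ V']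

/-- continuity of the `t`-slice at `x` -/
def Cs (u : Q → V) (x : X2) : Prop := Continuous fun s : ℝ => u (x, s)

lemma Cs.of_contDiffOn {D : Set X2} {u : Q → V} (hu : ContDiffOn ℝ ∞ u {z | z.1 ∈ D}) {x : X2}
    (hx : x ∈ D) : Cs u x :=
  hu.continuousOn.comp_continuous (by fun_prop) (fun s => hx)

lemma Cs.add {u v : Q → V} {x : X2} (hu : Cs u x) (hv : Cs v x) : Cs (fun z => u z + v z) x :=
  Continuous.add hu hv

lemma Cs.sub {u v : Q → V} {x : X2} (hu : Cs u x) (hv : Cs v x) : Cs (fun z => u z - v z) x :=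
  Continuous.sub hu hv

lemma Cs.smul {g : Q → ℝ} {u : Q → V} {x : X2} (hg : Cs g x) (hu : Cs u x) :
    Cs (fun z => g z • u z) x := Continuous.smul hg hu

lemma Cs.mul {g u : Q → ℝ} {x : X2} (hg : Cs g x) (hu : Cs u x) :
    Cs (fun z => g z * u z) x := Continuous.mul hg hu

lemma Cs.const_smul {c : ℝ} {u : Q → V} {x : X2} (hu : Cs u x) :
    Cs (fun z => c • u z) x := Continuous.const_smul hu c

lemma Cs.const_mul {c : ℝ} {u : Q → ℝ} {x : X2} (hu : Cs u x) :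
    Cs (fun z => c * u z) x := Continuous.const_mul hu c

lemma Cs.inner {u v : Q → E4} {x : X2} (hu : Cs u x) (hv : Cs v x) :
    Cs (fun z => inner ℝ (u z) (v z)) x := Continuous.inner hu hv

lemma Cs.tindep {u : Q → V} {x : X2} (h : ∀ s, u (x, s) = u (x, 0)) : Cs u x := by
  have : (fun s : ℝ => u (x, s)) = fun _ => u (x, 0) := funext h
  show Continuous (fun s : ℝ => u (x, s))
  rw [this]; exact continuous_const

lemma Cs.mean (u : Q → V) (x : X2) : Cs (Crest.Agent.R216.TE.mean u) x :=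
  Cs.tindep (fun _ => rfl)

lemma Cs.osc {u : Q → V} {x : X2} (hu : Cs u x) : Cs (Crest.Agent.R216.TE.osc u) x :=
  Cs.sub hu (Cs.mean u x)

lemma Cs.int {u : Q → V} {x : X2} (h : Cs u x) (a b : ℝ) :
    IntervalIntegrable (fun s => u (x, s)) volume a b := Continuous.intervalIntegrable h a b

/-! ### algebra of `mean` -/

lemma mean_indep (u : Q → V) (x : X2) (s t : ℝ) : mean u (x, s) = mean u (x, t) := rfl

lemma mean_indep' (u : Q → V) (z : Q) (s : ℝ) : mean u (z.1, s) = mean u z := rfl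

lemma mean_congr {u v : Q → V} {z : Q} (h : ∀ s, u (z.1, s) = v (z.1, s)) :
    mean u z = mean v z := by
  simp only [mean, h]

lemma mean_tindep [CompleteSpace V] {u : Q → V} {z : Q} (h : ∀ s, u (z.1, s) = u z) :
    mean u z = u z := by
  have h2 : (2 * Real.pi) ≠ 0 := by positivity
  simp only [mean, h, intervalIntegral.integral_const, sub_zero, smul_smul]
  rw [inv_mul_cancel₀ h2, one_smul]

lemma mean_add {u v : Q → V} {z : Q} (hu : Cs u z.1) (hv : Cs v z.1) :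
    mean (fun z => u z + v z) z = mean u z + mean v z := by
  simp only [mean]
  rw [intervalIntegral.integral_add (hu.int _ _) (hv.int _ _), smul_add]

lemma mean_sub {u v : Q → V} {z : Q} (hu : Cs u z.1) (hv : Cs v z.1) :
    mean (fun z => u z - v z) z = mean u z - mean v z := by
  simp only [mean]
  rw [intervalIntegral.integral_sub (hu.int _ _) (hv.int _ _), smul_sub]

lemma mean_neg (u : Q → V) (z : Q) : mean (fun z => - u z) z = - mean u z := by
  simp only [mean]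
  rw [intervalIntegral.integral_neg, smul_neg]

lemma mean_const_smul (c : ℝ) (u : Q → V) (z : Q) :
    mean (fun z => c • u z) z = c • mean u z := by
  simp only [mean]
  rw [intervalIntegral.integral_smul, smul_comm]

lemma mean_const_mul (c : ℝ) (u : Q → ℝ) (z : Q) :
    mean (fun z => c * u z) z = c * mean u z := mean_const_smul c u z

lemma mean_smul_tindep {g : Q → ℝ} {u : Q → V} {z : Q} (h : ∀ s, g (z.1, s) = g z) :
    mean (fun z => g z • u z) z = g z • mean u z := by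
  simp only [mean, h]
  rw [intervalIntegral.integral_smul, smul_comm]

lemma mean_mul_tindep {g : Q → ℝ} {u : Q → ℝ} {z : Q} (h : ∀ s, g (z.1, s) = g z) :
    mean (fun z => g z * u z) z = g z * mean u z := mean_smul_tindep h

lemma mean_clm [CompleteSpace V] [CompleteSpace V'] (L : V →L[ℝ] V') {u : Q → V} {z : Q}
    (hu : Cs u z.1) : mean (fun z => L (u z)) z = L (mean u z) := by
  simp only [mean, map_smul]
  rw [← L.intervalIntegral_comp_comm (hu.int _ _)]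

lemma mean_inner_tindep {c v : Q → E4} {z : Q} (h : ∀ s, c (z.1, s) = c z) (hv : Cs v z.1) :
    mean (fun z => inner ℝ (c z) (v z)) z = inner ℝ (c z) (mean v z) := by
  have h1 : mean (fun z' => inner ℝ (c z') (v z')) z
      = mean (fun z' => (innerSL ℝ (c z)) (v z')) z :=
    mean_congr (fun s => by simp [h s])
  rw [h1, mean_clm _ hv]; simp

lemma mean_inner_tindep' {c v : Q → E4} {z : Q} (h : ∀ s, c (z.1, s) = c z) (hv : Cs v z.1) :
    mean (fun z => inner ℝ (v z) (c z)) z = inner ℝ (mean v z) (c z) := by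
  rw [real_inner_comm, ← mean_inner_tindep h hv]
  exact mean_congr (fun s => real_inner_comm _ _)

lemma mean_osc [CompleteSpace V] {u : Q → V} {z : Q} (hu : Cs u z.1) : mean (osc u) z = 0 := by
  have h1 : mean (osc u) z = mean u z - mean (mean u) z := mean_sub hu (Cs.mean u z.1)
  rw [h1, mean_tindep (u := mean u) (fun s => rfl), sub_self]

lemma eq_mean_add_osc (u : Q → V) (z : Q) : u z = mean u z + osc u z := by
  simp [osc]

/-- if `mean u = 0` at `z` then `osc u = u` -/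
lemma osc_of_mean_zero {u : Q → V} {z : Q} (h : mean u z = 0) : osc u z = u z := by
  simp [osc, h]

lemma osc_congr {u v : Q → V} {z : Q} (h : ∀ s, u (z.1, s) = v (z.1, s)) :
    osc u z = osc v z := by
  simp only [osc, mean_congr h]
  rw [show u z = v z from h z.2]

lemma osc_add {u v : Q → V} {z : Q} (hu : Cs u z.1) (hv : Cs v z.1) :
    osc (fun z => u z + v z) z = osc u z + osc v z := by
  simp only [osc, mean_add hu hv]; abel

lemma osc_sub {u v : Q → V} {z : Q} (hu : Cs u z.1) (hv : Cs v z.1) :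
    osc (fun z => u z - v z) z = osc u z - osc v z := by
  simp only [osc, mean_sub hu hv]; abel

lemma osc_neg (u : Q → V) (z : Q) : osc (fun z => - u z) z = - osc u z := by
  simp only [osc, mean_neg]; abel

lemma osc_const_smul (c : ℝ) (u : Q → V) (z : Q) :
    osc (fun z => c • u z) z = c • osc u z := by
  simp only [osc, mean_const_smul, smul_sub]

lemma osc_smul_tindep {g : Q → ℝ} {u : Q → V} {z : Q} (h : ∀ s, g (z.1, s) = g z) :
    osc (fun z => g z • u z) z = g z • osc u z := by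
  simp only [osc, mean_smul_tindep h, smul_sub]

lemma osc_tindep [CompleteSpace V] {u : Q → V} {z : Q} (h : ∀ s, u (z.1, s) = u z) :
    osc u z = 0 := by
  simp [osc, mean_tindep h]

/-- product rule for the mean -/
lemma mean_inner {u v : Q → E4} {z : Q} (hu : Cs u z.1) (hv : Cs v z.1) :
    mean (fun z => inner ℝ (u z) (v z)) z
      = inner ℝ (mean u z) (mean v z) + mean (fun z => inner ℝ (osc u z) (osc v z)) z := by
  have e : (fun z' : Q => (inner ℝ (u z') (v z') : ℝ)) = fun z' => (inner ℝ (mean u z') (mean v z')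
      + inner ℝ (mean u z') (osc v z')) + (inner ℝ (osc u z') (mean v z')
      + inner ℝ (osc u z') (osc v z')) := by
    funext z'
    conv_lhs => rw [eq_mean_add_osc u z', eq_mean_add_osc v z']
    rw [inner_add_left, inner_add_right, inner_add_right]
  have hmu := Cs.mean u z.1
  have hmv := Cs.mean v z.1
  have hou := hu.osc
  have hov := hv.osc
  rw [e,
    mean_add ((hmu.inner hmv).add (hmu.inner hov)) ((hou.inner hmv).add (hou.inner hov)),
    mean_add (hmu.inner hmv) (hmu.inner hov), mean_add (hou.inner hmv) (hou.inner hov),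
    mean_inner_tindep (fun s => rfl) hmv, mean_inner_tindep (fun s => rfl) hov,
    mean_inner_tindep' (fun s => rfl) hou, mean_osc hu, mean_osc hv,
    mean_tindep (u := mean v) (fun s => rfl)]
  simp

/-- product rule when the second factor has mean zero -/
lemma mean_inner_osc {u v : Q → E4} {z : Q} (hu : Cs u z.1) (hv : Cs v z.1)
    (h0 : mean v z = 0) :
    mean (fun z => inner ℝ (u z) (v z)) z = mean (fun z => inner ℝ (osc u z) (v z)) z := by
  rw [mean_inner hu hv, h0, inner_zero_right, zero_add]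
  exact mean_congr (fun s => by
    rw [osc_of_mean_zero (u := v) (z := (z.1, s)) (by rw [mean_indep']; exact h0)])

lemma mean_mul {u v : Q → ℝ} {z : Q} (hu : Cs u z.1) (hv : Cs v z.1) :
    mean (fun z => u z * v z) z
      = mean u z * mean v z + mean (fun z => osc u z * osc v z) z := by
  have e : (fun z' : Q => u z' * v z') = fun z' => (mean u z' * mean v z' + mean u z' * osc v z')
      + (mean v z' * osc u z' + osc u z' * osc v z') := by
    funext z'
    simp only [osc]; ring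
  have hmu := Cs.mean u z.1
  have hmv := Cs.mean v z.1
  have hou := hu.osc
  have hov := hv.osc
  rw [e,
    mean_add ((hmu.mul hmv).add (hmu.mul hov)) ((hmv.mul hou).add (hou.mul hov)),
    mean_add (hmu.mul hmv) (hmu.mul hov), mean_add (hmv.mul hou) (hou.mul hov),
    mean_mul_tindep (fun s => rfl), mean_mul_tindep (fun s => rfl),
    mean_mul_tindep (fun s => rfl), mean_osc hu, mean_osc hv,
    mean_tindep (u := mean v) (fun s => rfl)]
  simp

end slice

/-! ### derivatives -/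
section deriv
variable {V V' : Type*} [NormedAddCommGroup V] [NormedSpace ℝ V]
  [NormedAddCommGroup V'] [NormedSpace ℝ V']

lemma pd_add {u v : Q → V} {z : Q} (hu : DifferentiableAt ℝ u z) (hv : DifferentiableAt ℝ v z)
    (j : Fin 3) : pd j (fun z => u z + v z) z = pd j u z + pd j v z := by
  simp only [pd]; rw [fderiv_fun_add hu hv]; rfl

lemma pd_sub {u v : Q → V} {z : Q} (hu : DifferentiableAt ℝ u z) (hv : DifferentiableAt ℝ v z)
    (j : Fin 3) : pd j (fun z => u z - v z) z = pd j u z - pd j v z := by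
  simp only [pd]; rw [fderiv_fun_sub hu hv]; rfl

lemma pd_neg (u : Q → V) (z : Q) (j : Fin 3) : pd j (fun z => - u z) z = - pd j u z := by
  simp only [pd]; rw [fderiv_fun_neg]; rfl

lemma pd_const_smul {u : Q → V} {z : Q} (hu : DifferentiableAt ℝ u z) (c : ℝ) (j : Fin 3) :
    pd j (fun z => c • u z) z = c • pd j u z := by
  simp only [pd]; rw [fderiv_fun_const_smul hu]; rfl

lemma pd_smul {g : Q → ℝ} {u : Q → V} {z : Q} (hg : DifferentiableAt ℝ g z)
    (hu : DifferentiableAt ℝ u z) (j : Fin 3) :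
    pd j (fun z => g z • u z) z = g z • pd j u z + pd j g z • u z := by
  simp only [pd]; rw [fderiv_fun_smul hg hu]; simp

lemma pd_mul {g u : Q → ℝ} {z : Q} (hg : DifferentiableAt ℝ g z)
    (hu : DifferentiableAt ℝ u z) (j : Fin 3) :
    pd j (fun z => g z * u z) z = g z * pd j u z + pd j g z * u z := pd_smul hg hu j

lemma pd_inner {u v : Q → E4} {z : Q} (hu : DifferentiableAt ℝ u z)
    (hv : DifferentiableAt ℝ v z) (j : Fin 3) :
    pd j (fun z => inner ℝ (u z) (v z)) z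
      = inner ℝ (pd j u z) (v z) + inner ℝ (u z) (pd j v z) := by
  simp only [pd]
  rw [fderiv_inner_apply ℝ hu hv]; ring

lemma pd_clm (L : V →L[ℝ] V') {u : Q → V} {z : Q} (hu : DifferentiableAt ℝ u z) (j : Fin 3) :
    pd j (fun z => L (u z)) z = L (pd j u z) := by
  have h : HasFDerivAt (fun z => L (u z)) (L.comp (fderiv ℝ u z)) z :=
    L.hasFDerivAt.comp z hu.hasFDerivAt
  simp only [pd]
  rw [h.fderiv]; rfl

/-- derivatives of a function of `x` -/
lemma pd_lift {f : X2 → V} {z : Q} (hf : DifferentiableAt ℝ f z.1) (j : Fin 3) :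
    pd j (lift f) z = fderiv ℝ f z.1 (bas j).1 := by
  have h1 : HasFDerivAt (fun z : Q => f z.1) ((fderiv ℝ f z.1).comp
      (ContinuousLinearMap.fst ℝ X2 ℝ)) z := hf.hasFDerivAt.comp z hasFDerivAt_fst
  show fderiv ℝ (fun z : Q => f z.1) z (bas j) = _
  rw [h1.fderiv]; rfl

lemma pd0_lift {f : X2 → V} {z : Q} (hf : DifferentiableAt ℝ f z.1) :
    pd 0 (lift f) z = lift (d1 f) z := pd_lift hf 0

lemma pd1_lift {f : X2 → V} {z : Q} (hf : DifferentiableAt ℝ f z.1) :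
    pd 1 (lift f) z = lift (d2 f) z := pd_lift hf 1

lemma pd2_lift {f : X2 → V} {z : Q} (hf : DifferentiableAt ℝ f z.1) :
    pd 2 (lift f) z = 0 := by
  rw [pd_lift hf 2]
  show fderiv ℝ f z.1 ((0:ℝ), (0:ℝ)) = 0
  have : ((0:ℝ), (0:ℝ)) = (0 : X2) := rfl
  rw [this, map_zero]

/-- a `t`-independent function has zero `t`-derivative -/
lemma pd2_tindep {u : Q → V} {z : Q} (h : ∀ x t, u (x, t) = u (x, 0)) : pd 2 u z = 0 := by
  by_cases hd : DifferentiableAt ℝ u z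
  · have h1 : HasDerivAt (fun s : ℝ => u (z.1, s)) (pd 2 u z) z.2 := by
      have h2 : HasDerivAt (fun s : ℝ => ((z.1, s) : Q)) (bas 2) z.2 := by
        have : HasDerivAt (fun s : ℝ => ((z.1, s) : Q)) ((0 : X2), (1:ℝ)) z.2 :=
          (hasDerivAt_const z.2 z.1).prodMk (hasDerivAt_id z.2)
        exact this
      exact hd.hasFDerivAt.comp_hasDerivAt z.2 h2
    have h3 : (fun s : ℝ => u (z.1, s)) = fun _ => u (z.1, 0) := funext (fun s => h z.1 s)
    rw [h3] at h1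
    exact h1.unique (hasDerivAt_const _ _)
  · simp [pd, fderiv_zero_of_not_differentiableAt hd]

/-- the `x`-derivatives of a `t`-independent function are `t`-independent -/
lemma pd_tindep {u : Q → V} (h : ∀ x t, u (x, t) = u (x, 0)) (j : Fin 3) (x : X2) (t : ℝ) :
    pd j u (x, t) = pd j u (x, 0) := by
  have h1 : u = fun z => u (z + ((0 : X2), t)) := by
    funext z
    rw [show u z = u (z.1, 0) from h z.1 z.2,
      show z + ((0 : X2), t) = (z.1, z.2 + t) by ext <;> simp, h z.1 (z.2 + t)]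
  have h2 : fderiv ℝ (fun z => u (z + ((0 : X2), t))) (x, 0) = fderiv ℝ u ((x, 0) + ((0 : X2), t)) :=
    fderiv_comp_add_right _
  simp only [pd]
  rw [← h1] at h2
  rw [h2]
  congr 2
  ext <;> simp

end deriv


/-! ### pieces of a good state -/
section state
variable {𝓔 : EFam} {d : EData 𝓔}

lemma dom_iff {i : 𝓔.I} {z : Q} : z ∈ 𝓔.toFam.dom i ↔ z.1 ∈ 𝓔.D i := Iff.rfl

lemma cs {V : Type*} [NormedAddCommGroup V] [NormedSpace ℝ V] {u : 𝓔.I → Q → V}
    (hu : 𝓔.toFam.Sm u) {i : 𝓔.I} {z : Q} (hz : z ∈ 𝓔.toFam.dom i) : Cs (u i) z.1 :=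
  Cs.of_contDiffOn (hu i) hz

lemma df {V : Type*} [NormedAddCommGroup V] [NormedSpace ℝ V] {u : 𝓔.I → Q → V}
    (hu : 𝓔.toFam.Sm u) {i : 𝓔.I} {z : Q} (hz : z ∈ 𝓔.toFam.dom i) :
    DifferentiableAt ℝ (u i) z := diffAt (𝓔.toFam.isOpen_dom i) (hu i) hz

lemma B_mean {V : Type*} [NormedAddCommGroup V] [NormedSpace ℝ V] [CompleteSpace V]
    {j m l : ℕ} {u : 𝓔.I → Q → V} (h : 𝓔.toFam.B (𝓔.W j m l) u) :
    𝓔.toFam.B (𝓔.W j m l) (fun i => mean (u i)) := Fam.B.mean (EFam.W_nn _ _ _) h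

lemma B_osc {V : Type*} [NormedAddCommGroup V] [NormedSpace ℝ V] [CompleteSpace V]
    {j m l : ℕ} {u : 𝓔.I → Q → V} (h : 𝓔.toFam.B (𝓔.W j m l) u) :
    𝓔.toFam.B (𝓔.W j m l) (fun i => osc (u i)) := Fam.B.osc (EFam.W_nn _ _ _) h

/-- `u₁` is in `B(a)` -/
lemma u1B (h : d.Hyp) : 𝓔.toFam.B (𝓔.W 1 0 0) d.u1 :=
  Fam.B.prim (EFam.W_nn _ _ _) h.WB h.Wper

lemma mean_u1 (h : d.Hyp) {i : 𝓔.I} {z : Q} (hz : z ∈ 𝓔.toFam.dom i) : mean (d.u1 i) z = 0 :=
  mean_prim (D := 𝓔.D i) (h.WB.smooth i) hz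

lemma pd2_u1 (h : d.Hyp) {i : 𝓔.I} {z : Q} (hz : z ∈ 𝓔.toFam.dom i) :
    pd 2 (d.u1 i) z = d.Wl i z := by
  show pd 2 (prim (d.Wl i)) z = _
  rw [pd2_prim (𝓔.isOpen i) (h.WB.smooth i) hz]
  exact osc_of_mean_zero (h.Wmean i z hz)

lemma F_eq (F : 𝓔.I → Q → E4) (i : 𝓔.I) (z : Q) :
    F i z = d.f i z.1 + 𝓔.eps i • (d.u1 i z + d.rho F i z) := by
  have he := (EFam.eps_pos i).ne'
  simp only [EData.rho, add_sub_cancel]
  rw [smul_smul, mul_inv_cancel₀ he, one_smul, add_sub_cancel]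

lemma rho_sm (h : d.Hyp) {F : 𝓔.I → Q → E4} (hF : 𝓔.toFam.Sm F) : 𝓔.toFam.Sm (d.rho F) :=
  fun i => (((hF i).sub (h.fsm i)).const_smul _).sub ((u1B h).smooth i)

lemma osc_F (h : d.Hyp) {F : 𝓔.I → Q → E4} (hF : 𝓔.toFam.Sm F) {i : 𝓔.I} {z : Q}
    (hz : z ∈ 𝓔.toFam.dom i) :
    osc (F i) z = 𝓔.eps i • (d.u1 i z + osc (d.rho F i) z) := by
  have e : F i = fun z => lift (d.f i) z + 𝓔.eps i • (d.u1 i z + d.rho F i z) :=
    funext (fun z => F_eq F i z)
  have c1 := cs (u1B h).smooth hz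
  have c2 := cs (rho_sm h hF) hz
  have c3 : Cs (lift (d.f i)) z.1 := Cs.tindep (fun _ => rfl)
  rw [e, osc_add c3 (c1.add c2).const_smul, osc_const_smul, osc_add c1 c2,
    osc_tindep (u := lift (d.f i)) (fun _ => rfl), zero_add,
    osc_of_mean_zero (mean_u1 h hz)]

lemma mean_F (h : d.Hyp) {F : 𝓔.I → Q → E4} (hF : 𝓔.toFam.Sm F) {i : 𝓔.I} {z : Q}
    (hz : z ∈ 𝓔.toFam.dom i) :
    mean (F i) z = lift (d.f i) z + 𝓔.eps i • mean (d.rho F i) z := by
  have e : F i = fun z => lift (d.f i) z + 𝓔.eps i • (d.u1 i z + d.rho F i z) :=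
    funext (fun z => F_eq F i z)
  have c1 := cs (u1B h).smooth hz
  have c2 := cs (rho_sm h hF) hz
  have c3 : Cs (lift (d.f i)) z.1 := Cs.tindep (fun _ => rfl)
  rw [e, mean_add c3 (c1.add c2).const_smul, mean_const_smul, mean_add c1 c2,
    mean_tindep (u := lift (d.f i)) (fun _ => rfl), mean_u1 h hz, zero_add]

lemma B_oF (h : d.Hyp) {F : 𝓔.I → Q → E4} (hG : d.Good F) :
    𝓔.toFam.B (𝓔.W 1 16 0) (fun i => osc (F i)) := by
  have h1 : 𝓔.toFam.B (𝓔.W 1 0 0) (fun i => osc (d.rho F i)) :=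
    EFam.B_le hG.rho_osc le_rfl (by omega) (by omega)
  have h2 := EFam.B_eps (EFam.B_add (u1B h) h1)
  exact h2.congr (fun i z hz => (osc_F h hG.sm hz).symm)

/-! derivatives of the mean and oscillating parts -/

variable {F : 𝓔.I → Q → E4}

lemma sm_osc {V : Type*} [NormedAddCommGroup V] [NormedSpace ℝ V] [CompleteSpace V]
    {u : 𝓔.I → Q → V} (hu : 𝓔.toFam.Sm u) (hm : 𝓔.toFam.Sm (fun i => mean (u i))) :
    𝓔.toFam.Sm (fun i => osc (u i)) := fun i => (hu i).sub (hm i)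

lemma pd2_oF (h : d.Hyp) (hG : d.Good F) {i : 𝓔.I} {z : Q} (hz : z ∈ 𝓔.toFam.dom i) :
    (𝓔.eps i)⁻¹ • pd 2 (osc (F i)) z = d.Wl i z + pd 2 (osc (d.rho F i)) z := by
  have he := (EFam.eps_pos i).ne'
  have e : EqOn (osc (F i)) (fun z => 𝓔.eps i • (d.u1 i z + osc (d.rho F i) z)) (𝓔.toFam.dom i) :=
    fun z hz => osc_F h hG.sm hz
  have d1 := df (u1B h).smooth hz
  have d2 := df hG.rho_osc.smooth hz
  rw [pd_eqOn (𝓔.toFam.isOpen_dom i) e 2 hz, pd_const_smul (d1.fun_add d2), pd_add d1 d2, smul_smul,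
    inv_mul_cancel₀ he, one_smul, pd2_u1 h hz]

lemma mean_A1 (h : d.Hyp) (hG : d.Good F) {i : 𝓔.I} {z : Q} (hz : z ∈ 𝓔.toFam.dom i) :
    mean (𝓔.A1 F i) z = d.f1 i z + 𝓔.eps i • pd 0 (mean (d.rho F i)) z := by
  have c1 := cs (hG.sm.pd 0) hz
  have c2 := cs (hG.sm.pd 2) hz
  have e : EqOn (mean (F i)) (fun z => lift (d.f i) z + 𝓔.eps i • mean (d.rho F i) z)
    (𝓔.toFam.dom i) := fun z hz => mean_F h hG.sm hz
  have d1 := df h.fsm hz
  have d2 := df hG.rho_mean.smooth hz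
  have hf : DifferentiableAt ℝ (d.f i) z.1 := by
    have h2 : DifferentiableAt ℝ (fun x : X2 => ((x, z.2) : Q)) z.1 := by fun_prop
    exact DifferentiableAt.comp (g := lift (d.f i)) (f := fun x : X2 => ((x, z.2) : Q)) z.1 d1 h2
  have e1 : mean (𝓔.A1 F i) z = mean (pd 0 (F i)) z + (𝓔.eps i)⁻¹ • mean (pd 2 (F i)) z := by
    have := mean_add (z := z) c1 (Cs.const_smul (c := (𝓔.eps i)⁻¹) c2)
    rw [mean_const_smul] at this
    exact this
  rw [e1, mean_pd2 (𝓔.isOpen i) (hG.sm i) (hG.per i) hz, smul_zero, add_zero,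
    ← pd_mean (𝓔.isOpen i) (hG.sm i) 0 (by decide) hz, pd_eqOn (𝓔.toFam.isOpen_dom i) e 0 hz,
    pd_add d1 (d2.fun_const_smul _), pd_const_smul d2, pd0_lift hf]
  rfl

lemma mean_A2 (h : d.Hyp) (hG : d.Good F) {i : 𝓔.I} {z : Q} (hz : z ∈ 𝓔.toFam.dom i) :
    mean (𝓔.A2 F i) z = d.f2 i z + 𝓔.eps i • pd 1 (mean (d.rho F i)) z := by
  have e : EqOn (mean (F i)) (fun z => lift (d.f i) z + 𝓔.eps i • mean (d.rho F i) z)
    (𝓔.toFam.dom i) := fun z hz => mean_F h hG.sm hz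
  have d1 := df h.fsm hz
  have d2 := df hG.rho_mean.smooth hz
  have hf : DifferentiableAt ℝ (d.f i) z.1 := by
    have h2 : DifferentiableAt ℝ (fun x : X2 => ((x, z.2) : Q)) z.1 := by fun_prop
    exact DifferentiableAt.comp (g := lift (d.f i)) (f := fun x : X2 => ((x, z.2) : Q)) z.1 d1 h2
  show mean (pd 1 (F i)) z = _
  rw [← pd_mean (𝓔.isOpen i) (hG.sm i) 1 (by decide) hz, pd_eqOn (𝓔.toFam.isOpen_dom i) e 1 hz,
    pd_add d1 (d2.fun_const_smul _), pd_const_smul d2, pd1_lift hf]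
  rfl

/-- the mean of `F` is smooth -/
lemma sm_meanF (h : d.Hyp) (hG : d.Good F) : 𝓔.toFam.Sm (fun i => mean (F i)) := fun i =>
  ((h.fsm i).add ((hG.rho_mean.smooth i).const_smul (𝓔.eps i))).congr
    (fun _ hz => mean_F h hG.sm hz)

lemma osc_A1 (h : d.Hyp) (hG : d.Good F) {i : 𝓔.I} {z : Q} (hz : z ∈ 𝓔.toFam.dom i) :
    osc (𝓔.A1 F i) z = pd 0 (osc (F i)) z + (𝓔.eps i)⁻¹ • pd 2 (osc (F i)) z := by
  have c1 := cs (hG.sm.pd 0) hz
  have c2 := cs (hG.sm.pd 2) hz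
  have d1 := df hG.sm hz
  have d2 := df (sm_meanF h hG) hz
  have e1 : mean (𝓔.A1 F i) z = pd 0 (mean (F i)) z := by
    have := mean_add (z := z) c1 (Cs.const_smul (c := (𝓔.eps i)⁻¹) c2)
    rw [mean_const_smul, mean_pd2 (𝓔.isOpen i) (hG.sm i) (hG.per i) hz, smul_zero, add_zero,
      ← pd_mean (𝓔.isOpen i) (hG.sm i) 0 (by decide) hz] at this
    exact this
  have e2 : ∀ j, pd j (osc (F i)) z = pd j (F i) z - pd j (mean (F i)) z := fun j =>
    pd_sub d1 d2 j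
  show 𝓔.A1 F i z - mean (𝓔.A1 F i) z = _
  rw [e1, e2, e2, pd2_mean]
  simp only [EFam.A1, sub_zero]
  abel

lemma osc_A2 (h : d.Hyp) (hG : d.Good F) {i : 𝓔.I} {z : Q} (hz : z ∈ 𝓔.toFam.dom i) :
    osc (𝓔.A2 F i) z = pd 1 (osc (F i)) z := by
  have d1 := df hG.sm hz
  have d2 := df (sm_meanF h hG) hz
  have e2 : pd 1 (osc (F i)) z = pd 1 (F i) z - pd 1 (mean (F i)) z := pd_sub d1 d2 1
  rw [e2, pd_mean (𝓔.isOpen i) (hG.sm i) 1 (by decide) hz]
  rfl

/-- `osc (A1 F) - W` -/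
lemma B_R (h : d.Hyp) (hG : d.Good F) :
    𝓔.toFam.B (𝓔.W 1 7 2) (fun i z => osc (𝓔.A1 F i) z - d.Wl i z) := by
  have h1 : 𝓔.toFam.B (𝓔.W 1 7 2) (fun i => pd 0 (osc (F i))) :=
    EFam.B_le (EFam.B_pd (B_oF h hG) 0) le_rfl (by omega) (by omega)
  have h2 : 𝓔.toFam.B (𝓔.W 1 7 2) (fun i => pd 2 (osc (d.rho F i))) :=
    EFam.B_pd hG.rho_osc 2
  refine (EFam.B_add h1 h2).congr (fun i z hz => ?_)
  show _ = osc (𝓔.A1 F i) z - d.Wl i z
  rw [osc_A1 h hG hz, pd2_oF h hG hz]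
  module

lemma B_oP (h : d.Hyp) (hG : d.Good F) :
    𝓔.toFam.B (𝓔.W 1 0 0) (fun i => osc (𝓔.A1 F i)) := by
  have h1 : 𝓔.toFam.B (𝓔.W 1 0 0) (fun i z => osc (𝓔.A1 F i) z - d.Wl i z) :=
    EFam.B_le (B_R h hG) le_rfl (by omega) (by omega)
  refine (EFam.B_add h1 h.WB).congr (fun i z hz => ?_)
  exact sub_add_cancel _ _

lemma B_oS (h : d.Hyp) (hG : d.Good F) :
    𝓔.toFam.B (𝓔.W 1 16 1) (fun i => osc (𝓔.A2 F i)) :=
  (EFam.B_pd (B_oF h hG) 1).congr (fun _ _ hz => (osc_A2 h hG hz).symm)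

lemma B_mP (h : d.Hyp) (hG : d.Good F) :
    𝓔.toFam.B (𝓔.W 0 0 0) (fun i => mean (𝓔.A1 F i)) := by
  have h1 : 𝓔.toFam.B (𝓔.W 0 0 0) (fun i z => 𝓔.eps i • pd 0 (mean (d.rho F i)) z) :=
    EFam.B_le (EFam.B_eps (EFam.B_pd hG.rho_mean 0)) (by omega) (by omega) (by omega)
  exact (EFam.B_add h.f1B h1).congr (fun i z hz => (mean_A1 h hG hz).symm)

lemma B_mS (h : d.Hyp) (hG : d.Good F) :
    𝓔.toFam.B (𝓔.W 0 0 0) (fun i => mean (𝓔.A2 F i)) := by
  have h1 : 𝓔.toFam.B (𝓔.W 0 0 0) (fun i z => 𝓔.eps i • pd 1 (mean (d.rho F i)) z) :=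
    EFam.B_le (EFam.B_eps (EFam.B_pd hG.rho_mean 1)) (by omega) (by omega) (by omega)
  exact (EFam.B_add h.f2B h1).congr (fun i z hz => (mean_A2 h hG hz).symm)

lemma B_P (h : d.Hyp) (hG : d.Good F) : 𝓔.toFam.B (𝓔.W 0 0 0) (𝓔.A1 F) := by
  have h1 : 𝓔.toFam.B (𝓔.W 0 0 0) (fun i => osc (𝓔.A1 F i)) :=
    EFam.B_le (B_oP h hG) (by omega) (by omega) (by omega)
  exact (EFam.B_add (B_mP h hG) h1).congr (fun _ _ _ => (eq_mean_add_osc _ _).symm)

lemma B_S (h : d.Hyp) (hG : d.Good F) : 𝓔.toFam.B (𝓔.W 0 0 0) (𝓔.A2 F) := by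
  have h1 : 𝓔.toFam.B (𝓔.W 0 0 0) (fun i => osc (𝓔.A2 F i)) :=
    EFam.B_le (B_oS h hG) (by omega) (by omega) (by omega)
  exact (EFam.B_add (B_mS h hG) h1).congr (fun _ _ _ => (eq_mean_add_osc _ _).symm)

/-- the mean of `|W|²` is `a²` -/
lemma mean_WW (h : d.Hyp) {i : 𝓔.I} {z : Q} (hz : z ∈ 𝓔.toFam.dom i) :
    mean (fun z' => (inner ℝ (d.Wl i z') (d.Wl i z') : ℝ)) z = 𝓔.a i z.1 ^ 2 := by
  have c1 := cs h.WB.smooth hz
  have e : ∀ s, (inner ℝ (d.Wl i (z.1, s)) (d.Wl i (z.1, s)) : ℝ)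
      = 𝓔.a i z.1 ^ 2 - 2 * inner ℝ (d.f1 i (z.1, s)) (d.Wl i (z.1, s)) := by
    intro s
    have h1 := h.circle i (z.1, s) hz
    simp only [EData.w] at h1
    rw [inner_add_left, inner_add_right, inner_add_right,
      real_inner_comm (d.f1 i (z.1, s)) (d.Wl i (z.1, s))] at h1
    linarith
  have c2 : Cs (fun z' => (inner ℝ (d.f1 i z') (d.Wl i z') : ℝ)) z.1 :=
    Cs.inner (Cs.tindep (fun _ => rfl)) c1
  rw [mean_congr (v := fun z' => 𝓔.a i z'.1 ^ 2 - 2 • (inner ℝ (d.f1 i z') (d.Wl i z') : ℝ))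
    (fun s => by rw [e s]; simp),
    mean_sub (Cs.tindep (fun _ => rfl)) (by simpa using c2.const_smul (c := 2))]
  have e2 : mean (fun z' => (2:ℕ) • (inner ℝ (d.f1 i z') (d.Wl i z') : ℝ)) z = 0 := by
    have : mean (fun z' => (2:ℝ) • (inner ℝ (d.f1 i z') (d.Wl i z') : ℝ)) z = 0 := by
      rw [mean_const_smul, mean_inner_tindep (fun _ => rfl) c1, h.Wmean i z hz]; simp
    simpa using this
  rw [e2, mean_tindep (u := fun z' => 𝓔.a i z'.1 ^ 2) (fun _ => rfl), sub_zero]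


/-! ### the amplitude correction -/

/-- `β = - mean E11 / (2 a²)` -/
noncomputable def bet (d : EData 𝓔) (F : 𝓔.I → Q → E4) (i : 𝓔.I) : Q → ℝ :=
  fun z => (-(1/2) : ℝ) * ((𝓔.a i z.1 ^ 2)⁻¹ * mean (d.E11 F i) z)

/-- the new state -/
noncomputable def Fn (d : EData 𝓔) (F : 𝓔.I → Q → E4) (i : 𝓔.I) : Q → E4 :=
  fun z => F i z + bet d F i z • osc (F i) z

/-- increment of `A1` -/
noncomputable def XX (d : EData 𝓔) (F : 𝓔.I → Q → E4) (i : 𝓔.I) : Q → E4 :=
  fun z => bet d F i z • osc (𝓔.A1 F i) z + pd 0 (bet d F i) z • osc (F i) z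

/-- increment of `A2` -/
noncomputable def YY (d : EData 𝓔) (F : 𝓔.I → Q → E4) (i : 𝓔.I) : Q → E4 :=
  fun z => bet d F i z • osc (𝓔.A2 F i) z + pd 1 (bet d F i) z • osc (F i) z

lemma bet_t (i : 𝓔.I) (x : X2) (t : ℝ) : bet d F i (x, t) = bet d F i (x, 0) := rfl

lemma bet_t' (i : 𝓔.I) (z : Q) (s : ℝ) : bet d F i (z.1, s) = bet d F i z := rfl

lemma pd_bet_t (i : 𝓔.I) (j : Fin 3) (z : Q) (s : ℝ) :
    pd j (bet d F i) (z.1, s) = pd j (bet d F i) z := by
  rw [pd_tindep (bet_t i) j z.1 s, ← pd_tindep (bet_t i) j z.1 z.2]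

variable {m : ℕ}

lemma B_bet (hm : 𝓔.toFam.B (𝓔.W 2 m 0) (fun i => mean (d.E11 F i))) :
    𝓔.toFam.B (𝓔.W 0 m 0) (bet d F) := by
  have h1 := EFam.B_div (j := 0) (k := 2) (u := fun i => mean (d.E11 F i)) (by simpa using hm)
  exact EFam.B_cmul (-(1/2)) h1

/-- classes of `X` -/
lemma B_X (h : d.Hyp) (hG : d.Good F)
    (hm : 𝓔.toFam.B (𝓔.W 2 m 0) (fun i => mean (d.E11 F i))) :
    𝓔.toFam.B (𝓔.W 1 m 0) (XX d F) := by
  have h1 : 𝓔.toFam.B (𝓔.W 1 m 0) (fun i z => bet d F i z • osc (𝓔.A1 F i) z) :=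
    EFam.B_le (EFam.B_smul (B_bet hm) (B_oP h hG)) (by omega) (by omega) (by omega)
  have h2 : 𝓔.toFam.B (𝓔.W 1 m 0) (fun i z => pd 0 (bet d F i) z • osc (F i) z) :=
    EFam.B_le (EFam.B_smul (EFam.B_pd (B_bet hm) 0) (B_oF h hG)) (by omega) (by omega) (by omega)
  exact EFam.B_add h1 h2

lemma B_Y (h : d.Hyp) (hG : d.Good F)
    (hm : 𝓔.toFam.B (𝓔.W 2 m 0) (fun i => mean (d.E11 F i))) :
    𝓔.toFam.B (𝓔.W 1 (m+16) 1) (YY d F) := by
  have h1 : 𝓔.toFam.B (𝓔.W 1 (m+16) 1) (fun i z => bet d F i z • osc (𝓔.A2 F i) z) :=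
    EFam.B_le (EFam.B_smul (B_bet hm) (B_oS h hG)) (by omega) (by omega) (by omega)
  have h2 : 𝓔.toFam.B (𝓔.W 1 (m+16) 1) (fun i z => pd 1 (bet d F i) z • osc (F i) z) :=
    EFam.B_le (EFam.B_smul (EFam.B_pd (B_bet hm) 1) (B_oF h hG)) (by omega) (by omega) (by omega)
  exact EFam.B_add h1 h2

lemma mean_X (h : d.Hyp) (hG : d.Good F) {i : 𝓔.I} {z : Q} (hz : z ∈ 𝓔.toFam.dom i) :
    mean (XX d F i) z = 0 := by
  have c1 := cs (B_P h hG).smooth hz
  have c2 := cs hG.sm hz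
  have cb : Cs (bet d F i) z.1 := Cs.tindep (fun _ => rfl)
  have cb' : Cs (pd 0 (bet d F i)) z.1 := Cs.tindep (pd_tindep (bet_t i) 0 z.1)
  have := mean_add (z := z) (cb.smul c1.osc) (cb'.smul c2.osc)
  rw [mean_smul_tindep (bet_t' i z), mean_smul_tindep (pd_bet_t i 0 z), mean_osc c1,
    mean_osc c2, smul_zero, smul_zero, add_zero] at this
  exact this

lemma mean_Y (h : d.Hyp) (hG : d.Good F) {i : 𝓔.I} {z : Q} (hz : z ∈ 𝓔.toFam.dom i) :
    mean (YY d F i) z = 0 := by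
  have c1 := cs (B_S h hG).smooth hz
  have c2 := cs hG.sm hz
  have cb : Cs (bet d F i) z.1 := Cs.tindep (fun _ => rfl)
  have cb' : Cs (pd 1 (bet d F i)) z.1 := Cs.tindep (pd_tindep (bet_t i) 1 z.1)
  have := mean_add (z := z) (cb.smul c1.osc) (cb'.smul c2.osc)
  rw [mean_smul_tindep (bet_t' i z), mean_smul_tindep (pd_bet_t i 1 z), mean_osc c1,
    mean_osc c2, smul_zero, smul_zero, add_zero] at this
  exact this

lemma A1_Fn (h : d.Hyp) (hG : d.Good F)
    (hm : 𝓔.toFam.B (𝓔.W 2 m 0) (fun i => mean (d.E11 F i))) {i : 𝓔.I} {z : Q}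
    (hz : z ∈ 𝓔.toFam.dom i) : 𝓔.A1 (Fn d F) i z = 𝓔.A1 F i z + XX d F i z := by
  have d1 := df hG.sm hz
  have d2 := df (B_oF h hG).smooth hz
  have d3 := df (B_bet hm).smooth hz
  have e : ∀ j, pd j (Fn d F i) z
      = pd j (F i) z + (bet d F i z • pd j (osc (F i)) z + pd j (bet d F i) z • osc (F i) z) := by
    intro j
    rw [← pd_smul d3 d2]
    exact pd_add d1 (d3.fun_smul d2) j
  simp only [EFam.A1, XX]
  rw [osc_A1 h hG hz, e, e, pd2_tindep (bet_t i)]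
  module

lemma A2_Fn (h : d.Hyp) (hG : d.Good F)
    (hm : 𝓔.toFam.B (𝓔.W 2 m 0) (fun i => mean (d.E11 F i))) {i : 𝓔.I} {z : Q}
    (hz : z ∈ 𝓔.toFam.dom i) : 𝓔.A2 (Fn d F) i z = 𝓔.A2 F i z + YY d F i z := by
  have d1 := df hG.sm hz
  have d2 := df (B_oF h hG).smooth hz
  have d3 := df (B_bet hm).smooth hz
  have e : ∀ j, pd j (Fn d F i) z
      = pd j (F i) z + (bet d F i z • pd j (osc (F i)) z + pd j (bet d F i) z • osc (F i) z) := by
    intro j
    rw [← pd_smul d3 d2]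
    exact pd_add d1 (d3.fun_smul d2) j
  simp only [EFam.A2, YY]
  rw [osc_A2 h hG hz, e]

/-- the new state is good -/
lemma Good_Fn (h : d.Hyp) (hG : d.Good F)
    (hm : 𝓔.toFam.B (𝓔.W 2 m 0) (fun i => mean (d.E11 F i))) (h7 : 7 ≤ m) : d.Good (Fn d F) := by
  have sB := (B_bet hm).smooth
  have sO := (B_oF h hG).smooth
  have sm : 𝓔.toFam.Sm (Fn d F) := fun i => (hG.sm i).add ((sB i).smul (sO i))
  -- the increment of `rho`
  have he : ∀ i, 𝓔.eps i ≠ 0 := fun i => (EFam.eps_pos i).ne'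
  have hrho : ∀ i z, z ∈ 𝓔.toFam.dom i → d.rho (Fn d F) i z
      = d.rho F i z + bet d F i z • (d.u1 i z + osc (d.rho F i) z) := by
    intro i z hz
    simp only [EData.rho, Fn]
    rw [osc_F h hG.sm hz]
    have : (𝓔.eps i)⁻¹ • (bet d F i z • 𝓔.eps i • (d.u1 i z + osc (d.rho F i) z))
        = bet d F i z • (d.u1 i z + osc (d.rho F i) z) := by
      rw [smul_comm (bet d F i z) (𝓔.eps i), smul_smul, inv_mul_cancel₀ (he i), one_smul]
    rw [add_sub_right_comm, smul_add, this]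
    abel
  have hus : ∀ i z, z ∈ 𝓔.toFam.dom i → Cs (fun z => d.u1 i z + osc (d.rho F i) z) z.1 :=
    fun i z hz => (cs (u1B h).smooth hz).add (cs (rho_sm h hG.sm) hz).osc
  have hmu : ∀ i z, z ∈ 𝓔.toFam.dom i → mean (fun z => d.u1 i z + osc (d.rho F i) z) z = 0 := by
    intro i z hz
    rw [mean_add (cs (u1B h).smooth hz) (cs (rho_sm h hG.sm) hz).osc, mean_u1 h hz,
      mean_osc (cs (rho_sm h hG.sm) hz), add_zero]
  have hmean : ∀ i z, z ∈ 𝓔.toFam.dom i → mean (d.rho (Fn d F) i) z = mean (d.rho F i) z := by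
    intro i z hz
    have e1 : mean (d.rho (Fn d F) i) z
        = mean (fun z => d.rho F i z + bet d F i z • (d.u1 i z + osc (d.rho F i) z)) z :=
      mean_congr (fun s => hrho i (z.1, s) hz)
    rw [e1, mean_add (cs (rho_sm h hG.sm) hz)
      (Cs.smul (Cs.tindep (fun _ => rfl)) (hus i z hz)), mean_smul_tindep (bet_t' i z),
      hmu i z hz, smul_zero, add_zero]
  refine ⟨sm, ?_, ?_, ?_⟩
  · intro i x hx t
    have e1 : mean (F i) (x, t + 2 * Real.pi) = mean (F i) (x, t) := rfl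
    have e2 : bet d F i (x, t + 2 * Real.pi) = bet d F i (x, t) := rfl
    simp only [Fn, osc, hG.per i x hx t, e1, e2]
  · have h1 : 𝓔.toFam.B (𝓔.W 1 0 0) (fun i => osc (d.rho F i)) :=
      EFam.B_le hG.rho_osc le_rfl (by omega) (by omega)
    have h2 : 𝓔.toFam.B (𝓔.W 1 7 1)
        (fun i z => bet d F i z • (d.u1 i z + osc (d.rho F i) z)) :=
      EFam.B_le (EFam.B_smul (B_bet hm) (EFam.B_add (u1B h) h1)) (by omega) (by omega) (by omega)
    refine (EFam.B_add hG.rho_osc h2).congr (fun i z hz => ?_)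
    show osc (d.rho F i) z + bet d F i z • (d.u1 i z + osc (d.rho F i) z)
      = d.rho (Fn d F) i z - mean (d.rho (Fn d F) i) z
    rw [hmean i z hz, hrho i z hz]
    simp only [osc]
    abel
  · exact hG.rho_mean.congr (fun i z hz => (hmean i z hz).symm)

end state

end S3

open S3 in
/-- Step 3 -/
theorem EData.step3 {𝓔 : EFam} {d : EData 𝓔} (h : d.Hyp) (n : ℕ) {F : 𝓔.I → Q → E4}
    (hG : d.Good F)
    (hE : d.Err (15+n) (15+n) (15+n) (24+n) (27+n) (28+n) F) :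
    ∃ F', d.Good F' ∧ d.Err (15+n) (16+n) (15+n) (24+n) (27+n) (28+n) F' := by
  have hm := hE.m11
  have bB := B_bet hm
  have bX := B_X h hG hm
  have bY := B_Y h hG hm
  have bP := B_P h hG
  have bS := B_S h hG
  have boP := B_oP h hG
  have boS := B_oS h hG
  have boF := B_oF h hG
  have bR := B_R h hG
  -- smoothness of the errors of `F`
  have s11 : 𝓔.toFam.Sm (d.E11 F) := fun i => by
    have hf := h.f1B.smooth i
    have ha : ContDiffOn ℝ ∞ (fun z : Q => 𝓔.a i z.1) (𝓔.toFam.dom i) := 𝓔.a_B.smooth i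
    exact ((bP.smooth i).inner ℝ (bP.smooth i)).sub
      (((hf.inner ℝ hf).add (ha.pow 2)).add (h.G11B.smooth i))
  have s12 : 𝓔.toFam.Sm (d.E12 F) := fun i =>
    ((bP.smooth i).inner ℝ (bS.smooth i)).sub
      (((h.f1B.smooth i).inner ℝ (h.f2B.smooth i)).add (h.G12B.smooth i))
  have s22 : 𝓔.toFam.Sm (d.E22 F) := fun i =>
    ((bS.smooth i).inner ℝ (bS.smooth i)).sub
      (((h.f2B.smooth i).inner ℝ (h.f2B.smooth i)).add (h.G22B.smooth i))
  refine ⟨Fn d F, Good_Fn h hG hm (by omega), ?_⟩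
  -- increments
  have e11 : ∀ i z, z ∈ 𝓔.toFam.dom i → d.E11 (Fn d F) i z = d.E11 F i z
      + (2 * inner ℝ (𝓔.A1 F i z) (XX d F i z) + inner ℝ (XX d F i z) (XX d F i z)) := by
    intro i z hz
    simp only [EData.E11]
    rw [A1_Fn h hG hm hz, inner_add_left, inner_add_right, inner_add_right,
      real_inner_comm (𝓔.A1 F i z) (XX d F i z)]
    ring
  have e12 : ∀ i z, z ∈ 𝓔.toFam.dom i → d.E12 (Fn d F) i z = d.E12 F i z
      + ((inner ℝ (𝓔.A1 F i z) (YY d F i z) + inner ℝ (XX d F i z) (𝓔.A2 F i z))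
        + inner ℝ (XX d F i z) (YY d F i z)) := by
    intro i z hz
    simp only [EData.E12]
    rw [A1_Fn h hG hm hz, A2_Fn h hG hm hz, inner_add_left, inner_add_right, inner_add_right]
    ring
  have e22 : ∀ i z, z ∈ 𝓔.toFam.dom i → d.E22 (Fn d F) i z = d.E22 F i z
      + (2 * inner ℝ (𝓔.A2 F i z) (YY d F i z) + inner ℝ (YY d F i z) (YY d F i z)) := by
    intro i z hz
    simp only [EData.E22]
    rw [A2_Fn h hG hm hz, inner_add_left, inner_add_right, inner_add_right,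
      real_inner_comm (𝓔.A2 F i z) (YY d F i z)]
    ring
  -- classes of the increments
  have z11 : 𝓔.toFam.B (𝓔.W 1 (15+n) 0) (fun i z => 2 * inner ℝ (𝓔.A1 F i z) (XX d F i z)
      + inner ℝ (XX d F i z) (XX d F i z)) :=
    EFam.B_add (EFam.B_cmul 2 (EFam.B_innerR bP bX (by omega) (by omega) (by omega)))
      (EFam.B_innerR bX bX (by omega) (by omega) (by omega))
  have z12 : 𝓔.toFam.B (𝓔.W 1 (15+n) 0) (fun i z =>
      (inner ℝ (𝓔.A1 F i z) (YY d F i z) + inner ℝ (XX d F i z) (𝓔.A2 F i z))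
        + inner ℝ (XX d F i z) (YY d F i z)) :=
    EFam.B_add (EFam.B_add (EFam.B_innerR bP bY (by omega) (by omega) (by omega))
      (EFam.B_innerR bX bS (by omega) (by omega) (by omega)))
      (EFam.B_innerR bX bY (by omega) (by omega) (by omega))
  have z22 : 𝓔.toFam.B (𝓔.W 1 (27+n) 0) (fun i z => 2 * inner ℝ (𝓔.A2 F i z) (YY d F i z)
      + inner ℝ (YY d F i z) (YY d F i z)) :=
    EFam.B_add (EFam.B_cmul 2 (EFam.B_innerR bS bY (by omega) (by omega) (by omega)))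
      (EFam.B_innerR bY bY (by omega) (by omega) (by omega))
  -- splitting of osc and mean of a sum
  have hosc : ∀ (E E' Z : 𝓔.I → Q → ℝ) (j m l : ℕ), 𝓔.toFam.Sm E →
      (∀ i z, z ∈ 𝓔.toFam.dom i → E' i z = E i z + Z i z) →
      𝓔.toFam.B (𝓔.W j m l) (fun i => osc (E i)) → 𝓔.toFam.B (𝓔.W j m l) Z →
      𝓔.toFam.B (𝓔.W j m l) (fun i => osc (E' i)) := by
    intro E E' Z j m l sE he hE hZ
    refine (EFam.B_add hE (B_osc hZ)).congr (fun i z hz => ?_)
    show _ = osc (E' i) z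
    rw [osc_congr (v := fun z => E i z + Z i z) (fun s => he i (z.1, s) hz),
      osc_add (cs sE hz) (cs hZ.smooth hz)]
  have hmean : ∀ (E E' Z : 𝓔.I → Q → ℝ), 𝓔.toFam.Sm E → 𝓔.toFam.Sm Z →
      (∀ i z, z ∈ 𝓔.toFam.dom i → E' i z = E i z + Z i z) →
      ∀ i z, z ∈ 𝓔.toFam.dom i → mean (E' i) z = mean (E i) z + mean (Z i) z := by
    intro E E' Z sE sZ he i z hz
    rw [mean_congr (v := fun z => E i z + Z i z) (fun s => he i (z.1, s) hz),
      mean_add (cs sE hz) (cs sZ hz)]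
  refine ⟨hosc _ _ _ _ _ _ s11 e11 hE.o11 z11, ?_, hosc _ _ _ _ _ _ s12 e12 hE.o12 z12, ?_,
    hosc _ _ _ _ _ _ s22 e22 hE.o22 z22, ?_⟩
  · -- mean E11
    have b1 : 𝓔.toFam.B (𝓔.W 2 7 2) (fun i z => 2 * mean (fun z' => (inner ℝ (d.Wl i z')
        (osc (𝓔.A1 F i) z' - d.Wl i z') : ℝ)) z + mean (fun z' =>
        (inner ℝ (osc (𝓔.A1 F i) z' - d.Wl i z') (osc (𝓔.A1 F i) z' - d.Wl i z') : ℝ)) z) :=
      EFam.B_add (EFam.B_cmul 2 (B_mean (EFam.B_innerR h.WB bR (by omega) (by omega) (by omega))))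
        (B_mean (EFam.B_innerR bR bR (by omega) (by omega) (by omega)))
    have b2 : 𝓔.toFam.B (𝓔.W 2 16 0) (fun i => mean (fun z' =>
        (inner ℝ (osc (𝓔.A1 F i) z') (osc (F i) z') : ℝ))) :=
      B_mean (EFam.B_innerR boP boF (by omega) (by omega) (by omega))
    have b3 : 𝓔.toFam.B (𝓔.W 2 (16+n) 0) (fun i => mean (fun z' =>
        (inner ℝ (XX d F i z') (XX d F i z') : ℝ))) :=
      B_mean (EFam.B_innerR bX bX (by omega) (by omega) (by omega))
    have b4 : 𝓔.toFam.B (𝓔.W 2 (16+n) 0) (fun i z => 2 * (bet d F i z * (2 * mean (fun z' =>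
        (inner ℝ (d.Wl i z') (osc (𝓔.A1 F i) z' - d.Wl i z') : ℝ)) z + mean (fun z' =>
        (inner ℝ (osc (𝓔.A1 F i) z' - d.Wl i z') (osc (𝓔.A1 F i) z' - d.Wl i z') : ℝ)) z))) :=
      EFam.B_cmul 2 (EFam.B_mulR bB b1 (by omega) (by omega) (by omega))
    have b5 : 𝓔.toFam.B (𝓔.W 2 (16+n) 0) (fun i z => 2 * (pd 0 (bet d F i) z * mean (fun z' =>
        (inner ℝ (osc (𝓔.A1 F i) z') (osc (F i) z') : ℝ)) z)) :=
      EFam.B_cmul 2 (EFam.B_mulR (EFam.B_pd bB 0) b2 (by omega) (by omega) (by omega))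
    refine (EFam.B_add (EFam.B_add b4 b5) b3).congr (fun i z hz => ?_)
    show _ = mean (d.E11 (Fn d F) i) z
    rw [hmean _ _ _ s11 z11.smooth e11 i z hz]
    have cP := cs bP.smooth hz
    have cX := cs bX.smooth hz
    have coP := cs boP.smooth hz
    have coF := cs boF.smooth hz
    have cW := cs h.WB.smooth hz
    have cR := cs bR.smooth hz
    have ha : 𝓔.a i z.1 ≠ 0 := (𝓔.a_pos i z.1 hz).ne'
    -- mean of `P·X`
    have m1 : mean (fun z => (2 * inner ℝ (𝓔.A1 F i z) (XX d F i z)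
        + inner ℝ (XX d F i z) (XX d F i z) : ℝ)) z
        = 2 * mean (fun z => (inner ℝ (osc (𝓔.A1 F i) z) (XX d F i z) : ℝ)) z
          + mean (fun z => (inner ℝ (XX d F i z) (XX d F i z) : ℝ)) z := by
      rw [mean_add (Cs.const_mul (c := 2) (cP.inner cX)) (cX.inner cX), mean_const_mul,
        mean_inner_osc cP cX (mean_X h hG hz)]
    have cb : Cs (bet d F i) z.1 := Cs.tindep (fun _ => rfl)
    have cb' : Cs (pd 0 (bet d F i)) z.1 := Cs.tindep (pd_tindep (bet_t i) 0 z.1)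
    have m2 : mean (fun z => (inner ℝ (osc (𝓔.A1 F i) z) (XX d F i z) : ℝ)) z
        = bet d F i z * mean (fun z => (inner ℝ (osc (𝓔.A1 F i) z) (osc (𝓔.A1 F i) z) : ℝ)) z
          + pd 0 (bet d F i) z * mean (fun z => (inner ℝ (osc (𝓔.A1 F i) z) (osc (F i) z) : ℝ)) z
        := by
      rw [mean_congr (v := fun z => bet d F i z * inner ℝ (osc (𝓔.A1 F i) z) (osc (𝓔.A1 F i) z)
        + pd 0 (bet d F i) z * inner ℝ (osc (𝓔.A1 F i) z) (osc (F i) z))
        (fun s => by simp only [XX, inner_add_right, real_inner_smul_right]),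
        mean_add (cb.mul (coP.inner coP)) (cb'.mul (coP.inner coF)),
        mean_mul_tindep (bet_t' i z), mean_mul_tindep (pd_bet_t i 0 z)]
    have m3 : mean (fun z => (inner ℝ (osc (𝓔.A1 F i) z) (osc (𝓔.A1 F i) z) : ℝ)) z
        = 𝓔.a i z.1 ^ 2 + (2 * mean (fun z' => (inner ℝ (d.Wl i z')
        (osc (𝓔.A1 F i) z' - d.Wl i z') : ℝ)) z + mean (fun z' =>
        (inner ℝ (osc (𝓔.A1 F i) z' - d.Wl i z') (osc (𝓔.A1 F i) z' - d.Wl i z') : ℝ)) z) := by
      rw [← mean_WW h hz, ← mean_const_mul, ← mean_add (Cs.const_mul (c := 2) (cW.inner cR))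
        (cR.inner cR), ← mean_add (cW.inner cW)
        ((Cs.const_mul (c := 2) (cW.inner cR)).add (cR.inner cR))]
      refine mean_congr (fun s => ?_)
      have e1 : osc (𝓔.A1 F i) (z.1, s) = d.Wl i (z.1, s) + (osc (𝓔.A1 F i) (z.1, s)
        - d.Wl i (z.1, s)) := by abel
      conv_lhs => rw [e1, inner_add_left, inner_add_right, inner_add_right,
        real_inner_comm (d.Wl i (z.1, s)) (osc (𝓔.A1 F i) (z.1, s) - d.Wl i (z.1, s))]
      ring
    have m4 : mean (d.E11 F i) z = - 2 * bet d F i z * 𝓔.a i z.1 ^ 2 := by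
      simp only [bet]; field_simp
    rw [m1, m2, m3, m4]
    ring
  · -- mean E12
    have b1 : 𝓔.toFam.B (𝓔.W 2 (24+n) 0) (fun i => mean (fun z' =>
        (inner ℝ (osc (𝓔.A1 F i) z') (YY d F i z') : ℝ))) :=
      B_mean (EFam.B_innerR boP bY (by omega) (by omega) (by omega))
    have b2 : 𝓔.toFam.B (𝓔.W 2 (24+n) 0) (fun i => mean (fun z' =>
        (inner ℝ (osc (𝓔.A2 F i) z') (XX d F i z') : ℝ))) :=
      B_mean (EFam.B_innerR boS bX (by omega) (by omega) (by omega))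
    have b3 : 𝓔.toFam.B (𝓔.W 2 (24+n) 0) (fun i => mean (fun z' =>
        (inner ℝ (XX d F i z') (YY d F i z') : ℝ))) :=
      B_mean (EFam.B_innerR bX bY (by omega) (by omega) (by omega))
    refine (EFam.B_add hE.m12 (EFam.B_add (EFam.B_add b1 b2) b3)).congr (fun i z hz => ?_)
    show _ = mean (d.E12 (Fn d F) i) z
    have cP := cs bP.smooth hz
    have cS := cs bS.smooth hz
    have cX := cs bX.smooth hz
    have cY := cs bY.smooth hz
    rw [hmean _ _ _ s12 z12.smooth e12 i z hz,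
      mean_add ((cP.inner cY).add (cX.inner cS)) (cX.inner cY),
      mean_add (cP.inner cY) (cX.inner cS), mean_inner_osc cP cY (mean_Y h hG hz),
      mean_congr (u := fun z => (inner ℝ (XX d F i z) (𝓔.A2 F i z) : ℝ))
        (v := fun z => (inner ℝ (𝓔.A2 F i z) (XX d F i z) : ℝ)) (fun s => real_inner_comm _ _),
      mean_inner_osc cS cX (mean_X h hG hz)]
  · -- mean E22
    have b1 : 𝓔.toFam.B (𝓔.W 2 (28+n) 0) (fun i => mean (fun z' =>
        (inner ℝ (osc (𝓔.A2 F i) z') (YY d F i z') : ℝ))) :=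
      B_mean (EFam.B_innerR boS bY (by omega) (by omega) (by omega))
    have b2 : 𝓔.toFam.B (𝓔.W 2 (28+n) 0) (fun i => mean (fun z' =>
        (inner ℝ (YY d F i z') (YY d F i z') : ℝ))) :=
      B_mean (EFam.B_innerR bY bY (by omega) (by omega) (by omega))
    refine (EFam.B_add hE.m22 (EFam.B_add (EFam.B_cmul 2 b1) b2)).congr (fun i z hz => ?_)
    show _ = mean (d.E22 (Fn d F) i) z
    have cS := cs bS.smooth hz
    have cY := cs bY.smooth hz
    rw [hmean _ _ _ s22 z22.smooth e22 i z hz,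
      mean_add (Cs.const_mul (c := 2) (cS.inner cY)) (cY.inner cY), mean_const_mul,
      mean_inner_osc cS cY (mean_Y h hG hz)]

end Crest.Agent.R216.TE
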