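import Crest.Agent.R216.EngGood
import Crest.Agent.R216.Step4a

/-!
# Row 216, Theorem E: step 4 of the engine (oscillating correction)
-/

open Set Topology MeasureTheory
open scoped ContDiff

set_option linter.unusedSectionVars false

namespace Crest.Agent.R216.TE.S4

open EB

section step4
variable {𝓔 : EFam} {d : EData 𝓔} {F : 𝓔.I → Q → E4}

/-! ### increments -/

theorem e11_alg (A A' w : E4) (E11 E11o G11 X : ℝ) (hE : E11 = inner ℝ A A - G11)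
    (hw : inner ℝ w A' = X - E11o / 2) :
    inner ℝ (A + A') (A + A') - G11
      = (E11 - E11o) + 2 * X + 2 * inner ℝ (A - w) A' + inner ℝ A' A' := by
  have h1 : inner ℝ (A + A') (A + A') = inner ℝ A A + 2 * inner ℝ A A' + inner ℝ A' A' := by
    rw [inner_add_left, inner_add_right, inner_add_right, real_inner_comm A' A]; ring
  rw [h1, hE, inner_sub_left]
  linarith

theorem e12_alg (A A' Bv B' f2 : E4) (E12 E12o G12 X : ℝ) (hE : E12 = inner ℝ A Bv - G12)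
    (hw : inner ℝ f2 A' = X - E12o) :
    inner ℝ (A + A') (Bv + B') - G12
      = (E12 - E12o) + X + inner ℝ (Bv - f2) A' + inner ℝ A B' + inner ℝ A' B' := by
  rw [inner_add_left, inner_add_right, inner_add_right, hE, inner_sub_left,
    real_inner_comm Bv A']
  linarith

theorem e22_alg (Bv B' f2 : E4) (E22 E22o G22 : ℝ) (hE : E22 = inner ℝ Bv Bv - G22)
    (hw : inner ℝ f2 B' = - E22o / 2) :
    inner ℝ (Bv + B') (Bv + B') - G22
      = (E22 - E22o) + 2 * inner ℝ (Bv - f2) B' + inner ℝ B' B' := by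
  have h1 : inner ℝ (Bv + B') (Bv + B') = inner ℝ Bv Bv + 2 * inner ℝ Bv B' + inner ℝ B' B' := by
    rw [inner_add_left, inner_add_right, inner_add_right, real_inner_comm B' Bv]; ring
  rw [h1, hE, inner_sub_left]
  linarith

theorem radial_alg (G κ α β r2 : ℝ) (hr : α ^ 2 + β ^ 2 = r2) (hr0 : r2 ≠ 0) :
    α * (G / r2 * α - κ * β) + β * (G / r2 * β + κ * α) = G := by
  have : G / r2 * (α ^ 2 + β ^ 2) = G := by rw [hr]; field_simp
  linear_combination this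

/-! ### the scalar functions `X`, `Z`, `G` -/

noncomputable def X4 (d : EData 𝓔) (F : 𝓔.I → Q → E4) : 𝓔.I → Q → ℝ := fun i z =>
  -(𝓔.eps i * prim (osc (d.E12 F i)) z)

noncomputable def Z4 (d : EData 𝓔) (F : 𝓔.I → Q → E4) : 𝓔.I → Q → ℝ := fun i z =>
  pd 1 (X4 d F i) z + 2⁻¹ * osc (d.E22 F i) z

noncomputable def cB (d : EData 𝓔) : 𝓔.I → Q → ℝ := fun i z =>
  inner ℝ (d.f1 i z) (xiB (d.f2 i z) (d.f22 i z))

noncomputable def cC (d : EData 𝓔) : 𝓔.I → Q → ℝ := fun i z =>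
  inner ℝ (d.f1 i z) (xiC (d.f2 i z) (d.f22 i z))

noncomputable def G4 (d : EData 𝓔) (F : 𝓔.I → Q → E4) : 𝓔.I → Q → ℝ := fun i z =>
  (-(2⁻¹ * 𝓔.eps i)) * osc (d.E11 F i) z - cB d i z * pd 2 (X4 d F i) z
    - cC d i z * pd 2 (Z4 d F i) z

lemma B_cB (h : d.Hyp) : 𝓔.toFam.B (𝓔.W 0 0 0) (cB d) := EFam.B_inner h.f1B (B_xiB h)
lemma B_cC (h : d.Hyp) : 𝓔.toFam.B (𝓔.W 0 0 0) (cC d) := EFam.B_inner h.f1B (B_xiC h)

lemma mean_cB_mul (i : 𝓔.I) (u : Q → ℝ) (z : Q) :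
    mean (fun z => cB d i z * u z) z = cB d i z * mean u z :=
  mean_mul_lift (fun x => cB d i (x, 0)) u z

lemma mean_cC_mul (i : 𝓔.I) (u : Q → ℝ) (z : Q) :
    mean (fun z => cC d i z * u z) z = cC d i z * mean u z :=
  mean_mul_lift (fun x => cC d i (x, 0)) u z

section X

lemma B_X4 (hG : d.Good F) {m : ℕ}
    (ho : 𝓔.toFam.B (𝓔.W 1 m 0) (fun i => osc (d.E12 F i))) :
    𝓔.toFam.B (𝓔.W 1 (m+16) 0) (X4 d F) := by
  have h1 := B_prim' ho (fun i => PerOn.osc (per_E12 hG i))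
  exact EFam.B_neg (EFam.B_eps h1)

lemma pd2_X4 (h : d.Hyp) (hG : d.Good F) {m : ℕ}
    (ho : 𝓔.toFam.B (𝓔.W 1 m 0) (fun i => osc (d.E12 F i))) (i : 𝓔.I) {z : Q}
    (hz : z ∈ 𝓔.toFam.dom i) : pd 2 (X4 d F i) z = -(𝓔.eps i * osc (d.E12 F i) z) := by
  have h1 := B_prim' ho (fun i => PerOn.osc (per_E12 hG i))
  have hd : DifferentiableAt ℝ (prim (osc (d.E12 F i))) z :=
    diffAt (𝓔.toFam.isOpen_dom i) (h1.smooth i) hz
  have hx : z.1 ∈ 𝓔.D i := hz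
  have e : X4 d F i = fun z => (-𝓔.eps i) * prim (osc (d.E12 F i)) z := by
    funext z; simp [X4]
  rw [e, pd_const_mul hd, pd2_prim (𝓔.isOpen i) (ho.smooth i) hx,
    osc_of_mean_zero (mean_osc (D := 𝓔.D i) (sm_E12 h hG i) hx)]
  ring

lemma mean_X4 {m : ℕ}
    (ho : 𝓔.toFam.B (𝓔.W 1 m 0) (fun i => osc (d.E12 F i))) (i : 𝓔.I) {z : Q}
    (hz : z ∈ 𝓔.toFam.dom i) : mean (X4 d F i) z = 0 := by
  have hx : z.1 ∈ 𝓔.D i := hz
  have e : X4 d F i = fun z => (-𝓔.eps i) * prim (osc (d.E12 F i)) z := by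
    funext z; simp [X4]
  rw [e, mean_const_mul, mean_prim (ho.smooth i) hx, mul_zero]

lemma per_X4 (hG : d.Good F) {m : ℕ}
    (ho : 𝓔.toFam.B (𝓔.W 1 m 0) (fun i => osc (d.E12 F i))) (i : 𝓔.I) :
    PerOn (𝓔.D i) (X4 d F i) := by
  intro x hx t
  simp only [X4]
  rw [per_prim (ho.smooth i) (PerOn.osc (per_E12 hG i)) hx t]

/-- the mean of an `x`-derivative of a mean-zero function vanishes -/
lemma mean_pd_zero {V : Type*} [NormedAddCommGroup V] [NormedSpace ℝ V] [CompleteSpace V]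
    {D : Set X2} (hD : IsOpen D) {u : Q → V} (hu : ContDiffOn ℝ ∞ u (cyl D))
    (hm : ∀ z ∈ cyl D, mean u z = 0) (j : Fin 3) (hj : j ≠ 2) {z : Q} (hz : z.1 ∈ D) :
    mean (pd j u) z = 0 := by
  rw [← pd_mean hD hu j hj hz]
  have : EqOn (mean u) (fun _ => (0 : V)) (cyl D) := fun z hz => hm z hz
  rw [pd_eqOn (isOpen_cyl hD) this j hz]
  simp [pd]

lemma B_Z4 (h : d.Hyp) (hG : d.Good F) {m m' k : ℕ}
    (ho : 𝓔.toFam.B (𝓔.W 1 m 0) (fun i => osc (d.E12 F i)))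
    (ho' : 𝓔.toFam.B (𝓔.W 1 m' 0) (fun i => osc (d.E22 F i)))
    (hk : k ≤ m') (hk' : k < m + 16) : 𝓔.toFam.B (𝓔.W 1 k 0) (Z4 d F) :=
  EFam.B_add (EFam.B_le (EFam.B_pd (B_X4 hG ho) 1) (by omega) (by omega) (by omega))
    (EFam.B_cmul _ (EFam.B_le ho' (by omega) (by omega) (by omega)))

lemma mean_Z4 (h : d.Hyp) (hG : d.Good F) {m m' : ℕ}
    (ho : 𝓔.toFam.B (𝓔.W 1 m 0) (fun i => osc (d.E12 F i)))
    (ho' : 𝓔.toFam.B (𝓔.W 1 m' 0) (fun i => osc (d.E22 F i))) (i : 𝓔.I) {z : Q}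
    (hz : z ∈ 𝓔.toFam.dom i) : mean (Z4 d F i) z = 0 := by
  have hx : z.1 ∈ 𝓔.D i := hz
  have s1 : ContDiffOn ℝ ∞ (X4 d F i) (cyl (𝓔.D i)) := (B_X4 hG ho).smooth i
  have s2 : ContDiffOn ℝ ∞ (pd 1 (X4 d F i)) (cyl (𝓔.D i)) :=
    pd_contDiffOn (isOpen_cyl (𝓔.isOpen i)) s1 1
  have s3 : ContDiffOn ℝ ∞ (fun z => 2⁻¹ * osc (d.E22 F i) z) (cyl (𝓔.D i)) :=
    contDiffOn_const.mul (ho'.smooth i)
  have e : Z4 d F i = fun z => pd 1 (X4 d F i) z + 2⁻¹ * osc (d.E22 F i) z := rfl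
  rw [e, mean_add s2 s3 hx, mean_const_mul, mean_osc (D := 𝓔.D i) (sm_E22 h hG i) hx,
    mean_pd_zero (𝓔.isOpen i) s1 (fun z hz => mean_X4 ho i hz) 1 (by decide) hx]
  simp

lemma per_Z4 (hG : d.Good F) {m : ℕ}
    (ho : 𝓔.toFam.B (𝓔.W 1 m 0) (fun i => osc (d.E12 F i))) (i : 𝓔.I) :
    PerOn (𝓔.D i) (Z4 d F i) := by
  have h1 := PerOn.pd (𝓔.isOpen i) (per_X4 hG ho i) 1
  have h2 := PerOn.osc (per_E22 hG i)
  intro x hx t
  simp only [Z4, h1 x hx t, h2 x hx t]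

lemma B_G4 (h : d.Hyp) (hG : d.Good F) {m m1 m' k : ℕ}
    (ho1 : 𝓔.toFam.B (𝓔.W 1 m1 0) (fun i => osc (d.E11 F i)))
    (ho : 𝓔.toFam.B (𝓔.W 1 m 0) (fun i => osc (d.E12 F i)))
    (ho' : 𝓔.toFam.B (𝓔.W 1 m' 0) (fun i => osc (d.E22 F i)))
    (hk : k ≤ m') (hk' : k < m + 16) (hk1 : k ≤ m1 + 16) :
    𝓔.toFam.B (𝓔.W 1 k 1) (G4 d F) := by
  have a1 := EFam.B_cmul (-2⁻¹) (EFam.B_eps ho1)
  have a1' : 𝓔.toFam.B (𝓔.W 1 k 1) (fun i z => (-(2⁻¹ * 𝓔.eps i)) * osc (d.E11 F i) z) := by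
    refine (EFam.B_le a1 (by omega) (by omega) (by omega)).congr (fun i z hz => ?_)
    simp only [smul_eq_mul]; ring
  have a2 := EFam.B_mul (B_cB h) (EFam.B_pd (B_X4 hG ho) 2)
  have a3 := EFam.B_mul (B_cC h) (EFam.B_pd (B_Z4 h hG ho ho' hk hk') 2)
  exact EFam.B_sub (EFam.B_sub a1' (EFam.B_le a2 (by omega) (by omega) (by omega)))
    (EFam.B_le a3 (by omega) (by omega) (by omega))

lemma mean_G4 (h : d.Hyp) (hG : d.Good F) {m m1 m' : ℕ}
    (ho1 : 𝓔.toFam.B (𝓔.W 1 m1 0) (fun i => osc (d.E11 F i)))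
    (ho : 𝓔.toFam.B (𝓔.W 1 m 0) (fun i => osc (d.E12 F i)))
    (ho' : 𝓔.toFam.B (𝓔.W 1 m' 0) (fun i => osc (d.E22 F i))) (i : 𝓔.I) {z : Q}
    (hz : z ∈ 𝓔.toFam.dom i) : mean (G4 d F i) z = 0 := by
  have hx : z.1 ∈ 𝓔.D i := hz
  have hD := 𝓔.isOpen i
  have sX : ContDiffOn ℝ ∞ (X4 d F i) (cyl (𝓔.D i)) := (B_X4 hG ho).smooth i
  have sZ : ContDiffOn ℝ ∞ (Z4 d F i) (cyl (𝓔.D i)) :=
    (B_Z4 (k := 0) h hG ho ho' (by omega) (by omega)).smooth i
  have s1 : ContDiffOn ℝ ∞ (fun z => (-(2⁻¹ * 𝓔.eps i)) * osc (d.E11 F i) z) (cyl (𝓔.D i)) :=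
    contDiffOn_const.mul (ho1.smooth i)
  have s2 : ContDiffOn ℝ ∞ (fun z => cB d i z * pd 2 (X4 d F i) z) (cyl (𝓔.D i)) :=
    ((B_cB h).smooth i).mul (pd_contDiffOn (isOpen_cyl hD) sX 2)
  have s3 : ContDiffOn ℝ ∞ (fun z => cC d i z * pd 2 (Z4 d F i) z) (cyl (𝓔.D i)) :=
    ((B_cC h).smooth i).mul (pd_contDiffOn (isOpen_cyl hD) sZ 2)
  have e : G4 d F i = fun z => ((-(2⁻¹ * 𝓔.eps i)) * osc (d.E11 F i) z
      - cB d i z * pd 2 (X4 d F i) z) - cC d i z * pd 2 (Z4 d F i) z := rfl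
  rw [e, mean_sub (s1.sub s2) s3 hx, mean_sub s1 s2 hx, mean_const_mul, mean_cB_mul, mean_cC_mul,
    mean_osc (D := 𝓔.D i) (sm_E11 h hG i) hx, mean_pd2 hD sX (per_X4 hG ho i) hx,
    mean_pd2 hD sZ (per_Z4 hG ho i) hx]
  simp

lemma per_cB (i : 𝓔.I) : PerOn (𝓔.D i) (cB d i) := fun _ _ _ => rfl
lemma per_cC (i : 𝓔.I) : PerOn (𝓔.D i) (cC d i) := fun _ _ _ => rfl

lemma per_G4 (hG : d.Good F) {m : ℕ}
    (ho : 𝓔.toFam.B (𝓔.W 1 m 0) (fun i => osc (d.E12 F i))) (i : 𝓔.I) :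
    PerOn (𝓔.D i) (G4 d F i) := by
  have h1 := PerOn.pd (𝓔.isOpen i) (per_X4 hG ho i) 2
  have h2 := PerOn.pd (𝓔.isOpen i) (per_Z4 hG ho i) 2
  have h3 := PerOn.osc (per_E11 hG i)
  intro x hx t
  simp only [G4, h1 x hx t, h2 x hx t, h3 x hx t]
  rfl

end X

/-! ### the main step -/

theorem step4_aux (h : d.Hyp) (n : ℕ) (hG : d.Good F)
    (hE : d.Err (15+n) (16+n) (15+n) (24+n) (27+n) (28+n) F) :
    ∃ v : 𝓔.I → Q → E4, 𝓔.toFam.B (𝓔.W 1 (27+n) 1) v ∧ (∀ i, PerOn (𝓔.D i) (v i)) ∧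
      (∀ i, ∀ z ∈ 𝓔.toFam.dom i, mean (v i) z = 0) ∧
      (∀ i, ∀ z ∈ 𝓔.toFam.dom i, inner ℝ (d.f2 i z) (v i z) = X4 d F i z) ∧
      (∀ i, ∀ z ∈ 𝓔.toFam.dom i, inner ℝ (d.f22 i z) (v i z) = Z4 d F i z) ∧
      (∀ i, ∀ z ∈ 𝓔.toFam.dom i, inner ℝ (d.w i z) (pd 2 (v i) z)
        = (-(2⁻¹ * 𝓔.eps i)) * osc (d.E11 F i) z) := by
  have BX := B_X4 hG hE.o12
  have BZ := B_Z4 (k := 27+n) h hG hE.o12 hE.o22 (by omega) (by omega)
  have BG := B_G4 (k := 27+n) h hG hE.o11 hE.o12 hE.o22 (by omega) (by omega) (by omega)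
  have mG := fun i z hz => mean_G4 h hG hE.o11 hE.o12 hE.o22 i (z := z) hz
  obtain ⟨ζ, Bζ, pζ, hζ⟩ := EData.plane h BG (fun i => per_G4 hG hE.o12 i) mG
  -- the two components
  set H1 : 𝓔.I → Q → ℝ := fun i z => G4 d F i z / d.r2 i z * (d.p1 i z + d.W1 i z)
    - ζ i z * (d.p2 i z + d.W2 i z) with hH1
  set H2 : 𝓔.I → Q → ℝ := fun i z => G4 d F i z / d.r2 i z * (d.p2 i z + d.W2 i z)
    + ζ i z * (d.p1 i z + d.W1 i z) with hH2
  have Ba1 : 𝓔.toFam.B (𝓔.W 0 0 0) (fun i z => d.p1 i z + d.W1 i z) :=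
    EFam.B_add (B_p1 h) (EFam.B_le (B_W1 h) (by omega) (by omega) (by omega))
  have Ba2 : 𝓔.toFam.B (𝓔.W 0 0 0) (fun i z => d.p2 i z + d.W2 i z) :=
    EFam.B_add (B_p2 h) (EFam.B_le (B_W2 h) (by omega) (by omega) (by omega))
  have BGr : 𝓔.toFam.B (𝓔.W 1 (27+n) 1) (fun i z => G4 d F i z / d.r2 i z) := by
    refine (B_r2_div h BG).congr (fun i z hz => ?_)
    simp only [smul_eq_mul]; ring
  have BH1 : 𝓔.toFam.B (𝓔.W 1 (27+n) 1) H1 := EFam.B_sub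
    (EFam.B_le (EFam.B_mul BGr Ba1) (by omega) (by omega) (by omega))
    (EFam.B_le (EFam.B_mul Bζ Ba2) (by omega) (by omega) (by omega))
  have BH2 : 𝓔.toFam.B (𝓔.W 1 (27+n) 1) H2 := EFam.B_add
    (EFam.B_le (EFam.B_mul BGr Ba2) (by omega) (by omega) (by omega))
    (EFam.B_le (EFam.B_mul Bζ Ba1) (by omega) (by omega) (by omega))
  have pW1 : ∀ i, PerOn (𝓔.D i) (d.W1 i) := fun i x hx t => by
    simp only [EData.W1, h.Wper i x hx t]
  have pW2 : ∀ i, PerOn (𝓔.D i) (d.W2 i) := fun i x hx t => by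
    simp only [EData.W2, h.Wper i x hx t]
  have pG := fun i => per_G4 hG hE.o12 i
  have pH1 : ∀ i, PerOn (𝓔.D i) (H1 i) := fun i x hx t => by
    simp only [hH1, pG i x hx t, pζ i x hx t, pW1 i x hx t, pW2 i x hx t]; rfl
  have pH2 : ∀ i, PerOn (𝓔.D i) (H2 i) := fun i x hx t => by
    simp only [hH2, pG i x hx t, pζ i x hx t, pW1 i x hx t, pW2 i x hx t]; rfl
  have mH1 : ∀ i, ∀ z ∈ 𝓔.toFam.dom i, mean (H1 i) z = 0 := fun i z hz => (hζ i z hz).1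
  have mH2 : ∀ i, ∀ z ∈ 𝓔.toFam.dom i, mean (H2 i) z = 0 := fun i z hz => (hζ i z hz).2
  have BP1 := B_prim' BH1 pH1
  have BP2 := B_prim' BH2 pH2
  -- the four pieces
  have T1 := EFam.B_smul BP1 h.b1B
  have T2 := EFam.B_smul BP2 h.b2B
  have T3 := EFam.B_smul BX (B_xiB h)
  have T4 := EFam.B_smul BZ (B_xiC h)
  have T1' := EFam.B_le (j' := 1) (m' := 27+n) (l' := 1) T1 (by omega) (by omega) (by omega)
  have T2' := EFam.B_le (j' := 1) (m' := 27+n) (l' := 1) T2 (by omega) (by omega) (by omega)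
  have T3' := EFam.B_le (j' := 1) (m' := 27+n) (l' := 1) T3 (by omega) (by omega) (by omega)
  have T4' := EFam.B_le (j' := 1) (m' := 27+n) (l' := 1) T4 (by omega) (by omega) (by omega)
  have Bv := EFam.B_add (EFam.B_add T1' T2') (EFam.B_add T3' T4')
  refine ⟨_, Bv, ?_, ?_, ?_, ?_, ?_⟩
  · -- periodicity
    intro i x hx t
    have q1 := per_prim (BH1.smooth i) (pH1 i) hx t
    have q2 := per_prim (BH2.smooth i) (pH2 i) hx t
    have q3 := per_X4 hG hE.o12 i x hx t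
    have q4 := per_Z4 hG hE.o12 i x hx t
    simp only [q1, q2, q3, q4]
    rfl
  · -- mean
    intro i z hz
    have hx : z.1 ∈ 𝓔.D i := hz
    rw [mean_add ((T1'.smooth i).add (T2'.smooth i)) ((T3'.smooth i).add (T4'.smooth i)) hx,
      mean_add (T1'.smooth i) (T2'.smooth i) hx, mean_add (T3'.smooth i) (T4'.smooth i) hx]
    have r1 : mean (fun z => prim (H1 i) z • lift (d.b1 i) z) z = 0 := by
      have := mean_smul_vec (D := 𝓔.D i) (d.b1 i) (BP1.smooth i) hx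
      rw [mean_prim (BH1.smooth i) hx, zero_smul] at this
      exact this
    have r2 : mean (fun z => prim (H2 i) z • lift (d.b2 i) z) z = 0 := by
      have := mean_smul_vec (D := 𝓔.D i) (d.b2 i) (BP2.smooth i) hx
      rw [mean_prim (BH2.smooth i) hx, zero_smul] at this
      exact this
    have r3 : mean (fun z => X4 d F i z • xiB (d.f2 i z) (d.f22 i z)) z = 0 := by
      have := mean_smul_vec (D := 𝓔.D i) (fun x => xiB (d.f2 i (x, 0)) (d.f22 i (x, 0)))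
        (BX.smooth i) hx
      rw [mean_X4 hE.o12 i hz, zero_smul] at this
      exact this
    have r4 : mean (fun z => Z4 d F i z • xiC (d.f2 i z) (d.f22 i z)) z = 0 := by
      have := mean_smul_vec (D := 𝓔.D i) (fun x => xiC (d.f2 i (x, 0)) (d.f22 i (x, 0)))
        (BZ.smooth i) hx
      rw [mean_Z4 h hG hE.o12 hE.o22 i hz, zero_smul] at this
      exact this
    rw [r1, r2, r3, r4]; simp
  · -- inner with f2
    intro i z hz
    obtain ⟨p1, p2, p3, p4⟩ := h.b_perp i z hz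
    have hg := gram_ne h i hz
    simp only [inner_add_right, real_inner_smul_right, lift]
    rw [real_inner_comm (d.b1 i z.1), p1, real_inner_comm (d.b2 i z.1), p3,
      real_inner_comm (xiB _ _), g_xiB_B hg, real_inner_comm (xiC _ _), g_xiC_B]
    ring
  · intro i z hz
    obtain ⟨p1, p2, p3, p4⟩ := h.b_perp i z hz
    have hg := gram_ne h i hz
    simp only [inner_add_right, real_inner_smul_right, lift]
    rw [real_inner_comm (d.b1 i z.1), p2, real_inner_comm (d.b2 i z.1), p4,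
      real_inner_comm (xiB _ _), g_xiB_C, real_inner_comm (xiC _ _), g_xiC_C hg]
    ring
  · intro i z hz
    have hx : z.1 ∈ 𝓔.D i := hz
    have ho := 𝓔.toFam.isOpen_dom i
    have hD := 𝓔.isOpen i
    have dP1 := diffAt ho (BP1.smooth i) hz
    have dP2 := diffAt ho (BP2.smooth i) hz
    have dX := diffAt ho (BX.smooth i) hz
    have dZ := diffAt ho (BZ.smooth i) hz
    have db1 := diffAt ho (h.b1B.smooth i) hz
    have db2 := diffAt ho (h.b2B.smooth i) hz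
    have dxB := diffAt ho ((B_xiB h).smooth i) hz
    have dxC := diffAt ho ((B_xiC h).smooth i) hz
    have e1 : pd 2 (prim (H1 i)) z = H1 i z := by
      rw [pd2_prim hD (BH1.smooth i) hx, osc_of_mean_zero (mH1 i z hz)]
    have e2 : pd 2 (prim (H2 i)) z = H2 i z := by
      rw [pd2_prim hD (BH2.smooth i) hx, osc_of_mean_zero (mH2 i z hz)]
    have tB : pd 2 (fun z => xiB (d.f2 i z) (d.f22 i z)) z = 0 :=
      pd2_lift (fun x => xiB (d.f2 i (x, 0)) (d.f22 i (x, 0))) z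
    have tC : pd 2 (fun z => xiC (d.f2 i z) (d.f22 i z)) z = 0 :=
      pd2_lift (fun x => xiC (d.f2 i (x, 0)) (d.f22 i (x, 0))) z
    rw [pd_add ((dP1.fun_smul db1).fun_add (dP2.fun_smul db2))
        ((dX.fun_smul dxB).fun_add (dZ.fun_smul dxC)),
      pd_add (dP1.fun_smul db1) (dP2.fun_smul db2), pd_add (dX.fun_smul dxB) (dZ.fun_smul dxC),
      pd_smul dP1 db1, pd_smul dP2 db2, pd_smul dX dxB, pd_smul dZ dxC, e1, e2, tB, tC,
      pd2_lift, pd2_lift]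
    simp only [smul_zero, zero_add, inner_add_right, real_inner_smul_right]
    obtain ⟨q1, q2⟩ := h.Wperp i z hz
    have w1 : (inner ℝ (d.w i z) (lift (d.b1 i) z) : ℝ) = d.p1 i z + d.W1 i z := by
      simp only [EData.w, inner_add_left, EData.p1, EData.W1, lift]
    have w2 : (inner ℝ (d.w i z) (lift (d.b2 i) z) : ℝ) = d.p2 i z + d.W2 i z := by
      simp only [EData.w, inner_add_left, EData.p2, EData.W2, lift]
    have w3 : (inner ℝ (d.w i z) (xiB (d.f2 i z) (d.f22 i z)) : ℝ) = cB d i z := by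
      simp only [EData.w, inner_add_left, g_perp_xiB q1 q2, cB, add_zero]
    have w4 : (inner ℝ (d.w i z) (xiC (d.f2 i z) (d.f22 i z)) : ℝ) = cC d i z := by
      simp only [EData.w, inner_add_left, g_perp_xiC q1 q2, cC, add_zero]
    rw [w1, w2, w3, w4]
    have hc := circ_eq h i hz
    have key := radial_alg (G4 d F i z) (ζ i z) (d.p1 i z + d.W1 i z) (d.p2 i z + d.W2 i z)
      (d.r2 i z) hc (r2_ne h i hz)
    have hGd : G4 d F i z = (-(2⁻¹ * 𝓔.eps i)) * osc (d.E11 F i) z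
      - cB d i z * pd 2 (X4 d F i) z - cC d i z * pd 2 (Z4 d F i) z := rfl
    simp only [hH1, hH2]
    linear_combination key + hGd

/-- Step4.lean : oscillating correction -/
theorem step4' (h : d.Hyp) (n : ℕ) (hG : d.Good F)
    (hE : d.Err (15+n) (16+n) (15+n) (24+n) (27+n) (28+n) F) :
    ∃ F', d.Good F' ∧ d.Err (16+n) (16+n) (16+n) (24+n) (28+n) (28+n) F' := by
  obtain ⟨v, Bv, pv, mv, f2v, f22v, wv⟩ := step4_aux h n hG hE
  have Bv' := EFam.B_le (j' := 1) (m' := 23) (l' := 1) Bv (by omega) (by omega) (by omega)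
  have hmz : 𝓔.toFam.B (𝓔.W 2 23 1) (fun i => mean (v i)) := by
    refine (EFam.B_zero (V := E4)).congr (fun i z hz => ?_)
    exact (mv i z hz).symm
  have hG' := Good_add hG pv Bv.smooth (B_osc' Bv') hmz
  refine ⟨_, hG', ?_⟩
  have ho := fun i => 𝓔.toFam.isOpen_dom i
  have hD := fun i => 𝓔.isOpen i
  -- the pieces
  have BX := B_X4 hG hE.o12
  have B0v := EFam.B_pd Bv 0
  have B1v := EFam.B_pd Bv 1
  have BAv : 𝓔.toFam.B (𝓔.W 1 (11+n) 2) (𝓔.A1 v) := by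
    have : 𝓔.toFam.B (𝓔.W 1 ((11+n)+16) 1) v := EFam.B_le Bv (by omega) (by omega) (by omega)
    exact EFam.B_A1 this
  have BRR := B_RR h hG
  have BSS := B_SS h hG
  -- derivatives of the new state
  have A1' : ∀ i, ∀ z ∈ 𝓔.toFam.dom i, 𝓔.A1 (fun i z => F i z + v i z) i z
      = 𝓔.A1 F i z + 𝓔.A1 v i z := by
    intro i z hz
    have d1 := diffAt (ho i) (hG.sm i) hz
    have d2 := diffAt (ho i) (Bv.smooth i) hz
    simp only [EFam.A1]
    rw [pd_add d1 d2, pd_add d1 d2, smul_add]; abel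
  have A2' : ∀ i, ∀ z ∈ 𝓔.toFam.dom i, 𝓔.A2 (fun i z => F i z + v i z) i z
      = 𝓔.A2 F i z + pd 1 (v i) z := by
    intro i z hz
    have d1 := diffAt (ho i) (hG.sm i) hz
    have d2 := diffAt (ho i) (Bv.smooth i) hz
    simp only [EFam.A2]
    rw [pd_add d1 d2]
  -- inner products
  have I1 : ∀ i, ∀ z ∈ 𝓔.toFam.dom i, inner ℝ (d.w i z) (𝓔.A1 v i z)
      = inner ℝ (d.w i z) (pd 0 (v i) z) - osc (d.E11 F i) z / 2 := by
    intro i z hz
    have he := (EFam.eps_pos (𝓔 := 𝓔) i).ne'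
    simp only [EFam.A1, inner_add_right, real_inner_smul_right]
    rw [wv i z hz]
    field_simp
    ring
  have df2 : ∀ i, ∀ z ∈ 𝓔.toFam.dom i, DifferentiableAt ℝ (d.f2 i) z := fun i z hz =>
    diffAt (ho i) (h.f2B.smooth i) hz
  have dv : ∀ i, ∀ z ∈ 𝓔.toFam.dom i, DifferentiableAt ℝ (v i) z := fun i z hz =>
    diffAt (ho i) (Bv.smooth i) hz
  have P : ∀ i, ∀ z ∈ 𝓔.toFam.dom i, ∀ j, inner ℝ (d.f2 i z) (pd j (v i) z)
      = pd j (X4 d F i) z - inner ℝ (pd j (d.f2 i) z) (v i z) := by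
    intro i z hz j
    have e : pd j (fun z => (inner ℝ (d.f2 i z) (v i z) : ℝ)) z = pd j (X4 d F i) z :=
      pd_eqOn (ho i) (fun z hz => f2v i z hz) j hz
    rw [pd_inner (df2 i z hz) (dv i z hz)] at e
    linarith
  have I2 : ∀ i, ∀ z ∈ 𝓔.toFam.dom i, inner ℝ (d.f2 i z) (𝓔.A1 v i z)
      = (pd 0 (X4 d F i) z - inner ℝ (d.f12 i z) (v i z)) - osc (d.E12 F i) z := by
    intro i z hz
    have he := (EFam.eps_pos (𝓔 := 𝓔) i).ne'
    simp only [EFam.A1, inner_add_right, real_inner_smul_right]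
    rw [P i z hz 0, P i z hz 2, pd0_f2, pd2_f2, inner_zero_left, sub_zero,
      pd2_X4 h hG hE.o12 i hz]
    field_simp
    ring
  have I3 : ∀ i, ∀ z ∈ 𝓔.toFam.dom i, inner ℝ (d.f2 i z) (pd 1 (v i) z)
      = - osc (d.E22 F i) z / 2 := by
    intro i z hz
    rw [P i z hz 1, pd1_f2, f22v i z hz]
    simp only [Z4]; ring
  -- the three errors
  have K11 : ∀ i, EqOn (fun z => (2 * inner ℝ (d.f1 i z) (pd 0 (v i) z) : ℝ)
      + (mean (d.E11 F i) z + 2 * inner ℝ (d.Wl i z) (pd 0 (v i) z)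
        + 2 * inner ℝ (RR d F i z) (𝓔.A1 v i z) + inner ℝ (𝓔.A1 v i z) (𝓔.A1 v i z)))
      (d.E11 (fun i z => F i z + v i z) i) (𝓔.toFam.dom i) := by
    intro i z hz
    have e := e11_alg (𝓔.A1 F i z) (𝓔.A1 v i z) (d.w i z) (d.E11 F i z) (osc (d.E11 F i) z)
      (inner ℝ (d.f1 i z) (d.f1 i z) + 𝓔.a i z.1 ^ 2 + d.G11 i z.1)
      (inner ℝ (d.w i z) (pd 0 (v i) z)) rfl (I1 i z hz)
    have e' : d.E11 (fun i z => F i z + v i z) i z
      = inner ℝ (𝓔.A1 F i z + 𝓔.A1 v i z) (𝓔.A1 F i z + 𝓔.A1 v i z)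
        - (inner ℝ (d.f1 i z) (d.f1 i z) + 𝓔.a i z.1 ^ 2 + d.G11 i z.1) := by
      simp only [EData.E11, A1' i z hz]
    have hm : d.E11 F i z - osc (d.E11 F i) z = mean (d.E11 F i) z := by simp [osc]
    have hR : 𝓔.A1 F i z - d.w i z = RR d F i z := by rw [A1_F h hG i hz]; abel
    rw [e', e, hm, hR]
    simp only [EData.w, inner_add_left]
    ring
  have K12 : ∀ i, EqOn (fun z => ((pd 0 (X4 d F i) z - inner ℝ (d.f12 i z) (v i z)
        + inner ℝ (d.f1 i z) (pd 1 (v i) z) : ℝ))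
      + (mean (d.E12 F i) z + inner ℝ (SS d F i z) (𝓔.A1 v i z)
        + inner ℝ (𝓔.A1 F i z - d.f1 i z) (pd 1 (v i) z)
        + inner ℝ (𝓔.A1 v i z) (pd 1 (v i) z)))
      (d.E12 (fun i z => F i z + v i z) i) (𝓔.toFam.dom i) := by
    intro i z hz
    have e := e12_alg (𝓔.A1 F i z) (𝓔.A1 v i z) (𝓔.A2 F i z) (pd 1 (v i) z) (d.f2 i z)
      (d.E12 F i z) (osc (d.E12 F i) z) (inner ℝ (d.f1 i z) (d.f2 i z) + d.G12 i z.1)
      (pd 0 (X4 d F i) z - inner ℝ (d.f12 i z) (v i z)) rfl (I2 i z hz)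
    have e' : d.E12 (fun i z => F i z + v i z) i z
      = inner ℝ (𝓔.A1 F i z + 𝓔.A1 v i z) (𝓔.A2 F i z + pd 1 (v i) z)
        - (inner ℝ (d.f1 i z) (d.f2 i z) + d.G12 i z.1) := by
      simp only [EData.E12, A1' i z hz, A2' i z hz]
    have hm : d.E12 F i z - osc (d.E12 F i) z = mean (d.E12 F i) z := by simp [osc]
    have hR : 𝓔.A2 F i z - d.f2 i z = SS d F i z := by rw [A2_F h hG i hz]; abel
    rw [e', e, hm, hR]
    simp only [inner_sub_left]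
    ring
  have K22 : ∀ i, EqOn (fun z => (0 : ℝ)
      + (mean (d.E22 F i) z + 2 * inner ℝ (SS d F i z) (pd 1 (v i) z)
        + inner ℝ (pd 1 (v i) z) (pd 1 (v i) z)))
      (d.E22 (fun i z => F i z + v i z) i) (𝓔.toFam.dom i) := by
    intro i z hz
    have e := e22_alg (𝓔.A2 F i z) (pd 1 (v i) z) (d.f2 i z)
      (d.E22 F i z) (osc (d.E22 F i) z) (inner ℝ (d.f2 i z) (d.f2 i z) + d.G22 i z.1)
      rfl (I3 i z hz)
    have e' : d.E22 (fun i z => F i z + v i z) i z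
      = inner ℝ (𝓔.A2 F i z + pd 1 (v i) z) (𝓔.A2 F i z + pd 1 (v i) z)
        - (inner ℝ (d.f2 i z) (d.f2 i z) + d.G22 i z.1) := by
      simp only [EData.E22, A2' i z hz]
    have hm : d.E22 F i z - osc (d.E22 F i) z = mean (d.E22 F i) z := by simp [osc]
    have hR : 𝓔.A2 F i z - d.f2 i z = SS d F i z := by rw [A2_F h hG i hz]; abel
    rw [e', e, hm, hR]
    ring
  -- means
  have mpd : ∀ i, ∀ z ∈ 𝓔.toFam.dom i, ∀ j : Fin 3, j ≠ 2 → mean (pd j (v i)) z = 0 :=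
    fun i z hz j hj => mean_pd_zero (hD i) (Bv.smooth i) (fun z hz => mv i z hz) j hj hz
  have mf1 : ∀ i, ∀ z ∈ 𝓔.toFam.dom i, ∀ j : Fin 3, j ≠ 2 →
      mean (fun z => (inner ℝ (d.f1 i z) (pd j (v i) z) : ℝ)) z = 0 := by
    intro i z hz j hj
    have := mean_inner_lift (D := 𝓔.D i) (fun x => d.f1 i (x, 0))
      (pd_contDiffOn (ho i) (Bv.smooth i) j) (z := z) hz
    rw [mpd i z hz j hj, inner_zero_right] at this
    exact this
  -- classes
  have a11 : 𝓔.toFam.B (𝓔.W 1 (16+n) 0)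
      (fun i z => (2 * inner ℝ (d.f1 i z) (pd 0 (v i) z) : ℝ)) :=
    EFam.B_cmul 2 (EFam.B_innerR h.f1B B0v (by omega) (by omega) (by omega))
  have b11 : 𝓔.toFam.B (𝓔.W 2 (16+n) 0) (fun i z => mean (d.E11 F i) z
        + 2 * inner ℝ (d.Wl i z) (pd 0 (v i) z)
        + 2 * inner ℝ (RR d F i z) (𝓔.A1 v i z) + inner ℝ (𝓔.A1 v i z) (𝓔.A1 v i z)) :=
    EFam.B_add (EFam.B_add (EFam.B_add hE.m11
      (EFam.B_cmul 2 (EFam.B_innerR h.WB B0v (by omega) (by omega) (by omega))))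
      (EFam.B_cmul 2 (EFam.B_innerR BRR BAv (by omega) (by omega) (by omega))))
      (EFam.B_innerR BAv BAv (by omega) (by omega) (by omega))
  have a12 : 𝓔.toFam.B (𝓔.W 1 (16+n) 0) (fun i z => (pd 0 (X4 d F i) z
        - inner ℝ (d.f12 i z) (v i z) + inner ℝ (d.f1 i z) (pd 1 (v i) z) : ℝ)) :=
    EFam.B_add (EFam.B_sub (EFam.B_le (EFam.B_pd BX 0) (by omega) (by omega) (by omega))
      (EFam.B_innerR h.f12B Bv (by omega) (by omega) (by omega)))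
      (EFam.B_innerR h.f1B B1v (by omega) (by omega) (by omega))
  have b12 : 𝓔.toFam.B (𝓔.W 2 (24+n) 0) (fun i z => mean (d.E12 F i) z
        + inner ℝ (SS d F i z) (𝓔.A1 v i z)
        + inner ℝ (𝓔.A1 F i z - d.f1 i z) (pd 1 (v i) z)
        + inner ℝ (𝓔.A1 v i z) (pd 1 (v i) z)) :=
    EFam.B_add (EFam.B_add (EFam.B_add hE.m12
      (EFam.B_innerR BSS BAv (by omega) (by omega) (by omega)))
      (EFam.B_innerR (B_A1F_sub h hG) B1v (by omega) (by omega) (by omega)))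
      (EFam.B_innerR BAv B1v (by omega) (by omega) (by omega))
  have b22 : 𝓔.toFam.B (𝓔.W 2 (28+n) 0) (fun i z => mean (d.E22 F i) z
        + 2 * inner ℝ (SS d F i z) (pd 1 (v i) z) + inner ℝ (pd 1 (v i) z) (pd 1 (v i) z)) :=
    EFam.B_add (EFam.B_add hE.m22
      (EFam.B_cmul 2 (EFam.B_innerR BSS B1v (by omega) (by omega) (by omega))))
      (EFam.B_innerR B1v B1v (by omega) (by omega) (by omega))
  -- mean zero parts
  have z11 : ∀ i, ∀ z ∈ 𝓔.toFam.dom i,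
      mean (fun z => (2 * inner ℝ (d.f1 i z) (pd 0 (v i) z) : ℝ)) z = 0 := fun i z hz => by
    rw [mean_const_mul, mf1 i z hz 0 (by decide), mul_zero]
  have z12 : ∀ i, ∀ z ∈ 𝓔.toFam.dom i,
      mean (fun z => (pd 0 (X4 d F i) z
        - inner ℝ (d.f12 i z) (v i z) + inner ℝ (d.f1 i z) (pd 1 (v i) z) : ℝ)) z = 0 := by
    intro i z hz
    have hx : z.1 ∈ 𝓔.D i := hz
    have s1 : ContDiffOn ℝ ∞ (pd 0 (X4 d F i)) (cyl (𝓔.D i)) :=
      pd_contDiffOn (ho i) (BX.smooth i) 0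
    have s2 : ContDiffOn ℝ ∞ (fun z => (inner ℝ (d.f12 i z) (v i z) : ℝ)) (cyl (𝓔.D i)) :=
      (h.f12B.smooth i).inner ℝ (Bv.smooth i)
    have s3 : ContDiffOn ℝ ∞ (fun z => (inner ℝ (d.f1 i z) (pd 1 (v i) z) : ℝ))
        (cyl (𝓔.D i)) :=
      (h.f1B.smooth i).inner ℝ (pd_contDiffOn (ho i) (Bv.smooth i) 1)
    have m2 : mean (fun z => (inner ℝ (d.f12 i z) (v i z) : ℝ)) z = 0 := by
      have := mean_inner_lift (D := 𝓔.D i) (fun x => d.f12 i (x, 0)) (Bv.smooth i) (z := z) hz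
      rw [mv i z hz, inner_zero_right] at this
      exact this
    rw [mean_add (s1.sub s2) s3 hx, mean_sub s1 s2 hx, m2, mf1 i z hz 1 (by decide),
      mean_pd_zero (hD i) (BX.smooth i) (fun z hz => mean_X4 hE.o12 i hz) 0 (by decide) hx]
    simp
  have R11 := split a11 b11 z11 (by omega) (by omega) (by omega)
  have R12 := split a12 b12 z12 (by omega) (by omega) (by omega)
  have R22 := split (EFam.B_zero (V := ℝ) (j := 1) (m := 28+n) (l := 0)) b22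
    (fun i z _ => mean_zero z) (by omega) (by omega) (by omega)
  refine ⟨?_, ?_, ?_, ?_, ?_, ?_⟩
  · exact R11.1.congr (fun i z hz => osc_congr (K11 i) hz)
  · exact R11.2.congr (fun i z hz => mean_congr (K11 i) hz)
  · exact R12.1.congr (fun i z hz => osc_congr (K12 i) hz)
  · exact R12.2.congr (fun i z hz => mean_congr (K12 i) hz)
  · exact R22.1.congr (fun i z hz => osc_congr (K22 i) hz)
  · exact R22.2.congr (fun i z hz => mean_congr (K22 i) hz)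

end step4
end Crest.Agent.R216.TE.S4

namespace Crest.Agent.R216.TE.EData

/-- Step4.lean : oscillating correction -/
theorem step4 {𝓔 : EFam} {d : EData 𝓔} (h : d.Hyp) (n : ℕ) {F : 𝓔.I → Q → E4} (hG : d.Good F)
    (hE : d.Err (15+n) (16+n) (15+n) (24+n) (27+n) (28+n) F) :
    ∃ F', d.Good F' ∧ d.Err (16+n) (16+n) (16+n) (24+n) (28+n) (28+n) F' :=
  S4.step4' h n hG hE

end Crest.Agent.R216.TE.EData
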