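import Crest.Agent.R216.Step0
import Crest.Agent.R216.Step1
import Crest.Agent.R216.Step2
import Crest.Agent.R216.Step3
import Crest.Agent.R216.Step4

/-!
# Row 216, Theorem E: the engine (assembly of the base state and the four steps).
-/

open Set Topology MeasureTheory
open scoped ContDiff

namespace Crest.Agent.R216.TE
namespace EData
variable {𝓔 : EFam} {d : EData 𝓔}

/-- **The engine**: states with errors of arbitrarily high order. -/
theorem engine (h : d.Hyp) (n : ℕ) : ∃ F, d.Good F ∧ d.Err0 n F := by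
  induction n with
  | zero => exact ⟨d.base, step0 h⟩
  | succ n ih =>
    obtain ⟨F, hG, hE⟩ := ih
    obtain ⟨F1, hG1, hE1⟩ := step1 h n hG hE
    obtain ⟨F2, hG2, hE2⟩ := step2 h n hG1 hE1
    obtain ⟨F3, hG3, hE3⟩ := step3 h n hG2 hE2
    obtain ⟨F4, hG4, hE4⟩ := step4 h n hG3 hE3
    refine ⟨F4, hG4, ?_⟩
    have e : ∀ k, k + 1 + n = k + (n + 1) := fun k => by ring
    simpa [Err0, ← e] using hE4

end EData
end Crest.Agent.R216.TE
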