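import Mathlib

/-!
# Row 216, module D2: an involution of a compact 1-manifold has an even number of fixed points

`even_fixed`: `W` compact Hausdorff, every point lies in the range of an open embedding `ℝ → W`,
`s : W → W` a continuous involution with finitely many fixed points: the number of fixed points is even.

Proof: a finite `s`-invariant vertex set `V` containing all fixed points is chosen such that the components
of `Vᶜ` ("edges") are chart intervals; each edge has exactly two vertices in its closure, each vertex lies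
in the closure of exactly two edges, so `#V = #E`; `s` acts freely on the edges.
-/

set_option autoImplicit false

open Set Topology

namespace Crest.Agent.R216

namespace EvenFixed

variable {W : Type*} [TopologicalSpace W]

/-- The edges: connected components of the complement of `V`. -/
def edges (V : Set W) : Set (Set W) :=
  {C | ∃ w, w ∉ V ∧ C = connectedComponentIn Vᶜ w}

/-- `C` is a chart interval with both end points in `V`. -/
def IsArc (V C : Set W) : Prop :=
  ∃ e : ℝ → W, IsOpenEmbedding e ∧ ∃ a b : ℝ, a < b ∧ e a ∈ V ∧ e b ∈ V ∧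
    (∀ s ∈ Ioo a b, e s ∉ V) ∧ C = e '' Ioo a b

theorem closure_image_Ioo [T2Space W] {e : ℝ → W} (he : Continuous e) {a b : ℝ} (hab : a < b) :
    closure (e '' Ioo a b) = e '' Icc a b := by
  apply Subset.antisymm
  · apply closure_minimal (image_mono Ioo_subset_Icc_self)
    exact (isCompact_Icc.image he).isClosed
  · rw [← closure_Ioo hab.ne]
    exact image_closure_subset_closure_image he

/-- consecutive vertices around a parameter -/
theorem exists_consecutive {V : Set W} (hV : IsClosed V) {e : ℝ → W} (he : Continuous e)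
    {p q t : ℝ} (hp : e p ∈ V) (hq : e q ∈ V) (hpt : p < t) (htq : t < q) (ht : e t ∉ V) :
    ∃ a b : ℝ, a < t ∧ t < b ∧ e a ∈ V ∧ e b ∈ V ∧ ∀ s ∈ Ioo a b, e s ∉ V := by
  have hcl : IsClosed (e ⁻¹' V) := hV.preimage he
  have hK1 : IsCompact (e ⁻¹' V ∩ Icc p t) := isCompact_Icc.inter_left hcl
  have hK2 : IsCompact (e ⁻¹' V ∩ Icc t q) := isCompact_Icc.inter_left hcl
  obtain ⟨a, ⟨haV, hat⟩, ha⟩ := hK1.exists_isGreatest ⟨p, hp, left_mem_Icc.2 hpt.le⟩
  obtain ⟨b, ⟨hbV, hbt⟩, hb⟩ := hK2.exists_isLeast ⟨q, hq, right_mem_Icc.2 htq.le⟩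
  have hat' : a < t := by
    rcases hat.2.lt_or_eq with h | h
    · exact h
    · exact absurd (h ▸ haV) ht
  have hbt' : t < b := by
    rcases hbt.1.lt_or_eq with h | h
    · exact h
    · exact absurd (h ▸ hbV) ht
  refine ⟨a, b, hat', hbt', haV, hbV, ?_⟩
  intro s hs hsV
  rcases le_total s t with h | h
  · have := ha ⟨hsV, ⟨hat.1.trans hs.1.le, h⟩⟩
    exact absurd this (not_le.2 hs.1)
  · have := hb ⟨hsV, ⟨h, hs.2.le.trans hbt.2⟩⟩
    exact absurd this (not_le.2 hs.2)

theorem component_eq_image [T2Space W] {V : Set W} {e : ℝ → W} (he : IsOpenEmbedding e)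
    {a b t : ℝ} (hat : a < t) (htb : t < b) (ha : e a ∈ V) (hb : e b ∈ V)
    (hs : ∀ s ∈ Ioo a b, e s ∉ V) :
    connectedComponentIn Vᶜ (e t) = e '' Ioo a b := by
  have hab : a < b := hat.trans htb
  apply Subset.antisymm
  · have htm : e t ∈ Vᶜ := hs t ⟨hat, htb⟩
    apply isPreconnected_connectedComponentIn.subset_of_closure_inter_subset
      (he.isOpenMap _ isOpen_Ioo)
    · exact ⟨e t, mem_connectedComponentIn htm, t, ⟨hat, htb⟩, rfl⟩
    · rw [closure_image_Ioo he.continuous hab]
      rintro x ⟨⟨s, hs', rfl⟩, hx⟩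
      have hx' : e s ∉ V := connectedComponentIn_subset _ _ hx
      refine ⟨s, ⟨lt_of_le_of_ne hs'.1 ?_, lt_of_le_of_ne hs'.2 ?_⟩, rfl⟩
      · rintro rfl; exact hx' ha
      · rintro rfl; exact hx' hb
  · apply (isPreconnected_Ioo.image e he.continuous.continuousOn).subset_connectedComponentIn
    · exact ⟨t, ⟨hat, htb⟩, rfl⟩
    · rintro x ⟨s, hs', rfl⟩
      exact hs s hs'

theorem isArc_of_mem_edges [T2Space W] {V : Set W} (hV : IsClosed V)
    (hcov : ∀ w : W, ∃ e : ℝ → W, IsOpenEmbedding e ∧ e (-1) ∈ V ∧ e 1 ∈ V ∧ w ∈ e '' Ioo (-1) 1)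
    {C : Set W} (hC : C ∈ edges V) : IsArc V C := by
  obtain ⟨w, hw, rfl⟩ := hC
  obtain ⟨e, he, h1, h2, t, ht, rfl⟩ := hcov w
  obtain ⟨a, b, hat, htb, ha, hb, hab⟩ :=
    exists_consecutive hV he.continuous h1 h2 ht.1 ht.2 hw
  exact ⟨e, he, a, b, hat.trans htb, ha, hb, hab, component_eq_image he hat htb ha hb hab⟩

/-- every edge is incident to exactly two vertices -/
theorem ncard_vertices [T2Space W] {V C : Set W} (hC : IsArc V C) :
    {v | v ∈ V ∧ v ∈ closure C}.ncard = 2 := by
  obtain ⟨e, he, a, b, hab, ha, hb, hs, rfl⟩ := hC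
  have : {v | v ∈ V ∧ v ∈ closure (e '' Ioo a b)} = {e a, e b} := by
    rw [closure_image_Ioo he.continuous hab]
    ext v
    constructor
    · rintro ⟨hv, s, hs', rfl⟩
      rcases eq_or_lt_of_le hs'.1 with h | h
      · left; rw [h]
      · rcases eq_or_lt_of_le hs'.2 with h' | h'
        · right; rw [h']; rfl
        · exact absurd hv (hs s ⟨h, h'⟩)
    · rintro (rfl | rfl)
      · exact ⟨ha, a, left_mem_Icc.2 hab.le, rfl⟩
      · exact ⟨hb, b, right_mem_Icc.2 hab.le, rfl⟩
  rw [this, ncard_pair]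
  intro h
  exact hab.ne (he.injective h)

/-- every vertex is incident to exactly two edges -/
theorem ncard_edges [T2Space W] {V : Set W} (hVf : V.Finite)
    (hcov : ∀ w : W, ∃ e : ℝ → W, IsOpenEmbedding e ∧ e (-1) ∈ V ∧ e 1 ∈ V ∧ w ∈ e '' Ioo (-1) 1)
    {v : W} (hv : v ∈ V) :
    {C | C ∈ edges V ∧ v ∈ closure C}.ncard = 2 := by
  have hV : IsClosed V := hVf.isClosed
  obtain ⟨e, he, -, -, t, -, rfl⟩ := hcov v
  -- a small interval around `t`
  have hop : IsOpen (e ⁻¹' (V \ {e t})ᶜ) :=
    ((hVf.subset sdiff_subset).isClosed.isOpen_compl).preimage he.continuous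
  obtain ⟨δ, hδ, hball⟩ := Metric.isOpen_iff.1 hop t (by simp)
  have hnot : ∀ s, s ∈ Ioo (t - δ) (t + δ) → s ≠ t → e s ∉ V := by
    intro s hs hst hsV
    have : s ∈ Metric.ball t δ := by
      rw [Real.ball_eq_Ioo]; exact hs
    have := hball this
    simp only [mem_preimage, mem_compl_iff, mem_sdiff, mem_singleton_iff, not_and, not_not] at this
    exact hst (he.injective (this hsV))
  set Cp := connectedComponentIn Vᶜ (e (t + δ / 2)) with hCp
  set Cm := connectedComponentIn Vᶜ (e (t - δ / 2)) with hCm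
  have hp : e (t + δ / 2) ∉ V := hnot _ ⟨by linarith, by linarith⟩ (by linarith)
  have hm : e (t - δ / 2) ∉ V := hnot _ ⟨by linarith, by linarith⟩ (by linarith)
  have hsubp : e '' Ioo t (t + δ) ⊆ Cp := by
    apply (isPreconnected_Ioo.image e he.continuous.continuousOn).subset_connectedComponentIn
    · exact ⟨t + δ / 2, ⟨by linarith, by linarith⟩, rfl⟩
    · rintro x ⟨s, hs', rfl⟩
      exact hnot s ⟨by linarith [hs'.1], hs'.2⟩ hs'.1.ne'
  have hsubm : e '' Ioo (t - δ) t ⊆ Cm := by
    apply (isPreconnected_Ioo.image e he.continuous.continuousOn).subset_connectedComponentIn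
    · exact ⟨t - δ / 2, ⟨by linarith, by linarith⟩, rfl⟩
    · rintro x ⟨s, hs', rfl⟩
      exact hnot s ⟨hs'.1, by linarith [hs'.2]⟩ hs'.2.ne
  have hclp : e t ∈ closure Cp := by
    apply closure_mono hsubp
    rw [closure_image_Ioo he.continuous (by linarith)]
    exact ⟨t, ⟨le_rfl, by linarith⟩, rfl⟩
  have hclm : e t ∈ closure Cm := by
    apply closure_mono hsubm
    rw [closure_image_Ioo he.continuous (by linarith)]
    exact ⟨t, ⟨by linarith, le_rfl⟩, rfl⟩
  have hEp : Cp ∈ edges V := ⟨_, hp, rfl⟩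
  have hEm : Cm ∈ edges V := ⟨_, hm, rfl⟩
  have hne : Cp ≠ Cm := by
    intro heq
    obtain ⟨g, hg, a, b, hab, ha, hb, hs, hC⟩ := isArc_of_mem_edges hV hcov hEp
    have hU : IsOpen (g ⁻¹' (e '' Ioo (t - δ) (t + δ))) :=
      (he.isOpenMap _ isOpen_Ioo).preimage hg.continuous
    have hsub : g ⁻¹' (e '' Ioo (t - δ) (t + δ)) ⊆ Icc a b := by
      rintro s ⟨r, hr, hrs⟩
      rcases eq_or_ne r t with h | h
      · have h1 : e t ∈ closure Cp := hclp
        rw [hC, closure_image_Ioo hg.continuous hab] at h1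
        obtain ⟨r', hr', hr''⟩ := h1
        have : g r' = g s := by rw [hr'', ← hrs, h]
        rw [← hg.injective this]; exact hr'
      · have h1 : e r ∈ Cp := by
          rcases lt_or_gt_of_ne h with h' | h'
          · rw [heq]; exact hsubm ⟨r, ⟨hr.1, h'⟩, rfl⟩
          · exact hsubp ⟨r, ⟨h', hr.2⟩, rfl⟩
        rw [hC] at h1
        obtain ⟨r', hr', hr''⟩ := h1
        have : g r' = g s := by rw [hr'', ← hrs]
        rw [← hg.injective this]; exact Ioo_subset_Icc_self hr'
    have hsub' : g ⁻¹' (e '' Ioo (t - δ) (t + δ)) ⊆ Ioo a b := by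
      have h3 := interior_maximal hsub hU
      rwa [interior_Icc] at h3
    have h1 : e t ∈ closure Cp := hclp
    rw [hC, closure_image_Ioo hg.continuous hab] at h1
    obtain ⟨r, hr, hr'⟩ := h1
    have hr2 : r ∈ Ioo a b := hsub' (by
      show g r ∈ e '' Ioo (t - δ) (t + δ)
      rw [hr']; exact ⟨t, ⟨by linarith, by linarith⟩, rfl⟩)
    exact hs r hr2 (hr' ▸ hv)
  have : {C | C ∈ edges V ∧ e t ∈ closure C} = {Cp, Cm} := by
    ext C
    constructor
    · rintro ⟨⟨w, hw, rfl⟩, hC⟩
      have hU : IsOpen (e '' Ioo (t - δ) (t + δ)) := he.isOpenMap _ isOpen_Ioo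
      obtain ⟨x, ⟨s, hs, rfl⟩, hx⟩ := mem_closure_iff.1 hC _ hU ⟨t, ⟨by linarith, by linarith⟩, rfl⟩
      have hst : s ≠ t := by
        rintro rfl
        exact connectedComponentIn_subset _ _ hx hv
      rcases lt_or_gt_of_ne hst with h' | h'
      · right
        have h2 : e s ∈ Cm := hsubm ⟨s, ⟨hs.1, h'⟩, rfl⟩
        show connectedComponentIn Vᶜ w = Cm
        rw [connectedComponentIn_eq hx, hCm, connectedComponentIn_eq h2]
      · left
        have h2 : e s ∈ Cp := hsubp ⟨s, ⟨h', hs.2⟩, rfl⟩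
        show connectedComponentIn Vᶜ w = Cp
        rw [connectedComponentIn_eq hx, hCp, connectedComponentIn_eq h2]
    · rintro (rfl | rfl)
      · exact ⟨hEp, hclp⟩
      · exact ⟨hEm, hclm⟩
  rw [this, ncard_pair hne]

/-- a continuous involution of a chart interval has a fixed point -/
theorem exists_fixed_of_arc {V C : Set W} (hC : IsArc V C) {s : W → W} (hs : Continuous s)
    (hinv : ∀ w, s (s w) = w) (hsC : s '' C = C) : ∃ w ∈ C, s w = w := by
  obtain ⟨e, he, a, b, hab, -, -, -, rfl⟩ := hC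
  have hmaps : ∀ t ∈ Ioo a b, ∃ t' ∈ Ioo a b, e t' = s (e t) := by
    intro t ht
    have : s (e t) ∈ e '' Ioo a b := by
      rw [← hsC]; exact ⟨e t, ⟨t, ht, rfl⟩, rfl⟩
    obtain ⟨t', ht', h⟩ := this
    exact ⟨t', ht', h⟩
  choose! φ hφm hφ using hmaps
  have hcont : ContinuousOn φ (Ioo a b) := by
    rw [he.isInducing.continuousOn_iff]
    apply (hs.comp he.continuous).continuousOn.congr
    intro t ht
    exact hφ t ht
  have hφφ : ∀ t ∈ Ioo a b, φ (φ t) = t := by
    intro t ht
    apply he.injective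
    rw [hφ _ (hφm t ht), hφ t ht, hinv]
  -- fixed point of `φ`
  have key : ∃ t ∈ Ioo a b, φ t = t := by
    have hmid : (a + b) / 2 ∈ Ioo a b := ⟨by linarith, by linarith⟩
    set t0 := (a + b) / 2
    have hc2 : ContinuousOn (fun t => φ t - t) (Ioo a b) := hcont.sub continuousOn_id
    have hpre : IsPreconnected (Ioo a b) := isPreconnected_Ioo
    obtain ⟨t, ht, h0⟩ : ∃ t ∈ Ioo a b, φ t - t = 0 := by
      rcases le_total (φ t0) t0 with h | h
      · have h1 : φ t0 - t0 ≤ 0 := by linarith
        have h2 : 0 ≤ φ (φ t0) - φ t0 := by rw [hφφ t0 hmid]; linarith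
        have := hpre.intermediate_value hmid (hφm t0 hmid) hc2 ⟨h1, h2⟩
        obtain ⟨t, ht, h⟩ := this
        exact ⟨t, ht, h⟩
      · have h1 : 0 ≤ φ t0 - t0 := by linarith
        have h2 : φ (φ t0) - φ t0 ≤ 0 := by rw [hφφ t0 hmid]; linarith
        have := hpre.intermediate_value (hφm t0 hmid) hmid hc2 ⟨h2, h1⟩
        obtain ⟨t, ht, h⟩ := this
        exact ⟨t, ht, h⟩
    exact ⟨t, ht, by linarith⟩
  obtain ⟨t, ht, h⟩ := key
  exact ⟨e t, ⟨t, ht, rfl⟩, by rw [← hφ t ht, h]⟩

/-- parity of a finite set with an involution: fixed points and total number have the same parity -/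
theorem card_involution_parity {α : Type*} [DecidableEq α] (S : Finset α) (s : α → α)
    (hm : ∀ x ∈ S, s x ∈ S) (hinv : ∀ x ∈ S, s (s x) = x) :
    (S.card : ZMod 2) = ((S.filter (fun x => s x = x)).card : ZMod 2) := by
  rw [← Finset.card_filter_add_card_filter_not (s := S) (fun x => s x = x)]
  have h0 : ∑ x ∈ S.filter (fun x => ¬ s x = x), (1 : ZMod 2) = 0 := by
    apply Finset.sum_involution (fun x _ => s x)
    · intro x _; exact CharTwo.add_self_eq_zero (1 : ZMod 2)
    · intro x hx _
      exact (Finset.mem_filter.1 hx).2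
    · intro x hx
      obtain ⟨h1, h2⟩ := Finset.mem_filter.1 hx
      refine Finset.mem_filter.2 ⟨hm x h1, ?_⟩
      rw [hinv x h1]
      exact fun h => h2 h.symm
    · intro x hx
      exact hinv x (Finset.mem_filter.1 hx).1
  rw [Finset.sum_const, nsmul_eq_mul, mul_one] at h0
  push_cast
  rw [h0, add_zero]

end EvenFixed

open EvenFixed in
/-- **Module D2.** A continuous involution with finitely many fixed points of a compact Hausdorff space
which is locally homeomorphic to `ℝ` has an even number of fixed points. -/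
theorem even_fixed {W : Type*} [TopologicalSpace W] [CompactSpace W] [T2Space W]
    (hloc : ∀ w : W, ∃ e : ℝ → W, IsOpenEmbedding e ∧ w ∈ range e)
    (s : W → W) (hs : Continuous s) (hinv : ∀ w, s (s w) = w)
    (hfin : {w : W | s w = w}.Finite) :
    Even {w : W | s w = w}.ncard := by
  classical
  -- normalised charts
  have hloc' : ∀ w : W, ∃ e : ℝ → W, IsOpenEmbedding e ∧ e 0 = w := by
    intro w
    obtain ⟨e, he, t, rfl⟩ := hloc w
    refine ⟨e ∘ (Homeomorph.addRight t), he.comp (Homeomorph.addRight t).isOpenEmbedding, ?_⟩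
    simp
  choose c hc hc0 using hloc'
  have hnhd : ∀ w : W, c w '' Ioo (-1) 1 ∈ 𝓝 w := by
    intro w
    apply ((hc w).isOpenMap _ isOpen_Ioo).mem_nhds
    exact ⟨0, ⟨by norm_num, by norm_num⟩, hc0 w⟩
  obtain ⟨T, -, hT⟩ := isCompact_univ.elim_nhds_subcover (fun w => c w '' Ioo (-1) 1)
    (fun w _ => hnhd w)
  set A : Set W := (fun w => c w (-1)) '' (T : Set W) ∪ (fun w => c w 1) '' (T : Set W) with hA
  have hAfin : A.Finite := (T.finite_toSet.image _).union (T.finite_toSet.image _)
  set V : Set W := {w : W | s w = w} ∪ (A ∪ s '' A) with hVdef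
  have hVf : V.Finite := hfin.union (hAfin.union (hAfin.image _))
  have hVcl : IsClosed V := hVf.isClosed
  have hcov : ∀ w : W, ∃ e : ℝ → W, IsOpenEmbedding e ∧ e (-1) ∈ V ∧ e 1 ∈ V ∧
      w ∈ e '' Ioo (-1) 1 := by
    intro w
    have := hT (mem_univ w)
    simp only [mem_iUnion] at this
    obtain ⟨x, hx, hw⟩ := this
    refine ⟨c x, hc x, ?_, ?_, hw⟩
    · exact Or.inr (Or.inl (Or.inl ⟨x, hx, rfl⟩))
    · exact Or.inr (Or.inl (Or.inr ⟨x, hx, rfl⟩))
  have hsV : ∀ w ∈ V, s w ∈ V := by
    rintro w (hw | hw | ⟨x, hx, rfl⟩)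
    · left; show s (s w) = s w; rw [show s w = w from hw]; exact hw
    · exact Or.inr (Or.inr ⟨w, hw, rfl⟩)
    · rw [hinv]; exact Or.inr (Or.inl hx)
  let σ : W ≃ₜ W :=
    { toFun := s, invFun := s, left_inv := hinv, right_inv := hinv,
      continuous_toFun := hs, continuous_invFun := hs }
  have hσ : ∀ w, σ w = s w := fun _ => rfl
  have hsVc : s '' Vᶜ = Vᶜ := by
    ext w
    constructor
    · rintro ⟨x, hx, rfl⟩ h
      exact hx (by have := hsV _ h; rwa [hinv] at this)
    · intro hw
      exact ⟨s w, fun h => hw (by have := hsV _ h; rwa [hinv] at this), hinv w⟩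
  have hsE : ∀ C ∈ edges V, s '' C ∈ edges V := by
    rintro C ⟨w, hw, rfl⟩
    refine ⟨s w, fun h => hw (by have := hsV _ h; rwa [hinv] at this), ?_⟩
    have := σ.image_connectedComponentIn (s := Vᶜ) (x := w) hw
    rw [show (σ : W → W) = s from rfl, hsVc] at this
    exact this
  -- finiteness of the edges
  have hEf : (edges V).Finite := by
    have hsub : edges V ⊆ ⋃ v ∈ V, {C | C ∈ edges V ∧ v ∈ closure C} := by
      intro C hC
      have h2 := ncard_vertices (isArc_of_mem_edges hVcl hcov hC)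
      have hne : {v | v ∈ V ∧ v ∈ closure C}.Nonempty := by
        apply nonempty_of_ncard_ne_zero
        rw [h2]; norm_num
      obtain ⟨v, hv, hvC⟩ := hne
      simp only [mem_iUnion]
      exact ⟨v, hv, hC, hvC⟩
    refine (hVf.biUnion ?_).subset hsub
    intro v hv
    apply finite_of_ncard_ne_zero
    rw [ncard_edges hVf hcov hv]; norm_num
  -- double counting
  set VF := hVf.toFinset
  set EF := hEf.toFinset
  have hcard : VF.card = EF.card := by
    have := Finset.card_mul_eq_card_mul (s := VF) (t := EF) (fun v C => v ∈ closure C)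
      (m := 2) (n := 2) ?_ ?_
    · omega
    · intro v hv
      have hv' : v ∈ V := by simpa [VF] using hv
      rw [← ncard_edges hVf hcov hv', ← ncard_coe_finset]
      congr 1
      ext C
      simp [Finset.bipartiteAbove, EF]
    · intro C hC
      have hC' : C ∈ edges V := by simpa [EF] using hC
      rw [← ncard_vertices (isArc_of_mem_edges hVcl hcov hC'), ← ncard_coe_finset]
      congr 1
      ext v
      simp [Finset.bipartiteBelow, VF]
  -- parity
  have hV2 := card_involution_parity VF s (fun x hx => by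
      simp only [VF, Finite.mem_toFinset] at hx ⊢; exact hsV x hx) (fun x _ => hinv x)
  have hE2 := card_involution_parity EF (fun C => s '' C) (fun x hx => by
      simp only [EF, Finite.mem_toFinset] at hx ⊢; exact hsE x hx) (fun C _ => by
      show s '' (s '' C) = C
      rw [image_image]; simp [hinv])
  have hE0 : EF.filter (fun C => s '' C = C) = ∅ := by
    rw [Finset.filter_eq_empty_iff]
    intro C hC heq
    have hC' : C ∈ edges V := by simpa [EF] using hC
    obtain ⟨w, hwC, hw⟩ := exists_fixed_of_arc (isArc_of_mem_edges hVcl hcov hC') hs hinv heq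
    obtain ⟨x, hx, rfl⟩ := hC'
    exact connectedComponentIn_subset _ _ hwC (Or.inl hw)
  have hVfix : VF.filter (fun x => s x = x) = hfin.toFinset := by
    ext x
    simp only [VF, Finset.mem_filter, Finite.mem_toFinset, mem_ofPred_eq]
    constructor
    · exact fun h => h.2
    · exact fun h => ⟨Or.inl h, h⟩
  rw [hE0, Finset.card_empty, Nat.cast_zero] at hE2
  rw [hVfix, hcard, hE2] at hV2
  rw [ncard_eq_toFinset_card _ hfin, ← ZMod.natCast_eq_zero_iff_even]
  exact hV2.symm

end Crest.Agent.R216
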