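import Crest.Agent.R216.LoopA

/-!
# Row 216, Theorem E: nondegeneracy of the loops (TE-14, helper335).
-/

open Set Topology MeasureTheory
open scoped ContDiff

namespace Crest.Agent.R216.TE

namespace LoopC

/-- mean over a period -/
noncomputable def mn (u : ℝ → ℝ) : ℝ := (2 * Real.pi)⁻¹ * ∫ t in (0:ℝ)..(2 * Real.pi), u t

lemma int_low {f : ℝ → ℝ} (hf : Continuous f) (h0 : ∀ t, 0 ≤ f t) {a b k : ℝ} (ha : 0 ≤ a)
    (hab : a ≤ b) (hb : b ≤ 2 * Real.pi) (hk : ∀ t ∈ Icc a b, k ≤ f t) :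
    (b - a) * k ≤ ∫ t in (0:ℝ)..(2 * Real.pi), f t := by
  have h1 : ∫ t in a..b, f t ≤ ∫ t in (0:ℝ)..(2 * Real.pi), f t :=
    intervalIntegral.integral_mono_interval ha hab hb (Filter.Eventually.of_forall h0)
      (hf.intervalIntegrable _ _)
  have h2 : ∫ t in a..b, k ≤ ∫ t in a..b, f t :=
    intervalIntegral.integral_mono_on hab (by simp) (hf.intervalIntegrable _ _) hk
  simp only [intervalIntegral.integral_const, smul_eq_mul] at h2
  linarith

lemma mn_low {f : ℝ → ℝ} (hf : Continuous f) (h0 : ∀ t, 0 ≤ f t) {a b k : ℝ} (ha : 0 ≤ a)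
    (hab : a ≤ b) (hb : b ≤ 2 * Real.pi) (hk : ∀ t ∈ Icc a b, k ≤ f t) :
    (b - a) / (2 * Real.pi) * k ≤ mn f := by
  have h := int_low hf h0 ha hab hb hk
  have hp : 0 < (2 * Real.pi)⁻¹ := by positivity
  have h2 := mul_le_mul_of_nonneg_left h hp.le
  unfold mn
  calc (b - a) / (2 * Real.pi) * k = (2 * Real.pi)⁻¹ * ((b - a) * k) := by ring
    _ ≤ _ := h2

lemma mn_comb {f g h : ℝ → ℝ} (hf : Continuous f) (hg : Continuous g) (hh : Continuous h)
    (x y z : ℝ) : mn (fun t => x * f t + y * g t + z * h t) = x * mn f + y * mn g + z * mn h := by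
  unfold mn
  have h1 : ∫ t in (0:ℝ)..(2 * Real.pi), (x * f t + y * g t + z * h t) =
      x * (∫ t in (0:ℝ)..(2 * Real.pi), f t) + y * (∫ t in (0:ℝ)..(2 * Real.pi), g t)
        + z * ∫ t in (0:ℝ)..(2 * Real.pi), h t := by
    rw [intervalIntegral.integral_add, intervalIntegral.integral_add,
      intervalIntegral.integral_const_mul, intervalIntegral.integral_const_mul,
      intervalIntegral.integral_const_mul]
    all_goals apply Continuous.intervalIntegrable; fun_prop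
  rw [h1]; ring

lemma mn_const (x : ℝ) : mn (fun _ => x) = x := by
  unfold mn
  simp only [intervalIntegral.integral_const, sub_zero, smul_eq_mul]
  field_simp

/-- Lagrange identity for the Gram determinant of two functions, lower bound -/
lemma mn_gram {u v : ℝ → ℝ} (hu : Continuous u) (hv : Continuous v) {a b a' b' k : ℝ}
    (ha : 0 ≤ a) (hab : a ≤ b) (hb : b ≤ 2 * Real.pi)
    (ha' : 0 ≤ a') (hab' : a' ≤ b') (hb' : b' ≤ 2 * Real.pi)
    (hk : ∀ s ∈ Icc a b, ∀ t ∈ Icc a' b', k ≤ (u s * v t - u t * v s) ^ 2) :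
    1 / 2 * ((b - a) / (2 * Real.pi)) * ((b' - a') / (2 * Real.pi)) * k ≤
      mn (fun t => u t ^ 2) * mn (fun t => v t ^ 2) - mn (fun t => u t * v t) ^ 2 := by
  set g : ℝ → ℝ := fun s => mn (fun t => (u s * v t - u t * v s) ^ 2) with hg
  have hgs : ∀ s, g s = mn (fun t => v t ^ 2) * u s ^ 2 + (-2 * mn (fun t => u t * v t)) * (u s * v s)
      + mn (fun t => u t ^ 2) * v s ^ 2 := by
    intro s
    have : (fun t => (u s * v t - u t * v s) ^ 2) =
        (fun t => u s ^ 2 * v t ^ 2 + (-2 * (u s * v s)) * (u t * v t) + v s ^ 2 * u t ^ 2) := by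
      funext t; ring
    simp only [hg]
    rw [this, mn_comb (by fun_prop) (by fun_prop) (by fun_prop)]
    ring
  have hgc : Continuous g := by
    have : g = fun s => mn (fun t => v t ^ 2) * u s ^ 2
      + (-2 * mn (fun t => u t * v t)) * (u s * v s) + mn (fun t => u t ^ 2) * v s ^ 2 :=
      funext hgs
    rw [this]; fun_prop
  have hmg : mn g = 2 * (mn (fun t => u t ^ 2) * mn (fun t => v t ^ 2)
      - mn (fun t => u t * v t) ^ 2) := by
    have : g = fun s => mn (fun t => v t ^ 2) * u s ^ 2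
      + (-2 * mn (fun t => u t * v t)) * (u s * v s) + mn (fun t => u t ^ 2) * v s ^ 2 :=
      funext hgs
    rw [this, mn_comb (by fun_prop) (by fun_prop) (by fun_prop)]
    ring
  have hg0 : ∀ s, 0 ≤ g s := by
    intro s
    simp only [hg, mn]
    apply mul_nonneg (by positivity)
    apply intervalIntegral.integral_nonneg (by positivity)
    intro t _; positivity
  have hgl : ∀ s ∈ Icc a b, (b' - a') / (2 * Real.pi) * k ≤ g s := by
    intro s hs
    apply mn_low (by fun_prop) (fun t => by positivity) ha' hab' hb'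
    exact fun t ht => hk s hs t ht
  have := mn_low hgc hg0 ha hab hb hgl
  rw [hmg] at this
  linarith

/-- the real part of `(1+iP)/(1-iP)` -/
noncomputable def ore (P : ℝ) : ℝ := (1 - P ^ 2) / (1 + P ^ 2)
/-- the imaginary part of `(1+iP)/(1-iP)` -/
noncomputable def oim (P : ℝ) : ℝ := 2 * P / (1 + P ^ 2)

lemma ore_oim (p q : ℝ) : ore p * oim q - ore q * oim p =
    2 * (q - p) * (1 + p * q) / ((1 + p ^ 2) * (1 + q ^ 2)) := by
  unfold ore oim
  have h1 : (1 + p ^ 2) ≠ 0 := by positivity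
  have h2 : (1 + q ^ 2) ≠ 0 := by positivity
  field_simp
  ring

lemma ore_oim_low {β e f K d : ℝ} (he : 0 ≤ e) (he' : e ≤ 1 / 2) (hf : 0 ≤ f) (hf' : f ≤ 1 / 2)
    (h1 : |β - e| ≤ K) (h2 : |β + f| ≤ K) (hd : 0 ≤ d) (hd' : d ≤ e + f) :
    d ^ 2 / (1 + K ^ 2) ^ 4 ≤
      (ore (β - e) * oim (β + f) - ore (β + f) * oim (β - e)) ^ 2 := by
  rw [ore_oim]
  have hK1 : (β - e) ^ 2 ≤ K ^ 2 := by
    rw [← sq_abs]; exact pow_le_pow_left₀ (abs_nonneg _) h1 2
  have hK2 : (β + f) ^ 2 ≤ K ^ 2 := by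
    rw [← sq_abs (β + f)]; exact pow_le_pow_left₀ (abs_nonneg _) h2 2
  have hg : 1 / 2 ≤ 1 + (β - e) * (β + f) := by
    nlinarith [sq_nonneg (β + (f - e) / 2), sq_nonneg (e + f)]
  have hnum : d ≤ 2 * (β + f - (β - e)) * (1 + (β - e) * (β + f)) := by
    have : 0 ≤ e + f := by positivity
    nlinarith
  have hden : (1 + (β - e) ^ 2) * (1 + (β + f) ^ 2) ≤ (1 + K ^ 2) ^ 2 := by
    have a2 : 0 ≤ 1 + (β + f) ^ 2 := by positivity
    rw [pow_two (1 + K ^ 2)]
    exact mul_le_mul (by linarith) (by linarith) a2 (by positivity)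
  have hquot : d / (1 + K ^ 2) ^ 2 ≤ 2 * (β + f - (β - e)) * (1 + (β - e) * (β + f)) /
      ((1 + (β - e) ^ 2) * (1 + (β + f) ^ 2)) := by
    apply div_le_div₀ (hd.trans hnum) hnum (by positivity) hden
  calc d ^ 2 / (1 + K ^ 2) ^ 4 = (d / (1 + K ^ 2) ^ 2) ^ 2 := by rw [div_pow, ← pow_mul]
    _ ≤ _ := pow_le_pow_left₀ (by positivity) hquot 2

/-- lower bound of the Gram determinant of `(re ω, im ω)`, `ω = (1+iP)/(1-iP)`,
`P = β + α cos t` -/
lemma gram_om {K : ℝ} (hK : 0 < K) : ∃ c, 0 < c ∧ ∀ β α : ℝ, |β| ≤ K → 0 ≤ α → α ≤ K →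
    c * α ^ 2 ≤ mn (fun t => ore (β + α * Real.cos t) ^ 2) * mn (fun t => oim (β + α * Real.cos t) ^ 2)
      - mn (fun t => ore (β + α * Real.cos t) * oim (β + α * Real.cos t)) ^ 2 := by
  set δ : ℝ := min (Real.pi / 4) (1 / (4 * K)) with hδ
  have hδ0 : 0 < δ := lt_min (by positivity) (by positivity)
  have hδ1 : δ ≤ Real.pi / 4 := min_le_left _ _
  have hδ2 : δ ≤ 1 / (4 * K) := min_le_right _ _
  have hpi := Real.pi_pos
  have hsin : 0 < Real.sin δ := Real.sin_pos_of_pos_of_lt_pi hδ0 (by linarith)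
  refine ⟨1 / 2 * (δ / (2 * Real.pi)) * (δ / (2 * Real.pi)) *
    ((2 * Real.sin δ) ^ 2 / (1 + (2 * K) ^ 2) ^ 4), by positivity, ?_⟩
  intro β α hβ hα hαK
  have hu : Continuous (fun t => ore (β + α * Real.cos t)) := by
    unfold ore
    apply Continuous.div (by fun_prop) (by fun_prop)
    intro t; positivity
  have hv : Continuous (fun t => oim (β + α * Real.cos t)) := by
    unfold oim
    apply Continuous.div (by fun_prop) (by fun_prop)
    intro t; positivity
  have key : ∀ σ ∈ Icc δ (2 * δ), Real.sin δ ≤ Real.sin σ ∧ α * Real.sin σ ≤ 1 / 2 := by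
    intro σ hσ
    constructor
    · apply Real.sin_le_sin_of_le_of_le_pi_div_two <;> linarith [hσ.1, hσ.2]
    · have h1 : Real.sin σ ≤ σ := Real.sin_le (by linarith [hσ.1])
      have h2 : σ ≤ 2 * (1 / (4 * K)) := by linarith [hσ.2]
      have h0 : 0 ≤ Real.sin σ :=
        (Real.sin_pos_of_pos_of_lt_pi (by linarith [hσ.1]) (by linarith [hσ.2])).le
      calc α * Real.sin σ ≤ K * (2 * (1 / (4 * K))) := by
            apply mul_le_mul hαK (h1.trans h2) h0 hK.le
        _ = 1 / 2 := by field_simp; norm_num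
  have h := mn_gram hu hv (a := Real.pi / 2 + δ) (b := Real.pi / 2 + 2 * δ)
    (a' := Real.pi / 2 - 2 * δ) (b' := Real.pi / 2 - δ)
    (k := (2 * (α * Real.sin δ)) ^ 2 / (1 + (2 * K) ^ 2) ^ 4)
    (by linarith) (by linarith) (by linarith) (by linarith) (by linarith) (by linarith) ?_
  · refine le_trans (le_of_eq ?_) h
    ring
  · intro s hs t ht
    have hs' := key (s - Real.pi / 2) ⟨by linarith [hs.1], by linarith [hs.2]⟩
    have ht' := key (Real.pi / 2 - t) ⟨by linarith [ht.2], by linarith [ht.1]⟩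
    have es : β + α * Real.cos s = β - α * Real.sin (s - Real.pi / 2) := by
      rw [Real.sin_sub_pi_div_two]; ring
    have et : β + α * Real.cos t = β + α * Real.sin (Real.pi / 2 - t) := by
      rw [Real.sin_pi_div_two_sub]
    rw [es, et]
    have hb1 := abs_le.1 hβ
    have n1 : 0 ≤ α * Real.sin (s - Real.pi / 2) := mul_nonneg hα (hsin.le.trans hs'.1)
    have n2 : 0 ≤ α * Real.sin (Real.pi / 2 - t) := mul_nonneg hα (hsin.le.trans ht'.1)
    have m1 : α * Real.sin (s - Real.pi / 2) ≤ K := by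
      calc _ ≤ α * 1 := mul_le_mul_of_nonneg_left (Real.sin_le_one _) hα
        _ ≤ K := by linarith
    have m2 : α * Real.sin (Real.pi / 2 - t) ≤ K := by
      calc _ ≤ α * 1 := mul_le_mul_of_nonneg_left (Real.sin_le_one _) hα
        _ ≤ K := by linarith
    apply ore_oim_low n1 hs'.2 n2 ht'.2
    · rw [abs_le]; constructor <;> linarith
    · rw [abs_le]; constructor <;> linarith
    · positivity
    · have a1 := mul_le_mul_of_nonneg_left hs'.1 hα
      have a2 := mul_le_mul_of_nonneg_left ht'.1 hα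
      linarith

lemma inner_cpr {A B C v : E4} (hB : inner ℝ v B = (0:ℝ)) (hC : inner ℝ v C = (0:ℝ)) :
    inner ℝ (cpr A B C) v = (0:ℝ) := by
  have hB' : inner ℝ B v = (0:ℝ) := by rw [real_inner_comm]; exact hB
  have hC' : inner ℝ C v = (0:ℝ) := by rw [real_inner_comm]; exact hC
  simp [cpr, xiB, xiC, inner_add_left, inner_sub_left, real_inner_smul_left, hB', hC']

section point
variable {A B C b : E4} {s : ℝ}

lemma lomre_eq (t : ℝ) : lomre A B C b s t =
    ore (lbeta A B C b s + s * lkap A B C b s * Real.cos t) := rfl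

lemma lomim_eq (t : ℝ) : lomim A B C b s t =
    oim (lbeta A B C b s + s * lkap A B C b s * Real.cos t) := rfl

lemma W_b (hb : ‖b‖ = 1) (hbB : inner ℝ b B = (0:ℝ)) (hbC : inner ℝ b C = (0:ℝ))
    (hbb : inner ℝ (lb' B C b) b = (0:ℝ)) (t : ℝ) :
    inner ℝ (loopW A B C b s t) b = lr A B C b s * lomre A B C b s t - lp1 A b := by
  simp [loopW, loopw, inner_add_left, inner_sub_left, real_inner_smul_left, inner_cpr hbB hbC, hbb,
    lp1, hb]

lemma W_b' (hb' : ‖lb' B C b‖ = 1) (hbB : inner ℝ (lb' B C b) B = (0:ℝ))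
    (hbC : inner ℝ (lb' B C b) C = (0:ℝ))
    (hbb : inner ℝ (lb' B C b) b = (0:ℝ)) (t : ℝ) :
    inner ℝ (loopW A B C b s t) (lb' B C b) = lr A B C b s * lomim A B C b s t - lp2 A B C b := by
  have hbb' : inner ℝ b (lb' B C b) = (0:ℝ) := by rw [real_inner_comm]; exact hbb
  simp [loopW, loopw, inner_add_left, inner_sub_left, real_inner_smul_left, inner_cpr hbB hbC, hbb',
    lp2, hb']

lemma continuous_lomre : Continuous (lomre A B C b s) := by
  unfold lomre lP
  apply Continuous.div (by fun_prop) (by fun_prop)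
  intro t; positivity

lemma continuous_lomim : Continuous (lomim A B C b s) := by
  unfold lomim lP
  apply Continuous.div (by fun_prop) (by fun_prop)
  intro t; positivity

lemma continuous_loopW : Continuous (loopW A B C b s) := by
  have h1 := continuous_lomre (A := A) (B := B) (C := C) (b := b) (s := s)
  have h2 := continuous_lomim (A := A) (B := B) (C := C) (b := b) (s := s)
  unfold loopW loopw
  fun_prop

lemma mn_inner (v : E4) (hm : ∫ t in (0:ℝ)..(2 * Real.pi), loopW A B C b s t = 0) :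
    mn (fun t => inner ℝ (loopW A B C b s t) v) = 0 := by
  unfold mn
  have h : ∫ t in (0:ℝ)..(2 * Real.pi), (innerSL ℝ v) (loopW A B C b s t) = 0 := by
    rw [ContinuousLinearMap.intervalIntegral_comp_comm _
      (continuous_loopW.intervalIntegrable _ _), hm, map_zero]
  have h2 : ∫ t in (0:ℝ)..(2 * Real.pi), (inner ℝ (loopW A B C b s t) v : ℝ) = 0 := by
    rw [← h]
    congr 1
    funext t
    rw [innerSL_apply_apply, real_inner_comm]
  rw [h2, mul_zero]

lemma del_eq (hb : ‖b‖ = 1) (hbB : inner ℝ b B = (0:ℝ)) (hbC : inner ℝ b C = (0:ℝ))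
    (hb' : ‖lb' B C b‖ = 1) (hbB' : inner ℝ (lb' B C b) B = (0:ℝ))
    (hbC' : inner ℝ (lb' B C b) C = (0:ℝ))
    (hbb : inner ℝ (lb' B C b) b = (0:ℝ))
    (hm : ∫ t in (0:ℝ)..(2 * Real.pi), loopW A B C b s t = 0) :
    lp1 A b ^ 2 * mn (fun t => (inner ℝ (loopW A B C b s t) (lb' B C b) : ℝ) ^ 2)
    + lp2 A B C b ^ 2 * mn (fun t => (inner ℝ (loopW A B C b s t) b : ℝ) ^ 2)
    - 2 * lp1 A b * lp2 A B C b * mn (fun t => (inner ℝ (loopW A B C b s t) b : ℝ) *
        (inner ℝ (loopW A B C b s t) (lb' B C b) : ℝ))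
    + mn (fun t => (inner ℝ (loopW A B C b s t) b : ℝ) ^ 2) *
      mn (fun t => (inner ℝ (loopW A B C b s t) (lb' B C b) : ℝ) ^ 2)
    - mn (fun t => (inner ℝ (loopW A B C b s t) b : ℝ) *
        (inner ℝ (loopW A B C b s t) (lb' B C b) : ℝ)) ^ 2 =
    lr A B C b s ^ 4 * (mn (fun t => lomre A B C b s t ^ 2) * mn (fun t => lomim A B C b s t ^ 2)
      - mn (fun t => lomre A B C b s t * lomim A B C b s t) ^ 2) := by
  have h1 := mn_inner b hm
  have h2 := mn_inner (lb' B C b) hm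
  simp only [W_b hb hbB hbC hbb, W_b' hb' hbB' hbC' hbb] at h1 h2 ⊢
  have cre := continuous_lomre (A := A) (B := B) (C := C) (b := b) (s := s)
  have cim := continuous_lomim (A := A) (B := B) (C := C) (b := b) (s := s)
  set r := lr A B C b s
  set p1 := lp1 A b
  set p2 := lp2 A B C b
  set u := lomre A B C b s
  set v := lomim A B C b s
  have e1 : mn (fun t => r * u t - p1) = r * mn u - p1 := by
    have := mn_comb cre (continuous_const (y := (1:ℝ))) (continuous_const (y := (0:ℝ))) r (-p1) 0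
    rw [mn_const, mn_const] at this
    rw [show (fun t => r * u t - p1) = (fun t => r * u t + -p1 * 1 + 0 * 0) by funext t; ring, this]
    ring
  have e2 : mn (fun t => r * v t - p2) = r * mn v - p2 := by
    have := mn_comb cim (continuous_const (y := (1:ℝ))) (continuous_const (y := (0:ℝ))) r (-p2) 0
    rw [mn_const, mn_const] at this
    rw [show (fun t => r * v t - p2) = (fun t => r * v t + -p2 * 1 + 0 * 0) by funext t; ring, this]
    ring
  rw [e1] at h1
  rw [e2] at h2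
  have e3 : mn (fun t => (r * u t - p1) ^ 2) = r ^ 2 * mn (fun t => u t ^ 2) - p1 ^ 2 := by
    have := mn_comb (f := fun t => u t ^ 2) (g := u) (h := fun _ => (1:ℝ)) (by fun_prop) cre
      (by fun_prop) (r ^ 2) (-2 * r * p1) (p1 ^ 2)
    rw [mn_const] at this
    rw [show (fun t => (r * u t - p1) ^ 2) =
      (fun t => r ^ 2 * u t ^ 2 + -2 * r * p1 * u t + p1 ^ 2 * 1) by funext t; ring, this]
    linear_combination (-2 * p1) * h1
  have e4 : mn (fun t => (r * v t - p2) ^ 2) = r ^ 2 * mn (fun t => v t ^ 2) - p2 ^ 2 := by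
    have := mn_comb (f := fun t => v t ^ 2) (g := v) (h := fun _ => (1:ℝ)) (by fun_prop) cim
      (by fun_prop) (r ^ 2) (-2 * r * p2) (p2 ^ 2)
    rw [mn_const] at this
    rw [show (fun t => (r * v t - p2) ^ 2) =
      (fun t => r ^ 2 * v t ^ 2 + -2 * r * p2 * v t + p2 ^ 2 * 1) by funext t; ring, this]
    linear_combination (-2 * p2) * h2
  have e5 : mn (fun t => (r * u t - p1) * (r * v t - p2)) =
      r ^ 2 * mn (fun t => u t * v t) - p1 * p2 := by
    have t1 := mn_comb (f := fun t => u t * v t) (g := fun t => -p1 * r * v t + -p2 * r * u t)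
      (h := fun _ => (1:ℝ)) (by fun_prop) (by fun_prop)
      (by fun_prop) (r ^ 2) 1 (p1 * p2)
    have t2 := mn_comb (f := v) (g := u) (h := fun _ => (0:ℝ)) cim cre (by fun_prop)
      (-p1 * r) (-p2 * r) 0
    rw [mn_const] at t1 t2
    rw [show (fun t => -p1 * r * v t + -p2 * r * u t + 0 * (0:ℝ)) =
      (fun t => -p1 * r * v t + -p2 * r * u t) by funext t; ring] at t2
    rw [t2] at t1
    rw [show (fun t => (r * u t - p1) * (r * v t - p2)) =
      (fun t => r ^ 2 * (u t * v t) + 1 * (-p1 * r * v t + -p2 * r * u t) + p1 * p2 * 1) by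
        funext t; ring, t1]
    linear_combination (-p1) * h2 + (-p2) * h1
  rw [e3, e4, e5]
  ring

end point

/-- uniform bounds of the parameters of the loops -/
lemma bounds {R S cr cd : ℝ} (hR : 0 < R) (hS : 0 < S) (hcr : 0 < cr) (hcd : 0 < cd) :
    ∃ K k : ℝ, 0 < K ∧ 0 < k ∧ ∀ (A B C b : E4) (s : ℝ), 0 ≤ s → s ≤ S →
      |lp1 A b| ≤ R → |lp2 A B C b| ≤ R → cr ≤ lr A B C b s → cd ≤ lden A B C b s →
      |lbeta A B C b s| ≤ K ∧ s * lkap A B C b s ≤ K ∧ k ≤ lkap A B C b s := by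
  refine ⟨8 / cd ^ 2 + S * Real.sqrt ((4 / cd + 1) * (1 + (2 / cd) ^ 2) / (cr ^ 2 * cd)),
    Real.sqrt (1 / ((2 * R ^ 2 + S ^ 2) * 4)), by positivity, by positivity, ?_⟩
  intro A B C b s hs hsS hp1 hp2 hr hd
  have hr0 : 0 < lr A B C b s := hcr.trans_le hr
  have hd0 : 0 < lden A B C b s := hcd.trans_le hd
  have hrsq : lr A B C b s ^ 2 = lp1 A b ^ 2 + lp2 A B C b ^ 2 + s ^ 2 := by
    unfold lr
    rw [Real.sq_sqrt (by positivity)]
  have hrR : lr A B C b s ^ 2 ≤ 2 * R ^ 2 + S ^ 2 := by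
    rw [hrsq]
    have h1 := pow_le_pow_left₀ (abs_nonneg _) hp1 2
    have h2 := pow_le_pow_left₀ (abs_nonneg _) hp2 2
    have h3 := pow_le_pow_left₀ hs hsS 2
    rw [sq_abs] at h1 h2
    linarith
  have hxy : lx A B C b s ^ 2 + ly A B C b s ^ 2 ≤ 1 := by
    unfold lx ly
    rw [div_pow, div_pow, ← add_div, div_le_one (by positivity), hrsq]
    nlinarith [sq_nonneg s]
  have hx1 : |lx A B C b s| ≤ 1 :=
    (sq_le_one_iff_abs_le_one _).1 (by linarith [sq_nonneg (ly A B C b s)])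
  have hy1 : |ly A B C b s| ≤ 1 :=
    (sq_le_one_iff_abs_le_one _).1 (by linarith [sq_nonneg (lx A B C b s)])
  have hx := abs_le.1 hx1
  have hden4 : lden A B C b s ≤ 4 := by
    unfold lden
    nlinarith
  have hq1 : 0 ≤ lq1 A B C b s := by
    unfold lq1
    apply div_nonneg _ hd0.le
    linarith
  have hq1' : lq1 A B C b s ≤ 4 / cd := by
    unfold lq1
    apply div_le_div₀ (by norm_num) (by linarith) hcd hd
  have hq2 : |lq2 A B C b s| ≤ 2 / cd := by
    unfold lq2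
    rw [abs_div, abs_neg, abs_mul, abs_of_pos (show (0:ℝ) < 2 by norm_num), abs_of_pos hd0]
    apply div_le_div₀ (by norm_num) (by linarith) hcd hd
  have hq2s : lq2 A B C b s ^ 2 ≤ (2 / cd) ^ 2 := by
    rw [← sq_abs]; exact pow_le_pow_left₀ (abs_nonneg _) hq2 2
  have hβ : |lbeta A B C b s| ≤ 8 / cd ^ 2 := by
    unfold lbeta
    rw [abs_neg, abs_mul, abs_of_nonneg hq1]
    calc lq1 A B C b s * |lq2 A B C b s| ≤ 4 / cd * (2 / cd) :=
          mul_le_mul hq1' hq2 (abs_nonneg _) (by positivity)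
      _ = 8 / cd ^ 2 := by rw [div_mul_div_comm]; norm_num; rw [sq]
  have hκ : lkap A B C b s ≤ Real.sqrt ((4 / cd + 1) * (1 + (2 / cd) ^ 2) / (cr ^ 2 * cd)) := by
    unfold lkap
    apply Real.sqrt_le_sqrt
    apply div_le_div₀ (by positivity)
    · apply mul_le_mul (by linarith) (by linarith) (by positivity) (by positivity)
    · positivity
    · apply mul_le_mul _ hd hcd.le (by positivity)
      exact pow_le_pow_left₀ hcr.le hr 2
  have hκ' : Real.sqrt (1 / ((2 * R ^ 2 + S ^ 2) * 4)) ≤ lkap A B C b s := by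
    unfold lkap
    apply Real.sqrt_le_sqrt
    apply div_le_div₀ (by positivity)
    · nlinarith [sq_nonneg (lq2 A B C b s), mul_nonneg hq1 (sq_nonneg (lq2 A B C b s))]
    · positivity
    · apply mul_le_mul hrR hden4 hd0.le (by positivity)
  refine ⟨hβ.trans (by have : 0 ≤ S * Real.sqrt ((4 / cd + 1) * (1 + (2 / cd) ^ 2) / (cr ^ 2 * cd)) := by positivity
                       linarith), ?_, hκ'⟩
  have hκ0 : 0 ≤ lkap A B C b s := Real.sqrt_nonneg _
  have h8 : 0 ≤ 8 / cd ^ 2 := by positivity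
  have := mul_le_mul hsS hκ hκ0 hS.le
  linarith

/-- the pointwise form of the nondegeneracy of the loops -/
lemma del_point {R S cr cd : ℝ} (hR : 0 < R) (hS : 0 < S) (hcr : 0 < cr) (hcd : 0 < cd) :
    ∃ c, 0 < c ∧ ∀ (A B C b : E4) (s : ℝ), 0 ≤ s → s ≤ S → ‖A‖ ≤ R →
      cr ≤ lr A B C b s → cd ≤ lden A B C b s →
      ‖b‖ = 1 → inner ℝ b B = (0:ℝ) → inner ℝ b C = (0:ℝ) →
      ‖lb' B C b‖ = 1 → inner ℝ (lb' B C b) B = (0:ℝ) →
      inner ℝ (lb' B C b) C = (0:ℝ) → inner ℝ (lb' B C b) b = (0:ℝ) →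
      ∫ t in (0:ℝ)..(2 * Real.pi), loopW A B C b s t = 0 →
      c * s ^ 2 ≤ lp1 A b ^ 2 * mn (fun t => (inner ℝ (loopW A B C b s t) (lb' B C b) : ℝ) ^ 2)
        + lp2 A B C b ^ 2 * mn (fun t => (inner ℝ (loopW A B C b s t) b : ℝ) ^ 2)
        - 2 * lp1 A b * lp2 A B C b * mn (fun t => (inner ℝ (loopW A B C b s t) b : ℝ) *
            (inner ℝ (loopW A B C b s t) (lb' B C b) : ℝ))
        + mn (fun t => (inner ℝ (loopW A B C b s t) b : ℝ) ^ 2) *
          mn (fun t => (inner ℝ (loopW A B C b s t) (lb' B C b) : ℝ) ^ 2)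
        - mn (fun t => (inner ℝ (loopW A B C b s t) b : ℝ) *
            (inner ℝ (loopW A B C b s t) (lb' B C b) : ℝ)) ^ 2 := by
  obtain ⟨K, k, hK, hk, hKk⟩ := bounds hR hS hcr hcd
  obtain ⟨c, hc, hcK⟩ := gram_om hK
  refine ⟨cr ^ 4 * (c * k ^ 2), by positivity, ?_⟩
  intro A B C b s hs hsS hA hr hd hb hbB hbC hb' hbB' hbC' hbb hm
  rw [del_eq hb hbB hbC hb' hbB' hbC' hbb hm]
  have hp1 : |lp1 A b| ≤ R := by
    have := abs_real_inner_le_norm A b
    rw [hb, mul_one] at this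
    exact this.trans hA
  have hp2 : |lp2 A B C b| ≤ R := by
    have := abs_real_inner_le_norm A (lb' B C b)
    rw [hb', mul_one] at this
    exact this.trans hA
  obtain ⟨h1, h2, h3⟩ := hKk A B C b s hs hsS hp1 hp2 hr hd
  have hκ0 : 0 ≤ lkap A B C b s := Real.sqrt_nonneg _
  have h4 := hcK (lbeta A B C b s) (s * lkap A B C b s) h1 (mul_nonneg hs hκ0) h2
  have h5 : c * k ^ 2 * s ^ 2 ≤ c * (s * lkap A B C b s) ^ 2 := by
    rw [mul_pow]
    have := pow_le_pow_left₀ hk.le h3 2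
    have h6 : k ^ 2 * s ^ 2 ≤ lkap A B C b s ^ 2 * s ^ 2 :=
      mul_le_mul_of_nonneg_right this (sq_nonneg s)
    nlinarith
  have h7 : cr ^ 4 ≤ lr A B C b s ^ 4 := pow_le_pow_left₀ hcr.le hr 4
  have h8 := h5.trans h4
  calc cr ^ 4 * (c * k ^ 2) * s ^ 2 = cr ^ 4 * (c * k ^ 2 * s ^ 2) := by ring
    _ ≤ lr A B C b s ^ 4 * (c * k ^ 2 * s ^ 2) := mul_le_mul_of_nonneg_right h7 (by positivity)
    _ ≤ _ := mul_le_mul_of_nonneg_left h8 (by positivity)

end LoopC

section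
variable {𝓔 : EFam} {A B C b : 𝓔.I → X2 → E4}

/-- nondegeneracy, modulo the algebra of the frame and the mean of the loop -/
lemma loop_del_of (h : LoopHyp 𝓔 A B C b)
    (hJ : ∀ i, ∀ x ∈ 𝓔.D i, ‖lb' (B i x) (C i x) (b i x)‖ = 1 ∧
      inner ℝ (lb' (B i x) (C i x) (b i x)) (B i x) = (0:ℝ) ∧
      inner ℝ (lb' (B i x) (C i x) (b i x)) (C i x) = (0:ℝ) ∧
      inner ℝ (lb' (B i x) (C i x) (b i x)) (b i x) = (0:ℝ))
    (hm : ∀ i, ∀ x ∈ 𝓔.D i, ∫ t in (0:ℝ)..(2 * Real.pi),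
      loopW (A i x) (B i x) (C i x) (b i x) (𝓔.a i x) t = 0) :
    ∃ c, 0 < c ∧ ∀ i, ∀ x ∈ 𝓔.D i,
    let b' := Jrot (B i x) (C i x) (b i x)
    let W := fun t => loopW (A i x) (B i x) (C i x) (b i x) (𝓔.a i x) t
    let m := fun (u : ℝ → ℝ) => (2 * Real.pi)⁻¹ * ∫ t in (0:ℝ)..(2 * Real.pi), u t
    let p1 : ℝ := inner ℝ (A i x) (b i x)
    let p2 : ℝ := inner ℝ (A i x) b'
    let W1 := fun t => (inner ℝ (W t) (b i x) : ℝ)
    let W2 := fun t => (inner ℝ (W t) b' : ℝ)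
    c * 𝓔.a i x ^ 2 ≤ p1 ^ 2 * m (fun t => W2 t ^ 2) + p2 ^ 2 * m (fun t => W1 t ^ 2)
      - 2 * p1 * p2 * m (fun t => W1 t * W2 t)
      + m (fun t => W1 t ^ 2) * m (fun t => W2 t ^ 2) - m (fun t => W1 t * W2 t) ^ 2 := by
  obtain ⟨R, hR, hA⟩ := h.AB.sz
  obtain ⟨S, hS, haS⟩ := 𝓔.a_le
  obtain ⟨cr, hcr, hr⟩ := h.r_low
  obtain ⟨cd, hcd, hd⟩ := h.den_low
  obtain ⟨c, hc, H⟩ := LoopC.del_point hR hS hcr hcd
  refine ⟨c, hc, ?_⟩
  intro i x hx
  have hA' : ‖A i x‖ ≤ R := by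
    have := hA i (x, 0) hx
    simpa [lift, EFam.W] using this
  exact H (A i x) (B i x) (C i x) (b i x) (𝓔.a i x) (𝓔.a_pos i x hx).le (haS i x hx) hA'
    (hr i x hx) (hd i x hx) (h.b_unit i x hx) (h.b_perp i x hx).1 (h.b_perp i x hx).2
    (hJ i x hx).1 (hJ i x hx).2.1 (hJ i x hx).2.2.1 (hJ i x hx).2.2.2 (hm i x hx)

/-- nondegeneracy: with `W1 = ⟪W,b⟫`, `W2 = ⟪W,Jb⟫`, `p1, p2` the components of `A` -/
lemma loop_del (h : LoopHyp 𝓔 A B C b) : ∃ c, 0 < c ∧ ∀ i, ∀ x ∈ 𝓔.D i,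
    let b' := Jrot (B i x) (C i x) (b i x)
    let W := fun t => loopW (A i x) (B i x) (C i x) (b i x) (𝓔.a i x) t
    let m := fun (u : ℝ → ℝ) => (2 * Real.pi)⁻¹ * ∫ t in (0:ℝ)..(2 * Real.pi), u t
    let p1 : ℝ := inner ℝ (A i x) (b i x)
    let p2 : ℝ := inner ℝ (A i x) b'
    let W1 := fun t => (inner ℝ (W t) (b i x) : ℝ)
    let W2 := fun t => (inner ℝ (W t) b' : ℝ)
    c * 𝓔.a i x ^ 2 ≤ p1 ^ 2 * m (fun t => W2 t ^ 2) + p2 ^ 2 * m (fun t => W1 t ^ 2)
      - 2 * p1 * p2 * m (fun t => W1 t * W2 t)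
      + m (fun t => W1 t ^ 2) * m (fun t => W2 t ^ 2) - m (fun t => W1 t * W2 t) ^ 2 := by
  have hg : ∀ i, ∀ x ∈ 𝓔.D i, 0 < gram (B i x) (C i x) := by
    obtain ⟨c, hc, H⟩ := h.gram_low
    exact fun i x hx => hc.trans_le (H i x hx)
  apply loop_del_of h
  · intro i x hx
    obtain ⟨h1, h2, h3, h4⟩ := lb'_facts (hg i x hx) (h.b_unit i x hx) (h.b_perp i x hx).1
      (h.b_perp i x hx).2
    refine ⟨h1, h3, h4, ?_⟩
    rw [real_inner_comm]; exact h2
  · intro i x hx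
    obtain ⟨cr, hcr, hr⟩ := h.r_low
    obtain ⟨cd, hcd, hd⟩ := h.den_low
    exact loop_mean _ _ _ _ _ (hg i x hx) (h.b_unit i x hx) (h.b_perp i x hx).1
      (h.b_perp i x hx).2 (hcr.trans_le (hr i x hx)) (hcd.trans_le (hd i x hx))

end

end Crest.Agent.R216.TE
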