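import Crest.Agent.R216.LoopB
import Crest.Agent.R216.LoopC
import Crest.Agent.R216.Alg

/-!
# Row 216, Theorem E: the Cayley loops satisfy the hypotheses of the engine (helper961).
`loopData f b G11 G12 G22 : EData 𝓔` and `hyp_of_loop : ... → (loopData ...).Hyp`.
-/

open Set Topology MeasureTheory
open scoped ContDiff

namespace Crest.Agent.R216.TE

/-- engine data with the Cayley loops for a frame vector `b` of `{f₂,f₂₂}ᗮ` -/
noncomputable def loopData (𝓔 : EFam) (f b : 𝓔.I → X2 → E4) (G11 G12 G22 : 𝓔.I → X2 → ℝ) :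
    EData 𝓔 where
  f := f
  b1 := b
  b2 := fun i x => Jrot (d2 (f i) x) (d2 (d2 (f i)) x) (b i x)
  Wl := fun i z => loopW (d1 (f i) z.1) (d2 (f i) z.1) (d2 (d2 (f i)) z.1) (b i z.1)
    (𝓔.a i z.1) z.2
  G11 := G11
  G12 := G12
  G22 := G22

namespace HL

lemma loopW_per (A B C b : E4) (s t : ℝ) :
    loopW A B C b s (t + 2 * Real.pi) = loopW A B C b s t := by
  simp only [loopW, loopw, lomre, lomim, lP, Real.cos_add_two_pi]

lemma loopW_even (A B C b : E4) (s t : ℝ) : loopW A B C b s (-t) = loopW A B C b s t := by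
  simp only [loopW, loopw, lomre, lomim, lP, Real.cos_neg]

end HL

open HL

/-- **The Cayley loops satisfy the hypotheses of the engine.** -/
theorem hyp_of_loop (𝓔 : EFam) (f b : 𝓔.I → X2 → E4) (G11 G12 G22 : 𝓔.I → X2 → ℝ)
    (hf : 𝓔.toFam.Sm (fun i => lift (f i)))
    (hL : LoopHyp 𝓔 (fun i => d1 (f i)) (fun i => d2 (f i)) (fun i => d2 (d2 (f i))) b)
    (h12 : 𝓔.toFam.B (𝓔.W 0 0 0) (fun i => lift (d1 (d2 (f i)))))
    (hG11 : 𝓔.toFam.B (𝓔.W 2 48 0) (fun i => lift (G11 i)))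
    (hG12 : 𝓔.toFam.B (𝓔.W 2 48 0) (fun i => lift (G12 i)))
    (hG22 : 𝓔.toFam.B (𝓔.W 2 48 0) (fun i => lift (G22 i)))
    (star : ∀ i, ∀ x ∈ 𝓔.D i, ∀ l ∈ Icc (0:ℝ) 1, (x.1, l * x.2) ∈ 𝓔.D i)
    (bdd2 : ∃ L, 0 < L ∧ ∀ i, ∀ x ∈ 𝓔.D i, |x.2| ≤ L) :
    (loopData 𝓔 f b G11 G12 G22).Hyp := by
  obtain ⟨cg, hcg, hg⟩ := hL.gram_low
  obtain ⟨cr, hcr, hr⟩ := hL.r_low
  obtain ⟨cd, hcd, hd⟩ := hL.den_low
  have hgp : ∀ i, ∀ x ∈ 𝓔.D i, 0 < gram (d2 (f i) x) (d2 (d2 (f i)) x) :=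
    fun i x hx => hcg.trans_le (hg i x hx)
  have hJ : ∀ i, ∀ x ∈ 𝓔.D i, ‖Jrot (d2 (f i) x) (d2 (d2 (f i)) x) (b i x)‖ = 1 ∧
      inner ℝ (b i x) (Jrot (d2 (f i) x) (d2 (d2 (f i)) x) (b i x)) = (0:ℝ) ∧
      inner ℝ (Jrot (d2 (f i) x) (d2 (d2 (f i)) x) (b i x)) (d2 (f i) x) = (0:ℝ) ∧
      inner ℝ (Jrot (d2 (f i) x) (d2 (d2 (f i)) x) (b i x)) (d2 (d2 (f i)) x) = (0:ℝ) :=
    fun i x hx => lb'_facts (hgp i x hx) (hL.b_unit i x hx) (hL.b_perp i x hx).1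
      (hL.b_perp i x hx).2
  have hint0 : ∀ i, ∀ x ∈ 𝓔.D i, ∫ t in (0:ℝ)..(2 * Real.pi),
      loopW (d1 (f i) x) (d2 (f i) x) (d2 (d2 (f i)) x) (b i x) (𝓔.a i x) t = 0 :=
    fun i x hx => loop_mean _ _ _ _ _ (hgp i x hx) (hL.b_unit i x hx) (hL.b_perp i x hx).1
      (hL.b_perp i x hx).2 (hcr.trans_le (hr i x hx)) (hcd.trans_le (hd i x hx))
  refine
    { fsm := hf
      f1B := hL.AB
      f2B := hL.BB
      f12B := h12
      f22B := hL.CB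
      gram_low := ⟨cg, hcg, fun i z hz => hg i z.1 hz⟩
      b1B := hL.bB
      b2B := B_Jrot hL.BB hL.CB hL.bB ⟨cg, hcg, fun i z hz => hg i z.1 hz⟩
      b_on := fun i x hx => ⟨hL.b_unit i x hx, (hJ i x hx).1, (hJ i x hx).2.1⟩
      b_perp := fun i z hz => ⟨(hL.b_perp i z.1 hz).1, (hL.b_perp i z.1 hz).2,
        (hJ i z.1 hz).2.2.1, (hJ i z.1 hz).2.2.2⟩
      WB := loop_class hL
      Wper := fun i x _ t => loopW_per _ _ _ _ _ _
      Weven := fun i x _ t => loopW_even _ _ _ _ _ _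
      Wmean := fun i z hz => ?_
      Wperp := fun i z hz => loop_perp _ _ _ _ _ (hgp i z.1 hz) (hL.b_perp i z.1 hz).1
        (hL.b_perp i z.1 hz).2 _
      circle := fun i z hz => ?_
      r2_low := ⟨cr ^ 2, by positivity, fun i z hz => ?_⟩
      Del_low := ?_
      G11B := hG11
      G12B := hG12
      G22B := hG22
      star := star
      bdd2 := bdd2 }
  · show mean _ z = 0
    unfold mean
    have := hint0 i z.1 hz
    simp only [loopData]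
    rw [this, smul_zero]
  · have h1 := loop_circle (d1 (f i) z.1) (d2 (f i) z.1) (d2 (d2 (f i)) z.1) (b i z.1)
      (𝓔.a i z.1) (hgp i z.1 hz) (hL.b_unit i z.1 hz) (hL.b_perp i z.1 hz).1
      (hL.b_perp i z.1 hz).2 z.2
    have h2 : (loopData 𝓔 f b G11 G12 G22).w i z = loopw (d1 (f i) z.1) (d2 (f i) z.1)
        (d2 (d2 (f i)) z.1) (b i z.1) (𝓔.a i z.1) z.2 := by
      show d1 (f i) z.1 + loopW _ _ _ _ _ _ = _
      unfold loopW
      abel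
    rw [h2, h1]
    rfl
  · have h1 := hr i z.1 hz
    have h2 := lr_sq (A := d1 (f i) z.1) (B := d2 (f i) z.1) (C := d2 (d2 (f i)) z.1)
      (b := b i z.1) (s := 𝓔.a i z.1)
    have h3 : (loopData 𝓔 f b G11 G12 G22).r2 i z = lr (d1 (f i) z.1) (d2 (f i) z.1)
        (d2 (d2 (f i)) z.1) (b i z.1) (𝓔.a i z.1) ^ 2 := by
      rw [h2]; rfl
    rw [h3]
    exact pow_le_pow_left₀ hcr.le h1 2
  · obtain ⟨c, hc, H⟩ := loop_del hL
    refine ⟨c, hc, fun i z hz => (H i z.1 hz).trans (le_of_eq ?_)⟩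
    rfl

end Crest.Agent.R216.TE
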