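import Crest.Agent.R216.Prof1

set_option autoImplicit false
open Real
open scoped ContDiff

/-! Row 216, Theorem E, section 3: the one-variable amplitude profiles
`kap L u = 1 - (1 - e^{-2L}) st(2Lu-1)²`, `alph L L'` with
`alph² = e(u)² (kap L u - kap L' u)` for `0 ≤ 2L ≤ L'`, `1 ≤ L'`. -/

namespace Crest.Agent.R216.Prof

noncomputable section

/-- The profile `κ_L`. `L = log (1/δ)`; `κ_0 = 1`. -/
def kap (L u : ℝ) : ℝ := 1 - (1 - exp (-(2 * L))) * smoothTransition (2 * L * u - 1) ^ 2

/-- The positive factor `q`. -/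
def qq (L L' u : ℝ) : ℝ :=
  (exp (-(2 * L)) - exp (-(2 * L'))) + (1 - exp (-(2 * L))) * gst (2 - 2 * L * u)

/-- The one-variable amplitude. -/
def alph (L L' u : ℝ) : ℝ :=
  expNegInvGlue u * (smoothTransition (2 * L' * u - 1) * √(qq L L' u))

/-- Admissible pairs of parameters. -/
def Adm (L L' : ℝ) : Prop := 0 ≤ L ∧ 2 * L ≤ L' ∧ 1 ≤ L'

theorem exp_gap {L L' : ℝ} (h : Adm L L') :
    exp (-(2 * L)) / 2 ≤ exp (-(2 * L)) - exp (-(2 * L')) := by
  obtain ⟨h0, h1, h2⟩ := h
  have h3 : exp (-(2 * L')) ≤ exp (-(2 * L)) * exp (-1) := by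
    rw [← exp_add]; exact exp_le_exp.2 (by linarith)
  have h4 : exp (-1 : ℝ) ≤ 1 / 2 := by
    have := Real.exp_one_gt_d9
    rw [exp_neg, inv_eq_one_div]
    exact one_div_le_one_div_of_le (by norm_num) (by linarith)
  have h5 := exp_pos (-(2 * L))
  nlinarith

theorem one_sub_exp_nonneg {L : ℝ} (h : 0 ≤ L) : 0 ≤ 1 - exp (-(2 * L)) := by
  have : exp (-(2 * L)) ≤ 1 := exp_le_one_iff.2 (by linarith)
  linarith

theorem kap_zero (u : ℝ) : kap 0 u = 1 := by simp [kap]

theorem kap_le_one {L : ℝ} (h : 0 ≤ L) (u : ℝ) : kap L u ≤ 1 := by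
  have h1 := one_sub_exp_nonneg h
  have h2 := sq_nonneg (smoothTransition (2 * L * u - 1))
  unfold kap; nlinarith

theorem exp_le_kap {L : ℝ} (h : 0 ≤ L) (u : ℝ) : exp (-(2 * L)) ≤ kap L u := by
  have h1 := one_sub_exp_nonneg h
  have h2 := smoothTransition.nonneg (2 * L * u - 1)
  have h3 := smoothTransition.le_one (2 * L * u - 1)
  unfold kap
  nlinarith [mul_le_mul_of_nonneg_left (show smoothTransition (2 * L * u - 1) ^ 2 ≤ 1 by nlinarith) h1]

theorem kap_eq_one {L u : ℝ} (h : 2 * L * u ≤ 1) : kap L u = 1 := by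
  rw [kap, smoothTransition.zero_of_nonpos (by linarith)]; ring

theorem kap_eq_exp {L u : ℝ} (h : 1 ≤ L * u) : kap L u = exp (-(2 * L)) := by
  rw [kap, smoothTransition.one_of_one_le (by linarith)]; ring

theorem contDiff_kap (L : ℝ) : ContDiff ℝ ∞ (kap L) := by
  unfold kap
  exact contDiff_const.sub (contDiff_const.mul
    ((smoothTransition.contDiff.comp ((contDiff_const.mul contDiff_id).sub contDiff_const)).pow 2))

theorem qq_lower {L L' : ℝ} (h : Adm L L') (u : ℝ) : exp (-(2 * L)) / 2 ≤ qq L L' u := by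
  have h1 := exp_gap h
  have h2 := mul_nonneg (one_sub_exp_nonneg h.1) (gst_nonneg (2 - 2 * L * u))
  unfold qq; linarith

theorem qq_pos {L L' : ℝ} (h : Adm L L') (u : ℝ) : 0 < qq L L' u :=
  lt_of_lt_of_le (by positivity) (qq_lower h u)

theorem qq_le_one {L L' : ℝ} (h : Adm L L') (u : ℝ) : qq L L' u ≤ 1 := by
  have h1 := one_sub_exp_nonneg h.1
  have h2 := gst_le_one (2 - 2 * L * u)
  have h3 := exp_pos (-(2 * L'))
  have h4 := mul_le_mul_of_nonneg_left h2 h1
  unfold qq; linarith

theorem contDiff_qq (L L' : ℝ) : ContDiff ℝ ∞ (qq L L') := by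
  unfold qq
  exact contDiff_const.add (contDiff_const.mul
    (contDiff_gst.comp (contDiff_const.sub (contDiff_const.mul contDiff_id))))

/-- Telescoping identity. -/
theorem kap_sub {L L' : ℝ} (h : Adm L L') (u : ℝ) :
    kap L u - kap L' u = smoothTransition (2 * L' * u - 1) ^ 2 * qq L L' u := by
  obtain ⟨h0, h1, h2⟩ := h
  have hg : gst (2 - 2 * L * u) = 1 - smoothTransition (2 * L * u - 1) ^ 2 := by
    rw [← gst_eq']; congr 1; ring
  have key : smoothTransition (2 * L' * u - 1) ^ 2 * smoothTransition (2 * L * u - 1) ^ 2 =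
      smoothTransition (2 * L * u - 1) ^ 2 := by
    rcases le_or_gt (2 * L * u - 1) 0 with h3 | h3
    · rw [smoothTransition.zero_of_nonpos h3]; ring
    · have hu : 0 < u := by
        by_contra hu
        have : L * u ≤ 0 := mul_nonpos_of_nonneg_of_nonpos h0 (not_lt.1 hu)
        nlinarith
      rw [smoothTransition.one_of_one_le (x := 2 * L' * u - 1) (by nlinarith)]; ring
  unfold kap qq
  rw [hg]
  linear_combination (1 - exp (-(2 * L))) * key

theorem kap_antitone {L L' : ℝ} (h : Adm L L') (u : ℝ) : kap L' u ≤ kap L u := by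
  have := kap_sub h u
  have h2 := mul_nonneg (sq_nonneg (smoothTransition (2 * L' * u - 1))) (qq_pos h u).le
  linarith

theorem alph_nonneg (L L' u : ℝ) : 0 ≤ alph L L' u :=
  mul_nonneg (expNegInvGlue.nonneg u) (mul_nonneg (smoothTransition.nonneg _) (sqrt_nonneg _))

theorem alph_sq {L L' : ℝ} (h : Adm L L') (u : ℝ) :
    alph L L' u ^ 2 = expNegInvGlue u ^ 2 * (kap L u - kap L' u) := by
  rw [kap_sub h, alph, mul_pow, mul_pow, sq_sqrt (qq_pos h u).le]

theorem contDiff_alph {L L' : ℝ} (h : Adm L L') : ContDiff ℝ ∞ (alph L L') := by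
  unfold alph
  exact expNegInvGlue.contDiff.mul ((smoothTransition.contDiff.comp
    ((contDiff_const.mul contDiff_id).sub contDiff_const)).mul
    ((contDiff_qq L L').sqrt fun u => (qq_pos h u).ne'))

theorem alph_eq_zero {L L' u : ℝ} (h : 2 * L' * u ≤ 1) : alph L L' u = 0 := by
  rw [alph, smoothTransition.zero_of_nonpos (by linarith)]; ring

theorem alph_pos {L L' u : ℝ} (h : Adm L L') (hu : 1 < 2 * L' * u) : 0 < alph L L' u := by
  have hu0 : 0 < u := by
    have := h.2.2
    by_contra hc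
    have : L' * u ≤ 0 := mul_nonpos_of_nonneg_of_nonpos (by linarith) (not_lt.1 hc)
    nlinarith
  exact mul_pos (expNegInvGlue.pos_of_pos hu0)
    (mul_pos (smoothTransition.pos_of_pos (by linarith)) (sqrt_pos.2 (qq_pos h u)))

theorem alph_le_glue {L L' : ℝ} (h : Adm L L') (u : ℝ) : alph L L' u ≤ expNegInvGlue u := by
  have h1 : √(qq L L' u) ≤ 1 := sqrt_le_one.2 (qq_le_one h u)
  have h2 := smoothTransition.le_one (2 * L' * u - 1)
  have h3 := smoothTransition.nonneg (2 * L' * u - 1)
  have h4 := expNegInvGlue.nonneg u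
  unfold alph
  calc _ ≤ expNegInvGlue u * (1 * 1) := by
        refine mul_le_mul_of_nonneg_left (mul_le_mul h2 h1 (sqrt_nonneg _) zero_le_one) h4
    _ = _ := by ring

theorem alph_le_st {L L' : ℝ} (h : Adm L L') (u : ℝ) :
    alph L L' u ≤ smoothTransition (2 * L' * u - 1) := by
  have h1 : √(qq L L' u) ≤ 1 := sqrt_le_one.2 (qq_le_one h u)
  have h3 := smoothTransition.nonneg (2 * L' * u - 1)
  have h4 := glue_le_one u
  unfold alph
  calc _ ≤ 1 * (smoothTransition (2 * L' * u - 1) * 1) := by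
        refine mul_le_mul h4 (mul_le_mul_of_nonneg_left h1 h3)
          (mul_nonneg h3 (sqrt_nonneg _)) zero_le_one
    _ = _ := by ring

/-- The amplitude is at most `δ = e^{-L}`. -/
theorem alph_le {L L' : ℝ} (h : Adm L L') (u : ℝ) : alph L L' u ≤ exp (-L) := by
  rcases le_or_gt (L * u) 1 with h1 | h1
  · refine (alph_le_glue h u).trans ?_
    rcases le_or_gt u 0 with hu | hu
    · rw [expNegInvGlue.zero_of_nonpos hu]; exact (exp_pos _).le
    · rw [glue_eq hu]
      refine exp_le_exp.2 (neg_le_neg ?_)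
      rw [← one_div, le_div_iff₀ hu]; exact h1
  · have h2 : gst (2 - 2 * L * u) = 0 := by
      rw [gst, smoothTransition.zero_of_nonpos (by linarith)]; ring
    have h3 : √(qq L L' u) ≤ exp (-L) := by
      rw [qq, h2, mul_zero, add_zero]
      refine sqrt_le_iff.2 ⟨(exp_pos _).le, ?_⟩
      rw [← exp_nat_mul]
      have := exp_pos (-(2 * L'))
      have e : ((2:ℕ):ℝ) * -L = -(2 * L) := by push_cast; ring
      rw [e]; linarith
    have h4 := smoothTransition.le_one (2 * L' * u - 1)
    have h5 := smoothTransition.nonneg (2 * L' * u - 1)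
    have h6 := glue_le_one u
    unfold alph
    calc _ ≤ 1 * (1 * exp (-L)) := by
          refine mul_le_mul h6 (mul_le_mul h4 h3 (sqrt_nonneg _) zero_le_one)
            (mul_nonneg h5 (sqrt_nonneg _)) zero_le_one
      _ = _ := by ring

/-- Lower bound of the amplitude where the previous amplitude was supported. -/
theorem le_alph {L L' u : ℝ} (h : Adm L L') (hL : 0 < L) (hu : 1 ≤ 2 * L * u) :
    exp (-(3 * L)) / 2 ≤ alph L L' u := by
  have hu0 : 0 < u := by
    by_contra hc
    have : L * u ≤ 0 := mul_nonpos_of_nonneg_of_nonpos h.1 (not_lt.1 hc)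
    nlinarith
  have h1 : smoothTransition (2 * L' * u - 1) = 1 := by
    refine smoothTransition.one_of_one_le ?_
    have := h.2.1
    nlinarith
  have h2 : exp (-(2 * L)) ≤ expNegInvGlue u := by
    rw [glue_eq hu0]
    refine exp_le_exp.2 (neg_le_neg ?_)
    rw [← one_div, div_le_iff₀ hu0]; linarith
  have h3 : exp (-L) / 2 ≤ √(qq L L' u) := by
    refine le_sqrt_of_sq_le ?_
    refine le_trans ?_ (qq_lower h u)
    rw [div_pow, ← exp_nat_mul]
    have e : ((2:ℕ):ℝ) * -L = -(2 * L) := by push_cast; ring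
    rw [e]
    have := exp_pos (-(2 * L))
    linarith
  rw [alph, h1, one_mul]
  calc exp (-(3 * L)) / 2 = exp (-(2 * L)) * (exp (-L) / 2) := by
        rw [show -(3 * L) = -(2 * L) + -L by ring, exp_add]; ring
    _ ≤ _ := mul_le_mul h2 h3 (by positivity) (expNegInvGlue.nonneg u)

/-- The transition is exponentially small near `0`. -/
theorem st_le_exp {K s : ℝ} (_hK : 0 < K) (hs : s ≤ K⁻¹) : smoothTransition s ≤ exp 2 * exp (-K) := by
  rcases le_or_gt s 0 with h0 | h0
  · rw [smoothTransition.zero_of_nonpos h0]; positivity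
  rw [st_eq]
  have h1 : expNegInvGlue s ≤ exp (-K) := by
    rw [glue_eq h0]
    refine exp_le_exp.2 (neg_le_neg ?_)
    rw [← inv_inv K]
    exact inv_anti₀ h0 hs
  have h2 : rho s ≤ exp 2 := by
    rw [rho, ← inv_inv (exp 2), ← exp_neg]
    refine inv_anti₀ (exp_pos _) ?_
    have e2 : expNegInvGlue (1 / 2) = exp (-2) := by
      rw [glue_eq (by norm_num)]; norm_num
    rcases le_or_gt (1 / 2) s with h3 | h3
    · have := expNegInvGlue.monotone h3
      have h4 := expNegInvGlue.nonneg (1 - s)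
      rw [e2] at this; linarith
    · have := expNegInvGlue.monotone (show 1 / 2 ≤ 1 - s by linarith)
      have h4 := expNegInvGlue.nonneg s
      rw [e2] at this; linarith
  calc _ ≤ exp (-K) * exp 2 := mul_le_mul h1 h2 (rho_pos s).le (exp_pos _).le
    _ = _ := by ring

theorem alph_le_exp {L L' K u : ℝ} (h : Adm L L') (hK : 0 < K) (hu : 2 * L' * u - 1 ≤ K⁻¹) :
    alph L L' u ≤ exp 2 * exp (-K) :=
  (alph_le_st h u).trans (st_le_exp hK hu)

/-- all derivatives of the smooth transition are bounded -/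
theorem st_bdd (k : ℕ) : ∃ C : ℝ, 0 ≤ C ∧ ∀ x, |iteratedDeriv k smoothTransition x| ≤ C := by
  obtain ⟨C, hC, h⟩ := exists_bound_Icc (f := smoothTransition) smoothTransition.contDiff k 0 1
  refine ⟨C + 1, by positivity, fun x => ?_⟩
  rcases lt_or_ge x 0 with h0 | h0
  · rw [iteratedDeriv_eq_zero_of_neg (fun y hy => smoothTransition.zero_of_nonpos hy) k h0,
      abs_zero]
    positivity
  rcases le_or_gt x 1 with h1 | h1
  · exact (h x ⟨h0, h1⟩).trans (by linarith)
  · rcases Nat.eq_zero_or_pos k with rfl | hk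
    · rw [iteratedDeriv_zero, abs_of_nonneg (smoothTransition.nonneg x)]
      linarith [smoothTransition.le_one x]
    · rw [iteratedDeriv_eq_zero_of_one_lt (fun x hx => smoothTransition.one_of_one_le hx) hk h1,
        abs_zero]
      positivity

end

end Crest.Agent.R216.Prof
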