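import Crest.Agent.R216.Iter
import Crest.Agent.R216.Prof2
import Crest.Agent.R216.EngDefs

/-!
# R216 / Theorem E: the concrete state and exactness of the limit (module ITER, part 2)
-/

namespace Crest.Agent.R216.TE

open scoped ContDiff Topology
open Filter Real

/-- `log (1/δ)` for `δ = L^{-(q k)}`. -/
noncomputable def lam (q k : ℕ) (L : ℝ) : ℝ := ((q * k : ℕ) : ℝ) * Real.log L

/-- The concrete state of the micro iteration at level `k`, scale `L`: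
`f` is `f₀` where `2 λ u ≤ 1` (`λ = log (1/δ)`), and its metric is
`f₀^*e + A² (1 - κ_λ(u)) dx₁²` up to an error `≤ δ^m` in `C⁰`. -/
structure StC (q m : ℕ) (f₀ : X2 → E4) (u A : X2 → ℝ) (k : ℕ) (L : ℝ) (f : X2 → E4) : Prop where
  eq0 : ∀ x, 2 * lam q k L * u x ≤ 1 → f x = f₀ x
  e11 : ∀ x, |inner ℝ (d1 f x) (d1 f x)
      - (inner ℝ (d1 f₀ x) (d1 f₀ x) + A x ^ 2 * (1 - Prof.kap (lam q k L) (u x)))|
      ≤ exp (-(m * lam q k L))
  e12 : ∀ x, |inner ℝ (d1 f x) (d2 f x) - inner ℝ (d1 f₀ x) (d2 f₀ x)|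
      ≤ exp (-(m * lam q k L))
  e22 : ∀ x, |inner ℝ (d2 f x) (d2 f x) - inner ℝ (d2 f₀ x) (d2 f₀ x)|
      ≤ exp (-(m * lam q k L))

lemma lam_nonneg (q k : ℕ) {L : ℝ} (hL : 1 ≤ L) : 0 ≤ lam q k L :=
  mul_nonneg (Nat.cast_nonneg _) (Real.log_nonneg hL)

lemma tendsto_lam {q : ℕ} (hq : 1 ≤ q) {k₀ : ℕ} (hk₀ : 1 ≤ k₀) {L : ℕ → ℝ}
    (hL : Tendsto L atTop atTop) : Tendsto (fun i => lam q (k₀ + i) (L i)) atTop atTop := by
  have h1 : Tendsto (fun i => Real.log (L i)) atTop atTop := tendsto_log_atTop.comp hL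
  refine tendsto_atTop_mono' _ ?_ h1
  filter_upwards [h1.eventually_ge_atTop 0] with i hi
  have h2 : (1:ℝ) ≤ ((q * (k₀ + i) : ℕ) : ℝ) := by
    have : 1 ≤ q * (k₀ + i) := Nat.mul_pos hq (by omega)
    exact_mod_cast this
  calc Real.log (L i) = 1 * Real.log (L i) := by ring
    _ ≤ _ := by unfold lam; gcongr

/-- exactness of the limit and jets outside `{u > 0}` -/
theorem exact_limit {q m k₀ : ℕ} (hq : 1 ≤ q) (hm : 1 ≤ m) (hk₀ : 1 ≤ k₀) {f₀ F : X2 → E4}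
    {u A : X2 → ℝ} (hu : Continuous u) (hA : ∀ x, u x ≤ 0 → A x = 0)
    {L : ℕ → ℝ} {f : ℕ → X2 → E4} (hL : Tendsto L atTop atTop) (hL1 : ∀ i, 1 ≤ L i)
    (hst : ∀ i, StC q m f₀ u A (k₀ + i) (L i) (f i))
    (hfd : ∀ x, Tendsto (fun i => fderiv ℝ (f i) x) atTop (𝓝 (fderiv ℝ F x)))
    (hj : ∀ j x, Tendsto (fun i => iteratedFDeriv ℝ j (f i) x) atTop
            (𝓝 (iteratedFDeriv ℝ j F x))) :
    (∀ x, (inner ℝ (d1 F x) (d1 F x) : ℝ) = inner ℝ (d1 f₀ x) (d1 f₀ x) + A x ^ 2) ∧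
    (∀ x, (inner ℝ (d1 F x) (d2 F x) : ℝ) = inner ℝ (d1 f₀ x) (d2 f₀ x)) ∧
    (∀ x, (inner ℝ (d2 F x) (d2 F x) : ℝ) = inner ℝ (d2 f₀ x) (d2 f₀ x)) ∧
    (∀ x, u x ≤ 0 → ∀ j, iteratedFDeriv ℝ j F x = iteratedFDeriv ℝ j f₀ x) := by
  have hlam := tendsto_lam hq hk₀ hL
  have hexp : Tendsto (fun i => exp (-(m * lam q (k₀ + i) (L i)))) atTop (𝓝 0) := by
    refine tendsto_exp_neg_atTop_nhds_zero.comp ?_
    have h1 : (0:ℝ) < m := by exact_mod_cast hm
    exact hlam.const_mul_atTop h1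
  have hd1 : ∀ x, Tendsto (fun i => d1 (f i) x) atTop (𝓝 (d1 F x)) := fun x =>
    (((ContinuousLinearMap.apply ℝ E4 ((1, 0) : X2)).continuous.tendsto _).comp (hfd x))
  have hd2 : ∀ x, Tendsto (fun i => d2 (f i) x) atTop (𝓝 (d2 F x)) := fun x =>
    (((ContinuousLinearMap.apply ℝ E4 ((0, 1) : X2)).continuous.tendsto _).comp (hfd x))
  have hkap : ∀ x, Tendsto (fun i => A x ^ 2 * (1 - Prof.kap (lam q (k₀ + i) (L i)) (u x)))
      atTop (𝓝 (A x ^ 2)) := by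
    intro x
    rcases le_or_gt (u x) 0 with h | h
    · rw [hA x h]; simp
    · have h1 : Tendsto (fun i => A x ^ 2 * (1 - exp (-(2 * lam q (k₀ + i) (L i))))) atTop
          (𝓝 (A x ^ 2 * (1 - 0))) := by
        refine Tendsto.const_mul _ (Tendsto.const_sub _ ?_)
        exact tendsto_exp_neg_atTop_nhds_zero.comp (hlam.const_mul_atTop (by norm_num))
      rw [sub_zero, mul_one] at h1
      refine h1.congr' ?_
      filter_upwards [hlam.eventually_ge_atTop (1 / u x)] with i hi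
      rw [Prof.kap_eq_exp]
      rw [div_le_iff₀ h] at hi
      exact hi
  refine ⟨fun x => ?_, fun x => ?_, fun x => ?_, fun x hx j => ?_⟩
  · have h1 : Tendsto (fun i => (inner ℝ (d1 (f i) x) (d1 (f i) x) : ℝ)
        - (inner ℝ (d1 f₀ x) (d1 f₀ x) + A x ^ 2 * (1 - Prof.kap (lam q (k₀ + i) (L i)) (u x))))
        atTop (𝓝 ((inner ℝ (d1 F x) (d1 F x) : ℝ) - (inner ℝ (d1 f₀ x) (d1 f₀ x) + A x ^ 2))) :=
      ((hd1 x).inner (hd1 x)).sub ((hkap x).const_add _)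
    have h2 := squeeze_zero_norm (fun i => (Real.norm_eq_abs _).le.trans ((hst i).e11 x)) hexp
    have := tendsto_nhds_unique h1 h2
    linarith
  · have h1 : Tendsto (fun i => (inner ℝ (d1 (f i) x) (d2 (f i) x) : ℝ)
        - inner ℝ (d1 f₀ x) (d2 f₀ x))
        atTop (𝓝 ((inner ℝ (d1 F x) (d2 F x) : ℝ) - inner ℝ (d1 f₀ x) (d2 f₀ x))) :=
      ((hd1 x).inner (hd2 x)).sub_const _
    have h2 := squeeze_zero_norm (fun i => (Real.norm_eq_abs _).le.trans ((hst i).e12 x)) hexp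
    have := tendsto_nhds_unique h1 h2
    linarith
  · have h1 : Tendsto (fun i => (inner ℝ (d2 (f i) x) (d2 (f i) x) : ℝ)
        - inner ℝ (d2 f₀ x) (d2 f₀ x))
        atTop (𝓝 ((inner ℝ (d2 F x) (d2 F x) : ℝ) - inner ℝ (d2 f₀ x) (d2 f₀ x))) :=
      ((hd2 x).inner (hd2 x)).sub_const _
    have h2 := squeeze_zero_norm (fun i => (Real.norm_eq_abs _).le.trans ((hst i).e22 x)) hexp
    have := tendsto_nhds_unique h1 h2
    linarith
  · have h1 : ∀ i, iteratedFDeriv ℝ j (f i) x = iteratedFDeriv ℝ j f₀ x := by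
      intro i
      have h2 : f i =ᶠ[𝓝 x] f₀ := by
        have h3 : ∀ᶠ y in 𝓝 x, 2 * lam q (k₀ + i) (L i) * u y ≤ 1 := by
          have h0 := lam_nonneg q (k₀ + i) (hL1 i)
          have hc : Tendsto (fun y => 2 * lam q (k₀ + i) (L i) * u y) (𝓝 x)
            (𝓝 (2 * lam q (k₀ + i) (L i) * u x)) := (hu.tendsto x).const_mul _
          have : 2 * lam q (k₀ + i) (L i) * u x < 1 := by
            have : 2 * lam q (k₀ + i) (L i) * u x ≤ 0 :=
              mul_nonpos_of_nonneg_of_nonpos (by linarith) hx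
            linarith
          exact (hc.eventually_lt_const this).mono (fun y hy => hy.le)
        filter_upwards [h3] with y hy using (hst i).eq0 y hy
      exact h2.iteratedFDeriv ℝ j |>.self_of_nhds
    have h2 := hj j x
    simp only [h1] at h2
    exact (tendsto_nhds_unique h2 tendsto_const_nhds)

end Crest.Agent.R216.TE
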