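import Crest.Agent.R216.LoopMean

/-!
Row 216 (S0335), LOOPS.  The explicit Cayley loop family in real coordinates.

A mean position `(X, Y)` in the closed unit disc, `(X,Y) ≠ (-1,0)`, `s = a / r` with
`X² + Y² + s² = 1`.  The loop is `t ↦ (cl X Y s t, sl X Y s t)` on the unit circle, `2π`-periodic and
even in `t`, smooth in all variables on `{-1 < X}`, with mean exactly `(X, Y)`.
-/

set_option autoImplicit false

open Complex MeasureTheory Real Metric Set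
open scoped Real Interval ContDiff

namespace Crest.Agent.R216.Loop

noncomputable def n2 (X Y : ℝ) : ℝ := (1 + X) ^ 2 + Y ^ 2
/-- real part of `q = 2/(1+z)` -/
noncomputable def qx (X Y : ℝ) : ℝ := 2 * (1 + X) / n2 X Y
/-- imaginary part of `q = 2/(1+z)` -/
noncomputable def qy (X Y : ℝ) : ℝ := -(2 * Y) / n2 X Y
/-- `α = s * gl` -/
noncomputable def gl (X Y : ℝ) : ℝ := √((qx X Y + 1) * (1 + qy X Y ^ 2) / n2 X Y)
/-- `p(t)`: tangent of the half angle -/
noncomputable def pl (X Y s t : ℝ) : ℝ := -(qx X Y * qy X Y) + s * gl X Y * Real.cos t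
/-- cosine of the angle of the loop -/
noncomputable def cl (X Y s t : ℝ) : ℝ := (1 - pl X Y s t ^ 2) / (1 + pl X Y s t ^ 2)
/-- sine of the angle of the loop -/
noncomputable def sl (X Y s t : ℝ) : ℝ := 2 * pl X Y s t / (1 + pl X Y s t ^ 2)

lemma n2_pos {X Y : ℝ} (hX : -1 < X) : 0 < n2 X Y := by
  unfold n2
  have : 0 < 1 + X := by linarith
  positivity

lemma qx_pos {X Y : ℝ} (hX : -1 < X) : 0 < qx X Y := by
  unfold qx
  have := n2_pos (Y := Y) hX
  have : 0 < 1 + X := by linarith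
  positivity

lemma qx_sub_one {X Y s : ℝ} (hX : -1 < X) (h : X ^ 2 + Y ^ 2 + s ^ 2 = 1) :
    qx X Y - 1 = s ^ 2 / n2 X Y := by
  have h0 := n2_pos (Y := Y) hX
  unfold qx
  rw [div_sub_one h0.ne', div_left_inj' h0.ne']
  unfold n2
  linear_combination -h

lemma one_le_qx {X Y s : ℝ} (hX : -1 < X) (h : X ^ 2 + Y ^ 2 + s ^ 2 = 1) : 1 ≤ qx X Y := by
  have h0 := n2_pos (Y := Y) hX
  have := qx_sub_one hX h
  have : 0 ≤ s ^ 2 / n2 X Y := by positivity
  linarith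

lemma gl_pos {X Y : ℝ} (hX : -1 < X) : 0 < gl X Y := by
  unfold gl
  have := n2_pos (Y := Y) hX
  have := qx_pos (Y := Y) hX
  positivity

lemma gl_sq {X Y : ℝ} (hX : -1 < X) :
    gl X Y ^ 2 = (qx X Y + 1) * (1 + qy X Y ^ 2) / n2 X Y := by
  unfold gl
  rw [Real.sq_sqrt]
  have := n2_pos (Y := Y) hX
  have := qx_pos (Y := Y) hX
  positivity

lemma alpha_sq {X Y s : ℝ} (hX : -1 < X) (h : X ^ 2 + Y ^ 2 + s ^ 2 = 1) :
    (s * gl X Y) ^ 2 = (qx X Y ^ 2 - 1) * (1 + qy X Y ^ 2) := by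
  rw [mul_pow, gl_sq hX]
  have := qx_sub_one hX h
  have e : (qx X Y ^ 2 - 1) = (qx X Y - 1) * (qx X Y + 1) := by ring
  rw [e, this]
  ring

/-! ### the loop lies on the unit circle, periodicity, evenness -/

lemma one_add_sq_pos (p : ℝ) : 0 < 1 + p ^ 2 := by positivity

lemma cl_sq_add_sl_sq (X Y s t : ℝ) : cl X Y s t ^ 2 + sl X Y s t ^ 2 = 1 := by
  unfold cl sl
  have := one_add_sq_pos (pl X Y s t)
  field_simp
  ring

lemma pl_neg (X Y s t : ℝ) : pl X Y s (-t) = pl X Y s t := by simp [pl]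
lemma cl_neg (X Y s t : ℝ) : cl X Y s (-t) = cl X Y s t := by simp [cl, pl_neg]
lemma sl_neg (X Y s t : ℝ) : sl X Y s (-t) = sl X Y s t := by simp [sl, pl_neg]
lemma pl_add_two_pi (X Y s t : ℝ) : pl X Y s (t + 2 * π) = pl X Y s t := by simp [pl]
lemma cl_add_two_pi (X Y s t : ℝ) : cl X Y s (t + 2 * π) = cl X Y s t := by
  simp [cl, pl_add_two_pi]
lemma sl_add_two_pi (X Y s t : ℝ) : sl X Y s (t + 2 * π) = sl X Y s t := by
  simp [sl, pl_add_two_pi]

/-! ### smoothness -/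

section smooth
variable {E : Type*} [NormedAddCommGroup E] [NormedSpace ℝ E] {n : ℕ∞ω}
  {f g h k : E → ℝ} {x : E}

lemma ContDiffAt.n2' (hf : ContDiffAt ℝ n f x) (hg : ContDiffAt ℝ n g x) :
    ContDiffAt ℝ n (fun x => n2 (f x) (g x)) x := by
  unfold n2
  fun_prop

lemma ContDiffAt.qx' (hf : ContDiffAt ℝ n f x) (hg : ContDiffAt ℝ n g x) (h0 : -1 < f x) :
    ContDiffAt ℝ n (fun x => qx (f x) (g x)) x := by
  unfold qx
  apply ContDiffAt.div
  · fun_prop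
  · exact ContDiffAt.n2' hf hg
  · exact (n2_pos h0).ne'

lemma ContDiffAt.qy' (hf : ContDiffAt ℝ n f x) (hg : ContDiffAt ℝ n g x) (h0 : -1 < f x) :
    ContDiffAt ℝ n (fun x => qy (f x) (g x)) x := by
  unfold qy
  apply ContDiffAt.div
  · fun_prop
  · exact ContDiffAt.n2' hf hg
  · exact (n2_pos h0).ne'

lemma ContDiffAt.gl' (hf : ContDiffAt ℝ n f x) (hg : ContDiffAt ℝ n g x) (h0 : -1 < f x) :
    ContDiffAt ℝ n (fun x => gl (f x) (g x)) x := by
  unfold gl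
  have h1 := n2_pos (Y := g x) h0
  have h2 := qx_pos (Y := g x) h0
  have h3 : 0 < (qx (f x) (g x) + 1) * (1 + qy (f x) (g x) ^ 2) / n2 (f x) (g x) := by
    positivity
  refine ContDiffAt.sqrt (f := fun x => (qx (f x) (g x) + 1) * (1 + qy (f x) (g x) ^ 2) /
    n2 (f x) (g x)) ?_ h3.ne'
  apply ContDiffAt.div
  · apply ContDiffAt.mul
    · exact (ContDiffAt.qx' hf hg h0).add contDiffAt_const
    · exact contDiffAt_const.add ((ContDiffAt.qy' hf hg h0).pow 2)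
  · exact ContDiffAt.n2' hf hg
  · exact h1.ne'

lemma ContDiffAt.pl' (hf : ContDiffAt ℝ n f x) (hg : ContDiffAt ℝ n g x)
    (hh : ContDiffAt ℝ n h x) (hk : ContDiffAt ℝ n k x) (h0 : -1 < f x) :
    ContDiffAt ℝ n (fun x => pl (f x) (g x) (h x) (k x)) x := by
  unfold pl
  apply ContDiffAt.add
  · exact ((ContDiffAt.qx' hf hg h0).mul (ContDiffAt.qy' hf hg h0)).neg
  · exact (hh.mul (ContDiffAt.gl' hf hg h0)).mul (hk.cos)

lemma ContDiffAt.cl' (hf : ContDiffAt ℝ n f x) (hg : ContDiffAt ℝ n g x)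
    (hh : ContDiffAt ℝ n h x) (hk : ContDiffAt ℝ n k x) (h0 : -1 < f x) :
    ContDiffAt ℝ n (fun x => cl (f x) (g x) (h x) (k x)) x := by
  unfold cl
  have hp := ContDiffAt.pl' hf hg hh hk h0
  apply ContDiffAt.div
  · exact contDiffAt_const.sub (hp.pow 2)
  · exact contDiffAt_const.add (hp.pow 2)
  · exact (one_add_sq_pos _).ne'

lemma ContDiffAt.sl' (hf : ContDiffAt ℝ n f x) (hg : ContDiffAt ℝ n g x)
    (hh : ContDiffAt ℝ n h x) (hk : ContDiffAt ℝ n k x) (h0 : -1 < f x) :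
    ContDiffAt ℝ n (fun x => sl (f x) (g x) (h x) (k x)) x := by
  unfold sl
  have hp := ContDiffAt.pl' hf hg hh hk h0
  apply ContDiffAt.div
  · exact contDiffAt_const.mul hp
  · exact contDiffAt_const.add (hp.pow 2)
  · exact (one_add_sq_pos _).ne'

end smooth

/-! ### the difference to the mean is `s` times a smooth function -/

/-- `cl - X = s * mc` on the sphere `X²+Y²+s² = 1` -/
noncomputable def mc (X Y s t : ℝ) : ℝ :=
  n2 X Y / 2 / (1 + pl X Y s t ^ 2) *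
    (s / n2 X Y * (qx X Y + pl X Y s t * qy X Y) -
      (gl X Y * Real.cos t - s * qy X Y / n2 X Y) * (pl X Y s t * qx X Y - qy X Y))

/-- `sl - Y = s * ms` on the sphere `X²+Y²+s² = 1` -/
noncomputable def ms (X Y s t : ℝ) : ℝ :=
  n2 X Y / 2 / (1 + pl X Y s t ^ 2) *
    (s / n2 X Y * (pl X Y s t * qx X Y - qy X Y) +
      (gl X Y * Real.cos t - s * qy X Y / n2 X Y) * (qx X Y + pl X Y s t * qy X Y))

lemma X_eq {X Y : ℝ} (hX : -1 < X) : X = n2 X Y / 2 * qx X Y - 1 := by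
  have := n2_pos (Y := Y) hX
  unfold qx
  field_simp
  ring

lemma Y_eq {X Y : ℝ} (hX : -1 < X) : Y = -(n2 X Y / 2 * qy X Y) := by
  have := n2_pos (Y := Y) hX
  unfold qy
  field_simp

lemma q_norm {X Y : ℝ} (hX : -1 < X) : n2 X Y * (qx X Y ^ 2 + qy X Y ^ 2) = 4 := by
  have := n2_pos (Y := Y) hX
  have e : qx X Y ^ 2 + qy X Y ^ 2 = 4 / n2 X Y := by
    unfold qx qy
    rw [div_pow, div_pow, ← add_div, div_eq_div_iff (by positivity) (by positivity)]
    unfold n2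
    ring
  rw [e]
  field_simp

lemma cl_sub {X Y s : ℝ} (hX : -1 < X) (h : X ^ 2 + Y ^ 2 + s ^ 2 = 1) (t : ℝ) :
    cl X Y s t - X = s * mc X Y s t := by
  have h0 := n2_pos (Y := Y) hX
  have hp := one_add_sq_pos (pl X Y s t)
  have h1 := qx_sub_one hX h
  have h2 := q_norm (Y := Y) hX
  have h3 := X_eq (Y := Y) hX
  have hpl : pl X Y s t = -(qx X Y * qy X Y) + s * gl X Y * Real.cos t := rfl
  have hs : s ^ 2 = (qx X Y - 1) * n2 X Y := by rw [h1]; field_simp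
  have e : s * mc X Y s t = (n2 X Y / 2) / (1 + pl X Y s t ^ 2) *
      ((qx X Y - 1) * (qx X Y + pl X Y s t * qy X Y) -
        (pl X Y s t + qx X Y * qy X Y - (qx X Y - 1) * qy X Y) *
          (pl X Y s t * qx X Y - qy X Y)) := by
    unfold mc
    have a1 : s * (s / n2 X Y) = qx X Y - 1 := by
      rw [h1]; ring
    have a2 : s * (gl X Y * Real.cos t - s * qy X Y / n2 X Y) =
        pl X Y s t + qx X Y * qy X Y - (qx X Y - 1) * qy X Y := by
      rw [hpl, h1]; ring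
    rw [← a2, ← a1]
    ring
  rw [e]
  unfold cl
  rw [div_sub' hp.ne', div_mul_eq_mul_div, div_left_inj' hp.ne']
  generalize pl X Y s t = p at *
  generalize qx X Y = x at *
  generalize qy X Y = y at *
  generalize n2 X Y = N at *
  rw [h3]
  linear_combination (-(1 / 2) : ℝ) * h2

lemma sl_sub {X Y s : ℝ} (hX : -1 < X) (h : X ^ 2 + Y ^ 2 + s ^ 2 = 1) (t : ℝ) :
    sl X Y s t - Y = s * ms X Y s t := by
  have h0 := n2_pos (Y := Y) hX
  have hp := one_add_sq_pos (pl X Y s t)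
  have h1 := qx_sub_one hX h
  have h2 := q_norm (Y := Y) hX
  have h3 := Y_eq (Y := Y) hX
  have hpl : pl X Y s t = -(qx X Y * qy X Y) + s * gl X Y * Real.cos t := rfl
  have e : s * ms X Y s t = (n2 X Y / 2) / (1 + pl X Y s t ^ 2) *
      ((qx X Y - 1) * (pl X Y s t * qx X Y - qy X Y) +
        (pl X Y s t + qx X Y * qy X Y - (qx X Y - 1) * qy X Y) *
          (qx X Y + pl X Y s t * qy X Y)) := by
    unfold ms
    have a1 : s * (s / n2 X Y) = qx X Y - 1 := by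
      rw [h1]; ring
    have a2 : s * (gl X Y * Real.cos t - s * qy X Y / n2 X Y) =
        pl X Y s t + qx X Y * qy X Y - (qx X Y - 1) * qy X Y := by
      rw [hpl, h1]; ring
    rw [← a2, ← a1]
    ring
  rw [e]
  unfold sl
  rw [div_sub' hp.ne', div_mul_eq_mul_div, div_left_inj' hp.ne']
  generalize pl X Y s t = p at *
  generalize qx X Y = x at *
  generalize qy X Y = y at *
  generalize n2 X Y = N at *
  rw [h3]
  linear_combination (-(1 / 2) * p : ℝ) * h2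

section smooth2
variable {E : Type*} [NormedAddCommGroup E] [NormedSpace ℝ E] {n : ℕ∞ω}
  {f g h k : E → ℝ} {x : E}

lemma ContDiffAt.mc' (hf : ContDiffAt ℝ n f x) (hg : ContDiffAt ℝ n g x)
    (hh : ContDiffAt ℝ n h x) (hk : ContDiffAt ℝ n k x) (h0 : -1 < f x) :
    ContDiffAt ℝ n (fun x => mc (f x) (g x) (h x) (k x)) x := by
  unfold mc
  have hp := ContDiffAt.pl' hf hg hh hk h0
  have hN := ContDiffAt.n2' hf hg
  have hqx := ContDiffAt.qx' hf hg h0
  have hqy := ContDiffAt.qy' hf hg h0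
  have hgl := ContDiffAt.gl' hf hg h0
  have h1 := (n2_pos (Y := g x) h0).ne'
  apply ContDiffAt.mul
  · apply ContDiffAt.div
    · exact hN.div_const 2
    · exact contDiffAt_const.add (hp.pow 2)
    · exact (one_add_sq_pos _).ne'
  · apply ContDiffAt.sub
    · exact (hh.div hN h1).mul (hqx.add (hp.mul hqy))
    · exact ((hgl.mul hk.cos).sub ((hh.mul hqy).div hN h1)).mul ((hp.mul hqx).sub hqy)

lemma ContDiffAt.ms' (hf : ContDiffAt ℝ n f x) (hg : ContDiffAt ℝ n g x)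
    (hh : ContDiffAt ℝ n h x) (hk : ContDiffAt ℝ n k x) (h0 : -1 < f x) :
    ContDiffAt ℝ n (fun x => ms (f x) (g x) (h x) (k x)) x := by
  unfold ms
  have hp := ContDiffAt.pl' hf hg hh hk h0
  have hN := ContDiffAt.n2' hf hg
  have hqx := ContDiffAt.qx' hf hg h0
  have hqy := ContDiffAt.qy' hf hg h0
  have hgl := ContDiffAt.gl' hf hg h0
  have h1 := (n2_pos (Y := g x) h0).ne'
  apply ContDiffAt.mul
  · apply ContDiffAt.div
    · exact hN.div_const 2
    · exact contDiffAt_const.add (hp.pow 2)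
    · exact (one_add_sq_pos _).ne'
  · apply ContDiffAt.add
    · exact (hh.div hN h1).mul ((hp.mul hqx).sub hqy)
    · exact ((hgl.mul hk.cos).sub ((hh.mul hqy).div hN h1)).mul (hqx.add (hp.mul hqy))

end smooth2

/-! ### moments -/

lemma cl_add_I_sl (X Y s t : ℝ) :
    ((cl X Y s t : ℂ) + I * sl X Y s t) = 2 * (1 - I * (pl X Y s t : ℂ))⁻¹ - 1 := by
  have hp : (1 + (pl X Y s t : ℂ) ^ 2) ≠ 0 := by
    exact_mod_cast (one_add_sq_pos (pl X Y s t)).ne'
  have hp2 : (1 - I * (pl X Y s t : ℂ)) * (1 + I * pl X Y s t) = 1 + (pl X Y s t : ℂ) ^ 2 := by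
    linear_combination (-(pl X Y s t : ℂ) ^ 2) * Complex.I_sq
  have h1 : (1 - I * (pl X Y s t : ℂ)) ≠ 0 := by
    intro h
    rw [h, zero_mul] at hp2
    exact hp hp2.symm
  have e : (1 - I * (pl X Y s t : ℂ))⁻¹ = (1 + I * pl X Y s t) / (1 + (pl X Y s t : ℂ) ^ 2) := by
    rw [eq_div_iff hp, ← hp2, inv_mul_cancel_left₀ h1]
  rw [e]
  unfold cl sl
  push_cast
  generalize (pl X Y s t : ℂ) = p at hp
  field_simp
  ring

lemma continuous_pl (X Y s : ℝ) : Continuous (fun t => pl X Y s t) := by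
  unfold pl; fun_prop

lemma continuous_cl (X Y s : ℝ) : Continuous (fun t => cl X Y s t) := by
  unfold cl
  have := continuous_pl X Y s
  apply Continuous.div (by fun_prop) (by fun_prop)
  intro t
  exact (one_add_sq_pos _).ne'

lemma continuous_sl (X Y s : ℝ) : Continuous (fun t => sl X Y s t) := by
  unfold sl
  have := continuous_pl X Y s
  apply Continuous.div (by fun_prop) (by fun_prop)
  intro t
  exact (one_add_sq_pos _).ne'

lemma continuous_inv_pl (X Y s : ℝ) :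
    Continuous (fun t : ℝ => (1 - I * (pl X Y s t : ℂ))⁻¹) := by
  apply Continuous.inv₀
  · have := continuous_pl X Y s
    fun_prop
  · intro t h
    have := congrArg Complex.re h
    simp at this

lemma q_eq {X Y : ℝ} (hX : -1 < X) :
    ((qx X Y : ℂ) + I * qy X Y) * (1 + X + I * Y) = 2 := by
  have h1 : qx X Y * (1 + X) - qy X Y * Y = 2 := by
    have := n2_pos (Y := Y) hX
    unfold qx qy
    field_simp
    unfold n2
    ring
  have h2 : qx X Y * Y + qy X Y * (1 + X) = 0 := by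
    have := n2_pos (Y := Y) hX
    unfold qx qy
    field_simp
    ring
  have h1' : (qx X Y : ℂ) * (1 + X) - qy X Y * Y = 2 := by exact_mod_cast h1
  have h2' : (qx X Y : ℂ) * Y + qy X Y * (1 + X) = 0 := by exact_mod_cast h2
  linear_combination h1' + I * h2' + (qy X Y : ℂ) * Y * Complex.I_sq

lemma intervalIntegrable_of_continuous' {E : Type*} [NormedAddCommGroup E] {f : ℝ → E}
    (hf : Continuous f) (a b : ℝ) : IntervalIntegrable f volume a b :=
  hf.intervalIntegrable a b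

theorem mean_complex {X Y s : ℝ} (hX : -1 < X) (h : X ^ 2 + Y ^ 2 + s ^ 2 = 1) :
    (2 * π : ℂ)⁻¹ * ∫ t in (0 : ℝ)..2 * π, ((cl X Y s t : ℂ) + I * sl X Y s t) = X + I * Y := by
  have hx := one_le_qx hX h
  have hα := alpha_sq hX h
  have hm := mean_inv hx hα
  have hq := q_eq (Y := Y) hX
  have hq0 : ((qx X Y : ℂ) + I * qy X Y) ≠ 0 := by
    intro h0
    rw [h0, zero_mul] at hq
    norm_num at hq
  simp only [cl_add_I_sl]
  have e : ∫ t in (0 : ℝ)..2 * π, (2 * (1 - I * (pl X Y s t : ℂ))⁻¹ - 1) =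
      2 * (∫ t in (0 : ℝ)..2 * π, (1 - I * (pl X Y s t : ℂ))⁻¹) - (2 * π : ℂ) := by
    rw [intervalIntegral.integral_sub, intervalIntegral.integral_const_mul]
    · simp
    · exact ((continuous_inv_pl X Y s).const_smul (2 : ℂ)).intervalIntegrable _ _
    · exact continuous_const.intervalIntegrable _ _
  have hm' : (2 * π : ℂ)⁻¹ * ∫ t in (0 : ℝ)..2 * π, (1 - I * (pl X Y s t : ℂ))⁻¹ =
      (qx X Y + I * qy X Y)⁻¹ := hm
  have hpi : (2 * π : ℂ) ≠ 0 := by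
    have := Real.pi_ne_zero
    simp [this]
  rw [e, mul_sub, inv_mul_cancel₀ hpi, mul_left_comm, hm']
  field_simp
  linear_combination -hq

/-- splitting a complex-valued mean into real and imaginary parts -/
lemma split_mean {f g : ℝ → ℝ} (hf : Continuous f) (hg : Continuous g) {A B : ℝ}
    (h : (2 * π : ℂ)⁻¹ * ∫ t in (0 : ℝ)..2 * π, ((f t : ℂ) + I * g t) = A + I * B) :
    (2 * π)⁻¹ * ∫ t in (0 : ℝ)..2 * π, f t = A ∧ (2 * π)⁻¹ * ∫ t in (0 : ℝ)..2 * π, g t = B := by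
  have i1 : IntervalIntegrable (fun t => (f t : ℂ)) volume 0 (2 * π) :=
    (Complex.continuous_ofReal.comp hf).intervalIntegrable _ _
  have i2 : IntervalIntegrable (fun t => I * (g t : ℂ)) volume 0 (2 * π) :=
    (continuous_const.mul (Complex.continuous_ofReal.comp hg)).intervalIntegrable _ _
  rw [intervalIntegral.integral_add i1 i2, intervalIntegral.integral_const_mul,
    intervalIntegral.integral_ofReal, intervalIntegral.integral_ofReal] at h
  have h' : (((2 * π)⁻¹ * ∫ t in (0 : ℝ)..2 * π, f t : ℝ) : ℂ) +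
      I * (((2 * π)⁻¹ * ∫ t in (0 : ℝ)..2 * π, g t : ℝ) : ℂ) = A + I * B := by
    rw [← h]; push_cast; ring
  constructor
  · have := congrArg Complex.re h'
    simpa using this
  · have := congrArg Complex.im h'
    simpa using this

theorem mean_cl {X Y s : ℝ} (hX : -1 < X) (h : X ^ 2 + Y ^ 2 + s ^ 2 = 1) :
    (2 * π)⁻¹ * ∫ t in (0 : ℝ)..2 * π, cl X Y s t = X :=
  (split_mean (continuous_cl X Y s) (continuous_sl X Y s) (mean_complex hX h)).1

theorem mean_sl {X Y s : ℝ} (hX : -1 < X) (h : X ^ 2 + Y ^ 2 + s ^ 2 = 1) :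
    (2 * π)⁻¹ * ∫ t in (0 : ℝ)..2 * π, sl X Y s t = Y :=
  (split_mean (continuous_cl X Y s) (continuous_sl X Y s) (mean_complex hX h)).2

/-! ### second moments: `⟨e^{2iθ}⟩ = e2c + i e2s` -/

/-- real part of `⟨e^{2iθ}⟩` -/
noncomputable def e2c (X Y : ℝ) : ℝ :=
  (1 - 4 / ((qx X Y : ℂ) + I * qy X Y) +
    4 * (1 + I * qx X Y * qy X Y) / ((qx X Y : ℂ) + I * qy X Y) ^ 3).re
/-- imaginary part of `⟨e^{2iθ}⟩` -/
noncomputable def e2s (X Y : ℝ) : ℝ :=
  (1 - 4 / ((qx X Y : ℂ) + I * qy X Y) +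
    4 * (1 + I * qx X Y * qy X Y) / ((qx X Y : ℂ) + I * qy X Y) ^ 3).im

theorem mean_sq_complex {X Y s : ℝ} (hX : -1 < X) (h : X ^ 2 + Y ^ 2 + s ^ 2 = 1) :
    (2 * π : ℂ)⁻¹ * ∫ t in (0 : ℝ)..2 * π, ((cl X Y s t : ℂ) + I * sl X Y s t) ^ 2 =
      e2c X Y + I * e2s X Y := by
  have hx := one_le_qx hX h
  have hα := alpha_sq hX h
  have hm : (2 * π : ℂ)⁻¹ * ∫ t in (0 : ℝ)..2 * π, (1 - I * (pl X Y s t : ℂ))⁻¹ =
      (qx X Y + I * qy X Y)⁻¹ := mean_inv hx hα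
  have hm2 : (2 * π : ℂ)⁻¹ * ∫ t in (0 : ℝ)..2 * π, ((1 - I * (pl X Y s t : ℂ))⁻¹) ^ 2 =
      (1 + I * qx X Y * qy X Y) * ((qx X Y + I * qy X Y)⁻¹) ^ 3 := mean_inv_sq hx hα
  simp only [cl_add_I_sl]
  have c1 := continuous_inv_pl X Y s
  have e : ∫ t in (0 : ℝ)..2 * π, (2 * (1 - I * (pl X Y s t : ℂ))⁻¹ - 1) ^ 2 =
      4 * (∫ t in (0 : ℝ)..2 * π, ((1 - I * (pl X Y s t : ℂ))⁻¹) ^ 2) -
      4 * (∫ t in (0 : ℝ)..2 * π, (1 - I * (pl X Y s t : ℂ))⁻¹) + (2 * π : ℂ) := by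
    have e0 : ∀ t : ℝ, (2 * (1 - I * (pl X Y s t : ℂ))⁻¹ - 1) ^ 2 =
      (4 * ((1 - I * (pl X Y s t : ℂ))⁻¹) ^ 2 - 4 * (1 - I * (pl X Y s t : ℂ))⁻¹) + 1 := by
      intro t; ring
    simp only [e0]
    rw [intervalIntegral.integral_add, intervalIntegral.integral_sub,
      intervalIntegral.integral_const_mul, intervalIntegral.integral_const_mul]
    · simp
    · exact ((c1.pow 2).const_smul (4 : ℂ)).intervalIntegrable _ _
    · exact (c1.const_smul (4 : ℂ)).intervalIntegrable _ _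
    · exact (((c1.pow 2).const_smul (4 : ℂ)).sub (c1.const_smul (4 : ℂ))).intervalIntegrable _ _
    · exact continuous_const.intervalIntegrable _ _
  have hpi : (2 * π : ℂ) ≠ 0 := by
    have := Real.pi_ne_zero
    simp [this]
  have hfin : (2 * π : ℂ)⁻¹ * (4 * (∫ t in (0 : ℝ)..2 * π, ((1 - I * (pl X Y s t : ℂ))⁻¹) ^ 2) -
      4 * (∫ t in (0 : ℝ)..2 * π, (1 - I * (pl X Y s t : ℂ))⁻¹) + (2 * π : ℂ)) =
      1 - 4 / ((qx X Y : ℂ) + I * qy X Y) +
      4 * (1 + I * qx X Y * qy X Y) / ((qx X Y : ℂ) + I * qy X Y) ^ 3 := by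
    have : (2 * π : ℂ)⁻¹ * (2 * π : ℂ) = 1 := inv_mul_cancel₀ hpi
    rw [div_eq_mul_inv, div_eq_mul_inv, ← inv_pow]
    linear_combination 4 * hm2 - 4 * hm + this
  rw [e, hfin]
  unfold e2c e2s
  generalize (1 - 4 / ((qx X Y : ℂ) + I * qy X Y) +
      4 * (1 + I * qx X Y * qy X Y) / ((qx X Y : ℂ) + I * qy X Y) ^ 3) = w
  rw [mul_comm, Complex.re_add_im]

theorem mean_sq {X Y s : ℝ} (hX : -1 < X) (h : X ^ 2 + Y ^ 2 + s ^ 2 = 1) :
    ((2 * π)⁻¹ * ∫ t in (0 : ℝ)..2 * π, (cl X Y s t ^ 2 - sl X Y s t ^ 2) = e2c X Y) ∧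
    ((2 * π)⁻¹ * ∫ t in (0 : ℝ)..2 * π, 2 * (cl X Y s t * sl X Y s t) = e2s X Y) := by
  have hc := continuous_cl X Y s
  have hs := continuous_sl X Y s
  apply split_mean (by fun_prop) (by fun_prop)
  rw [← mean_sq_complex hX h]
  congr 1
  apply intervalIntegral.integral_congr
  intro t _
  simp only
  push_cast
  linear_combination (-(sl X Y s t : ℂ) ^ 2) * Complex.I_sq

/-- `det T / s²` -/
noncomputable def dT (X Y : ℝ) : ℝ :=
  (2 * qy X Y ^ 4 + (4 + qx X Y - qx X Y ^ 2) * qy X Y ^ 2 +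
    (qx X Y ^ 4 - qx X Y ^ 3 - 2 * qx X Y ^ 2 + 2 * qx X Y + 2)) * n2 X Y ^ 2 / 32

lemma D_pos {x Y : ℝ} (hx : 0 < x) (hY : 0 ≤ Y) :
    0 < 2 * Y ^ 2 + (4 + x - x ^ 2) * Y + (x ^ 4 - x ^ 3 - 2 * x ^ 2 + 2 * x + 2) := by
  by_cases h1 : x = 1
  · subst h1
    nlinarith [sq_nonneg (Y + 1)]
  · have h2 : 0 < (x - 1) ^ 2 := by
      have : x - 1 ≠ 0 := sub_ne_zero.mpr h1
      positivity
    have h3 : 0 < x * (x - 1) ^ 2 * (7 * x + 8) := by positivity
    nlinarith [sq_nonneg (4 * Y + (4 + x - x ^ 2))]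

lemma dT_pos {X Y : ℝ} (hX : -1 < X) : 0 < dT X Y := by
  unfold dT
  have h1 := D_pos (x := qx X Y) (Y := qy X Y ^ 2) (qx_pos hX) (by positivity)
  have h2 := n2_pos (Y := Y) hX
  have : 0 < (2 * qy X Y ^ 4 + (4 + qx X Y - qx X Y ^ 2) * qy X Y ^ 2 +
    (qx X Y ^ 4 - qx X Y ^ 3 - 2 * qx X Y ^ 2 + 2 * qx X Y + 2)) := by
    have e : qy X Y ^ 4 = (qy X Y ^ 2) ^ 2 := by ring
    rw [e]
    exact h1
  positivity

lemma e2_norm {X Y s : ℝ} (hX : -1 < X) (h : X ^ 2 + Y ^ 2 + s ^ 2 = 1) :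
    1 - (e2c X Y ^ 2 + e2s X Y ^ 2) = 4 * (s ^ 2 * dT X Y) := by
  have h1 := qx_sub_one hX h
  have h2 := q_norm (Y := Y) hX
  have h0 := n2_pos (Y := Y) hX
  have hx := qx_pos (Y := Y) hX
  have hs : s ^ 2 = (qx X Y - 1) * n2 X Y := by rw [h1]; field_simp
  have hns : e2c X Y ^ 2 + e2s X Y ^ 2 = Complex.normSq
      (1 - 4 / ((qx X Y : ℂ) + I * qy X Y) +
        4 * (1 + I * qx X Y * qy X Y) / ((qx X Y : ℂ) + I * qy X Y) ^ 3) := by
    unfold e2c e2s
    rw [Complex.normSq_apply]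
    ring
  have hN : n2 X Y = 4 / (qx X Y ^ 2 + qy X Y ^ 2) := by
    rw [eq_div_iff (by positivity)]
    exact h2
  unfold dT
  rw [hns, hs, hN]
  generalize qx X Y = x at *
  generalize qy X Y = y at *
  have hq0 : ((x : ℂ) + I * y) ≠ 0 := by
    intro h0
    have := congrArg Complex.re h0
    simp at this
    linarith
  have e1 : (1 - 4 / ((x : ℂ) + I * y) + 4 * (1 + I * x * y) / ((x : ℂ) + I * y) ^ 3) =
      (((x : ℂ) + I * y) ^ 3 - 4 * ((x : ℂ) + I * y) ^ 2 + 4 * (1 + I * x * y)) /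
        ((x : ℂ) + I * y) ^ 3 := by
    field_simp
  have e2 : Complex.normSq ((x : ℂ) + I * y) = x ^ 2 + y ^ 2 := by
    rw [Complex.normSq_apply]
    simp
    ring
  have e3 : (((x : ℂ) + I * y) ^ 3 - 4 * ((x : ℂ) + I * y) ^ 2 + 4 * (1 + I * x * y)) =
      ((x ^ 3 - 3 * x * y ^ 2 - 4 * (x ^ 2 - y ^ 2) + 4 : ℝ) : ℂ) +
      ((3 * x ^ 2 * y - y ^ 3 - 8 * x * y + 4 * x * y : ℝ) : ℂ) * I := by
    push_cast
    linear_combination (3 * (x : ℂ) * y ^ 2 - 4 * y ^ 2 + I * y ^ 3) * Complex.I_sq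
  have e4 : Complex.normSq (((x ^ 3 - 3 * x * y ^ 2 - 4 * (x ^ 2 - y ^ 2) + 4 : ℝ) : ℂ) +
      ((3 * x ^ 2 * y - y ^ 3 - 8 * x * y + 4 * x * y : ℝ) : ℂ) * I) =
      (x ^ 3 - 3 * x * y ^ 2 - 4 * (x ^ 2 - y ^ 2) + 4) ^ 2 +
      (3 * x ^ 2 * y - y ^ 3 - 8 * x * y + 4 * x * y) ^ 2 := by
    rw [Complex.normSq_add_mul_I]
  rw [e1, Complex.normSq_div, e3, e4, map_pow, e2]
  have hp : 0 < x ^ 2 + y ^ 2 := by positivity
  field_simp
  ring

end Crest.Agent.R216.Loop
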