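import Crest.Agent.R216.LoopDefs
import Crest.Agent.R216.AlgP
import Crest.Agent.R216.LoopFam

/-!
# Row 216, Theorem E, TE-12: the Cayley loops in the frame (exact mean, circle, perpendicularity).
-/

set_option autoImplicit false

open Set Topology MeasureTheory
open scoped ContDiff

namespace Crest.Agent.R216.TE

section
variable (A B C b : E4) (s : ℝ)

/-- the frame `b, b' = Jrot b` of `Π` -/
lemma lb'_facts {B C b : E4} (hg : 0 < gram B C) (hb : ‖b‖ = 1)
    (hbB : inner ℝ b B = (0:ℝ)) (hbC : inner ℝ b C = (0:ℝ)) :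
    ‖lb' B C b‖ = 1 ∧ inner ℝ b (lb' B C b) = (0:ℝ) ∧ inner ℝ (lb' B C b) B = (0:ℝ) ∧
      inner ℝ (lb' B C b) C = (0:ℝ) := by
  obtain ⟨h1, h2, h3⟩ := Jrot_perp B C b
  refine ⟨?_, ?_, h1, h2⟩
  · unfold lb'; rw [norm_Jrot B C b hg hbB hbC, hb]
  · unfold lb'; rw [real_inner_comm]; exact h3

/-- decomposition of `A` -/
lemma A_decomp {A B C b : E4} (hg : 0 < gram B C) (hb : ‖b‖ = 1)
    (hbB : inner ℝ b B = (0:ℝ)) (hbC : inner ℝ b C = (0:ℝ)) :
    A - cpr A B C = lp1 A b • b + lp2 A B C b • lb' B C b := by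
  obtain ⟨h1, h2, h3, h4⟩ := lb'_facts hg hb hbB hbC
  have hp := ppr_perp A B C hg.ne'
  have h := frame_expand' B C b (lb' B C b) (ppr A B C) hg hb h1 h2 hbB hbC h3 h4 hp.1 hp.2
  have e1 : inner ℝ (ppr A B C) b = lp1 A b := by
    unfold ppr lp1
    rw [inner_sub_left, real_inner_comm b (cpr A B C), inner_cpr_of_orth A hbB hbC, sub_zero]
  have e2 : inner ℝ (ppr A B C) (lb' B C b) = lp2 A B C b := by
    unfold ppr lp2
    rw [inner_sub_left, real_inner_comm (lb' B C b) (cpr A B C), inner_cpr_of_orth A h3 h4,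
      sub_zero]
  rw [e1, e2] at h
  exact h

lemma lr_sq : lr A B C b s ^ 2 = lp1 A b ^ 2 + lp2 A B C b ^ 2 + s ^ 2 := by
  unfold lr
  rw [Real.sq_sqrt (by positivity)]

lemma lr_nonneg : 0 ≤ lr A B C b s := Real.sqrt_nonneg _

variable {A B C b s}

lemma lxy_sq (hr : 0 < lr A B C b s) :
    lx A B C b s ^ 2 + ly A B C b s ^ 2 + (s / lr A B C b s) ^ 2 = 1 := by
  unfold lx ly
  rw [div_pow, div_pow, div_pow, ← add_div, ← add_div, ← lr_sq, div_self (by positivity)]

lemma lx_gt (hr : 0 < lr A B C b s) (hd : 0 < lden A B C b s) : -1 < lx A B C b s := by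
  have h := lxy_sq hr
  by_contra h1
  rw [not_lt] at h1
  have h2 : lx A B C b s = -1 := by
    nlinarith [sq_nonneg (ly A B C b s), sq_nonneg (s / lr A B C b s)]
  have h3 : ly A B C b s = 0 := by
    rw [h2] at h
    have : ly A B C b s ^ 2 = 0 := by
      nlinarith [sq_nonneg (ly A B C b s), sq_nonneg (s / lr A B C b s)]
    exact pow_eq_zero_iff (two_ne_zero) |>.mp this
  unfold lden at hd
  rw [h2, h3] at hd
  norm_num at hd

lemma lden_eq : lden A B C b s = Loop.n2 (lx A B C b s) (ly A B C b s) := rfl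

lemma lq1_eq : lq1 A B C b s = Loop.qx (lx A B C b s) (ly A B C b s) := rfl

lemma lq2_eq : lq2 A B C b s = Loop.qy (lx A B C b s) (ly A B C b s) := rfl

lemma lkap_eq (hr : 0 < lr A B C b s) :
    lkap A B C b s = Loop.gl (lx A B C b s) (ly A B C b s) / lr A B C b s := by
  unfold lkap Loop.gl
  rw [lq1_eq, lq2_eq, lden_eq, mul_comm (lr A B C b s ^ 2), ← div_div, Real.sqrt_div' _
    (sq_nonneg _), Real.sqrt_sq hr.le]

lemma lP_eq (hr : 0 < lr A B C b s) (t : ℝ) :
    lP A B C b s t = Loop.pl (lx A B C b s) (ly A B C b s) (s / lr A B C b s) t := by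
  unfold lP lbeta Loop.pl
  rw [lkap_eq hr, lq1_eq, lq2_eq]
  ring

lemma lomre_eq (hr : 0 < lr A B C b s) (t : ℝ) :
    lomre A B C b s t = Loop.cl (lx A B C b s) (ly A B C b s) (s / lr A B C b s) t := by
  unfold lomre Loop.cl
  rw [lP_eq hr]

lemma lomim_eq (hr : 0 < lr A B C b s) (t : ℝ) :
    lomim A B C b s t = Loop.sl (lx A B C b s) (ly A B C b s) (s / lr A B C b s) t := by
  unfold lomim Loop.sl
  rw [lP_eq hr]

lemma lom_sq (A B C b : E4) (s t : ℝ) : lomre A B C b s t ^ 2 + lomim A B C b s t ^ 2 = 1 := by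
  unfold lomre lomim
  have : 0 < 1 + lP A B C b s t ^ 2 := by positivity
  field_simp
  ring

lemma continuous_lP (A B C b : E4) (s : ℝ) : Continuous (fun t => lP A B C b s t) := by
  unfold lP
  fun_prop

lemma continuous_lomre (A B C b : E4) (s : ℝ) : Continuous (fun t => lomre A B C b s t) := by
  unfold lomre
  have h := continuous_lP A B C b s
  refine Continuous.div (by fun_prop) (by fun_prop) fun t => ?_
  have : 0 < 1 + lP A B C b s t ^ 2 := by positivity
  exact this.ne'

lemma continuous_lomim (A B C b : E4) (s : ℝ) : Continuous (fun t => lomim A B C b s t) := by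
  unfold lomim
  have h := continuous_lP A B C b s
  refine Continuous.div (by fun_prop) (by fun_prop) fun t => ?_
  have : 0 < 1 + lP A B C b s t ^ 2 := by positivity
  exact this.ne'

lemma integral_lomre (hr : 0 < lr A B C b s) (hd : 0 < lden A B C b s) :
    ∫ t in (0:ℝ)..(2 * Real.pi), lomre A B C b s t = 2 * Real.pi * lx A B C b s := by
  have h := Loop.mean_cl (lx_gt hr hd) (lxy_sq hr)
  have hpi : (2 * Real.pi) ≠ 0 := by positivity
  rw [inv_mul_eq_iff_eq_mul₀ hpi] at h
  rw [← h]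
  exact intervalIntegral.integral_congr fun t _ => lomre_eq hr t

lemma integral_lomim (hr : 0 < lr A B C b s) (hd : 0 < lden A B C b s) :
    ∫ t in (0:ℝ)..(2 * Real.pi), lomim A B C b s t = 2 * Real.pi * ly A B C b s := by
  have h := Loop.mean_sl (lx_gt hr hd) (lxy_sq hr)
  have hpi : (2 * Real.pi) ≠ 0 := by positivity
  rw [inv_mul_eq_iff_eq_mul₀ hpi] at h
  rw [← h]
  exact intervalIntegral.integral_congr fun t _ => lomim_eq hr t

end

/-- `W` in the frame -/
lemma loopW_eq (A B C b : E4) (s : ℝ) (hg : 0 < gram B C) (hb : ‖b‖ = 1)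
    (hbB : inner ℝ b B = (0:ℝ)) (hbC : inner ℝ b C = (0:ℝ)) (t : ℝ) :
    loopW A B C b s t = (lr A B C b s * lomre A B C b s t - lp1 A b) • b +
      (lr A B C b s * lomim A B C b s t - lp2 A B C b) • lb' B C b := by
  have h := A_decomp (A := A) hg hb hbB hbC
  have e : loopW A B C b s t = lr A B C b s • (lomre A B C b s t • b +
      lomim A B C b s t • lb' B C b) - (A - cpr A B C) := by
    unfold loopW loopw
    abel
  rw [e, h]
  module

/-- exact mean of the loop -/
lemma loop_mean (A B C b : E4) (s : ℝ) (hg : 0 < gram B C) (hb : ‖b‖ = 1)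
    (hbB : inner ℝ b B = (0:ℝ)) (hbC : inner ℝ b C = (0:ℝ)) (hr : 0 < lr A B C b s)
    (hd : 0 < lden A B C b s) :
    ∫ t in (0:ℝ)..(2 * Real.pi), loopW A B C b s t = 0 := by
  have e : ∀ t, loopW A B C b s t = (lr A B C b s * lomre A B C b s t - lp1 A b) • b +
      (lr A B C b s * lomim A B C b s t - lp2 A B C b) • lb' B C b :=
    loopW_eq A B C b s hg hb hbB hbC
  simp only [e]
  have hc1 := continuous_lomre A B C b s
  have hc2 := continuous_lomim A B C b s
  rw [intervalIntegral.integral_add, intervalIntegral.integral_smul_const,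
    intervalIntegral.integral_smul_const, intervalIntegral.integral_sub,
    intervalIntegral.integral_sub, intervalIntegral.integral_const_mul,
    intervalIntegral.integral_const_mul, integral_lomre hr hd, integral_lomim hr hd,
    intervalIntegral.integral_const, intervalIntegral.integral_const]
  · have e1 : lr A B C b s * (2 * Real.pi * lx A B C b s) - (2 * Real.pi - 0) • lp1 A b = 0 := by
      unfold lx
      rw [smul_eq_mul]
      field_simp
      ring
    have e2 : lr A B C b s * (2 * Real.pi * ly A B C b s) - (2 * Real.pi - 0) • lp2 A B C b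
        = 0 := by
      unfold ly
      rw [smul_eq_mul]
      field_simp
      ring
    rw [e1, e2]
    simp
  all_goals apply Continuous.intervalIntegrable; fun_prop

lemma loop_circle (A B C b : E4) (s : ℝ) (hg : 0 < gram B C) (hb : ‖b‖ = 1)
    (hbB : inner ℝ b B = (0:ℝ)) (hbC : inner ℝ b C = (0:ℝ)) (t : ℝ) :
    inner ℝ (loopw A B C b s t) (loopw A B C b s t) = inner ℝ A A + s ^ 2 := by
  obtain ⟨h1, h2, h3, h4⟩ := lb'_facts hg hb hbB hbC
  have hbb : inner ℝ b b = (1:ℝ) := by rw [real_inner_self_eq_norm_sq, hb]; norm_num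
  have hbb' : inner ℝ (lb' B C b) (lb' B C b) = (1:ℝ) := by
    rw [real_inner_self_eq_norm_sq, h1]; norm_num
  have h2' : inner ℝ (lb' B C b) b = (0:ℝ) := by rw [real_inner_comm]; exact h2
  have c1 : inner ℝ b (cpr A B C) = (0:ℝ) := inner_cpr_of_orth A hbB hbC
  have c1' : inner ℝ (cpr A B C) b = (0:ℝ) := by rw [real_inner_comm]; exact c1
  have c2 : inner ℝ (lb' B C b) (cpr A B C) = (0:ℝ) := inner_cpr_of_orth A h3 h4
  have c2' : inner ℝ (cpr A B C) (lb' B C b) = (0:ℝ) := by rw [real_inner_comm]; exact c2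
  have hA : A = cpr A B C + (lp1 A b • b + lp2 A B C b • lb' B C b) := by
    rw [← A_decomp (A := A) hg hb hbB hbC]; abel
  have key : ∀ (c : E4) (x y : ℝ), inner ℝ b c = (0:ℝ) → inner ℝ c b = (0:ℝ) →
      inner ℝ (lb' B C b) c = (0:ℝ) → inner ℝ c (lb' B C b) = (0:ℝ) →
      inner ℝ (c + (x • b + y • lb' B C b)) (c + (x • b + y • lb' B C b)) =
        inner ℝ c c + x ^ 2 + y ^ 2 := by
    intro c x y k1 k2 k3 k4
    simp only [inner_add_left, inner_add_right, real_inner_smul_left, real_inner_smul_right, k1,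
      k2, k3, k4, hbb, hbb', h2, h2']
    ring
  have e1 : loopw A B C b s t = cpr A B C + ((lr A B C b s * lomre A B C b s t) • b +
      (lr A B C b s * lomim A B C b s t) • lb' B C b) := by
    unfold loopw
    module
  have e2 : (inner ℝ A A : ℝ) = inner ℝ (cpr A B C) (cpr A B C) + lp1 A b ^ 2 +
      lp2 A B C b ^ 2 := by
    rw [← key (cpr A B C) (lp1 A b) (lp2 A B C b) c1 c1' c2 c2', ← hA]
  rw [e1, key _ _ _ c1 c1' c2 c2', e2]
  have h5 := lom_sq A B C b s t
  have h6 := lr_sq A B C b s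
  linear_combination (lr A B C b s ^ 2) * h5 + h6

lemma loop_perp (A B C b : E4) (s : ℝ) (hg : 0 < gram B C)
    (hbB : inner ℝ b B = (0:ℝ)) (hbC : inner ℝ b C = (0:ℝ)) (t : ℝ) :
    inner ℝ (loopW A B C b s t) B = (0:ℝ) ∧ inner ℝ (loopW A B C b s t) C = (0:ℝ) := by
  obtain ⟨h1, h2, h3⟩ := Jrot_perp B C b
  have e1 : inner ℝ (lb' B C b) B = (0:ℝ) := h1
  have e2 : inner ℝ (lb' B C b) C = (0:ℝ) := h2
  unfold loopW loopw
  constructor
  · rw [inner_sub_left, inner_add_left, inner_cpr_B A hg.ne', real_inner_smul_left,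
      inner_add_left, real_inner_smul_left, real_inner_smul_left, hbB, e1]
    ring
  · rw [inner_sub_left, inner_add_left, inner_cpr_C A hg.ne', real_inner_smul_left,
      inner_add_left, real_inner_smul_left, real_inner_smul_left, hbC, e2]
    ring

end Crest.Agent.R216.TE
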