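import Crest.Agent.R216.LoopDefs
import Crest.Agent.R216.AlgP

/-!
# Row 216, Theorem E: the loops over a family are in `B(a)` (`loop_class`).
-/

open Set Topology MeasureTheory
open scoped ContDiff

set_option linter.unusedSectionVars false

namespace Crest.Agent.R216.TE

namespace LoopB

/-! ### the class with weight one -/

section one
variable {V : Type*} [NormedAddCommGroup V] [NormedSpace ℝ V]
variable {𝓕 : Fam}

/-- the class with weight one -/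
def B1 (𝓕 : Fam) (u : 𝓕.I → Q → V) : Prop := 𝓕.B (fun _ _ => (1 : ℝ)) u

lemma nn1 : Fam.Nn (fun _ _ => (1 : ℝ) : 𝓕.I → X2 → ℝ) := fun _ _ _ => zero_le_one

lemma B1.add {u v : 𝓕.I → Q → V} (hu : B1 𝓕 u) (hv : B1 𝓕 v) :
    B1 𝓕 (fun i z => u i z + v i z) := Fam.B.add hu hv

lemma B1.sub {u v : 𝓕.I → Q → V} (hu : B1 𝓕 u) (hv : B1 𝓕 v) :
    B1 𝓕 (fun i z => u i z - v i z) := Fam.B.sub nn1 hu hv

lemma B1.neg {u : 𝓕.I → Q → V} (hu : B1 𝓕 u) : B1 𝓕 (fun i z => - u i z) := Fam.B.neg nn1 hu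

lemma B1.mul {u v : 𝓕.I → Q → ℝ} (hu : B1 𝓕 u) (hv : B1 𝓕 v) :
    B1 𝓕 (fun i z => u i z * v i z) :=
  (Fam.B.mul nn1 nn1 hu hv).weight_congr (fun i x _ => by norm_num)

lemma B1.smul {u : 𝓕.I → Q → ℝ} {v : 𝓕.I → Q → V} (hu : B1 𝓕 u) (hv : B1 𝓕 v) :
    B1 𝓕 (fun i z => u i z • v i z) :=
  (Fam.B.smul nn1 nn1 hu hv).weight_congr (fun i x _ => by norm_num)

lemma B1.inner {u v : 𝓕.I → Q → E4} (hu : B1 𝓕 u) (hv : B1 𝓕 v) :
    B1 𝓕 (fun i z => inner ℝ (u i z) (v i z)) :=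
  (Fam.B.inner nn1 nn1 hu hv).weight_congr (fun i x _ => by norm_num)

lemma B1.const (c : ℝ) : B1 𝓕 (fun _ _ => c) :=
  Fam.B.const (fun _ => c) ⟨|c| + 1, by positivity, fun i x _ => by
    rw [Real.norm_eq_abs]; linarith⟩ nn1

lemma B1.sq {u : 𝓕.I → Q → ℝ} (hu : B1 𝓕 u) : B1 𝓕 (fun i z => u i z ^ 2) := by
  have := hu.mul hu
  simpa only [← pow_two] using this

lemma B1.inv {u : 𝓕.I → Q → ℝ} (hu : B1 𝓕 u)
    (hlow : ∃ c, 0 < c ∧ ∀ i, ∀ z ∈ 𝓕.dom i, c ≤ u i z) :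
    B1 𝓕 (fun i z => (u i z)⁻¹) := by
  obtain ⟨c, hc, hl⟩ := hlow
  exact (Fam.B.inv hc (fun _ _ _ => one_pos) (fun i z hz => by rw [mul_one]; exact hl i z hz)
    hu).weight_congr (fun i x _ => by norm_num)

lemma B1.sqrt {u : 𝓕.I → Q → ℝ} (hu : B1 𝓕 u)
    (hlow : ∃ c, 0 < c ∧ ∀ i, ∀ z ∈ 𝓕.dom i, c ≤ u i z) :
    B1 𝓕 (fun i z => Real.sqrt (u i z)) := by
  obtain ⟨c, hc, hl⟩ := hlow
  exact (Fam.B.sqrt hc (fun _ _ _ => one_pos) (fun i z hz => by rw [mul_one]; exact hl i z hz)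
    hu).weight_congr (fun i x _ => by norm_num)

/-- size bound -/
lemma B1.bdd {u : 𝓕.I → Q → ℝ} (hu : B1 𝓕 u) :
    ∃ C, 0 < C ∧ ∀ i, ∀ z ∈ 𝓕.dom i, |u i z| ≤ C := by
  obtain ⟨C, hC, h⟩ := hu.sz
  exact ⟨C, hC, fun i z hz => by simpa using h i z hz⟩

lemma pd_cos (φ : ℝ) (j : Fin 3) (z : Q) :
    pd j (fun z : Q => Real.cos (z.2 + φ)) z = (bas j).2 * Real.cos (z.2 + (φ + Real.pi / 2)) := by
  have h1 : HasFDerivAt (fun z : Q => z.2 + φ) (ContinuousLinearMap.snd ℝ (ℝ × ℝ) ℝ) z :=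
    hasFDerivAt_snd.add_const φ
  have h2 := (Real.hasDerivAt_cos (z.2 + φ)).comp_hasFDerivAt z h1
  have h3 : fderiv ℝ (fun z : Q => Real.cos (z.2 + φ)) z
      = (-Real.sin (z.2 + φ)) • ContinuousLinearMap.snd ℝ (ℝ × ℝ) ℝ := h2.fderiv
  rw [pd, h3, ← add_assoc, Real.cos_add_pi_div_two]
  simp [mul_comm]

lemma cosBk (k : ℕ) : ∀ {w : 𝓕.I → X2 → ℝ}, (∀ i, ∀ x ∈ 𝓕.D i, 1 ≤ w i x) → ∀ φ : ℝ,
    𝓕.Bk k w (fun _ z => Real.cos (z.2 + φ)) := by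
  have hsz : ∀ {w : 𝓕.I → X2 → ℝ}, (∀ i, ∀ x ∈ 𝓕.D i, 1 ≤ w i x) → ∀ φ : ℝ,
      𝓕.Sz w (fun _ z => Real.cos (z.2 + φ)) := fun {w} hw φ =>
    ⟨1, one_pos, fun i z hz => by
      rw [one_mul, Real.norm_eq_abs]
      exact (Real.abs_cos_le_one _).trans (hw i z.1 hz)⟩
  induction k with
  | zero => intro w hw φ; exact hsz hw φ
  | succ k ih =>
    intro w hw φ
    have hL : ∀ i, ∀ x ∈ 𝓕.D i, 1 ≤ 𝓕.Lam i * w i x := fun i x hx => by
      have h1 := 𝓕.one_le i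
      have h2 := hw i x hx
      nlinarith
    refine ⟨hsz hw φ, fun j => ?_⟩
    have hpd : (fun i => pd j ((fun (_ : 𝓕.I) (z : Q) => Real.cos (z.2 + φ)) i)) =
        fun (_ : 𝓕.I) (z : Q) => (bas j).2 * Real.cos (z.2 + (φ + Real.pi / 2)) := by
      funext i z
      exact pd_cos φ j z
    rw [hpd]
    have hb : (bas j).2 = 0 ∨ (bas j).2 = 1 := by
      fin_cases j <;> simp [bas]
    rcases hb with hb | hb
    · simp only [hb, zero_mul]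
      exact (Fam.B.zero (fun i x hx => (zero_le_one.trans (hL i x hx)))).bound k
    · simp only [hb, one_mul]
      exact ih hL _

lemma B1.cos : B1 𝓕 (fun _ z => Real.cos z.2) := by
  refine ⟨fun i => ?_, fun k => ?_⟩
  · exact (Real.contDiff_cos.comp contDiff_snd).contDiffOn
  · have := cosBk (𝓕 := 𝓕) k (w := fun _ _ => (1 : ℝ)) (fun _ _ _ => le_rfl) 0
    simpa using this

end one

/-! ### algebra -/

section alg
variable (x y sig den q1 q2 be P : ℝ)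

lemma rel1 (hden0 : den ≠ 0) (hden : den = (1 + x) ^ 2 + y ^ 2) (h1 : q1 = 2 * (1 + x) / den)
    (h2 : q2 = -(2 * y) / den) :
    q1 * (1 + x) - q2 * y = 2 ∧ q1 * y + q2 * (1 + x) = 0 := by
  rw [h1, h2]
  constructor
  · field_simp
    rw [hden]; ring
  · field_simp
    ring

lemma alg_re (hden0 : den ≠ 0) (hden : den = (1 + x) ^ 2 + y ^ 2)
    (hxy : x ^ 2 + y ^ 2 = 1 - sig) (h1 : q1 = 2 * (1 + x) / den)
    (h2 : q2 = -(2 * y) / den) (hb : be = -(q1 * q2)) :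
    (1 - P ^ 2) / (1 + P ^ 2) - x =
      (P - be) * (-2 * (P + be) * (1 + P ^ 2)⁻¹ * (1 + be ^ 2)⁻¹)
      + sig * (den⁻¹ * (1 + be ^ 2)⁻¹ * ((1 + x) + q2 * y - be * (y - q2 * (1 + x)))) := by
  obtain ⟨r1, r2⟩ := rel1 x y den q1 q2 hden0 hden h1 h2
  have hq : sig * den⁻¹ = q1 - 1 := by
    rw [h1]
    field_simp
    rw [hden]
    linarith
  have e1 : (1 - P ^ 2) / (1 + P ^ 2) - (1 - be ^ 2) / (1 + be ^ 2) =
      (P - be) * (-2 * (P + be) * (1 + P ^ 2)⁻¹ * (1 + be ^ 2)⁻¹) := by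
    have hP : (1 + P ^ 2) ≠ 0 := by positivity
    have hB : (1 + be ^ 2) ≠ 0 := by positivity
    field_simp
    ring
  have e2 : (1 - be ^ 2) / (1 + be ^ 2) - x =
      sig * (den⁻¹ * (1 + be ^ 2)⁻¹ * ((1 + x) + q2 * y - be * (y - q2 * (1 + x)))) := by
    have hB : (1 + be ^ 2) ≠ 0 := by positivity
    have e3 : sig * (den⁻¹ * (1 + be ^ 2)⁻¹ * ((1 + x) + q2 * y - be * (y - q2 * (1 + x)))) =
        (q1 - 1) * ((1 + x) + q2 * y - be * (y - q2 * (1 + x))) / (1 + be ^ 2) := by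
      rw [← hq]; ring
    rw [e3, eq_div_iff hB, sub_mul, div_mul_cancel₀ _ hB, hb]
    linear_combination (-1 : ℝ) * r1 - q1 * q2 * r2
  linarith

lemma alg_im (hden0 : den ≠ 0) (hden : den = (1 + x) ^ 2 + y ^ 2)
    (hxy : x ^ 2 + y ^ 2 = 1 - sig) (h1 : q1 = 2 * (1 + x) / den)
    (h2 : q2 = -(2 * y) / den) (hb : be = -(q1 * q2)) :
    2 * P / (1 + P ^ 2) - y =
      (P - be) * (2 * (1 - P * be) * (1 + P ^ 2)⁻¹ * (1 + be ^ 2)⁻¹)
      + sig * (den⁻¹ * (1 + be ^ 2)⁻¹ * ((y - q2 * (1 + x)) + be * ((1 + x) + q2 * y))) := by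
  obtain ⟨r1, r2⟩ := rel1 x y den q1 q2 hden0 hden h1 h2
  have hq : sig * den⁻¹ = q1 - 1 := by
    rw [h1]
    field_simp
    rw [hden]
    linarith
  have e1 : 2 * P / (1 + P ^ 2) - 2 * be / (1 + be ^ 2) =
      (P - be) * (2 * (1 - P * be) * (1 + P ^ 2)⁻¹ * (1 + be ^ 2)⁻¹) := by
    have hP : (1 + P ^ 2) ≠ 0 := by positivity
    have hB : (1 + be ^ 2) ≠ 0 := by positivity
    field_simp
    ring
  have e2 : 2 * be / (1 + be ^ 2) - y =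
      sig * (den⁻¹ * (1 + be ^ 2)⁻¹ * ((y - q2 * (1 + x)) + be * ((1 + x) + q2 * y))) := by
    have hB : (1 + be ^ 2) ≠ 0 := by positivity
    have e3 : sig * (den⁻¹ * (1 + be ^ 2)⁻¹ * ((y - q2 * (1 + x)) + be * ((1 + x) + q2 * y))) =
        (q1 - 1) * ((y - q2 * (1 + x)) + be * ((1 + x) + q2 * y)) / (1 + be ^ 2) := by
      rw [← hq]; ring
    rw [e3, eq_div_iff hB, sub_mul, div_mul_cancel₀ _ hB, hb]
    linear_combination (q1 * q2) * r1 - r2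
  linarith

end alg

/-! ### the scalars of the loop -/

section main
variable {𝓔 : EFam} {A B C b : 𝓔.I → X2 → E4}

lemma B1.of_W {V : Type*} [NormedAddCommGroup V] [NormedSpace ℝ V] {u : 𝓔.I → Q → V}
    (h : 𝓔.toFam.B (𝓔.W 0 0 0) u) : B1 𝓔.toFam u :=
  Fam.B.weight_congr h (fun i x _ => by simp [EFam.W])

/-- the amplitude is in `B(1)` -/
lemma B1_a : B1 𝓔.toFam (fun i z => 𝓔.a i z.1) := by
  obtain ⟨c, hc, h⟩ := 𝓔.a_le
  exact Fam.B.mono 𝓔.a_B hc (fun i x hx => by rw [mul_one]; exact h i x hx)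

/-- coordinates -/
lemma B1.coord {u : 𝓔.I → Q → E4} (hu : B1 𝓔.toFam u) (k : Fin 4) :
    B1 𝓔.toFam (fun i z => u i z k) :=
  Fam.B.clm (EuclideanSpace.proj k) nn1 hu

lemma B1.of_coord {u : 𝓔.I → Q → E4} (hu : ∀ k, B1 𝓔.toFam (fun i z => u i z k)) :
    B1 𝓔.toFam u := by
  have hc : ∀ k : Fin 4, B1 𝓔.toFam (fun _ _ => (EuclideanSpace.single k (1 : ℝ) : E4)) :=
    fun k => Fam.B.const (fun _ => EuclideanSpace.single k (1 : ℝ))
      ⟨1, one_pos, fun i x _ => by simp⟩ nn1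
  have h := (((hu 0).smul (hc 0)).add ((hu 1).smul (hc 1))).add
    (((hu 2).smul (hc 2)).add ((hu 3).smul (hc 3)))
  have e : (fun i z => u i z 0 • (EuclideanSpace.single 0 (1 : ℝ) : E4)
      + u i z 1 • (EuclideanSpace.single 1 (1 : ℝ) : E4)
      + (u i z 2 • (EuclideanSpace.single 2 (1 : ℝ) : E4)
      + u i z 3 • (EuclideanSpace.single 3 (1 : ℝ) : E4))) = u := by
    funext i z
    ext k
    fin_cases k <;> simp
  rw [e] at h
  exact h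

lemma B1_Jrot {B C v : 𝓔.I → Q → E4} (hB : B1 𝓔.toFam B) (hC : B1 𝓔.toFam C)
    (hv : B1 𝓔.toFam v)
    (hg : ∃ c, 0 < c ∧ ∀ i, ∀ z ∈ 𝓔.toFam.dom i, c ≤ gram (B i z) (C i z)) :
    B1 𝓔.toFam (fun i z => Jrot (B i z) (C i z) (v i z)) := by
  have hgr : B1 𝓔.toFam (fun i z => gram (B i z) (C i z)) :=
    ((hB.inner hB).mul (hC.inner hC)).sub (hB.inner hC).sq
  have hsq := hgr.sqrt hg
  have hsl : ∃ c, 0 < c ∧ ∀ i, ∀ z ∈ 𝓔.toFam.dom i, c ≤ Real.sqrt (gram (B i z) (C i z)) := by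
    obtain ⟨c, hc, h⟩ := hg
    exact ⟨Real.sqrt c, Real.sqrt_pos.2 hc, fun i z hz => Real.sqrt_le_sqrt (h i z hz)⟩
  refine (hsq.inv hsl).smul (B1.of_coord (fun k => ?_))
  have b := fun k => hB.coord k
  have c := fun k => hC.coord k
  have w := fun k => hv.coord k
  fin_cases k
  · exact (((b 1).mul (((c 2).mul (w 3)).sub ((c 3).mul (w 2)))).sub
      ((b 2).mul (((c 1).mul (w 3)).sub ((c 3).mul (w 1))))).add
      ((b 3).mul (((c 1).mul (w 2)).sub ((c 2).mul (w 1))))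
  · exact ((((b 0).mul (((c 2).mul (w 3)).sub ((c 3).mul (w 2)))).sub
      ((b 2).mul (((c 0).mul (w 3)).sub ((c 3).mul (w 0))))).add
      ((b 3).mul (((c 0).mul (w 2)).sub ((c 2).mul (w 0))))).neg
  · exact (((b 0).mul (((c 1).mul (w 3)).sub ((c 3).mul (w 1)))).sub
      ((b 1).mul (((c 0).mul (w 3)).sub ((c 3).mul (w 0))))).add
      ((b 3).mul (((c 0).mul (w 1)).sub ((c 1).mul (w 0))))
  · exact ((((b 0).mul (((c 1).mul (w 2)).sub ((c 2).mul (w 1)))).sub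
      ((b 1).mul (((c 0).mul (w 2)).sub ((c 2).mul (w 0))))).add
      ((b 2).mul (((c 0).mul (w 1)).sub ((c 1).mul (w 0))))).neg

/-- a pointwise formula for `W` -/
lemma loopW_eq (A B C b : E4) (s : ℝ) (hg : 0 < gram B C) (hb : ‖b‖ = 1)
    (hbB : inner ℝ b B = (0:ℝ)) (hbC : inner ℝ b C = (0:ℝ)) (hr : 0 < lr A B C b s) (t : ℝ) :
    loopW A B C b s t = lr A B C b s • ((lomre A B C b s t - lx A B C b s) • b
      + (lomim A B C b s t - ly A B C b s) • lb' B C b) := by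
  have hJ := Jrot_perp B C b
  have hp := ppr_perp A B C hg.ne'
  have hfr := frame_expand B C b (ppr A B C) hg hb hbB hbC hp.1 hp.2
  have hc : ∀ v : E4, inner ℝ v B = (0:ℝ) → inner ℝ v C = (0:ℝ) →
      inner ℝ (cpr A B C) v = (0:ℝ) := by
    intro v h1 h2
    have h1' : inner ℝ B v = (0:ℝ) := by rw [real_inner_comm]; exact h1
    have h2' : inner ℝ C v = (0:ℝ) := by rw [real_inner_comm]; exact h2
    simp only [cpr, xiB, xiC, inner_add_left, inner_smul_left, inner_sub_left, h1', h2']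
    simp
  have e1 : inner ℝ (ppr A B C) b = lp1 A b := by
    rw [ppr, inner_sub_left, hc b hbB hbC, sub_zero]; rfl
  have e2 : inner ℝ (ppr A B C) (Jrot B C b) = lp2 A B C b := by
    rw [ppr, inner_sub_left, hc _ hJ.1 hJ.2.1, sub_zero]; rfl
  rw [e1, e2] at hfr
  have hx : lr A B C b s * lx A B C b s = lp1 A b := by
    rw [lx]; field_simp
  have hy : lr A B C b s * ly A B C b s = lp2 A B C b := by
    rw [ly]; field_simp
  have h1 : loopW A B C b s t = lr A B C b s • (lomre A B C b s t • b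
      + lomim A B C b s t • lb' B C b) - ppr A B C := by
    rw [loopW, loopw, ppr]; abel
  rw [h1, hfr, ← hx, ← hy, lb']
  module

/-- the function `G` with `W = a G` -/
lemma G_class (h : LoopHyp 𝓔 A B C b) :
    ∃ G : 𝓔.I → Q → E4, B1 𝓔.toFam G ∧ ∀ i, ∀ z ∈ 𝓔.toFam.dom i,
      loopW (A i z.1) (B i z.1) (C i z.1) (b i z.1) (𝓔.a i z.1) z.2 = 𝓔.a i z.1 • G i z := by
  obtain ⟨cg, hcg, hg⟩ := h.gram_low
  obtain ⟨cr, hcr, hr⟩ := h.r_low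
  obtain ⟨cd, hcd, hd⟩ := h.den_low
  -- abbreviations
  set p1 : 𝓔.I → Q → ℝ := fun i z => lp1 (A i z.1) (b i z.1) with hp1
  set p2 : 𝓔.I → Q → ℝ := fun i z => lp2 (A i z.1) (B i z.1) (C i z.1) (b i z.1) with hp2
  set s : 𝓔.I → Q → ℝ := fun i z => 𝓔.a i z.1 with hs
  set b' : 𝓔.I → Q → E4 := fun i z => lb' (B i z.1) (C i z.1) (b i z.1) with hb'
  set r : 𝓔.I → Q → ℝ := fun i z => lr (A i z.1) (B i z.1) (C i z.1) (b i z.1) (𝓔.a i z.1) with hr'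
  set x : 𝓔.I → Q → ℝ := fun i z => lx (A i z.1) (B i z.1) (C i z.1) (b i z.1) (𝓔.a i z.1) with hx'
  set y : 𝓔.I → Q → ℝ := fun i z => ly (A i z.1) (B i z.1) (C i z.1) (b i z.1) (𝓔.a i z.1) with hy'
  set den : 𝓔.I → Q → ℝ :=
    fun i z => lden (A i z.1) (B i z.1) (C i z.1) (b i z.1) (𝓔.a i z.1) with hden'
  set q1 : 𝓔.I → Q → ℝ :=
    fun i z => lq1 (A i z.1) (B i z.1) (C i z.1) (b i z.1) (𝓔.a i z.1) with hq1'
  set q2 : 𝓔.I → Q → ℝ :=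
    fun i z => lq2 (A i z.1) (B i z.1) (C i z.1) (b i z.1) (𝓔.a i z.1) with hq2'
  set be : 𝓔.I → Q → ℝ :=
    fun i z => lbeta (A i z.1) (B i z.1) (C i z.1) (b i z.1) (𝓔.a i z.1) with hbe'
  set ka : 𝓔.I → Q → ℝ :=
    fun i z => lkap (A i z.1) (B i z.1) (C i z.1) (b i z.1) (𝓔.a i z.1) with hka'
  set P : 𝓔.I → Q → ℝ :=
    fun i z => lP (A i z.1) (B i z.1) (C i z.1) (b i z.1) (𝓔.a i z.1) z.2 with hP'
  have BA : B1 𝓔.toFam (fun i z => A i z.1) := B1.of_W h.AB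
  have Bb : B1 𝓔.toFam (fun i z => b i z.1) := B1.of_W h.bB
  have Bb' : B1 𝓔.toFam b' := B1_Jrot (B1.of_W h.BB) (B1.of_W h.CB) Bb
    ⟨cg, hcg, fun i z hz => hg i z.1 hz⟩
  have Bs : B1 𝓔.toFam s := B1_a
  have Bp1 : B1 𝓔.toFam p1 := BA.inner Bb
  have Bp2 : B1 𝓔.toFam p2 := BA.inner Bb'
  have hrpos : ∀ i, ∀ z ∈ 𝓔.toFam.dom i, 0 < r i z := fun i z hz => hcr.trans_le (hr i z.1 hz)
  have hrsq : ∀ i, ∀ z ∈ 𝓔.toFam.dom i, r i z ^ 2 = p1 i z ^ 2 + p2 i z ^ 2 + s i z ^ 2 :=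
    fun i z _ => Real.sq_sqrt (by positivity)
  have Br : B1 𝓔.toFam r := by
    refine B1.sqrt (u := fun i z => p1 i z ^ 2 + p2 i z ^ 2 + s i z ^ 2)
      ((Bp1.sq.add Bp2.sq).add Bs.sq) ⟨cr ^ 2, by positivity, fun i z hz => ?_⟩
    have h1 := hr i z.1 hz
    have h2 := hrsq i z hz
    calc cr ^ 2 ≤ r i z ^ 2 := by
          have : cr ≤ r i z := h1
          gcongr
      _ = _ := h2
  have Bri : B1 𝓔.toFam (fun i z => (r i z)⁻¹) := Br.inv ⟨cr, hcr, fun i z hz => hr i z.1 hz⟩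
  have Bx : B1 𝓔.toFam x := by
    have := Bp1.mul Bri
    simp only [← div_eq_mul_inv] at this
    exact this
  have By : B1 𝓔.toFam y := by
    have := Bp2.mul Bri
    simp only [← div_eq_mul_inv] at this
    exact this
  have B1x : B1 𝓔.toFam (fun i z => 1 + x i z) := (B1.const 1).add Bx
  have Bden : B1 𝓔.toFam den := B1x.sq.add By.sq
  have Bdeni : B1 𝓔.toFam (fun i z => (den i z)⁻¹) :=
    Bden.inv ⟨cd, hcd, fun i z hz => hd i z.1 hz⟩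
  have hdpos : ∀ i, ∀ z ∈ 𝓔.toFam.dom i, 0 < den i z := fun i z hz => hcd.trans_le (hd i z.1 hz)
  have Bq1 : B1 𝓔.toFam q1 := by
    have := ((B1.const 2).mul B1x).mul Bdeni
    simp only [← div_eq_mul_inv] at this
    exact this
  have Bq2 : B1 𝓔.toFam q2 := by
    have := (((B1.const 2).mul By).neg).mul Bdeni
    simp only [← div_eq_mul_inv] at this
    exact this
  have Bbe : B1 𝓔.toFam be := (Bq1.mul Bq2).neg
  have hxy : ∀ i, ∀ z ∈ 𝓔.toFam.dom i,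
      x i z ^ 2 + y i z ^ 2 = 1 - s i z ^ 2 * ((r i z)⁻¹) ^ 2 := by
    intro i z hz
    have h1 := hrpos i z hz
    have h2 := hrsq i z hz
    have e1 : x i z = p1 i z * (r i z)⁻¹ := div_eq_mul_inv _ _
    have e2 : y i z = p2 i z * (r i z)⁻¹ := div_eq_mul_inv _ _
    rw [e1, e2]
    have h3 : r i z * (r i z)⁻¹ = 1 := mul_inv_cancel₀ h1.ne'
    have h4 : r i z ^ 2 * ((r i z)⁻¹) ^ 2 = 1 := by rw [← mul_pow, h3, one_pow]
    rw [h2] at h4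
    linear_combination h4
  have hx1 : ∀ i, ∀ z ∈ 𝓔.toFam.dom i, 0 ≤ 1 + x i z := by
    intro i z hz
    have h1 := hxy i z hz
    have h2 : x i z ^ 2 ≤ 1 := by
      have : 0 ≤ s i z ^ 2 * ((r i z)⁻¹) ^ 2 := by positivity
      nlinarith [sq_nonneg (y i z)]
    nlinarith [abs_le_of_sq_le_sq' (by simpa using h2 : x i z ^ 2 ≤ 1 ^ 2) zero_le_one]
  have hq1pos : ∀ i, ∀ z ∈ 𝓔.toFam.dom i, 0 ≤ q1 i z := by
    intro i z hz
    have h1 := hx1 i z hz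
    have h2 := hdpos i z hz
    show 0 ≤ 2 * (1 + x i z) / den i z
    positivity
  -- kappa
  have Brd : B1 𝓔.toFam (fun i z => r i z ^ 2 * den i z) := Br.sq.mul Bden
  have hrdlow : ∃ c, 0 < c ∧ ∀ i, ∀ z ∈ 𝓔.toFam.dom i, c ≤ r i z ^ 2 * den i z := by
    refine ⟨cr ^ 2 * cd, by positivity, fun i z hz => ?_⟩
    have h1 : cr ≤ r i z := hr i z.1 hz
    have h2 : cd ≤ den i z := hd i z.1 hz
    gcongr
  have Brdi := Brd.inv hrdlow
  have BK : B1 𝓔.toFam (fun i z => (q1 i z + 1) * (1 + q2 i z ^ 2) * (r i z ^ 2 * den i z)⁻¹) :=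
    ((Bq1.add (B1.const 1)).mul ((B1.const 1).add Bq2.sq)).mul Brdi
  have hKlow : ∃ c, 0 < c ∧ ∀ i, ∀ z ∈ 𝓔.toFam.dom i,
      c ≤ (q1 i z + 1) * (1 + q2 i z ^ 2) * (r i z ^ 2 * den i z)⁻¹ := by
    obtain ⟨M, hM, hb⟩ := Brd.bdd
    obtain ⟨c, hc, hl⟩ := hrdlow
    refine ⟨M⁻¹, inv_pos.2 hM, fun i z hz => ?_⟩
    have h1 := hl i z hz
    have h2 := hb i z hz
    have h3 : 0 < r i z ^ 2 * den i z := hc.trans_le h1
    have h4 : r i z ^ 2 * den i z ≤ M := (le_abs_self _).trans h2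
    have h5 : M⁻¹ ≤ (r i z ^ 2 * den i z)⁻¹ := inv_anti₀ h3 h4
    have h6 : 1 ≤ (q1 i z + 1) * (1 + q2 i z ^ 2) := by
      have := hq1pos i z hz
      nlinarith [sq_nonneg (q2 i z)]
    have h7 : 0 < (r i z ^ 2 * den i z)⁻¹ := inv_pos.2 h3
    calc M⁻¹ ≤ 1 * (r i z ^ 2 * den i z)⁻¹ := by rw [one_mul]; exact h5
      _ ≤ _ := by gcongr
  have Bka : B1 𝓔.toFam ka := by
    have := BK.sqrt hKlow
    simp only [← div_eq_mul_inv] at this
    exact this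
  have Bcos : B1 𝓔.toFam (fun _ z => Real.cos z.2) := B1.cos
  have BP : B1 𝓔.toFam P := Bbe.add ((Bs.mul Bka).mul Bcos)
  have BPi : B1 𝓔.toFam (fun i z => (1 + P i z ^ 2)⁻¹) :=
    ((B1.const 1).add BP.sq).inv ⟨1, one_pos, fun i z _ => by nlinarith [sq_nonneg (P i z)]⟩
  have Bbei : B1 𝓔.toFam (fun i z => (1 + be i z ^ 2)⁻¹) :=
    ((B1.const 1).add Bbe.sq).inv ⟨1, one_pos, fun i z _ => by nlinarith [sq_nonneg (be i z)]⟩
  -- the two factors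
  set G1 : 𝓔.I → Q → ℝ := fun i z =>
    ka i z * Real.cos z.2 * (-2 * (P i z + be i z) * (1 + P i z ^ 2)⁻¹ * (1 + be i z ^ 2)⁻¹)
      + s i z * ((r i z)⁻¹) ^ 2 * ((den i z)⁻¹ * (1 + be i z ^ 2)⁻¹ *
        ((1 + x i z) + q2 i z * y i z - be i z * (y i z - q2 i z * (1 + x i z)))) with hG1
  set G2 : 𝓔.I → Q → ℝ := fun i z =>
    ka i z * Real.cos z.2 * (2 * (1 - P i z * be i z) * (1 + P i z ^ 2)⁻¹ * (1 + be i z ^ 2)⁻¹)
      + s i z * ((r i z)⁻¹) ^ 2 * ((den i z)⁻¹ * (1 + be i z ^ 2)⁻¹ *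
        ((y i z - q2 i z * (1 + x i z)) + be i z * ((1 + x i z) + q2 i z * y i z))) with hG2
  have BG1 : B1 𝓔.toFam G1 :=
    ((Bka.mul Bcos).mul ((((B1.const (-2)).mul (BP.add Bbe)).mul BPi).mul Bbei)).add
      ((Bs.mul Bri.sq).mul ((Bdeni.mul Bbei).mul
        ((B1x.add (Bq2.mul By)).sub (Bbe.mul (By.sub (Bq2.mul B1x))))))
  have BG2 : B1 𝓔.toFam G2 :=
    ((Bka.mul Bcos).mul ((((B1.const 2).mul ((B1.const 1).sub (BP.mul Bbe))).mul BPi).mul Bbei)).add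
      ((Bs.mul Bri.sq).mul ((Bdeni.mul Bbei).mul
        ((By.sub (Bq2.mul B1x)).add (Bbe.mul (B1x.add (Bq2.mul By))))))
  refine ⟨fun i z => r i z • (G1 i z • b i z.1 + G2 i z • b' i z),
    Br.smul ((BG1.smul Bb).add (BG2.smul Bb')), fun i z hz => ?_⟩
  have hperp := h.b_perp i z.1 hz
  rw [loopW_eq _ _ _ _ _ (hcg.trans_le (hg i z.1 hz)) (h.b_unit i z.1 hz) hperp.1 hperp.2
    (hrpos i z hz)]
  have hPb : P i z - be i z = s i z * (ka i z * Real.cos z.2) := by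
    show (be i z + s i z * ka i z * Real.cos z.2) - be i z = _
    ring
  have e1 : lomre (A i z.1) (B i z.1) (C i z.1) (b i z.1) (𝓔.a i z.1) z.2 - x i z
      = s i z * G1 i z := by
    have := alg_re (x i z) (y i z) (s i z ^ 2 * ((r i z)⁻¹) ^ 2) (den i z) (q1 i z) (q2 i z)
      (be i z) (P i z) (hdpos i z hz).ne' rfl (hxy i z hz) rfl rfl rfl
    show (1 - P i z ^ 2) / (1 + P i z ^ 2) - x i z = _
    rw [this, hPb, hG1]
    ring
  have e2 : lomim (A i z.1) (B i z.1) (C i z.1) (b i z.1) (𝓔.a i z.1) z.2 - y i z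
      = s i z * G2 i z := by
    have := alg_im (x i z) (y i z) (s i z ^ 2 * ((r i z)⁻¹) ^ 2) (den i z) (q1 i z) (q2 i z)
      (be i z) (P i z) (hdpos i z hz).ne' rfl (hxy i z hz) rfl rfl rfl
    show 2 * P i z / (1 + P i z ^ 2) - y i z = _
    rw [this, hPb, hG2]
    ring
  show r i z • ((lomre (A i z.1) (B i z.1) (C i z.1) (b i z.1) (𝓔.a i z.1) z.2 - x i z) • b i z.1
    + (lomim (A i z.1) (B i z.1) (C i z.1) (b i z.1) (𝓔.a i z.1) z.2 - y i z) • b' i z) =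
    s i z • (r i z • (G1 i z • b i z.1 + G2 i z • b' i z))
  rw [e1, e2]
  module

end main

end LoopB

section
variable {𝓔 : EFam} {A B C b : 𝓔.I → X2 → E4}

/-- the loops over a family: `W ∈ B(a)` -/
lemma loop_class (h : LoopHyp 𝓔 A B C b) :
    𝓔.toFam.B (𝓔.W 1 0 0)
      (fun i z => loopW (A i z.1) (B i z.1) (C i z.1) (b i z.1) (𝓔.a i z.1) z.2) := by
  obtain ⟨G, hG, hW⟩ := LoopB.G_class h
  have h1 : 𝓔.toFam.B (fun i x => 𝓔.a i x * 1) (fun i z => 𝓔.a i z.1 • G i z) :=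
    Fam.B.smul (fun i x hx => (𝓔.a_pos i x hx).le) LoopB.nn1 𝓔.a_B hG
  refine (h1.weight_congr (fun i x _ => by simp [EFam.W])).congr (fun i z hz => ?_)
  exact (hW i z hz).symm

end

end Crest.Agent.R216.TE
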