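import Crest.Agent.R216.EngDefs

/-!
# Row 216, Theorem E: the Cayley loops (definitions).
`b` is a unit vector of `Π = {B,C}ᗮ`, `b' = Jrot B C b`, `p = p1 b + p2 b'`, `r² = |p|² + s²`,
`z = (p1 + i p2)/r`, `q = 2/(1+z)`, `β = - q1 q2`, `α = s κ`, `P(t) = β + α cos t`,
`ω = (1 + i P)/(1 - i P)`, `w = c + r ω·b`.
-/

open Set Topology MeasureTheory
open scoped ContDiff

namespace Crest.Agent.R216.TE

section loop
variable (A B C b : E4) (s : ℝ)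

noncomputable def lb' : E4 := Jrot B C b
noncomputable def lp1 : ℝ := inner ℝ A b
noncomputable def lp2 : ℝ := inner ℝ A (lb' B C b)
noncomputable def lr : ℝ := Real.sqrt (lp1 A b ^ 2 + lp2 A B C b ^ 2 + s ^ 2)
noncomputable def lx : ℝ := lp1 A b / lr A B C b s
noncomputable def ly : ℝ := lp2 A B C b / lr A B C b s
/-- `|1+z|²` -/
noncomputable def lden : ℝ := (1 + lx A B C b s) ^ 2 + ly A B C b s ^ 2
noncomputable def lq1 : ℝ := 2 * (1 + lx A B C b s) / lden A B C b s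
noncomputable def lq2 : ℝ := - (2 * ly A B C b s) / lden A B C b s
noncomputable def lbeta : ℝ := - (lq1 A B C b s * lq2 A B C b s)
noncomputable def lkap : ℝ :=
  Real.sqrt ((lq1 A B C b s + 1) * (1 + lq2 A B C b s ^ 2) /
    (lr A B C b s ^ 2 * lden A B C b s))
/-- `P(t)` -/
noncomputable def lP (t : ℝ) : ℝ := lbeta A B C b s + s * lkap A B C b s * Real.cos t
noncomputable def lomre (t : ℝ) : ℝ := (1 - lP A B C b s t ^ 2) / (1 + lP A B C b s t ^ 2)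
noncomputable def lomim (t : ℝ) : ℝ := 2 * lP A B C b s t / (1 + lP A B C b s t ^ 2)

/-- the loop `w(t)` -/
noncomputable def loopw (t : ℝ) : E4 :=
  cpr A B C + lr A B C b s • (lomre A B C b s t • b + lomim A B C b s t • lb' B C b)

/-- `W = w - f₁` -/
noncomputable def loopW (t : ℝ) : E4 := loopw A B C b s t - A

end loop

/-- Hypotheses on the frame `b` for the loops over a family (all data are functions of `x`). -/
structure LoopHyp (𝓔 : EFam) (A B C b : 𝓔.I → X2 → E4) : Prop where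
  AB : 𝓔.toFam.B (𝓔.W 0 0 0) (fun i => lift (A i))
  BB : 𝓔.toFam.B (𝓔.W 0 0 0) (fun i => lift (B i))
  CB : 𝓔.toFam.B (𝓔.W 0 0 0) (fun i => lift (C i))
  bB : 𝓔.toFam.B (𝓔.W 0 0 0) (fun i => lift (b i))
  gram_low : ∃ c, 0 < c ∧ ∀ i, ∀ x ∈ 𝓔.D i, c ≤ gram (B i x) (C i x)
  b_unit : ∀ i, ∀ x ∈ 𝓔.D i, ‖b i x‖ = 1
  b_perp : ∀ i, ∀ x ∈ 𝓔.D i, inner ℝ (b i x) (B i x) = 0 ∧ inner ℝ (b i x) (C i x) = 0
  r_low : ∃ c, 0 < c ∧ ∀ i, ∀ x ∈ 𝓔.D i, c ≤ lr (A i x) (B i x) (C i x) (b i x) (𝓔.a i x)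
  den_low : ∃ c, 0 < c ∧ ∀ i, ∀ x ∈ 𝓔.D i, c ≤ lden (A i x) (B i x) (C i x) (b i x) (𝓔.a i x)

end Crest.Agent.R216.TE
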