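import Crest.Agent.R216.LoopFam

/-!
Row 216 (S0335), LOOPS: the matrix `T`, the rotation of the reference direction and the speed of the
extreme points of the loops.
-/

set_option autoImplicit false

open Complex MeasureTheory Real Metric Set
open scoped Real Interval ContDiff

namespace Crest.Agent.R216.Loop

/-! ### the matrix `T = ⟨τ_θ ⊗ τ_θ⟩` -/

lemma mean_one : (2 * π)⁻¹ * ∫ t in (0 : ℝ)..2 * π, (1 : ℝ) = 1 := by
  have := Real.pi_ne_zero
  simp
  field_simp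

theorem mean_sl_sq {X Y s : ℝ} (hX : -1 < X) (h : X ^ 2 + Y ^ 2 + s ^ 2 = 1) :
    (2 * π)⁻¹ * ∫ t in (0 : ℝ)..2 * π, sl X Y s t ^ 2 = (1 - e2c X Y) / 2 := by
  have hc := continuous_cl X Y s
  have hs := continuous_sl X Y s
  have h1 := (mean_sq hX h).1
  have e : ∫ t in (0 : ℝ)..2 * π, sl X Y s t ^ 2 =
      ∫ t in (0 : ℝ)..2 * π, (1 / 2) * (1 - (cl X Y s t ^ 2 - sl X Y s t ^ 2)) := by
    apply intervalIntegral.integral_congr
    intro t _
    have := cl_sq_add_sl_sq X Y s t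
    simp only
    linear_combination (1 / 2 : ℝ) * this
  rw [e, intervalIntegral.integral_const_mul, intervalIntegral.integral_sub
    (continuous_const.intervalIntegrable _ _)
    (Continuous.intervalIntegrable (by fun_prop) _ _)]
  have h2 := mean_one
  rw [← h1]
  linear_combination (1 / 2 : ℝ) * h2

theorem mean_cl_sq {X Y s : ℝ} (hX : -1 < X) (h : X ^ 2 + Y ^ 2 + s ^ 2 = 1) :
    (2 * π)⁻¹ * ∫ t in (0 : ℝ)..2 * π, cl X Y s t ^ 2 = (1 + e2c X Y) / 2 := by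
  have hc := continuous_cl X Y s
  have hs := continuous_sl X Y s
  have h1 := (mean_sq hX h).1
  have e : ∫ t in (0 : ℝ)..2 * π, cl X Y s t ^ 2 =
      ∫ t in (0 : ℝ)..2 * π, (1 / 2) * (1 + (cl X Y s t ^ 2 - sl X Y s t ^ 2)) := by
    apply intervalIntegral.integral_congr
    intro t _
    have := cl_sq_add_sl_sq X Y s t
    simp only
    linear_combination (1 / 2 : ℝ) * this
  rw [e, intervalIntegral.integral_const_mul, intervalIntegral.integral_add
    (continuous_const.intervalIntegrable _ _)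
    (Continuous.intervalIntegrable (by fun_prop) _ _)]
  have h2 := mean_one
  rw [← h1]
  linear_combination (1 / 2 : ℝ) * h2

theorem mean_cl_mul_sl {X Y s : ℝ} (hX : -1 < X) (h : X ^ 2 + Y ^ 2 + s ^ 2 = 1) :
    (2 * π)⁻¹ * ∫ t in (0 : ℝ)..2 * π, cl X Y s t * sl X Y s t = e2s X Y / 2 := by
  have h1 := (mean_sq hX h).2
  rw [intervalIntegral.integral_const_mul] at h1
  rw [← h1]
  ring

/-- **determinant of `T`** -/
theorem det_T {X Y s : ℝ} (hX : -1 < X) (h : X ^ 2 + Y ^ 2 + s ^ 2 = 1) :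
    ((2 * π)⁻¹ * ∫ t in (0 : ℝ)..2 * π, sl X Y s t ^ 2) *
      ((2 * π)⁻¹ * ∫ t in (0 : ℝ)..2 * π, cl X Y s t ^ 2) -
      ((2 * π)⁻¹ * ∫ t in (0 : ℝ)..2 * π, cl X Y s t * sl X Y s t) ^ 2 = s ^ 2 * dT X Y := by
  rw [mean_sl_sq hX h, mean_cl_sq hX h, mean_cl_mul_sl hX h]
  have := e2_norm hX h
  linear_combination (1 / 4 : ℝ) * this

/-! ### rotation of the reference direction -/

/-- coordinates of the mean in the rotated frame -/
noncomputable def rX (X Y θ : ℝ) : ℝ := X * Real.cos θ + Y * Real.sin θ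
noncomputable def rY (X Y θ : ℝ) : ℝ := -(X * Real.sin θ) + Y * Real.cos θ

lemma rX_sq_add (X Y θ : ℝ) : rX X Y θ ^ 2 + rY X Y θ ^ 2 = X ^ 2 + Y ^ 2 := by
  unfold rX rY
  have := Real.sin_sq_add_cos_sq θ
  linear_combination (X ^ 2 + Y ^ 2) * this

@[simp] lemma rX_zero (X Y : ℝ) : rX X Y 0 = X := by simp [rX]
@[simp] lemma rY_zero (X Y : ℝ) : rY X Y 0 = Y := by simp [rY]

lemma hasDerivAt_rX (X Y θ : ℝ) : HasDerivAt (fun θ => rX X Y θ) (rY X Y θ) θ := by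
  unfold rX rY
  have h1 := (Real.hasDerivAt_cos θ).const_mul X
  have h2 := (Real.hasDerivAt_sin θ).const_mul Y
  exact (h1.add h2).congr_deriv (by ring)

lemma hasDerivAt_rY (X Y θ : ℝ) : HasDerivAt (fun θ => rY X Y θ) (-rX X Y θ) θ := by
  unfold rX rY
  have h1 := ((Real.hasDerivAt_sin θ).const_mul X).neg
  have h2 := (Real.hasDerivAt_cos θ).const_mul Y
  exact (h1.add h2).congr_deriv (by ring)

/-- tangent of the half angle of the extreme points: `σ = 1` is `t = 0`, `σ = -1` is `t = π` -/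
noncomputable def pe (σ X Y s : ℝ) : ℝ := -(qx X Y * qy X Y) + σ * (s * gl X Y)

lemma pl_zero (X Y s : ℝ) : pl X Y s 0 = pe 1 X Y s := by simp [pl, pe]
lemma pl_pi (X Y s : ℝ) : pl X Y s π = pe (-1) X Y s := by simp [pl, pe]

/-- angle of the extreme point after rotating the reference direction by `θ` -/
noncomputable def ang (σ X Y s θ : ℝ) : ℝ :=
  θ + 2 * Real.arctan (pe σ (rX X Y θ) (rY X Y θ) s)

/-- the derivative of `ang` in `θ`, as a function of the rotated mean -/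
noncomputable def kp (σ X Y : ℝ) : ℝ :=
  (qx X Y - 1) * (√(1 + qy X Y ^ 2) - σ * qy X Y * √(qx X Y ^ 2 - 1) / (qx X Y + 1) +
    (qx X Y - 1) / √(1 + qy X Y ^ 2)) /
    (qx X Y * √(1 + qy X Y ^ 2) - σ * √(qx X Y ^ 2 - 1) * qy X Y)

lemma hasDerivAt_qx {X Y θ : ℝ} (h : -1 < rX X Y θ) :
    HasDerivAt (fun θ => qx (rX X Y θ) (rY X Y θ))
      (qy (rX X Y θ) (rY X Y θ) * (qx (rX X Y θ) (rY X Y θ) - 1)) θ := by
  have hN := n2_pos (Y := rY X Y θ) h
  have h1 := hasDerivAt_rX X Y θ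
  have h2 := hasDerivAt_rY X Y θ
  have hn : HasDerivAt (fun θ => n2 (rX X Y θ) (rY X Y θ)) (2 * rY X Y θ) θ := by
    unfold n2
    exact (((h1.const_add 1).pow 2).add (h2.pow 2)).congr_deriv (by push_cast; ring)
  have h3 := ((h1.const_add 1).const_mul 2).div hn hN.ne'
  refine HasDerivAt.congr_deriv h3 ?_
  try simp only [Pi.neg_apply]
  unfold qx qy
  field_simp
  unfold n2
  ring

lemma hasDerivAt_qy {X Y θ : ℝ} (h : -1 < rX X Y θ) :
    HasDerivAt (fun θ => qy (rX X Y θ) (rY X Y θ))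
      ((1 + qy (rX X Y θ) (rY X Y θ) ^ 2 - (qx (rX X Y θ) (rY X Y θ) - 1) ^ 2) / 2) θ := by
  have hN := n2_pos (Y := rY X Y θ) h
  have h1 := hasDerivAt_rX X Y θ
  have h2 := hasDerivAt_rY X Y θ
  have hn : HasDerivAt (fun θ => n2 (rX X Y θ) (rY X Y θ)) (2 * rY X Y θ) θ := by
    unfold n2
    exact (((h1.const_add 1).pow 2).add (h2.pow 2)).congr_deriv (by push_cast; ring)
  have h3 := ((h2.const_mul 2).neg).div hn hN.ne'
  refine HasDerivAt.congr_deriv h3 ?_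
  try simp only [Pi.neg_apply]
  unfold qx qy
  field_simp
  unfold n2
  ring

lemma D_ext_pos {σ x y S c : ℝ} (hσ : σ ^ 2 = 1) (hx : 1 < x) (hS : 0 < S) (hc : 0 < c)
    (hSs : S ^ 2 = x ^ 2 - 1) (hcs : c ^ 2 = 1 + y ^ 2) :
    1 / (2 * x * c) ≤ x * c - σ * S * y ∧ x * c - σ * S * y ≤ 2 * x * c := by
  have h1 : (x * c) ^ 2 - (σ * S * y) ^ 2 = x ^ 2 + y ^ 2 := by
    rw [mul_pow, mul_pow, mul_pow, hSs, hcs, hσ]; ring
  have h2 : 0 < x * c := by positivity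
  have h3 : |σ * S * y| ≤ x * c := by
    rw [← abs_of_pos h2]
    apply sq_le_sq.mp
    nlinarith [sq_nonneg x, sq_nonneg y]
  have h4 := abs_le.mp h3
  constructor
  · rw [div_le_iff₀ (by positivity)]
    nlinarith [h4.1, h4.2, sq_nonneg y]
  · linarith [h4.1]

lemma kp_alg {σ x y S c : ℝ} (hσ : σ ^ 2 = 1) (hx : 1 < x) (hS : 0 < S) (hc : 0 < c)
    (hSs : S ^ 2 = x ^ 2 - 1) (hcs : c ^ 2 = 1 + y ^ 2) :
    (x - 1) * (c - σ * y * S / (x + 1) + (x - 1) / c) / (x * c - σ * S * y) =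
    1 + 2 * (1 / (1 + (-(x * y) + σ * (S * c)) ^ 2) *
      (-(y * (x - 1) * y + x * ((1 + y ^ 2 - (x - 1) ^ 2) / 2)) +
        σ * (2 * x * (y * (x - 1)) / (2 * S) * c +
          S * (2 * y * ((1 + y ^ 2 - (x - 1) ^ 2) / 2) / (2 * c))))) := by
  have hD : 0 < x * c - σ * S * y := by
    have := (D_ext_pos hσ hx hS hc hSs hcs).1
    have h2 : 0 < 1 / (2 * x * c) := by positivity
    linarith
  have e1 : 1 + (-(x * y) + σ * (S * c)) ^ 2 = (x * c - σ * S * y) ^ 2 := by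
    linear_combination (S ^ 2 * c ^ 2 - S ^ 2 * y ^ 2) * hσ + (c ^ 2 - y ^ 2) * hSs +
      (-1 : ℝ) * hcs
  have hx1 : 0 < x + 1 := by linarith
  have e2 : 2 * x * (y * (x - 1)) / (2 * S) * c = x * y * c * S / (x + 1) := by
    rw [div_mul_eq_mul_div, div_eq_div_iff (by positivity) (by positivity)]
    linear_combination (-2 * x * y * c) * hSs
  have e3 : (-(y * (x - 1) * y + x * ((1 + y ^ 2 - (x - 1) ^ 2) / 2)) +
        σ * (2 * x * (y * (x - 1)) / (2 * S) * c +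
          S * (2 * y * ((1 + y ^ 2 - (x - 1) ^ 2) / 2) / (2 * c)))) =
      (x * c - σ * S * y) * (σ * y * S / (x + 1) - (c ^ 2 - (x - 1) ^ 2) / 2 / c) := by
    rw [e2, hcs]
    have e4 : S ^ 2 / (x + 1) = x - 1 := by
      rw [hSs, div_eq_iff hx1.ne']; ring
    have e5 : (x * c - σ * S * y) * (σ * y * S / (x + 1) - (1 + y ^ 2 - (x - 1) ^ 2) / 2 / c) =
        σ * (x * y * c * S / (x + 1)) - σ ^ 2 * y ^ 2 * (S ^ 2 / (x + 1)) -
          x * ((1 + y ^ 2 - (x - 1) ^ 2) / 2) +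
          σ * (S * (y * ((1 + y ^ 2 - (x - 1) ^ 2) / 2) / c)) := by
      field_simp
      ring
    rw [e5, e4, hσ]
    field_simp
    ring
  rw [e3, e1]
  have e6 : (x - 1) * (c - σ * y * S / (x + 1) + (x - 1) / c) = (x * c - σ * S * y) +
      2 * (σ * y * S / (x + 1) - (c ^ 2 - (x - 1) ^ 2) / 2 / c) := by
    field_simp
    ring
  rw [e6]
  generalize (σ * y * S / (x + 1) - (c ^ 2 - (x - 1) ^ 2) / 2 / c) = W
  generalize (x * c - σ * S * y) = D at hD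
  field_simp

/-- **speed of the extreme points under rotation of the reference direction** -/
theorem hasDerivAt_ang {σ X Y s θ : ℝ} (hσ : σ ^ 2 = 1) (h : -1 < rX X Y θ) (hs : 0 < s)
    (hXY : X ^ 2 + Y ^ 2 + s ^ 2 = 1) :
    HasDerivAt (fun θ => ang σ X Y s θ) (kp σ (rX X Y θ) (rY X Y θ)) θ := by
  have hN := n2_pos (Y := rY X Y θ) h
  have hr : ∀ θ, rX X Y θ ^ 2 + rY X Y θ ^ 2 + s ^ 2 = 1 := by
    intro θ; rw [rX_sq_add, hXY]
  have hx := qx_sub_one h (hr θ)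
  have hx1 : 1 < qx (rX X Y θ) (rY X Y θ) := by
    have : 0 < s ^ 2 / n2 (rX X Y θ) (rY X Y θ) := by positivity
    linarith
  have hqx := hasDerivAt_qx h
  have hqy := hasDerivAt_qy h
  -- near `θ`, `s * gl = √((x²-1)(1+y²))`
  have hev : (fun θ => s * gl (rX X Y θ) (rY X Y θ)) =ᶠ[nhds θ]
      (fun θ => √(qx (rX X Y θ) (rY X Y θ) ^ 2 - 1) * √(1 + qy (rX X Y θ) (rY X Y θ) ^ 2)) := by
    have hopen : ∀ᶠ η in nhds θ, -1 < rX X Y η := by
      have hc : ContinuousAt (fun η => rX X Y η) θ := (hasDerivAt_rX X Y θ).continuousAt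
      exact hc.eventually (lt_mem_nhds h)
    filter_upwards [hopen] with η hη
    have h1 := alpha_sq hη (hr η)
    have h2 := gl_pos (Y := rY X Y η) hη
    have h3 := one_le_qx hη (hr η)
    rw [← Real.sqrt_mul (by nlinarith), ← h1, Real.sqrt_sq (by positivity)]
  have hS0 : 0 < qx (rX X Y θ) (rY X Y θ) ^ 2 - 1 := by nlinarith
  have hc0 : 0 < 1 + qy (rX X Y θ) (rY X Y θ) ^ 2 := by positivity
  have hS := ((hqx.pow 2).sub_const 1).sqrt hS0.ne'
  have hc := ((hqy.pow 2).const_add 1).sqrt hc0.ne'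
  have hF := (hS.mul hc).congr_of_eventuallyEq hev
  have hp : HasDerivAt (fun θ => pe σ (rX X Y θ) (rY X Y θ) s) _ θ :=
    ((hqx.mul hqy).neg).add (hF.const_mul σ)
  have ha : HasDerivAt (fun θ => ang σ X Y s θ) _ θ :=
    (hasDerivAt_id θ).add (hp.arctan.const_mul 2)
  refine HasDerivAt.congr_deriv ha (Eq.symm ?_)
  have hpe : pe σ (rX X Y θ) (rY X Y θ) s = -(qx (rX X Y θ) (rY X Y θ) * qy (rX X Y θ) (rY X Y θ)) +
      σ * (√(qx (rX X Y θ) (rY X Y θ) ^ 2 - 1) * √(1 + qy (rX X Y θ) (rY X Y θ) ^ 2)) := by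
    have := hev.self_of_nhds
    simp only at this
    unfold pe
    rw [this]
  rw [hpe]
  unfold kp
  have hSs : √(qx (rX X Y θ) (rY X Y θ) ^ 2 - 1) ^ 2 = qx (rX X Y θ) (rY X Y θ) ^ 2 - 1 :=
    Real.sq_sqrt hS0.le
  have hcs : √(1 + qy (rX X Y θ) (rY X Y θ) ^ 2) ^ 2 = 1 + qy (rX X Y θ) (rY X Y θ) ^ 2 :=
    Real.sq_sqrt hc0.le
  have hSp : 0 < √(qx (rX X Y θ) (rY X Y θ) ^ 2 - 1) := Real.sqrt_pos.mpr hS0
  have hcp : 0 < √(1 + qy (rX X Y θ) (rY X Y θ) ^ 2) := Real.sqrt_pos.mpr hc0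
  simp only [Nat.cast_ofNat, Nat.add_one_sub_one, pow_one, Pi.pow_apply]
  generalize √(qx (rX X Y θ) (rY X Y θ) ^ 2 - 1) = S at *
  generalize √(1 + qy (rX X Y θ) (rY X Y θ) ^ 2) = c at *
  generalize qx (rX X Y θ) (rY X Y θ) = x at *
  generalize qy (rX X Y θ) (rY X Y θ) = y at *
  exact kp_alg hσ hx1 hSp hcp hSs hcs

end Crest.Agent.R216.Loop
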