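import Mathlib

/-!
Row 216 (S0335), LOOPS.  Exact moments of the Cayley loops.
For `x ≥ 1`, `α² = (x²-1)(1+y²)` and `p(t) = -xy + α cos t`:
`⟨1/(1-ip)⟩ = 1/(x+iy)` and `⟨1/(1-ip)²⟩ = (1+ixy)/(x+iy)³`.
-/

set_option autoImplicit false

open Complex MeasureTheory Real Metric Set
open scoped Real Interval

namespace Crest.Agent.R216.Loop

/-- average over the circle of the holomorphic function `(1-κu)⁻¹`. -/
lemma avg_F {κ : ℂ} (hκ : ‖κ‖ < 1) (n : ℕ) :
    circleAverage (fun u : ℂ => ((1 - κ * u)⁻¹) ^ n) 0 1 = 1 := by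
  have hne : ∀ u ∈ closedBall (0 : ℂ) 1, 1 - κ * u ≠ 0 := by
    intro u hu h
    have h1 : ‖u‖ ≤ 1 := by simpa using hu
    have h2 : κ * u = 1 := by linear_combination -h
    have h3 : ‖κ * u‖ = 1 := by rw [h2]; simp
    rw [norm_mul] at h3
    nlinarith [norm_nonneg κ, norm_nonneg u]
  have hd : DifferentiableOn ℂ (fun u : ℂ => ((1 - κ * u)⁻¹) ^ n) (closedBall 0 1) := by
    intro u hu
    apply DifferentiableAt.differentiableWithinAt
    apply DifferentiableAt.pow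
    apply DifferentiableAt.inv
    · fun_prop
    · exact hne u hu
  have hdc : DiffContOnCl ℂ (fun u : ℂ => ((1 - κ * u)⁻¹) ^ n) (ball 0 |(1 : ℝ)|) := by
    apply DifferentiableOn.diffContOnCl
    rw [abs_one, closure_ball _ one_ne_zero]
    exact hd
  rw [hdc.circleAverage]
  simp

lemma circleIntegrable_F {κ : ℂ} (hκ : ‖κ‖ < 1) (n m : ℕ) :
    CircleIntegrable (fun u : ℂ => ((1 - κ * u)⁻¹) ^ n * ((1 - κ * u⁻¹)⁻¹) ^ m) 0 1 := by
  apply ContinuousOn.circleIntegrable zero_le_one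
  have h0 : ∀ u ∈ sphere (0 : ℂ) 1, ‖u‖ = 1 := by intro u hu; simpa using hu
  have hne : ∀ u ∈ sphere (0 : ℂ) 1, 1 - κ * u ≠ 0 := by
    intro u hu h
    have h2 : κ * u = 1 := by linear_combination -h
    have h3 : ‖κ * u‖ = 1 := by rw [h2]; simp
    rw [norm_mul, h0 u hu] at h3
    linarith
  have hne' : ∀ u ∈ sphere (0 : ℂ) 1, 1 - κ * u⁻¹ ≠ 0 := by
    intro u hu h
    have h2 : κ * u⁻¹ = 1 := by linear_combination -h
    have h3 : ‖κ * u⁻¹‖ = 1 := by rw [h2]; simp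
    rw [norm_mul, norm_inv, h0 u hu] at h3
    simp at h3
    linarith
  have hu0 : ∀ u ∈ sphere (0 : ℂ) 1, u ≠ 0 := by
    intro u hu h
    have := h0 u hu
    rw [h] at this
    simp at this
  apply ContinuousOn.mul
  · apply ContinuousOn.pow
    apply ContinuousOn.inv₀
    · fun_prop
    · exact hne
  · apply ContinuousOn.pow
    apply ContinuousOn.inv₀
    · apply ContinuousOn.sub continuousOn_const
      apply ContinuousOn.mul continuousOn_const
      exact continuousOn_id.inv₀ hu0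
    · exact hne'

/-- partial fractions on the unit circle -/
lemma pf {κ u : ℂ} (hκ : ‖κ‖ < 1) (hu : ‖u‖ = 1) :
    (1 - κ ^ 2) * ((1 - κ * u)⁻¹ * (1 - κ * u⁻¹)⁻¹) =
      (1 - κ * u)⁻¹ + (1 - κ * u⁻¹)⁻¹ - 1 := by
  have hne : 1 - κ * u ≠ 0 := by
    intro h
    have h2 : κ * u = 1 := by linear_combination -h
    have h3 : ‖κ * u‖ = 1 := by rw [h2]; simp
    rw [norm_mul, hu] at h3
    linarith
  have hne' : 1 - κ * u⁻¹ ≠ 0 := by
    intro h
    have h2 : κ * u⁻¹ = 1 := by linear_combination -h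
    have h3 : ‖κ * u⁻¹‖ = 1 := by rw [h2]; simp
    rw [norm_mul, norm_inv, hu] at h3
    simp at h3
    linarith
  have hu0 : u ≠ 0 := by
    intro h
    rw [h] at hu
    simp at hu
  have hne'' : u - κ ≠ 0 := by
    intro h
    apply hne'
    have : κ = u := by linear_combination -h
    rw [this, mul_inv_cancel₀ hu0, sub_self]
  have e : (1 - κ * u⁻¹)⁻¹ = u * (u - κ)⁻¹ := by
    rw [eq_comm, ← div_eq_mul_inv, div_eq_iff hne'', inv_mul_eq_div, eq_div_iff hne']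
    field_simp
  rw [e]
  field_simp
  ring

lemma one_sub_sq_ne {κ : ℂ} (hκ : ‖κ‖ < 1) : 1 - κ ^ 2 ≠ 0 := by
  intro h
  have h2 : κ ^ 2 = 1 := by linear_combination -h
  have h3 : ‖κ ^ 2‖ = 1 := by rw [h2]; simp
  rw [norm_pow] at h3
  nlinarith [norm_nonneg κ]

lemma avg_G {κ : ℂ} (hκ : ‖κ‖ < 1) (n : ℕ) :
    circleAverage (fun u : ℂ => ((1 - κ * u⁻¹)⁻¹) ^ n) 0 1 = 1 := by
  have h := circleAverage_zero_one_congr_inv (f := fun u : ℂ => ((1 - κ * u)⁻¹) ^ n)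
  rw [avg_F hκ n] at h
  exact h

lemma avg_FG {κ : ℂ} (hκ : ‖κ‖ < 1) :
    circleAverage (fun u : ℂ => (1 - κ * u)⁻¹ * (1 - κ * u⁻¹)⁻¹) 0 1 = (1 - κ ^ 2)⁻¹ := by
  have hi := circleIntegrable_F hκ
  have h1 : circleAverage (fun u : ℂ => (1 - κ ^ 2) • ((1 - κ * u)⁻¹ * (1 - κ * u⁻¹)⁻¹)) 0 1
      = 1 := by
    have e : circleAverage (fun u : ℂ => (1 - κ ^ 2) • ((1 - κ * u)⁻¹ * (1 - κ * u⁻¹)⁻¹)) 0 1
        = circleAverage (fun u : ℂ => ((1 - κ * u)⁻¹) ^ 1 + ((1 - κ * u⁻¹)⁻¹) ^ 1 - 1) 0 1 := by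
      apply circleAverage_congr_sphere
      intro u hu
      have hu' : ‖u‖ = 1 := by simpa using hu
      simp only [smul_eq_mul, pow_one]
      exact pf hκ hu'
    rw [e, circleAverage_fun_sub, circleAverage_fun_add, avg_F hκ, avg_G hκ, circleAverage_const]
    · ring
    · simpa using hi 1 0
    · simpa using hi 0 1
    · have a := hi 1 0
      have b := hi 0 1
      simp only [pow_one, pow_zero, mul_one, one_mul] at a b
      simp only [pow_one]
      exact a.add b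
    · have := hi 0 0
      simpa only [pow_zero, mul_one] using this
  rw [circleAverage_fun_smul, smul_eq_mul] at h1
  exact eq_inv_of_mul_eq_one_right h1

lemma avg_FG2 {κ : ℂ} (hκ : ‖κ‖ < 1) :
    circleAverage (fun u : ℂ => ((1 - κ * u)⁻¹ * (1 - κ * u⁻¹)⁻¹) ^ 2) 0 1 =
      (1 + κ ^ 2) * ((1 - κ ^ 2)⁻¹) ^ 3 := by
  have hi := circleIntegrable_F hκ
  have hne := one_sub_sq_ne hκ
  have h1 : circleAverage (fun u : ℂ => (1 - κ ^ 2) ^ 2 •
      ((1 - κ * u)⁻¹ * (1 - κ * u⁻¹)⁻¹) ^ 2) 0 1 = -1 + 2 * (1 - κ ^ 2)⁻¹ := by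
    have e : circleAverage (fun u : ℂ => (1 - κ ^ 2) ^ 2 •
        ((1 - κ * u)⁻¹ * (1 - κ * u⁻¹)⁻¹) ^ 2) 0 1
        = circleAverage (fun u : ℂ => ((1 - κ * u)⁻¹) ^ 2 + (((1 - κ * u⁻¹)⁻¹) ^ 2 + (1 +
          ((2 : ℂ) • ((1 - κ * u)⁻¹ * (1 - κ * u⁻¹)⁻¹) + ((-2 : ℂ) • ((1 - κ * u)⁻¹) ^ 1 +
            (-2 : ℂ) • ((1 - κ * u⁻¹)⁻¹) ^ 1))))) 0 1 := by
      apply circleAverage_congr_sphere
      intro u hu
      have hu' : ‖u‖ = 1 := by simpa using hu
      have := pf hκ hu'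
      simp only [smul_eq_mul, pow_one]
      linear_combination ((1 - κ ^ 2) * ((1 - κ * u)⁻¹ * (1 - κ * u⁻¹)⁻¹) +
        ((1 - κ * u)⁻¹ + (1 - κ * u⁻¹)⁻¹ - 1)) * this
    have i20 : CircleIntegrable (fun u : ℂ => ((1 - κ * u)⁻¹) ^ 2) 0 1 := by simpa using hi 2 0
    have i02 : CircleIntegrable (fun u : ℂ => ((1 - κ * u⁻¹)⁻¹) ^ 2) 0 1 := by simpa using hi 0 2
    have i10 : CircleIntegrable (fun u : ℂ => (-2 : ℂ) • ((1 - κ * u)⁻¹) ^ 1) 0 1 := by
      have := (hi 1 0).const_smul (a := (-2 : ℂ))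
      simp only [pow_one, pow_zero, mul_one, one_mul] at this ⊢
      exact this
    have i01 : CircleIntegrable (fun u : ℂ => (-2 : ℂ) • ((1 - κ * u⁻¹)⁻¹) ^ 1) 0 1 := by
      have := (hi 0 1).const_smul (a := (-2 : ℂ))
      simp only [pow_one, pow_zero, mul_one, one_mul] at this ⊢
      exact this
    have i11 : CircleIntegrable (fun u : ℂ => (2 : ℂ) • ((1 - κ * u)⁻¹ * (1 - κ * u⁻¹)⁻¹)) 0 1 := by
      have := (hi 1 1).const_smul (a := (2 : ℂ))
      simp only [pow_one, pow_zero, mul_one, one_mul] at this ⊢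
      exact this
    have i00 : CircleIntegrable (fun u : ℂ => (1 : ℂ)) 0 1 := by
      have := hi 0 0
      simpa only [pow_zero, mul_one] using this
    rw [e, circleAverage_fun_add i20, circleAverage_fun_add i02, circleAverage_fun_add i00,
      circleAverage_fun_add i11, circleAverage_fun_add i10 i01, circleAverage_fun_smul,
      circleAverage_fun_smul, circleAverage_fun_smul, avg_F hκ, avg_G hκ, avg_F hκ, avg_G hκ,
      avg_FG hκ, circleAverage_const]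
    · simp only [smul_eq_mul]; ring
    · exact i10.add i01
    · exact i11.add (i10.add i01)
    · exact i00.add (i11.add (i10.add i01))
    · exact i02.add (i00.add (i11.add (i10.add i01)))
  rw [circleAverage_fun_smul, smul_eq_mul] at h1
  have h2 : (1 - κ ^ 2) ^ 2 * ((1 + κ ^ 2) * ((1 - κ ^ 2)⁻¹) ^ 3) = -1 + 2 * (1 - κ ^ 2)⁻¹ := by
    field_simp
    ring
  exact mul_left_cancel₀ (pow_ne_zero 2 hne) (h1.trans h2.symm)

/-- the complex number `1 - i p(t)` of the Cayley loop factorises. -/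
lemma factor {x y α : ℝ} (hx : 1 ≤ x) (hα : α ^ 2 = (x ^ 2 - 1) * (1 + y ^ 2)) (t : ℝ) :
    (1 - I * ((-(x * y) + α * Real.cos t : ℝ) : ℂ)) =
      ((x + 1) * (1 + I * y) / 2) *
        ((1 - (I * α / ((x + 1) * (1 + I * y))) * exp (t * I)) *
         (1 - (I * α / ((x + 1) * (1 + I * y))) * (exp (t * I))⁻¹)) := by
  have h1 : (1 + I * (y : ℂ)) ≠ 0 := by
    intro h
    have := congrArg Complex.re h
    simp at this
  have h2 : ((x : ℂ) + 1) ≠ 0 := by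
    have : ((x + 1 : ℝ) : ℂ) ≠ 0 := by
      exact_mod_cast (by linarith : x + 1 ≠ 0)
    simpa using this
  have hα' : (α : ℂ) ^ 2 = (x ^ 2 - 1) * (1 + y ^ 2) := by exact_mod_cast hα
  have hc : (Real.cos t : ℂ) = (exp (t * I) + (exp (t * I))⁻¹) / 2 := by
    rw [Complex.ofReal_cos, Complex.cos, ← Complex.exp_neg]
    congr 3
    ring
  have he : exp (t * I) ≠ 0 := Complex.exp_ne_zero _
  push_cast
  rw [← Complex.ofReal_cos, hc]
  generalize exp (t * I) = u at he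
  have hI : (I : ℂ) ^ 2 = -1 := Complex.I_sq
  field_simp
  ring_nf
  simp only [hI, hα']
  ring_nf

/-- `κ` of the loop. -/
noncomputable def kap (x y α : ℝ) : ℂ := I * α / ((x + 1) * (1 + I * y))

lemma norm_kap {x y α : ℝ} (hx : 1 ≤ x) (hα : α ^ 2 = (x ^ 2 - 1) * (1 + y ^ 2)) :
    ‖kap x y α‖ < 1 := by
  have h1 : ‖kap x y α‖ ^ 2 = (x - 1) / (x + 1) := by
    unfold kap
    rw [norm_div, norm_mul, norm_mul, div_pow, mul_pow, mul_pow]
    have e1 : ‖(I : ℂ)‖ ^ 2 = 1 := by simp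
    have e2 : ‖(α : ℂ)‖ ^ 2 = α ^ 2 := by
      rw [Complex.norm_real, Real.norm_eq_abs, sq_abs]
    have e3 : ‖((x : ℂ) + 1)‖ ^ 2 = (x + 1) ^ 2 := by
      have : ((x : ℂ) + 1) = ((x + 1 : ℝ) : ℂ) := by push_cast; ring
      rw [this, Complex.norm_real, Real.norm_eq_abs, sq_abs]
    have e4 : ‖(1 + I * (y : ℂ))‖ ^ 2 = 1 + y ^ 2 := by
      rw [← Complex.normSq_eq_norm_sq, Complex.normSq_apply]
      simp
      ring
    rw [e1, e2, e3, e4, hα]
    have : (0 : ℝ) < 1 + y ^ 2 := by positivity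
    have : (0 : ℝ) < x + 1 := by linarith
    field_simp
    ring
  have h2 : ‖kap x y α‖ ^ 2 < 1 := by
    rw [h1, div_lt_one (by linarith)]
    linarith
  nlinarith [norm_nonneg (kap x y α)]

lemma one_sub_kap_sq {x y α : ℝ} (hx : 1 ≤ x) (hα : α ^ 2 = (x ^ 2 - 1) * (1 + y ^ 2)) :
    ((x + 1) * (1 + I * y) / 2) * (1 - kap x y α ^ 2) = x + I * y ∧
    ((x + 1) * (1 + I * y) / 2) * (1 + kap x y α ^ 2) = 1 + I * x * y := by
  have h1 : (1 + I * (y : ℂ)) ≠ 0 := by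
    intro h
    have := congrArg Complex.re h
    simp at this
  have h2 : ((x : ℂ) + 1) ≠ 0 := by
    have : ((x + 1 : ℝ) : ℂ) ≠ 0 := by
      exact_mod_cast (by linarith : x + 1 ≠ 0)
    simpa using this
  have hα' : (α : ℂ) ^ 2 = (x ^ 2 - 1) * (1 + y ^ 2) := by exact_mod_cast hα
  have hI : (I : ℂ) ^ 2 = -1 := Complex.I_sq
  have hI4 : (I : ℂ) ^ 4 = 1 := by
    rw [show (4 : ℕ) = 2 * 2 from rfl, pow_mul, hI]; ring
  have key : ((x + 1) * (1 + I * y)) ^ 2 * kap x y α ^ 2 =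
      -((x ^ 2 - 1) * (1 + y ^ 2)) := by
    unfold kap
    rw [← hα', div_pow, mul_div_cancel₀ _ (pow_ne_zero 2 (mul_ne_zero h2 h1)), mul_pow, hI]
    ring
  have key2 : (x + 1) * (1 + I * y) * kap x y α ^ 2 = -((x - 1) * (1 - I * y)) := by
    apply mul_left_cancel₀ (mul_ne_zero h2 h1)
    linear_combination key - (x ^ 2 - 1) * y ^ 2 * hI
  constructor
  · linear_combination (-1 / 2 : ℂ) * key2
  · linear_combination (1 / 2 : ℂ) * key2

lemma avg_eq_integral (f : ℂ → ℂ) :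
    circleAverage f 0 1 = (2 * π : ℂ)⁻¹ * ∫ t in (0 : ℝ)..2 * π, f (exp (t * I)) := by
  rw [circleAverage_def]
  simp only [circleMap, Complex.real_smul, zero_add, Complex.ofReal_one, one_mul,
    Complex.ofReal_inv, Complex.ofReal_mul, Complex.ofReal_ofNat]

/-- **First moment** of the Cayley loops. -/
theorem mean_inv {x y α : ℝ} (hx : 1 ≤ x) (hα : α ^ 2 = (x ^ 2 - 1) * (1 + y ^ 2)) :
    (2 * π : ℂ)⁻¹ * ∫ t in (0 : ℝ)..2 * π,
      (1 - I * ((-(x * y) + α * Real.cos t : ℝ) : ℂ))⁻¹ = (x + I * y)⁻¹ := by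
  have hk := norm_kap hx hα
  obtain ⟨h1, -⟩ := one_sub_kap_sq hx hα
  have h := avg_FG hk
  rw [avg_eq_integral] at h
  have e : ∀ t : ℝ, (1 - I * ((-(x * y) + α * Real.cos t : ℝ) : ℂ))⁻¹ =
      ((x + 1) * (1 + I * y) / 2)⁻¹ *
        ((1 - kap x y α * exp (t * I))⁻¹ * (1 - kap x y α * (exp (t * I))⁻¹)⁻¹) := by
    intro t
    rw [factor hx hα t, mul_inv, mul_inv]
    rfl
  simp only [e]
  rw [intervalIntegral.integral_const_mul, mul_left_comm, ← h1, mul_inv _ (1 - kap x y α ^ 2), h]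

/-- **Second moment** of the Cayley loops. -/
theorem mean_inv_sq {x y α : ℝ} (hx : 1 ≤ x) (hα : α ^ 2 = (x ^ 2 - 1) * (1 + y ^ 2)) :
    (2 * π : ℂ)⁻¹ * ∫ t in (0 : ℝ)..2 * π,
      ((1 - I * ((-(x * y) + α * Real.cos t : ℝ) : ℂ))⁻¹) ^ 2 =
        (1 + I * x * y) * ((x + I * y)⁻¹) ^ 3 := by
  have hk := norm_kap hx hα
  obtain ⟨h1, h2⟩ := one_sub_kap_sq hx hα
  have h := avg_FG2 hk
  rw [avg_eq_integral] at h
  have e : ∀ t : ℝ, ((1 - I * ((-(x * y) + α * Real.cos t : ℝ) : ℂ))⁻¹) ^ 2 =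
      (((x + 1) * (1 + I * y) / 2)⁻¹) ^ 2 *
        ((1 - kap x y α * exp (t * I))⁻¹ * (1 - kap x y α * (exp (t * I))⁻¹)⁻¹) ^ 2 := by
    intro t
    rw [factor hx hα t, mul_inv, mul_inv, mul_pow]
    rfl
  have hm : ((x : ℂ) + 1) * (1 + I * y) / 2 ≠ 0 := by
    intro h0
    rw [h0, zero_mul] at h1
    have := congrArg Complex.re h1
    simp at this
    linarith
  have hn := one_sub_sq_ne hk
  simp only [e]
  rw [intervalIntegral.integral_const_mul, mul_left_comm, ← h1, ← h2,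
    mul_inv _ (1 - kap x y α ^ 2), h]
  generalize ((x : ℂ) + 1) * (1 + I * y) / 2 = m at hm
  field_simp

end Crest.Agent.R216.Loop
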