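import Crest.Agent.R216.LoopExt

/-!
Row 216 (S0335), LOOPS: the loop `om z s t` on the unit circle of `ℂ` (interface for the step lemma).
-/

set_option autoImplicit false

open Complex MeasureTheory Real Metric Set
open scoped Real Interval ContDiff

namespace Crest.Agent.R216.Loop

/-- `om = (1+ip)/(1-ip)`, `q = 2/(1+z)`, `p = -q1 q2 + α cos t`,
`α = s √((q1+1)(1+q2²)) / |1+z|` -/
noncomputable def om (z : ℂ) (s t : ℝ) : ℂ := (cl z.re z.im s t : ℂ) + I * sl z.re z.im s t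

lemma om_re (z : ℂ) (s t : ℝ) : (om z s t).re = cl z.re z.im s t := by simp [om]
lemma om_im (z : ℂ) (s t : ℝ) : (om z s t).im = sl z.re z.im s t := by simp [om]

lemma norm_om (z : ℂ) (s t : ℝ) : ‖om z s t‖ = 1 := by
  have h : ‖om z s t‖ ^ 2 = 1 := by
    rw [← Complex.normSq_eq_norm_sq, Complex.normSq_apply, om_re, om_im]
    have := cl_sq_add_sl_sq z.re z.im s t
    linear_combination this
  have h0 := norm_nonneg (om z s t)
  nlinarith

lemma om_neg (z : ℂ) (s t : ℝ) : om z s (-t) = om z s t := by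
  simp [om, cl_neg, sl_neg]

lemma om_add_two_pi (z : ℂ) (s t : ℝ) : om z s (t + 2 * π) = om z s t := by
  simp [om, cl_add_two_pi, sl_add_two_pi]

lemma om_periodic (z : ℂ) (s : ℝ) : Function.Periodic (om z s) (2 * π) := om_add_two_pi z s

section
variable {E : Type*} [NormedAddCommGroup E] [NormedSpace ℝ E] {n : ℕ∞ω}
  {f : E → ℂ} {g k : E → ℝ} {x : E}

lemma ContDiffAt.om' (hf : ContDiffAt ℝ n f x) (hg : ContDiffAt ℝ n g x)
    (hk : ContDiffAt ℝ n k x) (h0 : 0 < 1 + (f x).re) :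
    ContDiffAt ℝ n (fun x => om (f x) (g x) (k x)) x := by
  have hre : ContDiffAt ℝ n (fun x => (f x).re) x :=
    (Complex.reCLM.contDiff.contDiffAt).comp x hf
  have him : ContDiffAt ℝ n (fun x => (f x).im) x :=
    (Complex.imCLM.contDiff.contDiffAt).comp x hf
  have h0' : -1 < (f x).re := by linarith
  have h1 := ContDiffAt.cl' hre him hg hk h0'
  have h2 := ContDiffAt.sl' hre him hg hk h0'
  unfold om
  apply ContDiffAt.add
  · exact (Complex.ofRealCLM.contDiff.contDiffAt).comp x h1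
  · exact contDiffAt_const.mul ((Complex.ofRealCLM.contDiff.contDiffAt).comp x h2)

end

/-- smoothness of the loop family -/
theorem contDiffOn_om (n : ℕ∞ω) : ContDiffOn ℝ n (fun v : ℂ × ℝ × ℝ => om v.1 v.2.1 v.2.2)
    {v | 0 < 1 + v.1.re} := by
  intro v hv
  apply ContDiffAt.contDiffWithinAt
  exact ContDiffAt.om' contDiffAt_fst (contDiffAt_snd.fst) (contDiffAt_snd.snd) hv

lemma continuous_om (z : ℂ) (s : ℝ) : Continuous (om z s) := by
  unfold om
  have h1 := continuous_cl z.re z.im s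
  have h2 := continuous_sl z.re z.im s
  fun_prop

/-- **exact mean** -/
theorem integral_om {z : ℂ} {s : ℝ} (hz : 0 < 1 + z.re) (h : ‖z‖ ^ 2 + s ^ 2 = 1) :
    ∫ t in (0 : ℝ)..2 * π, om z s t = 2 * π * z := by
  have h' : z.re ^ 2 + z.im ^ 2 + s ^ 2 = 1 := by
    rw [← h, ← Complex.normSq_eq_norm_sq, Complex.normSq_apply]; ring
  have hm := mean_complex (by linarith : -1 < z.re) h'
  have hpi : (2 * π : ℂ) ≠ 0 := by
    have := Real.pi_ne_zero
    simp [this]
  rw [inv_mul_eq_iff_eq_mul₀ hpi] at hm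
  unfold om
  rw [hm]
  congr 1
  rw [mul_comm I]
  exact Complex.re_add_im z

lemma om_eq (z : ℂ) (s t : ℝ) :
    om z s t = exp (I * ((2 * Real.arctan (pl z.re z.im s t) : ℝ) : ℂ)) := by
  set p := pl z.re z.im s t with hp
  have h1 := one_add_sq_pos p
  have hc : Real.cos (2 * Real.arctan p) = (1 - p ^ 2) / (1 + p ^ 2) := by
    rw [Real.cos_two_mul, Real.cos_sq_arctan]
    field_simp
    ring
  have hs : Real.sin (2 * Real.arctan p) = 2 * p / (1 + p ^ 2) := by
    rw [Real.sin_two_mul, Real.sin_arctan, Real.cos_arctan]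
    have h3 : √(1 + p ^ 2) ^ 2 = 1 + p ^ 2 := Real.sq_sqrt h1.le
    have h4 : 0 < √(1 + p ^ 2) := Real.sqrt_pos.mpr h1
    have h5 : ∀ r : ℝ, 0 < r → 2 * (p / r) * (1 / r) = 2 * p / r ^ 2 := by
      intro r hr
      field_simp
    rw [h5 _ h4, h3]
  unfold om cl sl
  rw [← hp, mul_comm I (((2 * Real.arctan p : ℝ) : ℂ)), Complex.exp_mul_I, ← Complex.ofReal_cos,
    ← Complex.ofReal_sin, hc, hs, mul_comm I]

/-- `t`-derivative of the loop -/
theorem hasDerivAt_om {z : ℂ} {s : ℝ} (t : ℝ) :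
    HasDerivAt (fun t => om z s t)
      (I * ((2 * (-(s * gl z.re z.im * Real.sin t) / (1 + pl z.re z.im s t ^ 2)) : ℝ) : ℂ) *
        om z s t) t := by
  have hp : HasDerivAt (fun t => pl z.re z.im s t) (-(s * gl z.re z.im * Real.sin t)) t := by
    unfold pl
    exact (((Real.hasDerivAt_cos t).const_mul (s * gl z.re z.im)).const_add _).congr_deriv
      (by ring)
  have ha := (hp.arctan.const_mul 2).ofReal_comp
  have he := ((ha.const_mul I).cexp)
  have e : (fun t => om z s t) =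
      (fun t => exp (I * ((2 * Real.arctan (pl z.re z.im s t) : ℝ) : ℂ))) := by
    funext t; exact om_eq z s t
  rw [e]
  refine he.congr_deriv ?_
  rw [om_eq]
  push_cast
  ring

theorem deriv_om_eq_zero_iff {z : ℂ} {s : ℝ} (hz : 0 < 1 + z.re) (t : ℝ) :
    deriv (fun t => om z s t) t = 0 ↔ s = 0 ∨ Real.sin t = 0 := by
  rw [(hasDerivAt_om (z := z) (s := s) t).deriv]
  have h1 : om z s t ≠ 0 := by
    intro h
    have := norm_om z s t
    rw [h] at this
    simp at this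
  have h2 := one_add_sq_pos (pl z.re z.im s t)
  have h3 := gl_pos (X := z.re) (Y := z.im) (by linarith)
  rw [mul_eq_zero, or_iff_left h1, mul_eq_zero, or_iff_right I_ne_zero, Complex.ofReal_eq_zero]
  constructor
  · intro h
    have h4 : s * gl z.re z.im * Real.sin t = 0 := by
      have h5 : -(s * gl z.re z.im * Real.sin t) / (1 + pl z.re z.im s t ^ 2) = 0 := by linarith
      rw [div_eq_zero_iff] at h5
      rcases h5 with h5 | h5
      · linarith
      · exact absurd h5 h2.ne'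
    rcases mul_eq_zero.mp h4 with h5 | h5
    · rcases mul_eq_zero.mp h5 with h6 | h6
      · exact Or.inl h6
      · exact absurd h6 h3.ne'
    · exact Or.inr h5
  · rintro (h | h) <;> simp [h]

/-- rotated argument -/
lemma rot_re (z : ℂ) (θ : ℝ) : (exp (-(I * θ)) * z).re = rX z.re z.im θ := by
  have : -(I * (θ : ℂ)) = ((-θ : ℝ) : ℂ) * I := by push_cast; ring
  rw [this, Complex.exp_mul_I, ← Complex.ofReal_cos, ← Complex.ofReal_sin]
  simp [rX, Complex.cos_ofReal_re, Complex.sin_ofReal_re]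
  ring

lemma rot_im (z : ℂ) (θ : ℝ) : (exp (-(I * θ)) * z).im = rY z.re z.im θ := by
  have : -(I * (θ : ℂ)) = ((-θ : ℝ) : ℂ) * I := by push_cast; ring
  rw [this, Complex.exp_mul_I, ← Complex.ofReal_cos, ← Complex.ofReal_sin]
  simp [rY, Complex.cos_ofReal_re, Complex.sin_ofReal_re]
  ring

lemma kp_alg_low {σ x y S c : ℝ} (hσ : σ ^ 2 = 1) (hx : 1 < x) (hS : 0 < S) (hc : 0 < c)
    (hSs : S ^ 2 = x ^ 2 - 1) (hcs : c ^ 2 = 1 + y ^ 2) :
    (x - 1) / (4 * x * c ^ 2) ≤
      (x - 1) * (c - σ * y * S / (x + 1) + (x - 1) / c) / (x * c - σ * S * y) := by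
  have hD := D_ext_pos hσ hx hS hc hSs hcs
  have hDpos : 0 < x * c - σ * S * y := by
    have h2 : 0 < 1 / (2 * x * c) := by positivity
    linarith [hD.1]
  have hb : 1 / (2 * c) ≤ c - σ * y * S / (x + 1) + (x - 1) / c := by
    have e1 : σ * y * S / (x + 1) ≤ |y| := by
      have h1 : |σ| = 1 := by
        have h0 : |σ| ^ 2 = 1 := by rw [sq_abs, hσ]
        have h3 : (|σ| - 1) * (|σ| + 1) = 0 := by linear_combination h0
        rcases mul_eq_zero.mp h3 with h | h
        · linarith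
        · have := abs_nonneg σ
          linarith
      have h2 : S ≤ x + 1 := by
        refine (abs_le_of_sq_le_sq' ?_ (by linarith)).2
        rw [hSs]; nlinarith
      rw [div_le_iff₀ (by linarith)]
      calc σ * y * S ≤ |σ * y * S| := le_abs_self _
        _ = |y| * S := by rw [abs_mul, abs_mul, h1, abs_of_pos hS]; ring
        _ ≤ |y| * (x + 1) := mul_le_mul_of_nonneg_left h2 (abs_nonneg y)
    have e2 : 0 < (x - 1) / c := div_pos (by linarith) hc
    have e3 : 1 / (2 * c) ≤ c - |y| := by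
      rw [div_le_iff₀ (by positivity)]
      have h4 : c ^ 2 = 1 + |y| ^ 2 := by rw [hcs, sq_abs]
      have h5 : (c - |y|) * (2 * c) = 1 + (c - |y|) ^ 2 := by
        linear_combination h4
      rw [h5]
      have := sq_nonneg (c - |y|)
      linarith
    linarith
  have h1 : 0 < x - 1 := by linarith
  rw [div_le_div_iff₀ (by positivity) hDpos]
  have h2 : (x - 1) * (x * c - σ * S * y) ≤ (x - 1) * (2 * x * c) :=
    mul_le_mul_of_nonneg_left hD.2 h1.le
  have h3 : (x - 1) * (2 * x * c) = (x - 1) * (1 / (2 * c)) * (4 * x * c ^ 2) := by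
    field_simp
    ring
  calc (x - 1) * (x * c - σ * S * y) ≤ (x - 1) * (2 * x * c) := h2
    _ = (x - 1) * (1 / (2 * c)) * (4 * x * c ^ 2) := h3
    _ ≤ _ := by
      apply mul_le_mul_of_nonneg_right _ (by positivity)
      exact mul_le_mul_of_nonneg_left hb h1.le

/-- lower bound for the speed -/
lemma kp_pos {σ X Y s : ℝ} (hσ : σ ^ 2 = 1) (hX : -1 < X) (hs : s ≠ 0)
    (hXY : X ^ 2 + Y ^ 2 + s ^ 2 = 1) : s ^ 2 * √(n2 X Y) / 48 ≤ kp σ X Y ∧ 0 < kp σ X Y := by
  have hN := n2_pos (Y := Y) hX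
  have hx := qx_sub_one hX hXY
  have hs2 : 0 < s ^ 2 := by positivity
  have hx1 : 1 < qx X Y := by
    have : 0 < s ^ 2 / n2 X Y := by positivity
    linarith
  have hq := q_norm (Y := Y) hX
  have hS0 : 0 < qx X Y ^ 2 - 1 := by nlinarith
  have hc0 : 0 < 1 + qy X Y ^ 2 := by positivity
  have hSs : √(qx X Y ^ 2 - 1) ^ 2 = qx X Y ^ 2 - 1 := Real.sq_sqrt hS0.le
  have hcs : √(1 + qy X Y ^ 2) ^ 2 = 1 + qy X Y ^ 2 := Real.sq_sqrt hc0.le
  have hSp : 0 < √(qx X Y ^ 2 - 1) := Real.sqrt_pos.mpr hS0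
  have hcp : 0 < √(1 + qy X Y ^ 2) := Real.sqrt_pos.mpr hc0
  have hN4 : n2 X Y ≤ 4 := by
    unfold n2
    have : X ≤ 1 := by nlinarith [sq_nonneg Y, sq_nonneg s]
    nlinarith [sq_nonneg Y, sq_nonneg s]
  have hlow := kp_alg_low hσ hx1 hSp hcp hSs hcs
  have hNs : √(n2 X Y) ^ 2 = n2 X Y := Real.sq_sqrt hN.le
  have hNp : 0 < √(n2 X Y) := Real.sqrt_pos.mpr hN
  have hk : kp σ X Y = (qx X Y - 1) * (√(1 + qy X Y ^ 2) -
    σ * qy X Y * √(qx X Y ^ 2 - 1) / (qx X Y + 1) +
    (qx X Y - 1) / √(1 + qy X Y ^ 2)) /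
    (qx X Y * √(1 + qy X Y ^ 2) - σ * √(qx X Y ^ 2 - 1) * qy X Y) := rfl
  rw [← hk, hcs] at hlow
  generalize kp σ X Y = K at *
  generalize √(qx X Y ^ 2 - 1) = S at *
  generalize √(1 + qy X Y ^ 2) = c at *
  generalize qx X Y = x at *
  generalize qy X Y = y at *
  generalize √(n2 X Y) = m at *
  generalize n2 X Y = N at *
  clear hk
  have hw : (x * m) ^ 2 = x ^ 2 * N := by rw [mul_pow, hNs]
  have hc2 : (1 + y ^ 2) * N ≤ 8 - (x * m) ^ 2 := by
    rw [hw]
    linarith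
  have hk2 : s ^ 2 * m / 48 ≤ (x - 1) / (4 * x * (1 + y ^ 2)) := by
    rw [hx, div_div, div_le_div_iff₀ (by norm_num) (by positivity)]
    have h1 : m * (N * (4 * x * (1 + y ^ 2))) ≤ 48 := by
      have e : m * (N * (4 * x * (1 + y ^ 2))) = 4 * ((x * m) * ((1 + y ^ 2) * N)) := by ring
      rw [e]
      have h6 : 0 ≤ x * m := by positivity
      have h8 : (x * m) * ((1 + y ^ 2) * N) ≤ (x * m) * (8 - (x * m) ^ 2) :=
        mul_le_mul_of_nonneg_left hc2 h6
      have h9 : (x * m) * (8 - (x * m) ^ 2) ≤ 12 := by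
        generalize x * m = w at h6
        nlinarith [mul_nonneg h6 (sq_nonneg (w - 8 / 5)), sq_nonneg (w - 8 / 5)]
      linarith
    calc s ^ 2 * m * (N * (4 * x * (1 + y ^ 2))) = s ^ 2 * (m * (N * (4 * x * (1 + y ^ 2)))) := by
          ring
      _ ≤ s ^ 2 * 48 := mul_le_mul_of_nonneg_left h1 hs2.le
  have hk3 : 0 < s ^ 2 * m / 48 := by positivity
  constructor
  · linarith
  · linarith

/-- **rotation of the reference direction moves the extreme points with nonzero speed** -/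
theorem hasDerivAt_rot_om {z : ℂ} {s θ t : ℝ} (hz : 0 < 1 + (exp (-(I * θ)) * z).re) (hs : s ≠ 0)
    (h : ‖z‖ ^ 2 + s ^ 2 = 1) (ht : Real.sin t = 0) :
    ∃ κ : ℝ, s ^ 2 * ‖1 + exp (-(I * θ)) * z‖ / 48 ≤ κ ∧ 0 < κ ∧
      HasDerivAt (fun θ : ℝ => exp (I * θ) * om (exp (-(I * θ)) * z) s t)
        (I * κ * (exp (I * θ) * om (exp (-(I * θ)) * z) s t)) θ := by
  have h' : z.re ^ 2 + z.im ^ 2 + s ^ 2 = 1 := by
    rw [← h, ← Complex.normSq_eq_norm_sq, Complex.normSq_apply]; ring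
  have hcos : Real.cos t ^ 2 = 1 := by
    have := Real.sin_sq_add_cos_sq t
    rw [ht] at this
    linarith
  -- `σ = cos t * sign s`
  obtain ⟨σ, hσ, hσs⟩ : ∃ σ : ℝ, σ ^ 2 = 1 ∧ σ * |s| = s * Real.cos t := by
    rcases lt_or_gt_of_ne hs with h1 | h1
    · exact ⟨-Real.cos t, by rw [neg_sq]; exact hcos, by rw [abs_of_neg h1]; ring⟩
    · exact ⟨Real.cos t, hcos, by rw [abs_of_pos h1]; ring⟩
  have hpe : ∀ X Y : ℝ, pl X Y s t = pe σ X Y |s| := by
    intro X Y
    unfold pl pe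
    rw [← mul_assoc σ, hσs]
    ring
  have hX : -1 < rX z.re z.im θ := by
    rw [rot_re] at hz; linarith
  have h2 : z.re ^ 2 + z.im ^ 2 + |s| ^ 2 = 1 := by rw [sq_abs]; exact h'
  have hd := hasDerivAt_ang hσ hX (abs_pos.mpr hs) h2
  have hk := kp_pos hσ hX hs (by rw [rX_sq_add]; exact h')
  refine ⟨kp σ (rX z.re z.im θ) (rY z.re z.im θ), ?_, hk.2, ?_⟩
  · have hn : ‖1 + exp (-(I * θ)) * z‖ = √(n2 (rX z.re z.im θ) (rY z.re z.im θ)) := by
      rw [Complex.norm_eq_sqrt_sq_add_sq]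
      congr 1
      unfold n2
      rw [← rot_re, ← rot_im]
      simp
    rw [hn]
    exact hk.1
  · have e : (fun θ : ℝ => exp (I * θ) * om (exp (-(I * θ)) * z) s t) =
        (fun θ : ℝ => exp (I * ((ang σ z.re z.im |s| θ : ℝ) : ℂ))) := by
      funext η
      rw [om_eq, rot_re, rot_im, hpe, ← Complex.exp_add]
      congr 1
      unfold ang
      push_cast
      ring
    have e' : exp (I * θ) * om (exp (-(I * θ)) * z) s t =
        exp (I * ((ang σ z.re z.im |s| θ : ℝ) : ℂ)) := congrFun e θ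
    rw [e, e']
    refine ((hd.ofReal_comp.const_mul I).cexp).congr_deriv ?_
    ring

end Crest.Agent.R216.Loop
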