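import Crest.Agent.R216.LoopMean

/-! Row 216: scalar mean `⟨1/(1+m² cos² t)⟩ = 1/√(1+m²)`. -/

set_option autoImplicit false

open Complex MeasureTheory Real Metric Set
open scoped Real Interval

namespace Crest.Agent.R216.Loop

theorem mean_inv_one_add (m : ℝ) :
    (2 * π)⁻¹ * ∫ t in (0 : ℝ)..2 * π, (1 + m ^ 2 * Real.cos t ^ 2)⁻¹ = (√(1 + m ^ 2))⁻¹ := by
  have h0 : (0 : ℝ) < 1 + m ^ 2 := by positivity
  have hs : √(1 + m ^ 2) ^ 2 = 1 + m ^ 2 := Real.sq_sqrt h0.le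
  have h1 : 1 ≤ √(1 + m ^ 2) := by
    rw [Real.one_le_sqrt]
    nlinarith [sq_nonneg m]
  have hm := mean_inv (x := √(1 + m ^ 2)) (y := 0) (α := m) h1 (by rw [hs]; ring)
  have hre := congrArg Complex.re hm
  have hc : Continuous (fun t : ℝ => (1 - I * ((-(√(1 + m ^ 2) * 0) + m * Real.cos t : ℝ) : ℂ))⁻¹) := by
    apply Continuous.inv₀
    · fun_prop
    · intro t h
      have := congrArg Complex.re h
      simp at this
  have e1 : ((2 * π : ℂ)⁻¹ * ∫ t in (0 : ℝ)..2 * π,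
      (1 - I * ((-(√(1 + m ^ 2) * 0) + m * Real.cos t : ℝ) : ℂ))⁻¹).re =
      (2 * π)⁻¹ * ∫ t in (0 : ℝ)..2 * π,
        ((1 - I * ((-(√(1 + m ^ 2) * 0) + m * Real.cos t : ℝ) : ℂ))⁻¹).re := by
    have e2 : (2 * π : ℂ)⁻¹ = (((2 * π)⁻¹ : ℝ) : ℂ) := by push_cast; rfl
    rw [e2, Complex.re_ofReal_mul]
    congr 1
    have := Complex.reCLM.intervalIntegral_comp_comm (μ := volume) (a := 0) (b := 2 * π)
      (hc.intervalIntegrable 0 (2 * π))
    simpa using this.symm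
  rw [e1] at hre
  have e3 : ∀ t : ℝ, ((1 - I * ((-(√(1 + m ^ 2) * 0) + m * Real.cos t : ℝ) : ℂ))⁻¹).re =
      (1 + m ^ 2 * Real.cos t ^ 2)⁻¹ := by
    intro t
    rw [Complex.inv_re]
    simp [Complex.normSq_apply, Complex.cos_ofReal_re]
    ring_nf
  simp only [e3] at hre
  rw [hre]
  have e4 : ((√(1 + m ^ 2) : ℂ) + I * ((0 : ℝ) : ℂ))⁻¹ = (((√(1 + m ^ 2))⁻¹ : ℝ) : ℂ) := by
    push_cast
    simp
  rw [e4, Complex.ofReal_re]

end Crest.Agent.R216.Loop
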