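import Crest.Agent.R216.MacDefs
import Crest.Agent.R216.EFinX
import Crest.Agent.R216.AlgP

/-!
# Row 216, Theorem E, MACRO: the frame `fr1, fr2` (helper323).
-/

open Set Topology
open scoped ContDiff

namespace Crest.Agent.R216.TE

section smooth
variable {E : Type*} [NormedAddCommGroup E] [NormedSpace ℝ E] {s : Set E}
  {A B C v : E → E4}

lemma contDiffOn_gram (hB : ContDiffOn ℝ ∞ B s) (hC : ContDiffOn ℝ ∞ C s) :
    ContDiffOn ℝ ∞ (fun x => gram (B x) (C x)) s := by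
  unfold gram
  exact ((hB.inner ℝ hB).mul (hC.inner ℝ hC)).sub ((hB.inner ℝ hC).pow 2)

lemma contDiffOn_xiB (hB : ContDiffOn ℝ ∞ B s) (hC : ContDiffOn ℝ ∞ C s)
    (h : ∀ x ∈ s, gram (B x) (C x) ≠ 0) : ContDiffOn ℝ ∞ (fun x => xiB (B x) (C x)) s := by
  unfold xiB
  exact ((contDiffOn_gram hB hC).inv h).smul
    (((hC.inner ℝ hC).smul hB).sub ((hB.inner ℝ hC).smul hC))

lemma contDiffOn_xiC (hB : ContDiffOn ℝ ∞ B s) (hC : ContDiffOn ℝ ∞ C s)
    (h : ∀ x ∈ s, gram (B x) (C x) ≠ 0) : ContDiffOn ℝ ∞ (fun x => xiC (B x) (C x)) s := by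
  unfold xiC
  exact ((contDiffOn_gram hB hC).inv h).smul
    (((hB.inner ℝ hB).smul hC).sub ((hB.inner ℝ hC).smul hB))

lemma contDiffOn_cpr (hA : ContDiffOn ℝ ∞ A s) (hB : ContDiffOn ℝ ∞ B s)
    (hC : ContDiffOn ℝ ∞ C s)
    (h : ∀ x ∈ s, gram (B x) (C x) ≠ 0) : ContDiffOn ℝ ∞ (fun x => cpr (A x) (B x) (C x)) s := by
  unfold cpr
  exact ((hA.inner ℝ hB).smul (contDiffOn_xiB hB hC h)).add
    ((hA.inner ℝ hC).smul (contDiffOn_xiC hB hC h))

lemma contDiffOn_ppr (hA : ContDiffOn ℝ ∞ A s) (hB : ContDiffOn ℝ ∞ B s)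
    (hC : ContDiffOn ℝ ∞ C s)
    (h : ∀ x ∈ s, gram (B x) (C x) ≠ 0) : ContDiffOn ℝ ∞ (fun x => ppr (A x) (B x) (C x)) s := by
  unfold ppr
  exact hA.sub (contDiffOn_cpr hA hB hC h)

lemma contDiffOn_cross3 (hB : ContDiffOn ℝ ∞ B s) (hC : ContDiffOn ℝ ∞ C s)
    (hv : ContDiffOn ℝ ∞ v s) : ContDiffOn ℝ ∞ (fun x => cross3 (B x) (C x) (v x)) s := by
  rw [contDiffOn_euclidean] at *
  have b := hB
  have c := hC
  have w := hv
  intro i
  fin_cases i <;>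
  simp [cross3] <;>
  fun_prop (disch := assumption)

end smooth

section smooth2
variable {E : Type*} [NormedAddCommGroup E] [NormedSpace ℝ E] {s : Set E}
  {A B C v : E → E4}

lemma contDiffOn_Jrot (hB : ContDiffOn ℝ ∞ B s) (hC : ContDiffOn ℝ ∞ C s)
    (hv : ContDiffOn ℝ ∞ v s) (h : ∀ x ∈ s, gram (B x) (C x) ≠ 0) :
    ContDiffOn ℝ ∞ (fun x => Jrot (B x) (C x) (v x)) s := by
  unfold Jrot
  have hp : ∀ x ∈ s, 0 < gram (B x) (C x) := fun x hx =>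
    lt_of_le_of_ne (gram_nonneg _ _) (h x hx).symm
  exact (((contDiffOn_gram hB hC).sqrt h).inv fun x hx => (Real.sqrt_pos.2 (hp x hx)).ne').smul
    (contDiffOn_cross3 hB hC hv)

end smooth2

lemma contDiff_d1 {f : X2 → E4} (hf : ContDiff ℝ ∞ f) : ContDiff ℝ ∞ (d1 f) := by
  unfold d1
  exact (hf.fderiv_right (m := ∞) (by simp)).clm_apply contDiff_const

lemma contDiff_d2 {f : X2 → E4} (hf : ContDiff ℝ ∞ f) : ContDiff ℝ ∞ (d2 f) := by
  unfold d2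
  exact (hf.fderiv_right (m := ∞) (by simp)).clm_apply contDiff_const

lemma contDiff_ampX {u β : X2 → ℝ} (h : AmpHyp u β) : ContDiff ℝ ∞ (ampX u β) := by
  unfold ampX
  exact (expNegInvGlue.contDiff.comp h.hu).mul h.hβ

lemma ampX_nonneg {u β : X2 → ℝ} (h : AmpHyp u β) (x : X2) : 0 ≤ ampX u β x :=
  mul_nonneg (expNegInvGlue.nonneg _) (h.pos x).le

lemma frontier_of_not {u : X2 → ℝ} (hu : Continuous u) {x : X2}
    (hx : x ∈ closure {x | 0 < u x}) (h0 : ¬ 0 < u x) : x ∈ frontier {x | 0 < u x} := by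
  rw [(isOpen_lt continuous_const hu).frontier_eq]
  exact ⟨hx, h0⟩

section
variable {f : X2 → E4} {u β : X2 → ℝ} {O : Set (X2 × ℝ)} {W : X2 × ℝ → ℝ → E4}

/-- `|Π-part of W|² = |p|² + α²` -/
lemma normsq_ppr_W (h : MacHyp f u β O W) {x : X2} {α : ℝ} (hx : (x, α) ∈ O)
    (hg : gram (d2 f x) (d2 (d2 f) x) ≠ 0) (t : ℝ) :
    ‖ppr (W (x, α) t) (d2 f x) (d2 (d2 f) x)‖ ^ 2 =
      ‖ppr (d1 f x) (d2 f x) (d2 (d2 f) x)‖ ^ 2 + α ^ 2 := by
  have h1 := h.hW.perp2 _ hx t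
  have h2 := h.hW.perp22 _ hx t
  have h3 := h.hW.norm _ hx t
  simp only at h1 h2 h3
  set B := d2 f x
  set C := d2 (d2 f) x
  set A := d1 f x
  set w := W (x, α) t
  have hc : cpr w B C = cpr A B C := by unfold cpr; rw [h1, h2]
  have key : ∀ v : E4, ‖ppr v B C‖ ^ 2 = inner ℝ v v - inner ℝ (cpr v B C) (cpr v B C) := by
    intro v
    have h4 := ppr_perp v B C hg
    have h5 : inner ℝ (ppr v B C) (cpr v B C) = (0:ℝ) := inner_cpr_of_orth v h4.1 h4.2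
    have h6 : v = cpr v B C + ppr v B C := by unfold ppr; abel
    have h7 : (inner ℝ v v : ℝ) =
        inner ℝ (cpr v B C + ppr v B C) (cpr v B C + ppr v B C) := by rw [← h6]
    have h8 : inner ℝ (cpr v B C) (ppr v B C) = (0:ℝ) := by rw [real_inner_comm]; exact h5
    rw [← real_inner_self_eq_norm_sq, h7, inner_add_left, inner_add_right, inner_add_right, h5, h8]
    ring
  rw [key, key, hc, h3]
  ring

lemma ppr_W_ne (h : MacHyp f u β O W) {x : X2} (hx : x ∈ closure {x | 0 < u x}) :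
    ppr (W (x, ampX u β x) 0) (d2 f x) (d2 (d2 f) x) ≠ 0 := by
  intro h0
  have h1 := normsq_ppr_W h (h.hW.mem x hx) (h.ind x hx).ne' 0
  rw [h0, norm_zero] at h1
  have h2 := sq_nonneg ‖ppr (d1 f x) (d2 f x) (d2 (d2 f) x)‖
  have h3 := sq_nonneg (ampX u β x)
  rcases em (0 < u x) with h4 | h4
  · have := ampX_pos h.ha h4
    nlinarith
  · have h5 := h.ind1 x (frontier_of_not h.ha.hu.continuous hx h4)
    have h6 : 0 < ‖ppr (d1 f x) (d2 f x) (d2 (d2 f) x)‖ := norm_pos_iff.2 h5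
    nlinarith

/-- the open set on which the frame is defined and smooth -/
def frDom (f : X2 → E4) (u β : X2 → ℝ) (O : Set (X2 × ℝ)) (W : X2 × ℝ → ℝ → E4) : Set X2 :=
  {x | (x, ampX u β x) ∈ O ∧ gram (d2 f x) (d2 (d2 f) x) ≠ 0 ∧
    ppr (W (x, ampX u β x) 0) (d2 f x) (d2 (d2 f) x) ≠ 0}

lemma frame_aux (h : MacHyp f u β O W) :
    IsOpen (frDom f u β O W) ∧ closure {x | 0 < u x} ⊆ frDom f u β O W ∧
    ContDiffOn ℝ ∞ (fun x => ppr (W (x, ampX u β x) 0) (d2 f x) (d2 (d2 f) x))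
      (frDom f u β O W) := by
  have hf2 := contDiff_d2 h.hf
  have hf22 := contDiff_d2 hf2
  have hA := contDiff_ampX h.ha
  have hgc : Continuous (fun x => gram (d2 f x) (d2 (d2 f) x)) :=
    (contDiffOn_univ.1 (contDiffOn_gram hf2.contDiffOn hf22.contDiffOn)).continuous
  set V : Set X2 := {x | (x, ampX u β x) ∈ O ∧ gram (d2 f x) (d2 (d2 f) x) ≠ 0} with hV
  have hVo : IsOpen V := (h.hW.isOpen.preimage (continuous_id.prodMk hA.continuous)).inter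
    (isOpen_ne_fun hgc continuous_const)
  have hs : ContDiffOn ℝ ∞ (fun x => ppr (W (x, ampX u β x) 0) (d2 f x) (d2 (d2 f) x)) V := by
    refine contDiffOn_ppr ?_ hf2.contDiffOn hf22.contDiffOn (fun x hx => hx.2)
    have := h.hW.smooth.comp (s := V) (f := fun x => ((x, ampX u β x), (0:ℝ)))
      ((contDiff_id.prodMk hA).prodMk contDiff_const).contDiffOn
      (fun x hx => ⟨hx.1, mem_univ _⟩)
    exact this
  have he : frDom f u β O W = V ∩
      (fun x => ppr (W (x, ampX u β x) 0) (d2 f x) (d2 (d2 f) x)) ⁻¹' {0}ᶜ := by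
    ext x
    simp [frDom, hV, and_assoc]
  refine ⟨?_, fun x hx => ⟨h.hW.mem x hx, (h.ind x hx).ne', ppr_W_ne h hx⟩, hs.mono ?_⟩
  · rw [he]; exact hs.continuousOn.isOpen_inter_preimage hVo isOpen_compl_singleton
  · rw [he]; exact inter_subset_left

theorem fr1_smooth (h : MacHyp f u β O W) : ContDiffOn ℝ ∞ (fr1 f u β W) (frDom f u β O W) := by
  obtain ⟨_, _, h3⟩ := frame_aux h
  unfold fr1
  exact ((h3.norm ℝ fun x hx => hx.2.2).inv fun x hx => norm_ne_zero_iff.2 hx.2.2).smul h3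

theorem fr2_smooth (h : MacHyp f u β O W) : ContDiffOn ℝ ∞ (fr2 f u β W) (frDom f u β O W) := by
  have hf2 := contDiff_d2 h.hf
  have hf22 := contDiff_d2 hf2
  unfold fr2
  exact contDiffOn_Jrot hf2.contDiffOn hf22.contDiffOn (fr1_smooth h) fun x hx => hx.2.1

/-- the frame is orthonormal and orthogonal to `f₂, f₂₂` -/
theorem frame_on (h : MacHyp f u β O W) {x : X2} (hx : x ∈ closure {x | 0 < u x}) :
    ‖fr1 f u β W x‖ = 1 ∧ ‖fr2 f u β W x‖ = 1 ∧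
      (inner ℝ (fr1 f u β W x) (fr2 f u β W x) : ℝ) = 0 ∧
      (inner ℝ (fr1 f u β W x) (d2 f x) : ℝ) = 0 ∧
      (inner ℝ (fr1 f u β W x) (d2 (d2 f) x) : ℝ) = 0 ∧
      (inner ℝ (fr2 f u β W x) (d2 f x) : ℝ) = 0 ∧
      (inner ℝ (fr2 f u β W x) (d2 (d2 f) x) : ℝ) = 0 := by
  have h1 := ppr_W_ne h hx
  have hg := h.ind x hx
  have hp := ppr_perp (W (x, ampX u β x) 0) (d2 f x) (d2 (d2 f) x) hg.ne'
  have n1 : ‖fr1 f u β W x‖ = 1 := by
    unfold fr1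
    rw [norm_smul, norm_inv, norm_norm, inv_mul_cancel₀ (norm_ne_zero_iff.2 h1)]
  have o1 : (inner ℝ (fr1 f u β W x) (d2 f x) : ℝ) = 0 := by
    unfold fr1; rw [real_inner_smul_left, hp.1, mul_zero]
  have o2 : (inner ℝ (fr1 f u β W x) (d2 (d2 f) x) : ℝ) = 0 := by
    unfold fr1; rw [real_inner_smul_left, hp.2, mul_zero]
  have hJ := Jrot_perp (d2 f x) (d2 (d2 f) x) (fr1 f u β W x)
  refine ⟨n1, ?_, ?_, o1, o2, hJ.1, hJ.2.1⟩
  · unfold fr2; rw [norm_Jrot _ _ _ hg o1 o2, n1]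
  · unfold fr2; rw [real_inner_comm]; exact hJ.2.2

end

end Crest.Agent.R216.TE
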