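import Crest.Agent.R216.MacDefs
import Crest.Agent.R216.MacFrame

/-!
# Row 216, Theorem E, MACRO: amplitude and parameters (helper323).
-/

open Set Topology
open scoped ContDiff

namespace Crest.Agent.R216.TE

/-! ### one variable: `alph 0 L` is `C¹`-close to `expNegInvGlue` -/

lemma qq_zero (L u : ℝ) : Prof.qq 0 L u = 1 - Real.exp (-(2 * L)) := by
  simp [Prof.qq]

lemma alph_zero (L u : ℝ) : Prof.alph 0 L u =
    expNegInvGlue u * (Real.smoothTransition (2 * L * u - 1) *
      Real.sqrt (1 - Real.exp (-(2 * L)))) := by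
  rw [Prof.alph, qq_zero]

lemma sqrt_gap {L : ℝ} (hL : 0 ≤ L) : 0 ≤ Real.sqrt (1 - Real.exp (-(2 * L))) ∧
    Real.sqrt (1 - Real.exp (-(2 * L))) ≤ 1 ∧
    1 - Real.sqrt (1 - Real.exp (-(2 * L))) ≤ Real.exp (-L) := by
  have h0 := Prof.one_sub_exp_nonneg hL
  have hE := Real.exp_pos (-(2 * L))
  have hE1 : Real.exp (-L) ≤ 1 := Real.exp_le_one_iff.2 (by linarith)
  refine ⟨Real.sqrt_nonneg _, Real.sqrt_le_one.2 (by linarith), ?_⟩
  have h1 : 1 - Real.exp (-L) ≤ Real.sqrt (1 - Real.exp (-(2 * L))) := by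
    refine Real.le_sqrt_of_sq_le ?_
    have e : Real.exp (-(2 * L)) = Real.exp (-L) ^ 2 := by
      rw [← Real.exp_nat_mul]; congr 1; push_cast; ring
    rw [e]
    have := Real.exp_pos (-L)
    nlinarith
  linarith

lemma glue_small {L u : ℝ} (_hL : 0 < L) (h : u < L⁻¹) : expNegInvGlue u ≤ Real.exp (-L) := by
  rcases le_or_gt u 0 with hu | hu
  · rw [expNegInvGlue.zero_of_nonpos hu]; exact (Real.exp_pos _).le
  · rw [Prof.glue_eq hu]
    refine Real.exp_le_exp.2 (neg_le_neg ?_)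
    rw [← inv_inv L]
    exact inv_anti₀ hu h.le

lemma alph_close0 {L u : ℝ} (hL : 1 ≤ L) :
    |Prof.alph 0 L u - expNegInvGlue u| ≤ 2 * Real.exp (-L) := by
  have hL0 : 0 < L := by linarith
  obtain ⟨h1, h2, h3⟩ := sqrt_gap hL0.le
  set s := Real.sqrt (1 - Real.exp (-(2 * L)))
  have he := expNegInvGlue.nonneg u
  have he1 := Prof.glue_le_one u
  have hE := Real.exp_pos (-L)
  have hst := Real.smoothTransition.nonneg (2 * L * u - 1)
  have hst1 := Real.smoothTransition.le_one (2 * L * u - 1)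
  rw [alph_zero]
  rcases lt_or_ge u L⁻¹ with hu | hu
  · have h4 := glue_small hL0 hu
    have h5 : 0 ≤ Real.smoothTransition (2 * L * u - 1) * s := mul_nonneg hst h1
    have h6 : Real.smoothTransition (2 * L * u - 1) * s ≤ 1 := by nlinarith
    rw [abs_le]
    constructor <;> nlinarith
  · have h4 : Real.smoothTransition (2 * L * u - 1) = 1 := by
      refine Real.smoothTransition.one_of_one_le ?_
      have : 1 ≤ L * u := by rwa [inv_le_iff_one_le_mul₀' hL0] at hu
      linarith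
    rw [h4, one_mul, abs_le]
    constructor <;> nlinarith

lemma deriv_alph_close : ∃ C : ℝ, 0 ≤ C ∧ ∀ L u : ℝ, 1 ≤ L →
    |deriv (Prof.alph 0 L) u - deriv expNegInvGlue u| ≤ C * (L ^ 2 * Real.exp (-L)) := by
  obtain ⟨C1, hC1, h1⟩ := Prof.glue_bound' 1
  obtain ⟨C2, hC2, h2⟩ := Prof.st_bdd 1
  refine ⟨2 * C1 + 2 * C1 + 2 * C2, by positivity, fun L u hL => ?_⟩
  have hL0 : 0 < L := by linarith
  obtain ⟨g1, g2, g3⟩ := sqrt_gap hL0.le
  have hE := Real.exp_pos (-L)
  set s := Real.sqrt (1 - Real.exp (-(2 * L))) with hs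
  have he := expNegInvGlue.nonneg u
  have he1 := Prof.glue_le_one u
  have hst := Real.smoothTransition.nonneg (2 * L * u - 1)
  have hst1 := Real.smoothTransition.le_one (2 * L * u - 1)
  have dE : HasDerivAt expNegInvGlue (deriv expNegInvGlue u) u :=
    ((expNegInvGlue.contDiff (n := 1)).differentiable (by norm_num)).differentiableAt.hasDerivAt
  have dS : HasDerivAt Real.smoothTransition (deriv Real.smoothTransition (2 * L * u - 1))
      (2 * L * u - 1) :=
    ((Real.smoothTransition.contDiff (n := 1)).differentiable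
      (by norm_num)).differentiableAt.hasDerivAt
  have dA : HasDerivAt (fun u : ℝ => 2 * L * u - 1) (2 * L) u := by
    simpa using ((hasDerivAt_id u).const_mul (2 * L)).sub_const 1
  have dSA : HasDerivAt (fun u : ℝ => Real.smoothTransition (2 * L * u - 1))
      (deriv Real.smoothTransition (2 * L * u - 1) * (2 * L)) u :=
    HasDerivAt.comp (h₂ := Real.smoothTransition) (h := fun u : ℝ => 2 * L * u - 1) u dS dA
  have dT := dE.mul (dSA.mul_const s)
  have e1 : deriv (Prof.alph 0 L) u = deriv expNegInvGlue u *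
      (Real.smoothTransition (2 * L * u - 1) * s) +
      expNegInvGlue u * (deriv Real.smoothTransition (2 * L * u - 1) * (2 * L) * s) := by
    have : Prof.alph 0 L = fun u => expNegInvGlue u *
        (Real.smoothTransition (2 * L * u - 1) * s) := by
      funext v; rw [alph_zero]
    rw [this]
    exact dT.deriv
  have b1 : ∀ M : ℝ, 1 ≤ M → |deriv expNegInvGlue u| ≤
      C1 * M ^ 2 * (expNegInvGlue u + Real.exp (-M)) := by
    intro M hM
    have := h1 M u hM
    simpa using this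
  have b2 : |deriv Real.smoothTransition (2 * L * u - 1)| ≤ C2 := by
    have := h2 (2 * L * u - 1)
    simpa using this
  have hL2 : 1 ≤ L ^ 2 := one_le_pow₀ hL
  rw [e1]
  rcases lt_or_ge u L⁻¹ with hu | hu
  · have h4 := glue_small hL0 hu
    have h5 : 0 ≤ Real.smoothTransition (2 * L * u - 1) * s := mul_nonneg hst g1
    have h6 : Real.smoothTransition (2 * L * u - 1) * s ≤ 1 := by nlinarith
    have b3 := b1 L hL
    have b4 : |deriv expNegInvGlue u| ≤ 2 * C1 * (L ^ 2 * Real.exp (-L)) := by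
      refine b3.trans ?_
      have : 0 ≤ C1 * L ^ 2 := by positivity
      nlinarith
    have e2 : deriv expNegInvGlue u * (Real.smoothTransition (2 * L * u - 1) * s) +
        expNegInvGlue u * (deriv Real.smoothTransition (2 * L * u - 1) * (2 * L) * s)
        - deriv expNegInvGlue u =
        deriv expNegInvGlue u * (Real.smoothTransition (2 * L * u - 1) * s - 1) +
        expNegInvGlue u * (deriv Real.smoothTransition (2 * L * u - 1) * (2 * L) * s) := by ring
    rw [e2]
    have b5 : |deriv expNegInvGlue u * (Real.smoothTransition (2 * L * u - 1) * s - 1)| ≤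
        2 * C1 * (L ^ 2 * Real.exp (-L)) := by
      rw [abs_mul]
      have : |Real.smoothTransition (2 * L * u - 1) * s - 1| ≤ 1 := by
        rw [abs_le]; constructor <;> linarith
      calc _ ≤ |deriv expNegInvGlue u| * 1 :=
            mul_le_mul_of_nonneg_left this (abs_nonneg _)
        _ ≤ _ := by rw [mul_one]; exact b4
    have b6 : |expNegInvGlue u * (deriv Real.smoothTransition (2 * L * u - 1) * (2 * L) * s)| ≤
        2 * C2 * (L ^ 2 * Real.exp (-L)) := by
      rw [abs_mul, abs_mul, abs_mul, abs_of_nonneg he, abs_of_nonneg g1,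
        abs_of_nonneg (show 0 ≤ 2 * L by positivity)]
      calc expNegInvGlue u * (|deriv Real.smoothTransition (2 * L * u - 1)| * (2 * L) * s)
          ≤ Real.exp (-L) * (C2 * (2 * L) * 1) := by
            refine mul_le_mul h4 ?_ (by positivity) hE.le
            exact mul_le_mul (mul_le_mul_of_nonneg_right b2 (by positivity)) g2 g1 (by positivity)
        _ = 2 * C2 * (L * Real.exp (-L)) := by ring
        _ ≤ 2 * C2 * (L ^ 2 * Real.exp (-L)) := by
            refine mul_le_mul_of_nonneg_left ?_ (by positivity)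
            exact mul_le_mul_of_nonneg_right (by nlinarith) hE.le
    have h9 : 0 ≤ 2 * C1 * (L ^ 2 * Real.exp (-L)) := by positivity
    calc _ ≤ _ := abs_add_le _ _
      _ ≤ _ := add_le_add b5 b6
      _ ≤ _ := by nlinarith
  · have h7 : 1 ≤ L * u := by rwa [inv_le_iff_one_le_mul₀' hL0] at hu
    have h4 : Real.smoothTransition (2 * L * u - 1) = 1 :=
      Real.smoothTransition.one_of_one_le (by linarith)
    have h8 : deriv Real.smoothTransition (2 * L * u - 1) = 0 := by
      have hm : IsLocalMax Real.smoothTransition (2 * L * u - 1) := by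
        filter_upwards with y
        rw [h4]; exact Real.smoothTransition.le_one y
      exact hm.deriv_eq_zero
    rw [h4, h8]
    have e2 : deriv expNegInvGlue u * (1 * s) + expNegInvGlue u * (0 * (2 * L) * s)
        - deriv expNegInvGlue u = deriv expNegInvGlue u * (s - 1) := by ring
    rw [e2, abs_mul]
    have b5 : |deriv expNegInvGlue u| ≤ 2 * C1 := by
      have := b1 1 le_rfl
      refine this.trans ?_
      have : Real.exp (-1 : ℝ) ≤ 1 := Real.exp_le_one_iff.2 (by norm_num)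
      nlinarith [Real.exp_pos (-1 : ℝ)]
    have b6 : |s - 1| ≤ Real.exp (-L) := by
      rw [abs_le]; constructor <;> linarith
    calc |deriv expNegInvGlue u| * |s - 1| ≤ (2 * C1) * Real.exp (-L) :=
          mul_le_mul b5 b6 (abs_nonneg _) (by positivity)
      _ ≤ (2 * C1) * (L ^ 2 * Real.exp (-L)) := by
          refine mul_le_mul_of_nonneg_left ?_ (by positivity)
          nlinarith
      _ ≤ _ := by
          have : 0 ≤ (2 * C1 + 2 * C2) * (L ^ 2 * Real.exp (-L)) := by positivity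
          nlinarith

/-! ### parameters -/

lemma log_ge_one {h : ℝ} (h0 : 0 < h) (h1 : h ≤ 1 / 3) : 1 ≤ Real.log (1 / h) := by
  have : (3 : ℝ) ≤ 1 / h := by rw [le_div_iff₀ h0]; linarith
  rw [Real.le_log_iff_exp_le (by positivity)]
  exact le_trans (by have := Real.exp_one_lt_d9; linarith) this

lemma Lp_ge {c : ℕ} (hc : 1 ≤ c) {h : ℝ} (h0 : 0 < h) (h1 : h ≤ 1 / 3) : 1 ≤ Lp c h := by
  have h2 := log_ge_one h0 h1
  have h3 : (1:ℝ) ≤ c := by exact_mod_cast hc
  unfold Lp; nlinarith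

lemma exp_Lp (c : ℕ) {h : ℝ} (h0 : 0 < h) : Real.exp (-Lp c h) = h ^ c := by
  unfold Lp
  rw [one_div, Real.log_inv, mul_neg, neg_neg, mul_comm, Real.exp_mul, Real.exp_log h0,
    Real.rpow_natCast]

/-- polylogarithms are dominated by `Λ = h^{-1/10}` -/
lemma log_cost {h : ℝ} (h0 : 0 < h) (h1 : h ≤ 1 / 3) :
    Real.log (1 / h) ^ 3 ≤ 30 ^ 3 * h ^ (-(1 / 10 : ℝ)) := by
  have h2 := log_ge_one h0 h1
  have h3 := Real.log_le_rpow_div (x := 1 / h) (by positivity) (ε := 1 / 30) (by norm_num)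
  have h4 : (1 / h) ^ (1 / 30 : ℝ) / (1 / 30) = 30 * (1 / h) ^ (1 / 30 : ℝ) := by ring
  rw [h4] at h3
  calc Real.log (1 / h) ^ 3 ≤ (30 * (1 / h) ^ (1 / 30 : ℝ)) ^ 3 :=
        pow_le_pow_left₀ (by linarith) h3 3
    _ = 30 ^ 3 * ((1 / h) ^ (1 / 30 : ℝ)) ^ 3 := by rw [mul_pow]
    _ = 30 ^ 3 * h ^ (-(1 / 10 : ℝ)) := by
        rw [← Real.rpow_natCast ((1 / h) ^ (1 / 30 : ℝ)) 3, ← Real.rpow_mul (by positivity),
          one_div, Real.inv_rpow h0.le, ← Real.rpow_neg h0.le]
        norm_num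

lemma profDom_pos {u : X2 → ℝ} {L' K : ℝ} (hL : 1 ≤ L') (hK : 0 < K) {x : X2}
    (hx : x ∈ profDom u L' K) : 0 < u x := by
  have h1 : K⁻¹ < 2 * L' * u x - 1 := hx
  have h2 : 0 < K⁻¹ := inv_pos.2 hK
  by_contra hc
  have : L' * u x ≤ 0 := mul_nonpos_of_nonneg_of_nonpos (by linarith) (not_lt.1 hc)
  nlinarith

section fam
variable {u β : X2 → ℝ} {c N : ℕ} {h0 : ℝ}

lemma famM_sub (ha : AmpHyp u β) (hc : 1 ≤ c) (hN : 1 ≤ N) (i : MIx h0) :
    (famM u ha.hu.continuous c N h0).D i ⊆ {x | 0 < u x} := by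
  intro x hx
  have h1 := Lp_ge hc i.2.1 i.2.2.2
  have h2 := Lp_ge hN i.2.1 i.2.2.2
  exact profDom_pos h1 (by linarith) hx

/-- cost of the parameters -/
lemma cost_M (c N : ℕ) (h0 : ℝ) : ∃ C : ℝ, 0 < C ∧ ∀ i : MIx h0,
    (1 + Lp c i.1) ^ 3 ≤ C * i.1 ^ (-(1 / 10 : ℝ)) ∧
    (2 * Lp N i.1) ^ 2 * (1 + Lp c i.1) ≤ C * i.1 ^ (-(1 / 10 : ℝ)) := by
  refine ⟨((1 + c) ^ 3 + (2 * N) ^ 2 * (1 + c)) * 30 ^ 3, by positivity, fun i => ?_⟩
  obtain ⟨h, hh0, hh1, hh2⟩ := i
  simp only
  have h1 := log_ge_one hh0 hh2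
  have h2 := log_cost hh0 hh2
  have hc : (0:ℝ) ≤ c := Nat.cast_nonneg c
  have hN : (0:ℝ) ≤ N := Nat.cast_nonneg N
  have hL : 0 ≤ h ^ (-(1 / 10 : ℝ)) := by positivity
  set l := Real.log (1 / h)
  have h3 : 1 + Lp c h ≤ (1 + c) * l := by unfold Lp; nlinarith
  have h4 : 0 ≤ 1 + Lp c h := by unfold Lp; positivity
  have h5 : l ^ 2 * l ≤ 30 ^ 3 * h ^ (-(1 / 10 : ℝ)) := by
    have : l ^ 2 * l = l ^ 3 := by ring
    rw [this]; exact h2
  constructor
  · calc (1 + Lp c h) ^ 3 ≤ ((1 + c) * l) ^ 3 := pow_le_pow_left₀ h4 h3 3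
      _ = (1 + c) ^ 3 * l ^ 3 := by ring
      _ ≤ (1 + c) ^ 3 * (30 ^ 3 * h ^ (-(1 / 10 : ℝ))) :=
          mul_le_mul_of_nonneg_left h2 (by positivity)
      _ ≤ _ := by
          have : 0 ≤ (2 * (N:ℝ)) ^ 2 * (1 + c) * (30 ^ 3 * h ^ (-(1 / 10 : ℝ))) := by positivity
          nlinarith
  · calc (2 * Lp N h) ^ 2 * (1 + Lp c h) ≤ (2 * Lp N h) ^ 2 * ((1 + c) * l) :=
          mul_le_mul_of_nonneg_left h3 (by positivity)
      _ = (2 * N) ^ 2 * (1 + c) * (l ^ 2 * l) := by unfold Lp; ring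
      _ ≤ (2 * N) ^ 2 * (1 + c) * (30 ^ 3 * h ^ (-(1 / 10 : ℝ))) :=
          mul_le_mul_of_nonneg_left h5 (by positivity)
      _ ≤ _ := by
          have : 0 ≤ (1 + (c:ℝ)) ^ 3 * (30 ^ 3 * h ^ (-(1 / 10 : ℝ))) := by positivity
          nlinarith

lemma profHyp_M (ha : AmpHyp u β) (hc : 1 ≤ c) (hN : 1 ≤ N) (h0 : ℝ) :
    ProfHyp (famM u ha.hu.continuous c N h0) (closure {x | 0 < u x}) u β
      (fun _ => 0) (fun i => Lp c i.1) (fun i => 2 * Lp N i.1) where
  compact := ha.cpt
  sub i := (famM_sub ha hc hN i).trans subset_closure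
  u_smooth := ha.hu
  β_smooth := ha.hβ
  β_pos := ha.pos
  adm i := ⟨le_rfl, by have := Lp_ge hc i.2.1 i.2.2.2; linarith, Lp_ge hc i.2.1 i.2.2.2⟩
  K_ge i := by have := Lp_ge hN i.2.1 i.2.2.2; linarith
  dom i x hx := le_of_lt hx
  cost := cost_M c N h0

/-- the macro family with its amplitude, `η = h` -/
noncomputable def efamM (ha : AmpHyp u β) (hc : 1 ≤ c) (hN : 1 ≤ N) (h0 : ℝ) : EFam where
  toFam := famM u ha.hu.continuous c N h0
  a i := am u β c i.1
  η i := i.1
  a_pos i x hx := by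
    have h1 := (profHyp_M ha hc hN h0).adm i
    have h2 : 0 < (2 * Lp N i.1)⁻¹ := by
      have := Lp_ge hN i.2.1 i.2.2.2
      positivity
    have h3 : (2 * Lp N i.1)⁻¹ < 2 * Lp c i.1 * u x - 1 := hx
    exact mul_pos (Prof.alph_pos h1 (by linarith)) (ha.pos x)
  a_le := by
    obtain ⟨C, hC⟩ := ha.cpt.exists_bound_of_continuousOn ha.hβ.continuous.continuousOn
    refine ⟨|C| + 1, by positivity, fun i x hx => ?_⟩
    have h1 := (profHyp_M ha hc hN h0).adm i
    have h2 := hC x (subset_closure (famM_sub ha hc hN i hx))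
    rw [Real.norm_eq_abs, abs_of_pos (ha.pos x)] at h2
    have h3 := (Prof.alph_le_glue h1 (u x)).trans (Prof.glue_le_one (u x))
    have h4 := Prof.alph_nonneg 0 (Lp c i.1) (u x)
    have h5 := ha.pos x
    show Prof.alph 0 (Lp c i.1) (u x) * β x ≤ _
    calc _ ≤ 1 * C := mul_le_mul h3 h2 h5.le zero_le_one
      _ ≤ _ := by rw [one_mul]; linarith [le_abs_self C]
  η_pos i := i.2.1
  Lam_η i := by
    have h0 := i.2.1
    show (i.1 ^ (-(1 / 10 : ℝ))) ^ 10 * i.1 ≤ 1
    rw [← Real.rpow_natCast, ← Real.rpow_mul h0.le]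
    norm_num
    rw [Real.rpow_neg_one, inv_mul_cancel₀ h0.ne']
  a_B := (profHyp_M ha hc hN h0).amp_B

end fam

/-! ### closeness of the amplitudes -/

lemma am_close {u β : X2 → ℝ} (ha : AmpHyp u β) {c : ℕ} (hc : 1 ≤ c) {r : ℝ} (hr : 0 < r) :
    ∃ h0 : ℝ, 0 < h0 ∧ ∀ h : ℝ, 0 < h → h < h0 → h ≤ 1 / 3 → ∀ x ∈ closure {x | 0 < u x},
      |am u β c h x - ampX u β x| ≤ r ∧
      |d2 (am u β c h) x - d2 (ampX u β) x| ≤ r := by
  obtain ⟨Cb, hCb⟩ := ha.cpt.exists_bound_of_continuousOn ha.hβ.continuous.continuousOn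
  have hdβ : Continuous (d2 β) := by
    unfold d2
    exact ((ha.hβ.continuous_fderiv (by simp)).clm_apply continuous_const)
  have hdu : Continuous (d2 u) := by
    unfold d2
    exact ((ha.hu.continuous_fderiv (by simp)).clm_apply continuous_const)
  obtain ⟨Cb', hCb'⟩ := ha.cpt.exists_bound_of_continuousOn hdβ.continuousOn
  obtain ⟨Cu, hCu⟩ := ha.cpt.exists_bound_of_continuousOn hdu.continuousOn
  obtain ⟨Cd, hCd0, hCd⟩ := deriv_alph_close
  set M : ℝ := 1 + |Cb| + |Cb'| + |Cu| + Cd with hM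
  have a1 := abs_nonneg Cb
  have a2 := abs_nonneg Cb'
  have a3 := abs_nonneg Cu
  have hM1 : 1 ≤ M := by rw [hM]; linarith
  have hM0 : 0 < M := by linarith
  set G : ℝ := 4 * M + 8 * M ^ 3 with hG
  have hG0 : 0 < G := by positivity
  refine ⟨(r / G) ^ 2, by positivity, fun h h1 h2 h3 x hx => ?_⟩
  have hs : Real.sqrt h < r / G := by
    rw [Real.sqrt_lt' (by positivity)]; exact h2
  have hsG : G * Real.sqrt h ≤ r := by
    have := (lt_div_iff₀ hG0).1 hs
    linarith
  have hs0 : 0 < Real.sqrt h := Real.sqrt_pos.2 h1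
  have hss : h ≤ Real.sqrt h := by
    have h4 := Real.mul_self_sqrt h1.le
    have h5 : Real.sqrt h ≤ 1 := Real.sqrt_le_one.2 (by linarith)
    nlinarith
  have hL1 := Lp_ge hc h1 h3
  set L' := Lp c h with hL'
  have hE : Real.exp (-L') ≤ h := by
    rw [hL', exp_Lp c h1]
    calc h ^ c ≤ h ^ 1 := pow_le_pow_of_le_one h1.le (by linarith) hc
      _ = h := pow_one h
  have hE2 : L' ^ 2 * Real.exp (-L') ≤ 8 * Real.sqrt h := by
    have h4 : L' ^ 2 ≤ 8 * Real.exp (L' / 2) := by
      have := Real.quadratic_le_exp_of_nonneg (x := L' / 2) (by linarith)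
      nlinarith
    have h5 : Real.exp (L' / 2) * Real.exp (-L') = Real.exp (-L' / 2) := by
      rw [← Real.exp_add]; congr 1; ring
    have h6 : Real.exp (-L' / 2) ≤ Real.sqrt h := by
      refine Real.le_sqrt_of_sq_le ?_
      rw [← Real.exp_nat_mul]
      have : ((2:ℕ):ℝ) * (-L' / 2) = -L' := by push_cast; ring
      rw [this]; exact hE
    calc L' ^ 2 * Real.exp (-L') ≤ (8 * Real.exp (L' / 2)) * Real.exp (-L') :=
          mul_le_mul_of_nonneg_right h4 (Real.exp_pos _).le
      _ = 8 * Real.exp (-L' / 2) := by rw [mul_assoc, h5]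
      _ ≤ _ := by linarith
  have hβx : |β x| ≤ M := by
    have := hCb x hx
    rw [Real.norm_eq_abs] at this
    linarith [le_abs_self Cb]
  have hβx' : |d2 β x| ≤ M := by
    have := hCb' x hx
    rw [Real.norm_eq_abs] at this
    linarith [le_abs_self Cb']
  have hux' : |d2 u x| ≤ M := by
    have := hCu x hx
    rw [Real.norm_eq_abs] at this
    linarith [le_abs_self Cu]
  have c0 := alph_close0 (u := u x) hL1
  have c1 := hCd L' (u x) hL1
  have c0' : |Prof.alph 0 L' (u x) - expNegInvGlue (u x)| ≤ 2 * Real.sqrt h := by linarith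
  have c1' : |deriv (Prof.alph 0 L') (u x) - deriv expNegInvGlue (u x)| ≤
      8 * M * Real.sqrt h := by
    refine c1.trans ?_
    have hCdM : Cd ≤ M := by rw [hM]; linarith
    calc Cd * (L' ^ 2 * Real.exp (-L')) ≤ M * (8 * Real.sqrt h) :=
          mul_le_mul hCdM hE2 (by positivity) hM0.le
      _ = _ := by ring
  constructor
  · have e : am u β c h x - ampX u β x = (Prof.alph 0 L' (u x) - expNegInvGlue (u x)) * β x := by
      simp only [am, amp, ampX, ← hL']; ring
    rw [e, abs_mul]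
    have t1 := mul_le_mul c0' hβx (abs_nonneg _) (by positivity)
    have t3 : 0 ≤ (2 * M + 8 * M ^ 3) * Real.sqrt h := by positivity
    have t4 : G * Real.sqrt h = 2 * Real.sqrt h * M + (2 * M + 8 * M ^ 3) * Real.sqrt h := by
      rw [hG]; ring
    linarith
  · have dβ : HasFDerivAt β (fderiv ℝ β x) x :=
      ((ha.hβ.differentiable (by simp)).differentiableAt).hasFDerivAt
    have du : HasFDerivAt u (fderiv ℝ u x) x :=
      ((ha.hu.differentiable (by simp)).differentiableAt).hasFDerivAt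
    have key : ∀ g : ℝ → ℝ, Differentiable ℝ g →
        d2 (fun y => g (u y) * β y) x = deriv g (u x) * d2 u x * β x + g (u x) * d2 β x := by
      intro g hg
      have dg : HasDerivAt g (deriv g (u x)) (u x) := hg.differentiableAt.hasDerivAt
      have h4 : HasFDerivAt (fun y => g (u y)) (deriv g (u x) • fderiv ℝ u x) x :=
        dg.comp_hasFDerivAt x du
      have h5 : fderiv ℝ (fun y => g (u y) * β y) x =
          g (u x) • fderiv ℝ β x + β x • deriv g (u x) • fderiv ℝ u x := (h4.mul dβ).fderiv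
      simp only [d2]
      rw [h5]
      simp only [add_apply, smul_apply, smul_eq_mul]
      ring
    have k1 := key (Prof.alph 0 L') ((Prof.contDiff_alph
      ⟨le_rfl, by linarith, hL1⟩).differentiable (by simp))
    have k2 := key expNegInvGlue ((expNegInvGlue.contDiff (n := 1)).differentiable (by norm_num))
    have e1 : am u β c h = fun y => Prof.alph 0 L' (u y) * β y := by
      funext y; simp only [am, amp, ← hL']
    have e2 : ampX u β = fun y => expNegInvGlue (u y) * β y := rfl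
    rw [e1, e2, k1, k2]
    have e3 : deriv (Prof.alph 0 L') (u x) * d2 u x * β x + Prof.alph 0 L' (u x) * d2 β x
        - (deriv expNegInvGlue (u x) * d2 u x * β x + expNegInvGlue (u x) * d2 β x) =
        (deriv (Prof.alph 0 L') (u x) - deriv expNegInvGlue (u x)) * (d2 u x * β x)
        + (Prof.alph 0 L' (u x) - expNegInvGlue (u x)) * d2 β x := by ring
    rw [e3]
    refine (abs_add_le _ _).trans ?_
    rw [abs_mul, abs_mul (d2 u x), abs_mul]
    have t1 : |deriv (Prof.alph 0 L') (u x) - deriv expNegInvGlue (u x)| * (|d2 u x| * |β x|) ≤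
        (8 * M * Real.sqrt h) * (M * M) :=
      mul_le_mul c1' (mul_le_mul hux' hβx (abs_nonneg _) hM0.le) (by positivity) (by positivity)
    have t2 : |Prof.alph 0 L' (u x) - expNegInvGlue (u x)| * |d2 β x| ≤ (2 * Real.sqrt h) * M :=
      mul_le_mul c0' hβx' (abs_nonneg _) (by positivity)
    have t3 : 0 ≤ M * Real.sqrt h := by positivity
    have t4 : G * Real.sqrt h = (8 * M * Real.sqrt h) * (M * M) + (2 * Real.sqrt h) * M
        + 2 * (M * Real.sqrt h) := by rw [hG]; ring
    linarith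

end Crest.Agent.R216.TE
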