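import Crest.Agent.R216.Cut
import Crest.Agent.R216.MacAmp
import Crest.Agent.R216.EngGood

/-!
# Row 216, Theorem E, MACRO: second derivatives of the cut-off map and sizes of its pieces
(helper35).
-/

open Set Topology
open scoped ContDiff

set_option linter.unusedSectionVars false

namespace Crest.Agent.R216.TE

/-! ### `d1`, `d2` calculus -/

section calculus
variable {V : Type*} [NormedAddCommGroup V] [NormedSpace ℝ V] {f g : X2 → V} {x : X2}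

lemma d1_congr (h : f =ᶠ[𝓝 x] g) : d1 f x = d1 g x := by unfold d1; rw [h.fderiv_eq]
lemma d2_congr (h : f =ᶠ[𝓝 x] g) : d2 f x = d2 g x := by unfold d2; rw [h.fderiv_eq]

lemma d1_add_at (hf : DifferentiableAt ℝ f x) (hg : DifferentiableAt ℝ g x) :
    d1 (fun y => f y + g y) x = d1 f x + d1 g x := by
  unfold d1; rw [fderiv_fun_add hf hg]; rfl

lemma d2_add_at (hf : DifferentiableAt ℝ f x) (hg : DifferentiableAt ℝ g x) :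
    d2 (fun y => f y + g y) x = d2 f x + d2 g x := by
  unfold d2; rw [fderiv_fun_add hf hg]; rfl

lemma contDiff_d1' (hf : ContDiff ℝ ∞ f) : ContDiff ℝ ∞ (d1 f) := by
  unfold d1
  exact (hf.fderiv_right (m := ∞) (by simp)).clm_apply contDiff_const

lemma contDiff_d2' (hf : ContDiff ℝ ∞ f) : ContDiff ℝ ∞ (d2 f) := by
  unfold d2
  exact (hf.fderiv_right (m := ∞) (by simp)).clm_apply contDiff_const

/-- symmetry of the mixed derivative -/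
lemma d1_d2_comm' (hf : ContDiff ℝ ∞ f) (x : X2) : d1 (d2 f) x = d2 (d1 f) x := by
  have hsym : IsSymmSndFDerivAt ℝ f x := by
    refine (hf.contDiffAt (x := x)).isSymmSndFDerivAt ?_
    rw [minSmoothness_of_isRCLikeNormedField]
    exact WithTop.coe_le_coe.2 le_top
  have hd : DifferentiableAt ℝ (fderiv ℝ f) x :=
    (hf.fderiv_right (m := ∞) (by simp)).differentiable (by simp) x
  have e1 : d2 (d1 f) x = fderiv ℝ (fderiv ℝ f) x (0, 1) (1, 0) := by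
    have := (hd.hasFDerivAt.clm_apply (hasFDerivAt_const ((1 : ℝ), (0 : ℝ)) x)).fderiv
    have e : d1 f = fun y => (fderiv ℝ f y) (1, 0) := rfl
    rw [d2, e, this]
    simp
  have e2 : d1 (d2 f) x = fderiv ℝ (fderiv ℝ f) x (1, 0) (0, 1) := by
    have := (hd.hasFDerivAt.clm_apply (hasFDerivAt_const ((0 : ℝ), (1 : ℝ)) x)).fderiv
    have e : d2 f = fun y => (fderiv ℝ f y) (0, 1) := rfl
    rw [d1, e, this]
    simp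
  rw [e1, e2]
  exact hsym.eq _ _

end calculus

namespace EData
variable {𝓔 : EFam} {d : EData 𝓔} {F : 𝓔.I → Q → E4} {θ : 𝓔.I → X2 → ℝ}
open Cut

/-- second derivatives of the cut-off map on `D i` -/
theorem CutHyp.dd (h : d.CutHyp F θ) (i : 𝓔.I) (t0 : ℝ) {x : X2} (hx : x ∈ 𝓔.D i) :
    d2 (d2 (d.cutMap F θ i t0)) x = d2 (d2 (d.f i)) x
      + pd 1 (𝓔.A2 (d.cutU F θ) i) (x, x.1 / 𝓔.eps i + t0) ∧
    d2 (d1 (d.cutMap F θ i t0)) x = d2 (d1 (d.f i)) x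
      + pd 1 (𝓔.A1 (d.cutU F θ) i) (x, x.1 / 𝓔.eps i + t0) ∧
    d1 (d1 (d.cutMap F θ i t0)) x = d1 (d1 (d.f i)) x
      + pd 0 (𝓔.A1 (d.cutU F θ) i) (x, x.1 / 𝓔.eps i + t0)
      + (𝓔.eps i)⁻¹ • pd 2 (𝓔.A1 (d.cutU F θ) i) (x, x.1 / 𝓔.eps i + t0) := by
  have ho : ∀ᶠ y in 𝓝 x, y ∈ 𝓔.D i := (𝓔.isOpen i).mem_nhds hx
  have e1 : d1 (d.cutMap F θ i t0) =ᶠ[𝓝 x] fun y =>
      d1 (d.f i) y + 𝓔.A1 (d.cutU F θ) i (y, y.1 / 𝓔.eps i + t0) :=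
    ho.mono fun y hy => h.d1_eq i t0 hy
  have e2 : d2 (d.cutMap F θ i t0) =ᶠ[𝓝 x] fun y =>
      d2 (d.f i) y + 𝓔.A2 (d.cutU F θ) i (y, y.1 / 𝓔.eps i + t0) :=
    ho.mono fun y hy => h.d2_eq i t0 hy
  have s1 : DifferentiableAt ℝ (d1 (d.f i)) x :=
    (contDiff_d1' (h.fsm i)).differentiable (by simp) x
  have s2 : DifferentiableAt ℝ (d2 (d.f i)) x :=
    (contDiff_d2' (h.fsm i)).differentiable (by simp) x
  have sA1 := (B_A1_cutU h).smooth i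
  have sA2 := (B_A2_cutU h).smooth i
  have hev : ContDiff ℝ ∞ (fun x : X2 => ((x, x.1 / 𝓔.eps i + t0) : Q)) := by fun_prop
  have c1 : DifferentiableAt ℝ (fun y : X2 =>
      𝓔.A1 (d.cutU F θ) i (y, y.1 / 𝓔.eps i + t0)) x := by
    have : ContDiffOn ℝ ∞ (fun y : X2 => 𝓔.A1 (d.cutU F θ) i (y, y.1 / 𝓔.eps i + t0)) (𝓔.D i) :=
      sA1.comp hev.contDiffOn (fun y hy => hy)
    exact (this.contDiffAt ((𝓔.isOpen i).mem_nhds hx)).differentiableAt (by simp)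
  have c2 : DifferentiableAt ℝ (fun y : X2 =>
      𝓔.A2 (d.cutU F θ) i (y, y.1 / 𝓔.eps i + t0)) x := by
    have : ContDiffOn ℝ ∞ (fun y : X2 => 𝓔.A2 (d.cutU F θ) i (y, y.1 / 𝓔.eps i + t0)) (𝓔.D i) :=
      sA2.comp hev.contDiffOn (fun y hy => hy)
    exact (this.contDiffAt ((𝓔.isOpen i).mem_nhds hx)).differentiableAt (by simp)
  refine ⟨?_, ?_, ?_⟩
  · rw [d2_congr e2, d2_add_at s2 c2, ev_d2 (𝓔.isOpen i) sA2 _ _ hx]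
  · rw [d2_congr e1, d2_add_at s1 c1, ev_d2 (𝓔.isOpen i) sA1 _ _ hx]
  · rw [d1_congr e1, d1_add_at s1 c1, ev_d1 (𝓔.isOpen i) sA1 _ _ hx, add_assoc]

theorem CutHyp.d12_comm (h : d.CutHyp F θ) (i : 𝓔.I) (t0 : ℝ) (x : X2) :
    d1 (d2 (d.cutMap F θ i t0)) x = d2 (d1 (d.cutMap F θ i t0)) x :=
  d1_d2_comm' (h.smooth i t0) x

namespace Cut

lemma θB0 (h : d.CutHyp F θ) : 𝓔.toFam.B (𝓔.W 0 0 0) (fun i => lift (θ i)) :=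
  h.θB.weight_congr (fun i x _ => by simp [EFam.W])

/-- `A2 (θ (F - f))` is of class `B(a η^16 Λ)` -/
lemma B_A2c (h : d.CutHyp F θ) : 𝓔.toFam.B (𝓔.W 1 16 1) (𝓔.A2 (d.cutU F θ)) := by
  have t1 := EFam.B_smul (θB0 h) (S4.B_SS h.hyp h.good)
  have t2 := EFam.B_smul (EFam.B_pd (θB0 h) 1) (B_sub h.good h.hyp)
  have t1' : 𝓔.toFam.B (𝓔.W 1 16 1) (fun i z => lift (θ i) z • S4.SS d F i z) :=
    EFam.B_le t1 (by omega) (by omega) (by omega)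
  have t2' : 𝓔.toFam.B (𝓔.W 1 16 1) (fun i z => pd 1 (lift (θ i)) z • (F i z - d.f i z.1)) :=
    EFam.B_le t2 (by omega) (by omega) (by omega)
  refine (t1'.add t2').congr (fun i z hz => ?_)
  rw [A2_cutU h hz, S4.A2_F h.hyp h.good i hz, add_sub_cancel_left]
  rfl

/-- where `θ = 1` near `z.1`, `A1 (θ (F - f)) = W + R` near `z` -/
lemma A1c_near (h : d.CutHyp F θ) {i : 𝓔.I} {z : Q} (hz : z ∈ 𝓔.toFam.dom i)
    (h1 : θ i =ᶠ[𝓝 z.1] 1) :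
    𝓔.A1 (d.cutU F θ) i =ᶠ[𝓝 z] fun z => d.Wl i z + S4.RR d F i z := by
  have ho : ∀ᶠ y in 𝓝 z, y ∈ 𝓔.toFam.dom i := (𝓔.toFam.isOpen_dom i).mem_nhds hz
  have h2 : ∀ᶠ y in 𝓝 z, θ i y.1 = 1 := continuous_fst.continuousAt.eventually h1
  filter_upwards [ho, h2] with y hy hy2
  rw [A1_cutU h hy, pdθ0 h hy2, hy2, one_smul, zero_smul, add_zero,
    S4.A1_F h.hyp h.good i hy]
  simp only [EData.w]
  abel

end Cut

/-- sizes of the pieces of the cut-off map -/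
theorem CutHyp.pieces (h : d.CutHyp F θ) : ∃ C : ℝ, 0 < C ∧
    (∀ i, ∀ z ∈ 𝓔.toFam.dom i,
      ‖𝓔.A1 (d.cutU F θ) i z‖ ≤ C * 𝓔.a i z.1 ∧
      ‖𝓔.A2 (d.cutU F θ) i z‖ ≤ C * 𝓔.a i z.1 * 𝓔.η i ^ 14 ∧
      ‖pd 1 (𝓔.A2 (d.cutU F θ) i) z‖ ≤ C * 𝓔.a i z.1 * 𝓔.η i ^ 14 ∧
      ‖pd 1 (𝓔.A1 (d.cutU F θ) i) z‖ ≤ C * 𝓔.a i z.1 * 𝓔.Lam i ∧
      ‖pd 2 (𝓔.A1 (d.cutU F θ) i) z‖ ≤ C * 𝓔.a i z.1 * 𝓔.Lam i ∧
      ‖𝓔.eps i • pd 0 (𝓔.A1 (d.cutU F θ) i) z‖ ≤ C * 𝓔.a i z.1 * 𝓔.η i ^ 14) ∧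
    (∀ i, ∀ z ∈ 𝓔.toFam.dom i, θ i =ᶠ[𝓝 z.1] 1 →
      ‖𝓔.A1 (d.cutU F θ) i z - d.Wl i z‖ ≤ C * 𝓔.a i z.1 * 𝓔.η i ^ 6 ∧
      ‖pd 1 (𝓔.A1 (d.cutU F θ) i) z - pd 1 (d.Wl i) z‖ ≤ C * 𝓔.a i z.1 * 𝓔.η i ^ 6 ∧
      ‖pd 2 (𝓔.A1 (d.cutU F θ) i) z - pd 2 (d.Wl i) z‖ ≤ C * 𝓔.a i z.1 * 𝓔.η i ^ 6) := by
  have b1 := B_A1_cutU h
  have b2 : 𝓔.toFam.B (𝓔.W 1 14 0) (𝓔.A2 (d.cutU F θ)) :=
    EFam.B_le (B_A2c h) le_rfl (by omega) (by omega)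
  have b3 : 𝓔.toFam.B (𝓔.W 1 14 0) (fun i => pd 1 (𝓔.A2 (d.cutU F θ) i)) :=
    EFam.B_le (EFam.B_pd (B_A2c h) 1) le_rfl (by omega) (by omega)
  have b4 : 𝓔.toFam.B (𝓔.W 1 0 1) (fun i => pd 1 (𝓔.A1 (d.cutU F θ) i)) := EFam.B_pd b1 1
  have b5 : 𝓔.toFam.B (𝓔.W 1 0 1) (fun i => pd 2 (𝓔.A1 (d.cutU F θ) i)) := EFam.B_pd b1 2
  have b6 : 𝓔.toFam.B (𝓔.W 1 14 0) (fun i z => 𝓔.eps i • pd 0 (𝓔.A1 (d.cutU F θ) i) z) :=
    EFam.B_le (EFam.B_eps (EFam.B_pd b1 0)) le_rfl (by omega) (by omega)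
  have bR := S4.B_RR h.hyp h.good
  have c1 : 𝓔.toFam.B (𝓔.W 1 6 0) (S4.RR d F) := EFam.B_le bR le_rfl (by omega) (by omega)
  have c2 : 𝓔.toFam.B (𝓔.W 1 6 0) (fun i => pd 1 (S4.RR d F i)) :=
    EFam.B_le (EFam.B_pd bR 1) le_rfl (by omega) (by omega)
  have c3 : 𝓔.toFam.B (𝓔.W 1 6 0) (fun i => pd 2 (S4.RR d F i)) :=
    EFam.B_le (EFam.B_pd bR 2) le_rfl (by omega) (by omega)
  obtain ⟨C1, k1, z1⟩ := b1.sz
  obtain ⟨C2, k2, z2⟩ := b2.sz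
  obtain ⟨C3, k3, z3⟩ := b3.sz
  obtain ⟨C4, k4, z4⟩ := b4.sz
  obtain ⟨C5, k5, z5⟩ := b5.sz
  obtain ⟨C6, k6, z6⟩ := b6.sz
  obtain ⟨D1, l1, y1⟩ := c1.sz
  obtain ⟨D2, l2, y2⟩ := c2.sz
  obtain ⟨D3, l3, y3⟩ := c3.sz
  set C := C1 + C2 + C3 + C4 + C5 + C6 + D1 + D2 + D3 with hC
  have key : ∀ {c : ℝ} (i : 𝓔.I) (x : X2) (m l : ℕ), x ∈ 𝓔.D i → c ≤ C →
      c * 𝓔.W 1 m l i x ≤ C * 𝓔.a i x * (𝓔.η i ^ m * 𝓔.Lam i ^ l) := by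
    intro c i x m l hx hc
    have hw : 𝓔.W 1 m l i x = 𝓔.a i x * (𝓔.η i ^ m * 𝓔.Lam i ^ l) := by
      simp only [EFam.W]; ring
    rw [hw, mul_assoc C]
    refine mul_le_mul_of_nonneg_right hc ?_
    rw [← hw]
    exact (EFam.W_pos 1 m l i hx).le
  refine ⟨C, by positivity, fun i z hz => ⟨?_, ?_, ?_, ?_, ?_, ?_⟩, fun i z hz h1 => ?_⟩
  · simpa using (z1 i z hz).trans (key i z.1 0 0 hz (by linarith))
  · simpa using (z2 i z hz).trans (key i z.1 14 0 hz (by linarith))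
  · simpa using (z3 i z hz).trans (key i z.1 14 0 hz (by linarith))
  · simpa using (z4 i z hz).trans (key i z.1 0 1 hz (by linarith))
  · simpa using (z5 i z hz).trans (key i z.1 0 1 hz (by linarith))
  · simpa using (z6 i z hz).trans (key i z.1 14 0 hz (by linarith))
  · have e := A1c_near h hz h1
    have dW : DifferentiableAt ℝ (d.Wl i) z := diffAt (𝓔.toFam.isOpen_dom i) (h.hyp.WB.smooth i) hz
    have dR : DifferentiableAt ℝ (S4.RR d F i) z :=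
      diffAt (𝓔.toFam.isOpen_dom i) (bR.smooth i) hz
    have p : ∀ j, pd j (𝓔.A1 (d.cutU F θ) i) z = pd j (d.Wl i) z + pd j (S4.RR d F i) z := by
      intro j
      rw [← S0.pd_add j dW dR]
      unfold pd
      rw [e.fderiv_eq]
    refine ⟨?_, ?_, ?_⟩
    · rw [e.eq_of_nhds, add_sub_cancel_left]
      simpa using (y1 i z hz).trans (key i z.1 6 0 hz (by linarith))
    · rw [p 1, add_sub_cancel_left]
      simpa using (y2 i z hz).trans (key i z.1 6 0 hz (by linarith))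
    · rw [p 2, add_sub_cancel_left]
      simpa using (y3 i z hz).trans (key i z.1 6 0 hz (by linarith))

/-! ### the same in terms of the map `cutMap` -/

/-- everywhere on `D i` -/
theorem CutHyp.close_crude (h : d.CutHyp F θ) : ∃ C : ℝ, 0 < C ∧
    ∀ (i : 𝓔.I) (t0 : ℝ) (x : X2), x ∈ 𝓔.D i →
      ‖d1 (d.cutMap F θ i t0) x - d1 (d.f i) x‖ ≤ C * 𝓔.a i x ∧
      ‖d2 (d.cutMap F θ i t0) x - d2 (d.f i) x‖ ≤ C * 𝓔.a i x * 𝓔.η i ^ 14 ∧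
      ‖d2 (d2 (d.cutMap F θ i t0)) x - d2 (d2 (d.f i)) x‖ ≤ C * 𝓔.a i x * 𝓔.η i ^ 14 ∧
      ‖d1 (d2 (d.cutMap F θ i t0)) x - d1 (d2 (d.f i)) x‖ ≤ C * 𝓔.a i x * 𝓔.Lam i ∧
      ‖𝓔.eps i • (d1 (d1 (d.cutMap F θ i t0)) x - d1 (d1 (d.f i)) x)‖
        ≤ C * 𝓔.a i x * 𝓔.Lam i := by
  obtain ⟨C, hC, hb, -⟩ := h.pieces
  refine ⟨2 * C, by positivity, fun i t0 x hx => ?_⟩
  obtain ⟨z1, z2, z3, z4, z5, z6⟩ := hb i (x, x.1 / 𝓔.eps i + t0) hx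
  obtain ⟨e1, e2, e3⟩ := h.dd i t0 hx
  have ha := 𝓔.a_pos i x hx
  have hη := 𝓔.η_pos i
  have hη1 : 𝓔.η i ^ 14 ≤ 1 := pow_le_one₀ hη.le (EFam.η_le_one i)
  have hL := 𝓔.one_le i
  have hCa : 0 < C * 𝓔.a i x := mul_pos hC ha
  have hw : 0 < C * 𝓔.a i x * 𝓔.η i ^ 14 := by positivity
  have hw' : 0 < C * 𝓔.a i x * 𝓔.Lam i := by
    have := lt_of_lt_of_le one_pos hL
    positivity
  refine ⟨?_, ?_, ?_, ?_, ?_⟩
  · rw [h.d1_eq i t0 hx, add_sub_cancel_left]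
    exact z1.trans (by linarith)
  · rw [h.d2_eq i t0 hx, add_sub_cancel_left]
    exact z2.trans (by linarith)
  · rw [e1, add_sub_cancel_left]
    exact z3.trans (by linarith)
  · rw [h.d12_comm, d1_d2_comm' (h.fsm i), e2, add_sub_cancel_left]
    exact z4.trans (by linarith)
  · rw [e3]
    have e : 𝓔.eps i • (d1 (d1 (d.f i)) x + pd 0 (𝓔.A1 (d.cutU F θ) i) (x, x.1 / 𝓔.eps i + t0)
        + (𝓔.eps i)⁻¹ • pd 2 (𝓔.A1 (d.cutU F θ) i) (x, x.1 / 𝓔.eps i + t0)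
        - d1 (d1 (d.f i)) x) = 𝓔.eps i • pd 0 (𝓔.A1 (d.cutU F θ) i) (x, x.1 / 𝓔.eps i + t0)
          + pd 2 (𝓔.A1 (d.cutU F θ) i) (x, x.1 / 𝓔.eps i + t0) := by
      simp only [smul_sub, smul_add, smul_smul, mul_inv_cancel₀ (EFam.eps_pos i).ne', one_smul]
      abel
    rw [e]
    refine (norm_add_le _ _).trans ((add_le_add z6 z5).trans ?_)
    have : C * 𝓔.a i x * 𝓔.η i ^ 14 ≤ C * 𝓔.a i x * 𝓔.Lam i :=
      mul_le_mul_of_nonneg_left (hη1.trans hL) hCa.le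
    simp only
    linarith

/-- where `θ = 1` -/
theorem CutHyp.close_one (h : d.CutHyp F θ) : ∃ C : ℝ, 0 < C ∧
    ∀ (i : 𝓔.I) (t0 : ℝ) (x : X2), x ∈ 𝓔.D i → θ i =ᶠ[𝓝 x] 1 →
      ‖d1 (d.cutMap F θ i t0) x - (d1 (d.f i) x + d.Wl i (x, x.1 / 𝓔.eps i + t0))‖
        ≤ C * 𝓔.a i x * 𝓔.η i ^ 6 ∧
      ‖d2 (d.cutMap F θ i t0) x - d2 (d.f i) x‖ ≤ C * 𝓔.a i x * 𝓔.η i ^ 6 ∧
      ‖d2 (d2 (d.cutMap F θ i t0)) x - d2 (d2 (d.f i)) x‖ ≤ C * 𝓔.a i x * 𝓔.η i ^ 6 ∧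
      ‖d1 (d2 (d.cutMap F θ i t0)) x
        - (d1 (d2 (d.f i)) x + pd 1 (d.Wl i) (x, x.1 / 𝓔.eps i + t0))‖
        ≤ C * 𝓔.a i x * 𝓔.η i ^ 6 ∧
      ‖𝓔.eps i • d1 (d1 (d.cutMap F θ i t0)) x - pd 2 (d.Wl i) (x, x.1 / 𝓔.eps i + t0)‖
        ≤ C * 𝓔.a i x * 𝓔.η i ^ 6 + 𝓔.eps i * ‖d1 (d1 (d.f i)) x‖ := by
  obtain ⟨C, hC, hb, hc⟩ := h.pieces
  refine ⟨2 * C, by positivity, fun i t0 x hx h1 => ?_⟩
  obtain ⟨z1, z2, z3, z4, z5, z6⟩ := hb i (x, x.1 / 𝓔.eps i + t0) hx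
  obtain ⟨y1, y2, y3⟩ := hc i (x, x.1 / 𝓔.eps i + t0) hx h1
  obtain ⟨e1, e2, e3⟩ := h.dd i t0 hx
  simp only at z1 z2 z3 z4 z5 z6 y1 y2 y3
  have ha := 𝓔.a_pos i x hx
  have hη := 𝓔.η_pos i
  have hη1 : 𝓔.η i ^ 14 ≤ 𝓔.η i ^ 6 := pow_le_pow_of_le_one hη.le (EFam.η_le_one i) (by omega)
  have hCa : 0 < C * 𝓔.a i x := mul_pos hC ha
  have hw : 0 < C * 𝓔.a i x * 𝓔.η i ^ 6 := by positivity
  have hle : C * 𝓔.a i x * 𝓔.η i ^ 14 ≤ C * 𝓔.a i x * 𝓔.η i ^ 6 :=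
    mul_le_mul_of_nonneg_left hη1 hCa.le
  refine ⟨?_, ?_, ?_, ?_, ?_⟩
  · rw [h.d1_eq i t0 hx, add_sub_add_left_eq_sub]
    exact y1.trans (by linarith)
  · rw [h.d2_eq i t0 hx, add_sub_cancel_left]
    exact z2.trans (by linarith)
  · rw [e1, add_sub_cancel_left]
    exact z3.trans (by linarith)
  · rw [h.d12_comm, d1_d2_comm' (h.fsm i), e2, add_sub_add_left_eq_sub]
    exact y2.trans (by linarith)
  · rw [e3]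
    have e : 𝓔.eps i • (d1 (d1 (d.f i)) x + pd 0 (𝓔.A1 (d.cutU F θ) i) (x, x.1 / 𝓔.eps i + t0)
        + (𝓔.eps i)⁻¹ • pd 2 (𝓔.A1 (d.cutU F θ) i) (x, x.1 / 𝓔.eps i + t0))
        - pd 2 (d.Wl i) (x, x.1 / 𝓔.eps i + t0)
        = 𝓔.eps i • pd 0 (𝓔.A1 (d.cutU F θ) i) (x, x.1 / 𝓔.eps i + t0)
          + (pd 2 (𝓔.A1 (d.cutU F θ) i) (x, x.1 / 𝓔.eps i + t0)
            - pd 2 (d.Wl i) (x, x.1 / 𝓔.eps i + t0)) + 𝓔.eps i • d1 (d1 (d.f i)) x := by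
      simp only [smul_add, smul_smul, mul_inv_cancel₀ (EFam.eps_pos i).ne', one_smul]
      abel
    rw [e]
    refine (norm_add_le _ _).trans (add_le_add ?_ ?_)
    · refine (norm_add_le _ _).trans ((add_le_add z6 y3).trans ?_)
      linarith
    · rw [norm_smul, Real.norm_of_nonneg (EFam.eps_pos i).le]

end EData

end Crest.Agent.R216.TE
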