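import Crest.Agent.R216.MacLoopA
import Crest.Agent.R216.ClsComp
import Crest.Agent.R216.EngBase

/-!
# Row 216, Theorem E, MAC-3: the loops over a family with amplitude close to `ampX u β` are of
class `B(a)` (helper961).
-/

namespace Crest.Agent.R216.TE

open scoped ContDiff Topology
open Set Filter MeasureTheory

namespace ML

/-! ### bounds of periodic functions -/

section per
variable {V : Type*} [NormedAddCommGroup V] [NormedSpace ℝ V] {O' : Set (X2 × ℝ)}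
  {G : (X2 × ℝ) × ℝ → V}

lemma iter_per (hO : IsOpen O') (hp : ∀ z ∈ O', ∀ t, G (z, t + 2 * Real.pi) = G (z, t)) (k : ℕ)
    {z : X2 × ℝ} (hz : z ∈ O') (t : ℝ) :
    iteratedFDeriv ℝ k G (z, t + 2 * Real.pi) = iteratedFDeriv ℝ k G (z, t) := by
  have h1 : (fun p : (X2 × ℝ) × ℝ => G (p + (0, 2 * Real.pi))) =ᶠ[𝓝 (z, t)] G := by
    have : O' ×ˢ (univ : Set ℝ) ∈ 𝓝 (z, t) := (hO.prod isOpen_univ).mem_nhds ⟨hz, mem_univ _⟩
    filter_upwards [this] with p hp'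
    have := hp p.1 hp'.1 p.2
    simpa [Prod.add_def] using this
  have h2 := (h1.iteratedFDeriv ℝ k).self_of_nhds
  rw [← h2, iteratedFDeriv_comp_add_right]
  simp

lemma bdd_of_per (hO : IsOpen O') (hG : ContDiffOn ℝ ∞ G (O' ×ˢ univ))
    (hp : ∀ z ∈ O', ∀ t, G (z, t + 2 * Real.pi) = G (z, t)) {S : Set (X2 × ℝ)} (hS : IsCompact S)
    (hSO : S ⊆ O') (k : ℕ) :
    ∃ C : ℝ, ∀ y ∈ S ×ˢ (univ : Set ℝ), ‖iteratedFDeriv ℝ k G y‖ ≤ C := by
  have hO2 : IsOpen (O' ×ˢ (univ : Set ℝ)) := hO.prod isOpen_univ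
  have hcont : ContinuousOn (iteratedFDeriv ℝ k G) (O' ×ˢ univ) := by
    have h1 := hG.continuousOn_iteratedFDerivWithin (m := k) (by exact_mod_cast le_top)
      hO2.uniqueDiffOn
    refine h1.congr (fun z hz => ?_)
    exact (iteratedFDerivWithin_of_isOpen k hO2 hz).symm
  have hK : IsCompact (S ×ˢ Icc (0:ℝ) (2 * Real.pi)) := hS.prod isCompact_Icc
  obtain ⟨C, hC⟩ := hK.exists_bound_of_continuousOn
    (hcont.mono (prod_mono hSO (subset_univ _)))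
  refine ⟨C, ?_⟩
  rintro ⟨z, t⟩ ⟨hz, -⟩
  have hpi : (0:ℝ) < 2 * Real.pi := by positivity
  obtain ⟨s, hs, hst⟩ : ∃ s ∈ Ico (0:ℝ) (0 + 2 * Real.pi),
      iteratedFDeriv ℝ k G (z, t) = iteratedFDeriv ℝ k G (z, s) :=
    Function.Periodic.exists_mem_Ico (f := fun t => iteratedFDeriv ℝ k G (z, t))
      (fun t => iter_per hO hp k (hSO hz) t) hpi t 0
  rw [hst]
  exact hC _ ⟨hz, hs.1, by linarith [hs.2]⟩

end per

variable {f : X2 → E4} {u β : X2 → ℝ} {O : Set (X2 × ℝ)} {W : X2 × ℝ → ℝ → E4}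

lemma ampX_cont (h : AmpHyp u β) : Continuous (ampX u β) := by
  unfold ampX
  exact ((expNegInvGlue.contDiff (n := 0)).continuous.comp h.hu.continuous).mul h.hβ.continuous

lemma ampX_nonneg (h : AmpHyp u β) (x : X2) : 0 ≤ ampX u β x :=
  mul_nonneg (expNegInvGlue.nonneg _) (h.pos x).le

/-- a uniform tube around the graph of `ampX` -/
lemma exists_tube (hO : IsOpen O) {K : Set X2} (hK : IsCompact K) {A : X2 → ℝ}
    (hA : Continuous A) (hm : ∀ x ∈ K, (x, A x) ∈ O) :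
    ∃ r : ℝ, 0 < r ∧ ∀ x ∈ K, ∀ α, |α - A x| ≤ r → (x, α) ∈ O := by
  have hC : IsCompact ((fun x => ((x, A x) : X2 × ℝ)) '' K) := hK.image (by fun_prop)
  have hsub : (fun x => ((x, A x) : X2 × ℝ)) '' K ⊆ O := by
    rintro _ ⟨x, hx, rfl⟩; exact hm x hx
  obtain ⟨δ, hδ, h⟩ := hC.exists_cthickening_subset_open hO hsub
  refine ⟨δ, hδ, fun x hx α hα => h ?_⟩
  refine Metric.mem_cthickening_of_dist_le (x, α) (x, A x) δ _ ⟨x, hx, rfl⟩ ?_
  rw [Prod.dist_eq, dist_self, Real.dist_eq]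
  exact max_le hδ.le hα

/-- a uniform box around amplitude zero -/
lemma exists_box (hO : IsOpen O) {K : Set X2} (hK : IsCompact K) {A : X2 → ℝ}
    (hA : Continuous A) (hA0 : ∀ x, 0 ≤ A x) (hm : ∀ x ∈ K, (x, A x) ∈ O) :
    ∃ r : ℝ, 0 < r ∧ ∀ x ∈ K, A x ≤ r → ∀ α, |α| ≤ 2 * r → (x, α) ∈ O := by
  obtain ⟨r, hr, h⟩ := exists_tube hO hK hA hm
  refine ⟨r / 3, by positivity, fun x hx hAx α hα => h x hx α ?_⟩
  have h1 := abs_sub α (A x)
  rw [abs_of_nonneg (hA0 x)] at h1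
  linarith

/-- the map `(x,t) ↦ ((x, a x), t)` -/
noncomputable def phi (a : X2 → ℝ) (z : Q) : (X2 × ℝ) × ℝ := ((z.1, a z.1), z.2)

/-- linear parts of `phi` -/
noncomputable def L0 : Q →L[ℝ] (X2 × ℝ) × ℝ :=
  ((ContinuousLinearMap.inl ℝ X2 ℝ).comp (ContinuousLinearMap.fst ℝ X2 ℝ)).prod
    (ContinuousLinearMap.snd ℝ X2 ℝ)
noncomputable def L1 : ℝ →L[ℝ] (X2 × ℝ) × ℝ :=
  (ContinuousLinearMap.inl ℝ (X2 × ℝ) ℝ).comp (ContinuousLinearMap.inr ℝ X2 ℝ)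

lemma phi_eq (a : X2 → ℝ) : phi a = fun z => L0 z + L1 (lift a z) := by
  funext z
  simp [phi, L0, L1, lift]

lemma pd_phi {a : X2 → ℝ} {z : Q} (ha : DifferentiableAt ℝ (lift a) z) (j : Fin 3) :
    pd j (phi a) z = L0 (bas j) + L1 (pd j (lift a) z) := by
  rw [phi_eq]
  unfold pd
  have h1 : HasFDerivAt (fun z => L0 z + L1 (lift a z)) (L0 + L1.comp (fderiv ℝ (lift a) z)) z :=
    L0.hasFDerivAt.add (L1.hasFDerivAt.comp z ha.hasFDerivAt)
  rw [h1.fderiv]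
  rfl

variable (𝓔 : EFam)

lemma a_smooth : 𝓔.toFam.Sm (fun i => lift (𝓔.a i)) := 𝓔.a_B.smooth

lemma phi_smooth : 𝓔.toFam.Sm (fun i => phi (𝓔.a i)) := by
  intro i
  have h := a_smooth 𝓔 i
  show ContDiffOn ℝ ∞ (phi (𝓔.a i)) _
  rw [phi_eq]
  exact L0.contDiff.contDiffOn.add (L1.contDiff.comp_contDiffOn h)

lemma phi_pd (j : Fin 3) : 𝓔.toFam.B (fun i _ => 𝓔.Lam i)
    (fun i => Crest.Agent.R216.TE.pd j (phi (𝓔.a i))) := by
  obtain ⟨C, hC, haC⟩ := 𝓔.a_le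
  have h1 : 𝓔.toFam.B (fun i x => 𝓔.Lam i * 𝓔.a i x)
      (fun i => Crest.Agent.R216.TE.pd j (lift (𝓔.a i))) := 𝓔.a_B.pd j
  have hnn : ∀ i, ∀ x ∈ 𝓔.D i, 0 ≤ 𝓔.Lam i := fun i x _ => (zero_le_one).trans (𝓔.one_le i)
  have h2 : 𝓔.toFam.B (fun i _ => 𝓔.Lam i)
      (fun i => Crest.Agent.R216.TE.pd j (lift (𝓔.a i))) :=
    h1.mono hC (fun i x hx => by
      have := haC i x hx
      have h3 := hnn i x hx
      nlinarith)
  have h3 := h2.clm L1 hnn
  have h4 : 𝓔.toFam.B (fun i _ => 𝓔.Lam i) (fun _ _ => L0 (bas j)) :=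
    (EFam.B_const (𝓔 := 𝓔) (L0 (bas j))).le (fun i x _ => by
      simpa [EFam.W] using 𝓔.one_le i)
  refine (h4.add h3).congr (fun i z hz => ?_)
  have hd : DifferentiableAt ℝ (lift (𝓔.a i)) z :=
    ((a_smooth 𝓔 i).contDiffAt ((𝓔.toFam.isOpen_dom i).mem_nhds hz)).differentiableAt (by simp)
  exact (pd_phi hd j).symm

end ML

open ML

section
variable {f : X2 → E4} {u β : X2 → ℝ} {O : Set (X2 × ℝ)} {W : X2 × ℝ → ℝ → E4}

/-- the loops over a family with amplitude close to `ampX u β` are of class `B(a)`. -/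
theorem mac_loop (h : MacHyp f u β O W) : ∃ r : ℝ, 0 < r ∧ ∀ 𝓔 : EFam,
    (∀ i, 𝓔.D i ⊆ {x | 0 < u x}) →
    (∀ i, ∀ x ∈ 𝓔.D i, |𝓔.a i x - ampX u β x| ≤ r) →
    𝓔.toFam.B (𝓔.W 1 0 0) (fun i z => W (z.1, 𝓔.a i z.1) z.2 - d1 f z.1) := by
  set K := closure {x | 0 < u x} with hKdef
  have hK : IsCompact K := h.ha.cpt
  set A := ampX u β with hAdef
  have hAc : Continuous A := ampX_cont h.ha
  have hA0 : ∀ x, 0 ≤ A x := ampX_nonneg h.ha
  have hO := h.hW.isOpen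
  obtain ⟨r1, hr1, ht⟩ := exists_tube hO hK hAc h.hW.mem
  obtain ⟨r0, hr0, hb⟩ := exists_box hO hK hAc hA0 h.hW.mem
  have hd1f : ContDiff ℝ ∞ (d1 f) := by
    unfold d1
    exact (h.hf.fderiv_right (m := ∞) (by simp)).clm_apply contDiff_const
  refine ⟨min r1 (r0 / 4), by positivity, fun 𝓔 hD ha => ?_⟩
  have hDK : ∀ i, 𝓔.D i ⊆ K := fun i => (hD i).trans subset_closure
  set U1 : 𝓔.I → Set X2 := fun _ => {x | A x < r0} with hU1
  set U2 : 𝓔.I → Set X2 := fun _ => {x | r0 / 2 < A x} with hU2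
  have hU1o : ∀ i, IsOpen (U1 i) := fun _ => isOpen_lt hAc continuous_const
  have hU2o : ∀ i, IsOpen (U2 i) := fun _ => isOpen_lt continuous_const hAc
  have hcov : ∀ i, 𝓔.toFam.D i ⊆ U1 i ∪ U2 i := by
    intro i x _
    rcases lt_or_ge (A x) r0 with h1 | h1
    · exact Or.inl h1
    · exact Or.inr (show r0 / 2 < A x by linarith)
  have hper : ∀ z ∈ O, ∀ t, W z (t + 2 * Real.pi) = W z t := h.hW.per
  have hW := h.hW.smooth
  refine Fam.B.of_cover (𝓕 := 𝓔.toFam) (EFam.W_nn 1 0 0) hU1o hU2o hcov ?_ ?_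
  · -- near amplitude zero
    set S1 : Set (X2 × ℝ) := {p | p.1 ∈ K ∧ A p.1 ≤ r0 ∧ |p.2| ≤ 2 * r0} with hS1
    have hS1c : IsCompact S1 := by
      have : IsCompact (K ×ˢ Icc (-(2 * r0)) (2 * r0)) := hK.prod isCompact_Icc
      refine this.of_isClosed_subset ?_ ?_
      · have e : S1 = (Prod.fst ⁻¹' K) ∩ ({p | A p.1 ≤ r0} ∩ {p | |p.2| ≤ 2 * r0}) := by
          ext p; simp [hS1]
        rw [e]
        refine (hK.isClosed.preimage continuous_fst).inter ((isClosed_le ?_ ?_).inter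
          (isClosed_le ?_ ?_)) <;> fun_prop
      · rintro p ⟨h1, h2, h3⟩
        exact ⟨h1, abs_le.1 h3⟩
    have hS1O : S1 ⊆ segO O := by
      rintro p ⟨h1, h2, h3⟩ s hs
      refine hb p.1 h1 h2 _ ?_
      rw [abs_mul, abs_of_nonneg hs.1]
      calc s * |p.2| ≤ 1 * |p.2| := by gcongr; exact hs.2
        _ ≤ 2 * r0 := by linarith
    have hHs := hadH_smooth hO hW
    have hHper : ∀ z ∈ segO O, ∀ t, hadH W (z, t + 2 * Real.pi) = hadH W (z, t) := by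
      intro z hz t
      unfold hadH
      refine intervalIntegral.integral_congr (fun s hs => ?_)
      rw [uIcc_of_le zero_le_one] at hs
      have h1 : (fun p : (X2 × ℝ) × ℝ => W (p + (0, 2 * Real.pi)).1 (p + (0, 2 * Real.pi)).2)
          =ᶠ[𝓝 ((z.1, s * z.2), t)] fun q : (X2 × ℝ) × ℝ => W q.1 q.2 := by
        have : O ×ˢ (univ : Set ℝ) ∈ 𝓝 ((z.1, s * z.2), t) :=
          (hO.prod isOpen_univ).mem_nhds ⟨hz s hs, mem_univ _⟩
        filter_upwards [this] with p hp'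
        have := hper p.1 hp'.1 p.2
        simpa using this
      have h2 := h1.fderiv_eq (𝕜 := ℝ)
      have h3 := fderiv_comp_add_right (𝕜 := ℝ) (F := E4) (f := fun q : (X2 × ℝ) × ℝ => W q.1 q.2)
        (x := ((z.1, s * z.2), t)) ((0, 2 * Real.pi) : (X2 × ℝ) × ℝ)
      have h4 : (((z.1, s * z.2), t) : (X2 × ℝ) × ℝ) + (0, 2 * Real.pi) =
          ((z.1, s * z.2), t + 2 * Real.pi) := by simp
      rw [h4] at h3
      simp only
      rw [← h3, ← h2]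
    have hcomp := Fam.B.comp (𝓕 := 𝓔.toFam.restrict U1 hU1o) (G := hadH W)
      (O' := segO O ×ˢ univ) (S' := S1 ×ˢ univ) ((isOpen_segO hO).prod isOpen_univ)
      (prod_mono hS1O Subset.rfl) hHs
      (fun k => bdd_of_per (isOpen_segO hO) hHs hHper hS1c hS1O k)
      (Φ := fun i => phi (𝓔.a i))
      (fun i => (phi_smooth 𝓔 i).mono (fun z hz => hz.1))
      (fun j => (phi_pd 𝓔 j).restrict U1 hU1o) (by
        intro i z hz
        have hzD : z.1 ∈ 𝓔.D i := hz.1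
        have hzU : A z.1 < r0 := hz.2
        refine ⟨⟨hDK i hzD, hzU.le, ?_⟩, mem_univ _⟩
        have h1 := (ha i z.1 hzD).trans (min_le_right _ _)
        have h2 := 𝓔.a_pos i z.1 hzD
        show |𝓔.a i z.1| ≤ 2 * r0
        rw [abs_of_pos h2]
        have h3 := abs_le.1 h1
        linarith [h3.2])
    have haB : (𝓔.toFam.restrict U1 hU1o).B 𝓔.a (fun i => lift (𝓔.a i)) :=
      𝓔.a_B.restrict U1 hU1o
    have hann : ∀ i, ∀ x ∈ (𝓔.toFam.restrict U1 hU1o).D i, 0 ≤ 𝓔.a i x :=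
      fun i x hx => (𝓔.a_pos i x hx.1).le
    have hprod := haB.bilin (ContinuousLinearMap.lsmul ℝ ℝ) hann
      (fun i x _ => zero_le_one) hcomp
    refine Fam.B.congr (𝓕 := 𝓔.toFam.restrict U1 hU1o)
      (Fam.B.weight_congr (𝓕 := 𝓔.toFam.restrict U1 hU1o) (w' := 𝓔.W 1 0 0) hprod
        (fun i x _ => by simp [EFam.W])) (fun i z hz => ?_)
    have hzD : z.1 ∈ 𝓔.D i := hz.1
    have hzU : A z.1 < r0 := hz.2
    have hmem : ((z.1, 𝓔.a i z.1) : X2 × ℝ) ∈ segO O := by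
      apply hS1O
      refine ⟨hDK i hzD, hzU.le, ?_⟩
      have h1 := (ha i z.1 hzD).trans (min_le_right _ _)
      have h2 := 𝓔.a_pos i z.1 hzD
      show |𝓔.a i z.1| ≤ 2 * r0
      rw [abs_of_pos h2]
      have h3 := abs_le.1 h1
      linarith [h3.2]
    have h0 : ((z.1, (0:ℝ)) : X2 × ℝ) ∈ O := by
      have := hmem 0 ⟨le_rfl, zero_le_one⟩
      simpa using this
    have h1 := hadH_eq hO hW hmem z.2
    rw [h.hW.at_zero h0] at h1
    show (ContinuousLinearMap.lsmul ℝ ℝ (lift (𝓔.a i) z)) (hadH W (phi (𝓔.a i) z)) = _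
    rw [h1]
    rfl
  · -- away from amplitude zero
    set r := min r1 (r0 / 4) with hr
    set S2 : Set (X2 × ℝ) := {p | p.1 ∈ K ∧ |p.2 - A p.1| ≤ r} with hS2
    have hS2c : IsCompact S2 := by
      have h1 : IsCompact ((fun q : X2 × ℝ => ((q.1, A q.1 + q.2) : X2 × ℝ)) ''
          (K ×ˢ Icc (-r) r)) := (hK.prod isCompact_Icc).image (by fun_prop)
      convert h1 using 1
      ext p
      constructor
      · rintro ⟨h2, h3⟩
        exact ⟨(p.1, p.2 - A p.1), ⟨h2, abs_le.1 h3⟩, by simp⟩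
      · rintro ⟨q, ⟨h2, h3⟩, rfl⟩
        refine ⟨h2, ?_⟩
        simpa using abs_le.2 h3
    have hS2O : S2 ⊆ O := fun p hp => ht p.1 hp.1 p.2 (hp.2.trans (min_le_left _ _))
    set G2 : (X2 × ℝ) × ℝ → E4 := fun p => W p.1 p.2 - d1 f p.1.1 with hG2
    have hG2s : ContDiffOn ℝ ∞ G2 (O ×ˢ univ) := by
      refine hW.sub ?_
      exact (hd1f.comp (contDiff_fst.comp contDiff_fst)).contDiffOn
    have hG2per : ∀ z ∈ O, ∀ t, G2 (z, t + 2 * Real.pi) = G2 (z, t) := by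
      intro z hz t
      simp only [hG2, hper z hz t]
    have hcomp := Fam.B.comp (𝓕 := 𝓔.toFam.restrict U2 hU2o) (G := G2)
      (O' := O ×ˢ univ) (S' := S2 ×ˢ univ) (hO.prod isOpen_univ)
      (prod_mono hS2O Subset.rfl) hG2s
      (fun k => bdd_of_per hO hG2s hG2per hS2c hS2O k)
      (Φ := fun i => phi (𝓔.a i))
      (fun i => (phi_smooth 𝓔 i).mono (fun z hz => hz.1))
      (fun j => (phi_pd 𝓔 j).restrict U2 hU2o)
      (fun i z hz => ⟨⟨hDK i hz.1, ha i z.1 hz.1⟩, mem_univ _⟩)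
    refine Fam.B.congr (𝓕 := 𝓔.toFam.restrict U2 hU2o)
      (Fam.B.mono (𝓕 := 𝓔.toFam.restrict U2 hU2o) (w' := 𝓔.W 1 0 0) hcomp (C := 4 / r0)
        (by positivity) (fun i x hx => ?_)) (fun i z hz => rfl)
    have hxD : x ∈ 𝓔.D i := hx.1
    have hxU : r0 / 2 < A x := hx.2
    have h1 := (ha i x hxD).trans (min_le_right _ _)
    have h3 := abs_le.1 h1
    have h4 : r0 / 4 ≤ 𝓔.a i x := by linarith [h3.1]
    have h5 : 𝓔.W 1 0 0 i x = 𝓔.a i x := by simp [EFam.W]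
    rw [h5]
    calc (1:ℝ) = 4 / r0 * (r0 / 4) := by field_simp
      _ ≤ 4 / r0 * 𝓔.a i x := by gcongr

end

end Crest.Agent.R216.TE
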