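import Crest.Agent.R216.MacFrame
import Crest.Agent.R216.MacLoop

/-!
# Row 216, Theorem E, MACRO: uniform estimates for the loop family `W` (helper961).
-/

open Set Topology
open scoped ContDiff

namespace Crest.Agent.R216.TE

section
variable {f : X2 → E4} {u β : X2 → ℝ} {O : Set (X2 × ℝ)} {W : X2 × ℝ → ℝ → E4}

/-- the loop family as a function on a product -/
def Wh (W : X2 × ℝ → ℝ → E4) : (X2 × ℝ) × ℝ → E4 := fun z => W z.1 z.2

namespace MU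

lemma Wh_smooth (h : MacHyp f u β O W) : ContDiffOn ℝ ∞ (Wh W) (O ×ˢ univ) := h.hW.smooth

lemma isOpen_O2 (h : MacHyp f u β O W) : IsOpen (O ×ˢ (univ : Set ℝ)) :=
  h.hW.isOpen.prod isOpen_univ

lemma Wh_diff (h : MacHyp f u β O W) {z : X2 × ℝ} (hz : z ∈ O) (t : ℝ) :
    DifferentiableAt ℝ (Wh W) (z, t) :=
  ((Wh_smooth h).contDiffAt ((isOpen_O2 h).mem_nhds ⟨hz, mem_univ _⟩)).differentiableAt (by simp)

lemma fderiv_cont (h : MacHyp f u β O W) : ContinuousOn (fderiv ℝ (Wh W)) (O ×ˢ univ) :=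
  ((Wh_smooth h).fderiv_of_isOpen (isOpen_O2 h) (m := ∞) (by simp)).continuousOn

lemma Wh_per (h : MacHyp f u β O W) {z : X2 × ℝ} (hz : z ∈ O) (t : ℝ) :
    Wh W (z, t + 2 * Real.pi) = Wh W (z, t) := h.hW.per z hz t

lemma fderiv_per (h : MacHyp f u β O W) {z : X2 × ℝ} (hz : z ∈ O) (t : ℝ) :
    fderiv ℝ (Wh W) (z, t + 2 * Real.pi) = fderiv ℝ (Wh W) (z, t) := by
  have h1 : (fun p : (X2 × ℝ) × ℝ => Wh W (p + (0, 2 * Real.pi))) =ᶠ[𝓝 (z, t)] Wh W := by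
    filter_upwards [(isOpen_O2 h).mem_nhds (⟨hz, mem_univ _⟩ : (z, t) ∈ O ×ˢ univ)] with p hp'
    have := Wh_per h hp'.1 p.2
    simpa [Prod.add_def] using this
  have h2 := h1.fderiv_eq (𝕜 := ℝ)
  have h3 := fderiv_comp_add_right (𝕜 := ℝ) (F := E4) (f := Wh W)
    (x := (z, t)) ((0, 2 * Real.pi) : (X2 × ℝ) × ℝ)
  have h4 : ((z, t) : (X2 × ℝ) × ℝ) + (0, 2 * Real.pi) = (z, t + 2 * Real.pi) := by simp
  rw [h4] at h3
  rw [← h3, ← h2]

/-- the compact tube -/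
lemma tube_cpt {K : Set X2} (hK : IsCompact K) {A : X2 → ℝ} (hA : Continuous A) (r : ℝ) :
    IsCompact {p : X2 × ℝ | p.1 ∈ K ∧ |p.2 - A p.1| ≤ r} := by
  have h1 : IsCompact ((fun q : X2 × ℝ => ((q.1, A q.1 + q.2) : X2 × ℝ)) ''
      (K ×ˢ Icc (-r) r)) := (hK.prod isCompact_Icc).image (by fun_prop)
  convert h1 using 1
  ext p
  constructor
  · rintro ⟨h2, h3⟩
    exact ⟨(p.1, p.2 - A p.1), ⟨h2, abs_le.1 h3⟩, by simp⟩
  · rintro ⟨q, ⟨h2, h3⟩, rfl⟩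
    refine ⟨h2, ?_⟩
    simpa using abs_le.2 h3

/-- uniform smallness near the zero set of a periodic function -/
lemma small_near {V : Type*} [NormedAddCommGroup V] {K : Set X2} (hK : IsCompact K)
    {u : X2 → ℝ} (hu : Continuous u) {Ψ : X2 → ℝ → V}
    (hc : ContinuousOn (fun p : X2 × ℝ => Ψ p.1 p.2) (K ×ˢ univ))
    (hp : ∀ x ∈ K, ∀ t, Ψ x (t + 2 * Real.pi) = Ψ x t)
    (h0 : ∀ x ∈ K, u x ≤ 0 → ∀ t, Ψ x t = 0) {η : ℝ} (hη : 0 < η) :
    ∃ τ : ℝ, 0 < τ ∧ ∀ x ∈ K, u x ≤ τ → ∀ t, ‖Ψ x t‖ ≤ η := by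
  set B : Set (X2 × ℝ) := (K ×ˢ Icc (0:ℝ) (2 * Real.pi)) ∩
    (fun p : X2 × ℝ => ‖Ψ p.1 p.2‖) ⁻¹' Ici η with hB
  have hKK : IsCompact (K ×ˢ Icc (0:ℝ) (2 * Real.pi)) := hK.prod isCompact_Icc
  have hc' : ContinuousOn (fun p : X2 × ℝ => ‖Ψ p.1 p.2‖) (K ×ˢ Icc (0:ℝ) (2 * Real.pi)) :=
    (hc.mono (prod_mono Subset.rfl (subset_univ _))).norm
  have hBc : IsCompact B :=
    hKK.of_isClosed_subset (hc'.preimage_isClosed_of_isClosed hKK.isClosed isClosed_Ici)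
      inter_subset_left
  obtain ⟨τ, hτ, h1⟩ := hBc.exists_forall_le' (f := fun p : X2 × ℝ => u p.1)
    (by fun_prop) (a := 0) (by
      rintro ⟨x, t⟩ ⟨⟨hx, ht⟩, h2⟩
      by_contra h3
      have := h0 x hx (not_lt.1 h3) t
      simp only [mem_preimage, mem_Ici, this, norm_zero] at h2
      linarith)
  refine ⟨τ / 2, by positivity, fun x hx hux t => ?_⟩
  obtain ⟨s, hs, hst⟩ := Function.Periodic.exists_mem_Ico (f := fun t => Ψ x t)
    (fun t => hp x hx t) (by positivity : (0:ℝ) < 2 * Real.pi) t 0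
  rw [hst]
  by_contra h3
  have := h1 (x, s) ⟨⟨hx, hs.1, by linarith [hs.2]⟩, (not_le.1 h3).le⟩
  simp only at this
  linarith

lemma fderiv_ampX_zero (h : AmpHyp u β) {x : X2} (hx : u x ≤ 0) :
    ampX u β x = 0 ∧ fderiv ℝ (ampX u β) x = 0 := by
  have h0 : ampX u β x = 0 := by
    unfold ampX; rw [expNegInvGlue.zero_of_nonpos hx, zero_mul]
  refine ⟨h0, ?_⟩
  have hmin : IsLocalMin (ampX u β) x :=
    Filter.Eventually.of_forall (fun y => by rw [h0]; exact ML.ampX_nonneg h y)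
  exact hmin.fderiv_eq_zero

lemma symm2 {f : X2 → E4} (hf : ContDiff ℝ ∞ f) (x : X2) : d2 (d1 f) x = d1 (d2 f) x := by
  have h1 : IsSymmSndFDerivAt ℝ f x :=
    (hf.contDiffAt (x := x)).isSymmSndFDerivAt (by simp; exact WithTop.coe_le_coe.2 le_top)
  have hd : DifferentiableAt ℝ (fderiv ℝ f) x :=
    ((hf.fderiv_right (m := ∞) (by simp)).differentiable (by simp)) x
  have e1 : d2 (d1 f) x = fderiv ℝ (fderiv ℝ f) x (0, 1) (1, 0) := by
    unfold d1 d2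
    rw [fderiv_clm_apply hd (differentiableAt_const _)]
    simp
  have e2 : d1 (d2 f) x = fderiv ℝ (fderiv ℝ f) x (1, 0) (0, 1) := by
    unfold d1 d2
    rw [fderiv_clm_apply hd (differentiableAt_const _)]
    simp
  rw [e1, e2]
  exact h1.eq _ _

end MU

open MU

theorem unif_near (h : MacHyp f u β O W) {η : ℝ} (hη : 0 < η) :
    ∃ r : ℝ, 0 < r ∧ ∀ x ∈ closure {x | 0 < u x}, ∀ α : ℝ, |α - ampX u β x| ≤ r →
      (x, α) ∈ O ∧ ∀ t, ‖Wh W ((x, α), t) - Wh W ((x, ampX u β x), t)‖ ≤ η ∧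
        ‖fderiv ℝ (Wh W) ((x, α), t) - fderiv ℝ (Wh W) ((x, ampX u β x), t)‖ ≤ η := by
  set K := closure {x | 0 < u x} with hKdef
  have hK : IsCompact K := h.ha.cpt
  set A := ampX u β with hAdef
  have hAc : Continuous A := ML.ampX_cont h.ha
  obtain ⟨r1, hr1, ht⟩ := ML.exists_tube h.hW.isOpen hK hAc h.hW.mem
  set S : Set (X2 × ℝ) := {p | p.1 ∈ K ∧ |p.2 - A p.1| ≤ r1} with hS
  have hSc : IsCompact S := tube_cpt hK hAc r1
  have hSO : S ⊆ O := fun p hp => ht p.1 hp.1 p.2 hp.2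
  have hSS : IsCompact (S ×ˢ Icc (0:ℝ) (2 * Real.pi)) := hSc.prod isCompact_Icc
  have hsub : S ×ˢ Icc (0:ℝ) (2 * Real.pi) ⊆ O ×ˢ univ := prod_mono hSO (subset_univ _)
  have hu1 := hSS.uniformContinuousOn_of_continuous ((Wh_smooth h).continuousOn.mono hsub)
  have hu2 := hSS.uniformContinuousOn_of_continuous ((fderiv_cont h).mono hsub)
  rw [Metric.uniformContinuousOn_iff_le] at hu1 hu2
  obtain ⟨δ1, hδ1, h1⟩ := hu1 η hη
  obtain ⟨δ2, hδ2, h2⟩ := hu2 η hη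
  refine ⟨min r1 (min δ1 δ2), by positivity, fun x hx α hα => ?_⟩
  have hα1 : |α - A x| ≤ r1 := hα.trans (min_le_left _ _)
  have hα2 : |α - A x| ≤ δ1 := hα.trans ((min_le_right _ _).trans (min_le_left _ _))
  have hα3 : |α - A x| ≤ δ2 := hα.trans ((min_le_right _ _).trans (min_le_right _ _))
  have hxO : (x, α) ∈ O := ht x hx α hα1
  have hxO' : (x, A x) ∈ O := h.hW.mem x hx
  refine ⟨hxO, fun t => ?_⟩
  obtain ⟨s, hs, hst⟩ := Function.Periodic.exists_mem_Ico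
    (f := fun t => (((Wh W ((x, α), t), Wh W ((x, A x), t)),
      (fderiv ℝ (Wh W) ((x, α), t), fderiv ℝ (Wh W) ((x, A x), t))) :
        (E4 × E4) × ((((X2 × ℝ) × ℝ) →L[ℝ] E4) × (((X2 × ℝ) × ℝ) →L[ℝ] E4))))
    (fun t => by
      simp only [Wh_per h hxO, Wh_per h hxO', fderiv_per h hxO, fderiv_per h hxO'])
    (by positivity : (0:ℝ) < 2 * Real.pi) t 0
  simp only [Prod.mk.injEq] at hst
  obtain ⟨⟨e1, e2⟩, e3, e4⟩ := hst
  rw [e1, e2, e3, e4]
  have hs' : s ∈ Icc (0:ℝ) (2 * Real.pi) := ⟨hs.1, by linarith [hs.2]⟩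
  have m1 : (((x, α), s) : (X2 × ℝ) × ℝ) ∈ S ×ˢ Icc (0:ℝ) (2 * Real.pi) := ⟨⟨hx, hα1⟩, hs'⟩
  have m2 : (((x, A x), s) : (X2 × ℝ) × ℝ) ∈ S ×ˢ Icc (0:ℝ) (2 * Real.pi) :=
    ⟨⟨hx, by simpa using hr1.le⟩, hs'⟩
  have hd : dist (((x, α), s) : (X2 × ℝ) × ℝ) ((x, A x), s) = |α - A x| := by
    rw [Prod.dist_eq, Prod.dist_eq, dist_self, dist_self, Real.dist_eq]
    simp [abs_nonneg]
  have h3 := h1 _ m1 _ m2 (by rw [hd]; exact hα2)
  have h4 := h2 _ m1 _ m2 (by rw [hd]; exact hα3)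
  rw [dist_eq_norm] at h3 h4
  exact ⟨h3, h4⟩

theorem fderiv_bdd (h : MacHyp f u β O W) : ∃ r C : ℝ, 0 < r ∧ 0 < C ∧
    ∀ x ∈ closure {x | 0 < u x}, ∀ α : ℝ, |α - ampX u β x| ≤ r →
      ∀ t, ‖fderiv ℝ (Wh W) ((x, α), t)‖ ≤ C := by
  set K := closure {x | 0 < u x} with hKdef
  have hK : IsCompact K := h.ha.cpt
  set A := ampX u β with hAdef
  have hAc : Continuous A := ML.ampX_cont h.ha
  obtain ⟨r1, hr1, ht⟩ := ML.exists_tube h.hW.isOpen hK hAc h.hW.mem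
  set S : Set (X2 × ℝ) := {p | p.1 ∈ K ∧ |p.2 - A p.1| ≤ r1} with hS
  have hSc : IsCompact S := tube_cpt hK hAc r1
  have hSO : S ⊆ O := fun p hp => ht p.1 hp.1 p.2 hp.2
  obtain ⟨C, hC⟩ := ML.bdd_of_per h.hW.isOpen (Wh_smooth h) (fun z hz t => Wh_per h hz t) hSc hSO 1
  refine ⟨r1, max C 1, hr1, by positivity, fun x hx α hα t => ?_⟩
  have := hC ((x, α), t) ⟨⟨hx, hα⟩, mem_univ _⟩
  rw [norm_iteratedFDeriv_one] at this
  exact this.trans (le_max_left _ _)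

lemma d2_W_comp (h : MacHyp f u β O W) {a : X2 → ℝ} {x : X2} (ha : DifferentiableAt ℝ a x)
    (hx : (x, a x) ∈ O) (t : ℝ) :
    d2 (fun y => W (y, a y) t) x = fderiv ℝ (Wh W) ((x, a x), t) (((0, 1), d2 a x), 0) := by
  have hd := (Wh_diff h hx t).hasFDerivAt
  have hi : HasFDerivAt (fun y : X2 => (((y, a y), t) : (X2 × ℝ) × ℝ))
      (((ContinuousLinearMap.id ℝ X2).prod (fderiv ℝ a x)).prod 0) x :=
    ((hasFDerivAt_id x).prodMk ha.hasFDerivAt).prodMk (hasFDerivAt_const t x)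
  have hc := hd.comp x hi
  have he : (fun y => W (y, a y) t) = Wh W ∘ (fun y : X2 => (((y, a y), t) : (X2 × ℝ) × ℝ)) := rfl
  unfold d2
  rw [he, hc.fderiv]
  simp

lemma deriv_W (h : MacHyp f u β O W) {x : X2} {α : ℝ} (hx : (x, α) ∈ O) (t : ℝ) :
    deriv (fun t => W (x, α) t) t = fderiv ℝ (Wh W) ((x, α), t) ((0, 0), 1) := by
  have hd := (Wh_diff h hx t).hasFDerivAt
  have hi : HasDerivAt (fun t : ℝ => (((x, α), t) : (X2 × ℝ) × ℝ)) ((0, 0), 1) t :=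
    (hasDerivAt_const t (x, α)).prodMk (hasDerivAt_id t)
  have hc : HasDerivAt (fun t => W (x, α) t) _ t := hd.comp_hasDerivAt t hi
  exact hc.deriv

theorem near_boundary (h : MacHyp f u β O W) {η : ℝ} (hη : 0 < η) :
    ∃ τ : ℝ, 0 < τ ∧ ∀ x ∈ closure {x | 0 < u x}, u x ≤ τ → ∀ t,
      ‖W (x, ampX u β x) t - d1 f x‖ ≤ η ∧
      ‖d2 (fun y => W (y, ampX u β y) t) x - d1 (d2 f) x‖ ≤ η ∧
      ‖deriv (fun t => W (x, ampX u β x) t) t‖ ≤ η ∧ ampX u β x ≤ η := by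
  set K := closure {x | 0 < u x} with hKdef
  have hK : IsCompact K := h.ha.cpt
  set A := ampX u β with hAdef
  have hAs : ContDiff ℝ ∞ A := contDiff_ampX h.ha
  have hAc : Continuous A := hAs.continuous
  have huc : Continuous u := h.ha.hu.continuous
  have hmem : ∀ x ∈ K, (x, A x) ∈ O := h.hW.mem
  have hmap : MapsTo (fun p : X2 × ℝ => (((p.1, A p.1), p.2) : (X2 × ℝ) × ℝ)) (K ×ˢ univ)
      (O ×ˢ univ) := fun p hp => ⟨hmem p.1 hp.1, mem_univ _⟩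
  have hmc : ContinuousOn (fun p : X2 × ℝ => (((p.1, A p.1), p.2) : (X2 × ℝ) × ℝ))
      (K ×ˢ univ) := by fun_prop
  have hWc : ContinuousOn (fun p : X2 × ℝ => Wh W ((p.1, A p.1), p.2)) (K ×ˢ univ) :=
    (Wh_smooth h).continuousOn.comp hmc hmap
  have hFc : ContinuousOn (fun p : X2 × ℝ => fderiv ℝ (Wh W) ((p.1, A p.1), p.2))
      (K ×ˢ univ) := (fderiv_cont h).comp hmc hmap
  have hd1c : Continuous (d1 f) := (contDiff_d1 h.hf).continuous
  have hd12c : Continuous (d1 (d2 f)) := (contDiff_d1 (contDiff_d2 h.hf)).continuous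
  have hd2A : Continuous (d2 A) := by
    unfold d2
    exact ((hAs.fderiv_right (m := ∞) (by simp)).clm_apply contDiff_const).continuous
  -- on the zero set
  have hzero : ∀ x ∈ K, u x ≤ 0 → A x = 0 ∧ fderiv ℝ A x = 0 ∧ (x, (0:ℝ)) ∈ O := by
    intro x hx hux
    obtain ⟨h1, h2⟩ := fderiv_ampX_zero h.ha hux
    refine ⟨h1, h2, ?_⟩
    have := hmem x hx
    rwa [hAdef, h1] at this
  -- (1)
  obtain ⟨τ1, hτ1, h1⟩ := small_near hK huc (Ψ := fun x t => Wh W ((x, A x), t) - d1 f x)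
    (hWc.sub (by fun_prop)) (fun x hx t => by simp only [Wh_per h (hmem x hx)])
    (fun x hx hux t => by
      obtain ⟨e1, _, e3⟩ := hzero x hx hux
      simp only [e1]
      exact sub_eq_zero.2 (h.hW.at_zero e3 t)) hη
  -- (2)
  obtain ⟨τ2, hτ2, h2⟩ := small_near hK huc
    (Ψ := fun x t => fderiv ℝ (Wh W) ((x, A x), t) (((0, 1), d2 A x), 0) - d1 (d2 f) x)
    ((hFc.clm_apply (by fun_prop)).sub (by fun_prop))
    (fun x hx t => by simp only [fderiv_per h (hmem x hx)])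
    (fun x hx hux t => by
      obtain ⟨e1, e2, e3⟩ := hzero x hx hux
      have e4 : d2 A x = 0 := by unfold d2; rw [e2]; rfl
      have e5 := d2_W_comp h (a := fun _ => (0:ℝ)) (differentiableAt_const _) e3 t
      have e6 : d2 (fun _ : X2 => (0:ℝ)) x = 0 := by unfold d2; simp
      rw [e6] at e5
      have e7 : (fun y => W (y, (0:ℝ)) t) =ᶠ[𝓝 x] d1 f := by
        have : (fun y : X2 => ((y, (0:ℝ)) : X2 × ℝ)) ⁻¹' O ∈ 𝓝 x :=
          (h.hW.isOpen.preimage (by fun_prop)).mem_nhds e3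
        filter_upwards [this] with y hy
        exact h.hW.at_zero hy t
      have e8 : d2 (fun y => W (y, (0:ℝ)) t) x = d2 (d1 f) x := by
        unfold d2; rw [e7.fderiv_eq]
      simp only [e1, e4]
      rw [← e5, e8, symm2 h.hf, sub_self]) hη
  -- (3)
  obtain ⟨τ3, hτ3, h3⟩ := small_near hK huc
    (Ψ := fun x t => fderiv ℝ (Wh W) ((x, A x), t) ((0, 0), 1))
    (hFc.clm_apply continuousOn_const)
    (fun x hx t => by simp only [fderiv_per h (hmem x hx)])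
    (fun x hx hux t => by
      obtain ⟨e1, _, e3⟩ := hzero x hx hux
      simp only [e1]
      rw [← deriv_W h e3]
      have : (fun t => W (x, (0:ℝ)) t) = fun _ => d1 f x := by
        funext s; exact h.hW.at_zero e3 s
      rw [this]; simp) hη
  -- (4)
  obtain ⟨τ4, hτ4, h4⟩ := small_near hK huc (Ψ := fun x _ => A x)
    (by fun_prop) (fun x hx t => rfl)
    (fun x hx hux t => (hzero x hx hux).1) hη
  refine ⟨min (min τ1 τ2) (min τ3 τ4), by positivity, fun x hx hux t => ⟨?_, ?_, ?_, ?_⟩⟩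
  · exact h1 x hx (hux.trans ((min_le_left _ _).trans (min_le_left _ _))) t
  · rw [d2_W_comp h ((hAs.differentiable (by simp)) x) (hmem x hx)]
    exact h2 x hx (hux.trans ((min_le_left _ _).trans (min_le_right _ _))) t
  · rw [deriv_W h (hmem x hx)]
    exact h3 x hx (hux.trans ((min_le_right _ _).trans (min_le_left _ _))) t
  · exact (le_abs_self _).trans
      (h4 x hx (hux.trans ((min_le_right _ _).trans (min_le_right _ _))) t)

end

end Crest.Agent.R216.TE
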