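import Crest.Agent.R216.MacCut
import Crest.Agent.R216.MacOut
import Crest.Agent.R216.MacUnif

/-!
# Row 216, Theorem E, MACRO: closeness of the macroscopic corrugation to the loops (helper35).
-/

open Set Topology
open scoped ContDiff

namespace Crest.Agent.R216.TE

section
variable {f : X2 → E4} {u β : X2 → ℝ} {O : Set (X2 × ℝ)} {W : X2 × ℝ → ℝ → E4}
  {c N : ℕ} {h0 : ℝ}

namespace MClose

lemma contDiff_am (ha : AmpHyp u β) (hc : 1 ≤ c) (i : MIx h0) :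
    ContDiff ℝ ∞ (am u β c i.1) := by
  have hL := Lp_ge hc i.2.1 i.2.2.2
  have adm : Prof.Adm 0 (Lp c i.1) := ⟨le_rfl, by linarith, hL⟩
  exact ((Prof.contDiff_alph adm).comp ha.hu).mul ha.hβ

/-- derivatives of the loop part of the data -/
lemma fderiv_loop (h : MacHyp f u β O W) {a : X2 → ℝ} {x : X2} (t : ℝ)
    (ha : DifferentiableAt ℝ a x) (hx : (x, a x) ∈ O) (v : Q) :
    fderiv ℝ (fun z : Q => W (z.1, a z.1) z.2 - d1 f z.1) (x, t) v =
      fderiv ℝ (Wh W) ((x, a x), t) ((v.1, fderiv ℝ a x v.1), v.2)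
        - fderiv ℝ (d1 f) x v.1 := by
  have hd := (MU.Wh_diff h hx t).hasFDerivAt
  have hf : HasFDerivAt (fun z : Q => z.1) (ContinuousLinearMap.fst ℝ X2 ℝ) (x, t) :=
    hasFDerivAt_fst
  have hs : HasFDerivAt (fun z : Q => z.2) (ContinuousLinearMap.snd ℝ X2 ℝ) (x, t) :=
    hasFDerivAt_snd
  have ha' : HasFDerivAt (fun z : Q => a z.1)
      ((fderiv ℝ a x).comp (ContinuousLinearMap.fst ℝ X2 ℝ)) (x, t) :=
    HasFDerivAt.comp (g := a) (f := fun z : Q => z.1) (x, t) ha.hasFDerivAt hf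
  have hi : HasFDerivAt (fun z : Q => (((z.1, a z.1), z.2) : (X2 × ℝ) × ℝ))
      (((ContinuousLinearMap.fst ℝ X2 ℝ).prod
        ((fderiv ℝ a x).comp (ContinuousLinearMap.fst ℝ X2 ℝ))).prod
        (ContinuousLinearMap.snd ℝ X2 ℝ)) (x, t) := (hf.prodMk ha').prodMk hs
  have hc : HasFDerivAt (fun z : Q => W (z.1, a z.1) z.2) _ (x, t) :=
    HasFDerivAt.comp (g := Wh W) (f := fun z : Q => (((z.1, a z.1), z.2) : (X2 × ℝ) × ℝ))
      (x, t) hd hi
  have hf1 : DifferentiableAt ℝ (d1 f) x := (contDiff_d1 h.hf).differentiable (by simp) x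
  have hf' : HasFDerivAt (fun z : Q => d1 f z.1)
      ((fderiv ℝ (d1 f) x).comp (ContinuousLinearMap.fst ℝ X2 ℝ)) (x, t) :=
    HasFDerivAt.comp (g := d1 f) (f := fun z : Q => z.1) (x, t) hf1.hasFDerivAt hf
  rw [(hc.fun_sub hf').fderiv]
  simp

lemma pd1_loop (h : MacHyp f u β O W) {a : X2 → ℝ} {x : X2} (t : ℝ)
    (ha : DifferentiableAt ℝ a x) (hx : (x, a x) ∈ O) :
    pd 1 (fun z : Q => W (z.1, a z.1) z.2 - d1 f z.1) (x, t) =
      fderiv ℝ (Wh W) ((x, a x), t) (((0, 1), d2 a x), 0) - d2 (d1 f) x := by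
  unfold pd
  rw [fderiv_loop h t ha hx]
  simp [bas, d2]

lemma pd2_loop (h : MacHyp f u β O W) {a : X2 → ℝ} {x : X2} (t : ℝ)
    (ha : DifferentiableAt ℝ a x) (hx : (x, a x) ∈ O) :
    pd 2 (fun z : Q => W (z.1, a z.1) z.2 - d1 f z.1) (x, t) =
      fderiv ℝ (Wh W) ((x, a x), t) ((0, 0), 1) := by
  have e0 : (((0, 0) : X2)) = 0 := rfl
  unfold pd
  rw [fderiv_loop h t ha hx]
  simp [bas, e0]

lemma eventually_d1 {V : Type*} [NormedAddCommGroup V] [NormedSpace ℝ V] {g k : X2 → V} {x : X2}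
    (h : g =ᶠ[𝓝 x] k) : d1 g =ᶠ[𝓝 x] d1 k := by
  filter_upwards [h.fderiv (𝕜 := ℝ)] with y hy
  unfold d1; rw [hy]

lemma eventually_d2 {V : Type*} [NormedAddCommGroup V] [NormedSpace ℝ V] {g k : X2 → V} {x : X2}
    (h : g =ᶠ[𝓝 x] k) : d2 g =ᶠ[𝓝 x] d2 k := by
  filter_upwards [h.fderiv (𝕜 := ℝ)] with y hy
  unfold d2; rw [hy]

/-- `h Λ ≤ √h` -/
lemma h_Lam {h : ℝ} (h0 : 0 < h) (h1 : h ≤ 1 / 3) : h * h ^ (-(1 / 10 : ℝ)) ≤ Real.sqrt h := by
  have e : h * h ^ (-(1 / 10 : ℝ)) = h ^ (9 / 10 : ℝ) := by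
    nth_rewrite 1 [← Real.rpow_one h]
    rw [← Real.rpow_add h0]; norm_num
  rw [e, Real.sqrt_eq_rpow]
  exact Real.rpow_le_rpow_of_exponent_ge h0 (by linarith) (by norm_num)

/-- where the cut-off is `1` -/
lemma region1 (h : MacHyp f u β O W) (hc : 1 ≤ c) (hN : 1 ≤ N) {h0 : ℝ}
    (hy : (dataM h hc hN h0).Hyp) {F : MIx h0 → Q → E4} (hG : (dataM h hc hN h0).Good F)
    {η : ℝ} (hη : 0 < η) : ∃ h1 : ℝ, 0 < h1 ∧ ∀ i : MIx h0, i.1 < h1 → ∀ t0 : ℝ,
      ∀ x ∈ closure {x : X2 | 0 < u x}, (Lp N i.1)⁻¹ < 2 * Lp c i.1 * u x - 1 →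
      ∀ g : X2 → E4, g = (dataM h hc hN h0).cutMap F (fun i => thM u c N i.1) i t0 →
        ‖d1 g x - W (x, ampX u β x) (x.1 / i.1 ^ 16 + t0)‖ ≤ η ∧
        ‖d2 g x - d2 f x‖ ≤ η ∧
        ‖d2 (d2 g) x - d2 (d2 f) x‖ ≤ η ∧
        ‖d1 (d2 g) x - d2 (fun y => W (y, ampX u β y) (x.1 / i.1 ^ 16 + t0)) x‖ ≤ η ∧
        ‖(i.1 ^ 16) • d1 (d1 g) x
          - deriv (fun t => W (x, ampX u β x) t) (x.1 / i.1 ^ 16 + t0)‖ ≤ η := by
  have hcut := cutHyp_M h hc hN hy hG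
  obtain ⟨C1, hC1, hcl⟩ := hcut.close_one
  obtain ⟨A, hA, haA⟩ := (efamM h.ha hc hN h0).a_le
  obtain ⟨r1, C2, hr1, hC2, hbd⟩ := fderiv_bdd h
  have hAs : ContDiff ℝ ∞ (ampX u β) := contDiff_ampX h.ha
  have hd2A : Continuous (d2 (ampX u β)) := by
    unfold d2
    exact ((hAs.fderiv_right (m := ∞) (by simp)).clm_apply contDiff_const).continuous
  obtain ⟨Cd0, hCd0⟩ := h.ha.cpt.exists_bound_of_continuousOn hd2A.continuousOn
  obtain ⟨Cf0, hCf0⟩ := h.ha.cpt.exists_bound_of_continuousOn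
    (contDiff_d1 (contDiff_d1 h.hf)).continuous.continuousOn
  set Cd := |Cd0| with hCd
  set Cf := |Cf0| with hCf
  have hCdn : 0 ≤ Cd := abs_nonneg _
  have hCfn : 0 ≤ Cf := abs_nonneg _
  set e' := η / (4 * (Cd + 3)) with he'
  have he'0 : 0 < e' := by positivity
  obtain ⟨r2, hr2, hun⟩ := unif_near h he'0
  set r := min r2 (min r1 (min 1 (η / (4 * (C2 + 1))))) with hr
  have hr0 : 0 < r := by
    refine lt_min hr2 (lt_min hr1 (lt_min one_pos ?_)); positivity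
  have rr2 : r ≤ r2 := min_le_left _ _
  have rr1 : r ≤ r1 := (min_le_right _ _).trans (min_le_left _ _)
  have rr3 : r ≤ 1 := (min_le_right _ _).trans ((min_le_right _ _).trans (min_le_left _ _))
  have rr4 : r ≤ η / (4 * (C2 + 1)) :=
    (min_le_right _ _).trans ((min_le_right _ _).trans (min_le_right _ _))
  obtain ⟨h2, hh2, ham⟩ := am_close h.ha hc hr0
  refine ⟨min h2 (min (η / (4 * (C1 * A + 1))) (η / (4 * (Cf + 1)))), by positivity,
    fun i hi t0 x hx hs g hg => ?_⟩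
  have hi0 : 0 < i.1 := i.2.1
  have hi3 : i.1 ≤ 1 / 3 := i.2.2.2
  have i1 : i.1 < h2 := hi.trans_le (min_le_left _ _)
  have i2 : i.1 < η / (4 * (C1 * A + 1)) :=
    hi.trans_le ((min_le_right _ _).trans (min_le_left _ _))
  have i3 : i.1 < η / (4 * (Cf + 1)) :=
    hi.trans_le ((min_le_right _ _).trans (min_le_right _ _))
  obtain ⟨m1, m2⟩ := ham i.1 hi0 i1 hi3 x hx
  have hK := Lp_ge hN i.2.1 i.2.2.2
  have hL := Lp_ge hc i.2.1 i.2.2.2
  have hKi : 0 < (Lp N i.1)⁻¹ := by positivity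
  -- membership and cut-off
  have hxD : x ∈ (efamM h.ha hc hN h0).D i := by
    show (2 * Lp N i.1)⁻¹ < 2 * Lp c i.1 * u x - 1
    have : (2 * Lp N i.1)⁻¹ ≤ (Lp N i.1)⁻¹ := by
      apply inv_anti₀ <;> linarith
    linarith
  have hθ : thM u c N i.1 =ᶠ[𝓝 x] 1 := by
    have ho : IsOpen {y : X2 | (Lp N i.1)⁻¹ < 2 * Lp c i.1 * u y - 1} :=
      isOpen_lt continuous_const ((continuous_const.mul h.ha.hu.continuous).sub continuous_const)
    filter_upwards [ho.mem_nhds hs] with y hy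
    exact cutoff_one (by linarith) (le_of_lt hy)
  -- bounds
  have ha0 := (efamM h.ha hc hN h0).a_pos i x hxD
  have haA' := haA i x hxD
  have hsm : C1 * (efamM h.ha hc hN h0).a i x * (efamM h.ha hc hN h0).η i ^ 6 ≤ η / 4 := by
    show C1 * (efamM h.ha hc hN h0).a i x * i.1 ^ 6 ≤ η / 4
    have p6 : i.1 ^ 6 ≤ i.1 := by
      calc i.1 ^ 6 ≤ i.1 ^ 1 := pow_le_pow_of_le_one hi0.le (by linarith) (by norm_num)
        _ = i.1 := pow_one _
    have p1 : C1 * (efamM h.ha hc hN h0).a i x ≤ C1 * A + 1 := by nlinarith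
    calc _ ≤ (C1 * A + 1) * i.1 := mul_le_mul p1 p6 (by positivity) (by positivity)
      _ ≤ (C1 * A + 1) * (η / (4 * (C1 * A + 1))) :=
          mul_le_mul_of_nonneg_left i2.le (by positivity)
      _ = η / 4 := by field_simp
  have heps : i.1 ^ 16 * ‖d1 (d1 f) x‖ ≤ η / 4 := by
    have p6 : i.1 ^ 16 ≤ i.1 := by
      calc i.1 ^ 16 ≤ i.1 ^ 1 := pow_le_pow_of_le_one hi0.le (by linarith) (by norm_num)
        _ = i.1 := pow_one _
    have p1 : ‖d1 (d1 f) x‖ ≤ Cf + 1 := by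
      have := hCf0 x hx
      linarith [le_abs_self Cf0]
    calc _ ≤ i.1 * (Cf + 1) := mul_le_mul p6 p1 (norm_nonneg _) hi0.le
      _ ≤ (η / (4 * (Cf + 1))) * (Cf + 1) := mul_le_mul_of_nonneg_right i3.le (by positivity)
      _ = η / 4 := by field_simp
  obtain ⟨k1, k2, k3, k4, k5⟩ := hcl i t0 x hxD hθ
  rw [← hg] at k1 k2 k3 k4 k5
  set t := x.1 / i.1 ^ 16 + t0 with ht
  have ama : DifferentiableAt ℝ (am u β c i.1) x :=
    (contDiff_am h.ha hc i).differentiable (by simp) x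
  have amX : DifferentiableAt ℝ (ampX u β) x := hAs.differentiable (by simp) x
  obtain ⟨hO, hun'⟩ := hun x hx (am u β c i.1 x) (m1.trans rr2)
  obtain ⟨u1, u2⟩ := hun' t
  have hOX : (x, ampX u β x) ∈ O := h.hW.mem x hx
  have e'le : e' ≤ η / 4 := by
    rw [he']
    apply div_le_div_of_nonneg_left hη.le (by norm_num)
    linarith
  refine ⟨?_, ?_, ?_, ?_, ?_⟩
  · have k1' : ‖d1 g x - (d1 f x + (W (x, am u β c i.1 x) t - d1 f x))‖ ≤ η / 4 := k1.trans hsm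
    rw [add_sub_cancel] at k1'
    have u1' : ‖W (x, am u β c i.1 x) t - W (x, ampX u β x) t‖ ≤ e' := u1
    calc ‖d1 g x - W (x, ampX u β x) t‖
        = ‖(d1 g x - W (x, am u β c i.1 x) t)
            + (W (x, am u β c i.1 x) t - W (x, ampX u β x) t)‖ := by congr 1; abel
      _ ≤ η / 4 + e' := (norm_add_le _ _).trans (add_le_add k1' u1')
      _ ≤ η := by linarith
  · exact (k2.trans hsm).trans (by linarith)
  · exact (k3.trans hsm).trans (by linarith)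
  · have q1 := pd1_loop h t ama hO
    have k4' : ‖d1 (d2 g) x - (d1 (d2 f) x +
        pd 1 (fun z : Q => W (z.1, am u β c i.1 z.1) z.2 - d1 f z.1) (x, t))‖ ≤ η / 4 :=
      k4.trans hsm
    rw [q1, d1_d2_comm' h.hf, add_sub_cancel] at k4'
    rw [d2_W_comp h amX hOX]
    set Φ := fderiv ℝ (Wh W) ((x, am u β c i.1 x), t)
    set Ψ := fderiv ℝ (Wh W) ((x, ampX u β x), t)
    have e1 : Φ (((0, 1), d2 (am u β c i.1) x), 0) - Ψ (((0, 1), d2 (ampX u β) x), 0)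
        = (Φ - Ψ) (((0, 1), d2 (am u β c i.1) x), 0)
          + Ψ (((0, 0), d2 (am u β c i.1) x - d2 (ampX u β) x), 0) := by
      have : ((((0, 0) : X2), d2 (am u β c i.1) x - d2 (ampX u β) x), (0:ℝ)) =
          ((((0, 1) : X2), d2 (am u β c i.1) x), (0:ℝ)) - (((0, 1), d2 (ampX u β) x), 0) := by
        simp
      rw [this, map_sub]
      simp
    have b1 : ‖((((0, 1) : X2), d2 (am u β c i.1) x), (0:ℝ))‖ ≤ Cd + 2 := by
      have h3 : |d2 (am u β c i.1) x| ≤ Cd + 1 := by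
        have h4 := hCd0 x hx
        rw [Real.norm_eq_abs] at h4
        have h5 : |d2 (am u β c i.1) x| ≤ |d2 (am u β c i.1) x - d2 (ampX u β) x|
          + |d2 (ampX u β) x| := by
          have := abs_add_le (d2 (am u β c i.1) x - d2 (ampX u β) x) (d2 (ampX u β) x)
          simpa using this
        linarith [le_abs_self Cd0]
      have h6 : ‖((0, 1) : X2)‖ = 1 := by simp
      rw [Prod.norm_mk, Prod.norm_mk, h6, Real.norm_eq_abs, norm_zero]
      refine max_le (max_le (by linarith) (by linarith)) (by linarith)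
    have b2 : ‖((((0, 0) : X2), d2 (am u β c i.1) x - d2 (ampX u β) x), (0:ℝ))‖ ≤ r := by
      have h6 : ‖((0, 0) : X2)‖ = 0 := by simp
      rw [Prod.norm_mk, Prod.norm_mk, h6, Real.norm_eq_abs, norm_zero]
      exact max_le (max_le hr0.le m2) hr0.le
    have b3 : ‖Ψ‖ ≤ C2 := hbd x hx _ (by simpa using hr1.le) t
    have b4 : ‖(Φ - Ψ) (((0, 1), d2 (am u β c i.1) x), 0)‖ ≤ η / 4 := by
      calc _ ≤ ‖Φ - Ψ‖ * _ := (Φ - Ψ).le_opNorm _
        _ ≤ e' * (Cd + 3) := mul_le_mul u2 (b1.trans (by linarith)) (norm_nonneg _) he'0.le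
        _ = η / 4 := by rw [he']; field_simp
    have b5 : ‖Ψ (((0, 0), d2 (am u β c i.1) x - d2 (ampX u β) x), 0)‖ ≤ η / 4 := by
      calc _ ≤ ‖Ψ‖ * _ := Ψ.le_opNorm _
        _ ≤ (C2 + 1) * (η / (4 * (C2 + 1))) :=
            mul_le_mul (b3.trans (by linarith)) (b2.trans rr4) (norm_nonneg _) (by positivity)
        _ = η / 4 := by field_simp
    calc ‖d1 (d2 g) x - Ψ (((0, 1), d2 (ampX u β) x), 0)‖
        = ‖(d1 (d2 g) x - Φ (((0, 1), d2 (am u β c i.1) x), 0))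
            + (Φ (((0, 1), d2 (am u β c i.1) x), 0) - Ψ (((0, 1), d2 (ampX u β) x), 0))‖ := by
          congr 1; abel
      _ ≤ η / 4 + (η / 4 + η / 4) := by
          refine (norm_add_le _ _).trans (add_le_add k4' ?_)
          rw [e1]
          exact (norm_add_le _ _).trans (add_le_add b4 b5)
      _ ≤ η := by linarith
  · have q1 := pd2_loop h t ama hO
    have k5' : ‖(i.1 ^ 16) • d1 (d1 g) x -
        pd 2 (fun z : Q => W (z.1, am u β c i.1 z.1) z.2 - d1 f z.1) (x, t)‖ ≤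
        η / 4 + η / 4 := k5.trans (add_le_add hsm heps)
    rw [q1] at k5'
    rw [deriv_W h hOX]
    set Φ := fderiv ℝ (Wh W) ((x, am u β c i.1 x), t)
    set Ψ := fderiv ℝ (Wh W) ((x, ampX u β x), t)
    have b4 : ‖(Φ - Ψ) ((0, 0), 1)‖ ≤ e' := by
      have h6 : ‖((((0, 0) : X2), (0:ℝ)), (1:ℝ))‖ = 1 := by simp
      calc ‖(Φ - Ψ) (((0, 0), 0), 1)‖ ≤ ‖Φ - Ψ‖ * ‖((((0, 0) : X2), (0:ℝ)), (1:ℝ))‖ :=
            (Φ - Ψ).le_opNorm _
        _ ≤ e' := by rw [h6, mul_one]; exact u2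
    calc ‖(i.1 ^ 16) • d1 (d1 g) x - Ψ ((0, 0), 1)‖
        = ‖((i.1 ^ 16) • d1 (d1 g) x - Φ ((0, 0), 1)) + (Φ - Ψ) ((0, 0), 1)‖ := by
          congr 1; simp
      _ ≤ η / 4 + η / 4 + e' := (norm_add_le _ _).trans (add_le_add k5' b4)
      _ ≤ η := by linarith

/-- where the cut-off is not `1` -/
lemma region2 (h : MacHyp f u β O W) (hc : 1 ≤ c) (hN : 1 ≤ N) {h0 : ℝ}
    (hy : (dataM h hc hN h0).Hyp) {F : MIx h0 → Q → E4} (hG : (dataM h hc hN h0).Good F)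
    {η : ℝ} (hη : 0 < η) : ∃ h1 : ℝ, 0 < h1 ∧ ∀ i : MIx h0, i.1 < h1 → ∀ t0 : ℝ,
      ∀ x ∈ closure {x : X2 | 0 < u x}, 2 * Lp c i.1 * u x - 1 ≤ (Lp N i.1)⁻¹ →
      ∀ g : X2 → E4, g = (dataM h hc hN h0).cutMap F (fun i => thM u c N i.1) i t0 →
        ‖d1 g x - W (x, ampX u β x) (x.1 / i.1 ^ 16 + t0)‖ ≤ η ∧
        ‖d2 g x - d2 f x‖ ≤ η ∧
        ‖d2 (d2 g) x - d2 (d2 f) x‖ ≤ η ∧
        ‖d1 (d2 g) x - d2 (fun y => W (y, ampX u β y) (x.1 / i.1 ^ 16 + t0)) x‖ ≤ η ∧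
        ‖(i.1 ^ 16) • d1 (d1 g) x
          - deriv (fun t => W (x, ampX u β x) t) (x.1 / i.1 ^ 16 + t0)‖ ≤ η := by
  have hcut := cutHyp_M h hc hN hy hG
  obtain ⟨C1, hC1, hcl⟩ := hcut.close_crude
  obtain ⟨Ct, hCt, htiny⟩ := am_tiny h.ha hc hN
  obtain ⟨Cf0, hCf0⟩ := h.ha.cpt.exists_bound_of_continuousOn
    (contDiff_d1 (contDiff_d1 h.hf)).continuous.continuousOn
  set Cf := |Cf0| with hCf
  have hCfn : 0 ≤ Cf := abs_nonneg _
  obtain ⟨τ, hτ, hnb⟩ := near_boundary h (show 0 < η / 4 by positivity)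
  refine ⟨min (Real.exp (-(1 / τ))) (min ((η / (4 * (C1 * Ct + 1))) ^ 2) (η / (4 * (Cf + 1)))),
    by positivity, fun i hi t0 x hx hs g hg => ?_⟩
  have hi0 : 0 < i.1 := i.2.1
  have hi3 : i.1 ≤ 1 / 3 := i.2.2.2
  have i1 : i.1 < Real.exp (-(1 / τ)) := hi.trans_le (min_le_left _ _)
  have i2 : i.1 < (η / (4 * (C1 * Ct + 1))) ^ 2 :=
    hi.trans_le ((min_le_right _ _).trans (min_le_left _ _))
  have i3 : i.1 < η / (4 * (Cf + 1)) :=
    hi.trans_le ((min_le_right _ _).trans (min_le_right _ _))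
  have hK := Lp_ge hN i.2.1 i.2.2.2
  have hL := Lp_ge hc i.2.1 i.2.2.2
  have hKi : (Lp N i.1)⁻¹ ≤ 1 := inv_le_one_of_one_le₀ hK
  -- `u x ≤ τ`
  have hLτ : 1 / τ ≤ Lp c i.1 := by
    have h1 : 1 / τ ≤ Real.log (1 / i.1) := by
      rw [one_div i.1, Real.log_inv, le_neg]
      have := Real.log_le_log hi0 i1.le
      rwa [Real.log_exp] at this
    have h2 : (1:ℝ) ≤ c := by exact_mod_cast hc
    have h3 := log_ge_one hi0 hi3
    unfold Lp; nlinarith
  have hux : u x ≤ τ := by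
    have h1 : Lp c i.1 * u x ≤ 1 := by linarith
    rcases le_or_gt (u x) 0 with h2 | h2
    · linarith
    · have h3 : 1 / τ * u x ≤ Lp c i.1 * u x := mul_le_mul_of_nonneg_right hLτ h2.le
      have h4 : 1 / τ * u x ≤ 1 := h3.trans h1
      rw [one_div, inv_mul_le_iff₀ hτ, mul_one] at h4
      exact h4
  set t := x.1 / i.1 ^ 16 + t0 with ht
  obtain ⟨n1, n2, n3, n4⟩ := hnb x hx hux t
  have heps : ‖(i.1 ^ 16) • d1 (d1 f) x‖ ≤ η / 4 := by
    have p6 : i.1 ^ 16 ≤ i.1 := by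
      calc i.1 ^ 16 ≤ i.1 ^ 1 := pow_le_pow_of_le_one hi0.le (by linarith) (by norm_num)
        _ = i.1 := pow_one _
    have p1 : ‖d1 (d1 f) x‖ ≤ Cf + 1 := by
      have := hCf0 x hx
      linarith [le_abs_self Cf0]
    rw [norm_smul, Real.norm_of_nonneg (by positivity)]
    calc _ ≤ i.1 * (Cf + 1) := mul_le_mul p6 p1 (norm_nonneg _) hi0.le
      _ ≤ (η / (4 * (Cf + 1))) * (Cf + 1) := mul_le_mul_of_nonneg_right i3.le (by positivity)
      _ = η / 4 := by field_simp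
  -- the five differences to `f`
  have key : ‖d1 g x - d1 f x‖ ≤ η / 4 ∧ ‖d2 g x - d2 f x‖ ≤ η / 4 ∧
      ‖d2 (d2 g) x - d2 (d2 f) x‖ ≤ η / 4 ∧ ‖d1 (d2 g) x - d1 (d2 f) x‖ ≤ η / 4 ∧
      ‖(i.1 ^ 16) • (d1 (d1 g) x - d1 (d1 f) x)‖ ≤ η / 4 := by
    by_cases hxD : x ∈ (efamM h.ha hc hN h0).D i
    · obtain ⟨k1, k2, k3, k4, k5⟩ := hcl i t0 x hxD
      rw [← hg] at k1 k2 k3 k4 k5
      have ha0 := (efamM h.ha hc hN h0).a_pos i x hxD
      have hη0 := (efamM h.ha hc hN h0).η_pos i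
      have hLam := (efamM h.ha hc hN h0).one_le i
      have hη14 : (efamM h.ha hc hN h0).η i ^ 14 ≤ 1 := pow_le_one₀ hη0.le
        (EFam.η_le_one (𝓔 := efamM h.ha hc hN h0) i)
      have hb : C1 * (efamM h.ha hc hN h0).a i x * (efamM h.ha hc hN h0).Lam i ≤ η / 4 := by
        have h1 : (efamM h.ha hc hN h0).a i x ≤ Ct * i.1 := by
          refine (htiny h0 i x hs).trans (mul_le_mul_of_nonneg_left ?_ hCt.le)
          calc i.1 ^ N ≤ i.1 ^ 1 := pow_le_pow_of_le_one hi0.le (by linarith) hN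
            _ = i.1 := pow_one _
        have h2 : i.1 * (efamM h.ha hc hN h0).Lam i ≤ Real.sqrt i.1 := h_Lam hi0 hi3
        have h3 : Real.sqrt i.1 ≤ η / (4 * (C1 * Ct + 1)) := by
          rw [Real.sqrt_le_left (by positivity)]; exact i2.le
        calc C1 * (efamM h.ha hc hN h0).a i x * (efamM h.ha hc hN h0).Lam i
            ≤ C1 * (Ct * i.1) * (efamM h.ha hc hN h0).Lam i := by gcongr
          _ = (C1 * Ct) * (i.1 * (efamM h.ha hc hN h0).Lam i) := by ring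
          _ ≤ (C1 * Ct + 1) * (η / (4 * (C1 * Ct + 1))) :=
              mul_le_mul (by linarith) (h2.trans h3) (by positivity) (by positivity)
          _ = η / 4 := by field_simp
      have hCa : 0 < C1 * (efamM h.ha hc hN h0).a i x := mul_pos hC1 ha0
      have c1 : C1 * (efamM h.ha hc hN h0).a i x ≤ η / 4 := by
        refine le_trans ?_ hb
        nlinarith
      have c2 : C1 * (efamM h.ha hc hN h0).a i x * (efamM h.ha hc hN h0).η i ^ 14 ≤ η / 4 := by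
        refine le_trans ?_ c1
        nlinarith
      exact ⟨k1.trans c1, k2.trans c2, k3.trans c2, k4.trans hb, k5.trans hb⟩
    · have hsup : x ∉ tsupport (thM u c N i.1) := fun hc' => hxD (hcut.θsupp i hc')
      have he : g =ᶠ[𝓝 x] f := by rw [hg]; exact hcut.eq_off i t0 hsup
      have z : (0:ℝ) ≤ η / 4 := by positivity
      rw [d1_congr he, d2_congr he, d2_congr (eventually_d2 he), d1_congr (eventually_d2 he),
        d1_congr (eventually_d1 he)]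
      simp only [sub_self, norm_zero, smul_zero]
      exact ⟨z, z, z, z, z⟩
  obtain ⟨k1, k2, k3, k4, k5⟩ := key
  refine ⟨?_, by linarith, by linarith, ?_, ?_⟩
  · calc ‖d1 g x - W (x, ampX u β x) t‖
        = ‖(d1 g x - d1 f x) - (W (x, ampX u β x) t - d1 f x)‖ := by congr 1; abel
      _ ≤ η / 4 + η / 4 := (norm_sub_le _ _).trans (add_le_add k1 n1)
      _ ≤ η := by linarith
  · calc ‖d1 (d2 g) x - d2 (fun y => W (y, ampX u β y) t) x‖
        = ‖(d1 (d2 g) x - d1 (d2 f) x)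
            - (d2 (fun y => W (y, ampX u β y) t) x - d1 (d2 f) x)‖ := by congr 1; abel
      _ ≤ η / 4 + η / 4 := (norm_sub_le _ _).trans (add_le_add k4 n2)
      _ ≤ η := by linarith
  · calc ‖(i.1 ^ 16) • d1 (d1 g) x - deriv (fun t => W (x, ampX u β x) t) t‖
        = ‖(i.1 ^ 16) • (d1 (d1 g) x - d1 (d1 f) x) + (i.1 ^ 16) • d1 (d1 f) x
            - deriv (fun t => W (x, ampX u β x) t) t‖ := by
          rw [smul_sub]; congr 1; abel
      _ ≤ η / 4 + η / 4 + η / 4 :=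
          (norm_sub_le _ _).trans (add_le_add ((norm_add_le _ _).trans (add_le_add k5 heps)) n3)
      _ ≤ η := by linarith

end MClose

open MClose in
/-- **closeness of the macroscopic corrugation to the loops** -/
theorem mac_closeX (h : MacHyp f u β O W) (hc : 1 ≤ c) (hN : 1 ≤ N) {h0 : ℝ}
    (hy : (dataM h hc hN h0).Hyp) {F : MIx h0 → Q → E4} (hG : (dataM h hc hN h0).Good F)
    {η : ℝ} (hη : 0 < η) : ∃ h1 : ℝ, 0 < h1 ∧ ∀ i : MIx h0, i.1 < h1 → ∀ t0 : ℝ,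
      CloseX f u β W (i.1 ^ 16) t0 η
        ((dataM h hc hN h0).cutMap F (fun i => thM u c N i.1) i t0) := by
  obtain ⟨a, ha, h1⟩ := region1 h hc hN hy hG hη
  obtain ⟨b, hb, h2⟩ := region2 h hc hN hy hG hη
  refine ⟨min a b, lt_min ha hb, fun i hi t0 x hx => ?_⟩
  rcases lt_or_ge (Lp N i.1)⁻¹ (2 * Lp c i.1 * u x - 1) with hs | hs
  · exact h1 i (hi.trans_le (min_le_left _ _)) t0 x hx hs _ rfl
  · exact h2 i (hi.trans_le (min_le_right _ _)) t0 x hx hs _ rfl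

end

end Crest.Agent.R216.TE
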