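import Crest.Agent.R216.MacData
import Crest.Agent.R216.Cut
import Crest.Agent.R216.Engine

/-!
# Row 216, Theorem E, MACRO: the cut-off of the macro family (helper323).
-/

open Set Topology MeasureTheory
open scoped ContDiff

namespace Crest.Agent.R216.TE

section cut
variable {u : X2 → ℝ} {L' K : ℝ}

lemma cutoff_one (hK : 0 < K) {x : X2} (hx : K⁻¹ ≤ 2 * L' * u x - 1) : cutoff u L' K x = 1 := by
  unfold cutoff
  refine Real.smoothTransition.one_of_one_le ?_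
  have h1 : 1 ≤ K * (2 * L' * u x - 1) := by rwa [inv_le_iff_one_le_mul₀' hK] at hx
  nlinarith

lemma cutoff_zero {x : X2} (hx : K * (2 * L' * u x - 1) ≤ 3 / 4) : cutoff u L' K x = 0 := by
  unfold cutoff
  exact Real.smoothTransition.zero_of_nonpos (by nlinarith)

lemma cutoff_supp (hu : Continuous u) (hK : 0 < K) :
    tsupport (cutoff u L' K) ⊆ {x | 3 / 4 ≤ K * (2 * L' * u x - 1)} := by
  refine closure_minimal (fun x hx => ?_)
    (isClosed_le continuous_const (continuous_const.mul ((continuous_const.mul hu).sub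
      continuous_const)))
  by_contra hc
  exact hx (cutoff_zero (le_of_lt (not_le.1 hc)))

lemma cutoff_supp' (hu : Continuous u) (hK : 0 < K) :
    tsupport (cutoff u L' K) ⊆ profDom u L' (2 * K) := by
  intro x hx
  have h1 : 3 / 4 ≤ K * (2 * L' * u x - 1) := cutoff_supp hu hK hx
  show (2 * K)⁻¹ < _
  rw [inv_lt_iff_one_lt_mul₀ (by positivity)]
  nlinarith

lemma cutoff_nonneg (x : X2) : 0 ≤ cutoff u L' K x := Real.smoothTransition.nonneg _
lemma cutoff_le_one (x : X2) : cutoff u L' K x ≤ 1 := Real.smoothTransition.le_one _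

end cut

section
variable {f : X2 → E4} {u β : X2 → ℝ} {O : Set (X2 × ℝ)} {W : X2 × ℝ → ℝ → E4}
  {c N : ℕ} {h0 : ℝ}

/-- the cut-off functions of the macro family -/
noncomputable def thM (u : X2 → ℝ) (c N : ℕ) (h : ℝ) : X2 → ℝ := cutoff u (Lp c h) (Lp N h)

lemma thM_B (ha : AmpHyp u β) (hc : 1 ≤ c) (hN : 1 ≤ N) (h0 : ℝ) :
    (famM u ha.hu.continuous c N h0).B (fun _ _ => 1) (fun i => lift (thM u c N i.1)) := by
  have hP := profHyp_M ha hc hN h0
  obtain ⟨C, hC, hcost⟩ := hP.cost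
  have := Fam.B.comp_affine (𝓕 := famM u ha.hu.continuous c N h0) hP.compact hP.sub hP.u_smooth
    (c := fun i => 8 * Lp N i.1 * Lp c i.1)
    (b := fun i => - 4 * Lp N i.1 - 3) (m := fun i => 1) (fun _ => one_pos)
    ⟨8 * C, by positivity, fun i => by
      have h1 := (hcost i).2
      have h2 := Lp_ge hc i.2.1 i.2.2.2
      have h3 := Lp_ge hN i.2.1 i.2.2.2
      rw [abs_of_nonneg (by positivity), mul_one]
      have h4 : 0 ≤ Lp N i.1 * Lp c i.1 := by positivity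
      have h5 : Lp N i.1 * Lp c i.1 ≤ (2 * Lp N i.1) ^ 2 * (1 + Lp c i.1) := by nlinarith
      nlinarith⟩
    (w := fun _ _ => 1) (g := fun _ => Real.smoothTransition)
    (fun _ => Real.smoothTransition.contDiff) (fun _ _ _ => zero_le_one) ?_
  · refine this.congr (fun i z _ => ?_)
    simp only [lift, thM, cutoff]
    congr 1; ring
  · intro n
    obtain ⟨C, hC, hb⟩ := Prof.st_bdd n
    exact ⟨C + 1, by positivity, fun i x _ => by
      rw [one_pow, mul_one, mul_one]; exact (hb _).trans (by linarith)⟩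

lemma cutHyp_M (h : MacHyp f u β O W) (hc : 1 ≤ c) (hN : 1 ≤ N)
    (hy : (dataM h hc hN h0).Hyp) {F : MIx h0 → Q → E4} (hG : (dataM h hc hN h0).Good F) :
    (dataM h hc hN h0).CutHyp F (fun i => thM u c N i.1) where
  hyp := hy
  good := hG
  fsm _ := h.hf
  θsm i := contDiff_cutoff _ _ h.ha.hu
  θsupp i := cutoff_supp' h.ha.hu.continuous
    (lt_of_lt_of_le one_pos (Lp_ge hN i.2.1 i.2.2.2))
  θ_nonneg i x := cutoff_nonneg x
  θ_le i x := cutoff_le_one x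
  θB := thM_B h.ha hc hN h0

/-- the amplitude is tiny where the cut-off is not `1` -/
lemma am_tiny (ha : AmpHyp u β) (hc : 1 ≤ c) (hN : 1 ≤ N) : ∃ C : ℝ, 0 < C ∧
    ∀ (h0 : ℝ) (i : MIx h0) (x : X2), 2 * Lp c i.1 * u x - 1 ≤ (Lp N i.1)⁻¹ →
      am u β c i.1 x ≤ C * i.1 ^ N := by
  obtain ⟨Cb, hCb⟩ := ha.cpt.exists_bound_of_continuousOn ha.hβ.continuous.continuousOn
  refine ⟨Real.exp 2 * (|Cb| + 1), by positivity, fun h0 i x hx => ?_⟩
  have hL := Lp_ge hc i.2.1 i.2.2.2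
  have hK := Lp_ge hN i.2.1 i.2.2.2
  have hi := i.2.1
  have adm : Prof.Adm 0 (Lp c i.1) := ⟨le_rfl, by linarith, hL⟩
  by_cases hx0 : x ∈ closure {x | 0 < u x}
  · have h1 := hCb x hx0
    rw [Real.norm_eq_abs, abs_of_pos (ha.pos x)] at h1
    have h2 := Prof.alph_le_exp adm (lt_of_lt_of_le one_pos hK) hx
    rw [exp_Lp N hi] at h2
    have h3 := (ha.pos x).le
    have h4 := Prof.alph_nonneg 0 (Lp c i.1) (u x)
    show Prof.alph 0 (Lp c i.1) (u x) * β x ≤ _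
    calc _ ≤ (Real.exp 2 * i.1 ^ N) * (|Cb| + 1) :=
          mul_le_mul h2 (by linarith [le_abs_self Cb]) h3 (by positivity)
      _ = _ := by ring
  · have h1 : u x ≤ 0 := by
      by_contra hc'
      exact hx0 (subset_closure (not_le.1 hc'))
    have h2 : Prof.alph 0 (Lp c i.1) (u x) = 0 := by
      refine Prof.alph_eq_zero ?_
      have : Lp c i.1 * u x ≤ 0 := mul_nonpos_of_nonneg_of_nonpos (by linarith) h1
      linarith
    show Prof.alph 0 (Lp c i.1) (u x) * β x ≤ _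
    rw [h2, zero_mul]
    positivity

lemma am_nonneg (ha : AmpHyp u β) (c : ℕ) (h : ℝ) (x : X2) : 0 ≤ am u β c h x :=
  mul_nonneg (Prof.alph_nonneg _ _ _) (ha.pos x).le

lemma am_sq (hc : 1 ≤ c) {h0 : ℝ} (i : MIx h0) (x : X2) :
    am u β c i.1 x ^ 2 = ampX u β x ^ 2 * (1 - Prof.kap (Lp c i.1) (u x)) := by
  have hL := Lp_ge hc i.2.1 i.2.2.2
  have adm : Prof.Adm 0 (Lp c i.1) := ⟨le_rfl, by linarith, hL⟩
  have := Prof.alph_sq adm (u x)
  rw [Prof.kap_zero] at this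
  show (Prof.alph 0 (Lp c i.1) (u x) * β x) ^ 2 = (expNegInvGlue (u x) * β x) ^ 2 * _
  rw [mul_pow, this]; ring

end

/-! ### uniform version of `corr_iter` -/

namespace EData
variable {𝓔 : EFam} {d : EData 𝓔} {F : 𝓔.I → Q → E4} {θ : 𝓔.I → X2 → ℝ}

theorem CutHyp.corr_iter_unif (h : d.CutHyp F θ) (j : ℕ) : ∃ C : ℝ, 0 < C ∧
    ∀ (i : 𝓔.I) (t0 : ℝ) (x : X2), x ∈ 𝓔.D i →
      ‖iteratedFDeriv ℝ j (fun x : X2 => d.cutU F θ i (x, x.1 / 𝓔.eps i + t0)) x‖
        ≤ C * ((𝓔.Lam i * (𝓔.eps i)⁻¹) ^ j * (𝓔.a i x * 𝓔.eps i)) := by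
  have hμ : ∀ i, 1 ≤ (𝓔.eps i)⁻¹ := fun i =>
    (one_le_inv₀ (EFam.eps_pos i)).2 (EFam.eps_le_one i)
  obtain ⟨C, hC, b⟩ := Fam.ev_iterated
    (𝓕 := 𝓔.toFam.reindex (Prod.fst : 𝓔.I × ℝ → 𝓔.I)) (fun p => (𝓔.eps p.1)⁻¹) (fun p => p.2)
    (fun p => hμ p.1) j (h.cutU_B.reindex Prod.fst) (fun p x hx => EFam.W_nn _ _ _ p.1 x hx)
  refine ⟨C, hC, fun i t0 x hx => ?_⟩
  rw [ev_div]
  refine (b (i, t0) x hx).trans (le_of_eq ?_)
  simp only [EFam.W, pow_one, pow_zero, mul_one, EFam.eps, Fam.reindex]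

end EData

end Crest.Agent.R216.TE
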