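import Crest.Agent.R216.MacDefs
import Crest.Agent.R216.AlgP

/-!
# Row 216, MACRO (MAC-2, helper534): nondegeneracy `c a² ≤ Del` of abstract loops.
-/

open Set Topology MeasureTheory
open scoped ContDiff

namespace Crest.Agent.R216.TE
namespace MacDel

lemma mn_const (x : ℝ) : mn (fun _ => x) = x := by
  unfold mn
  simp only [intervalIntegral.integral_const, sub_zero, smul_eq_mul]
  field_simp

lemma mn_add {f g : ℝ → ℝ} (hf : Continuous f) (hg : Continuous g) :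
    mn (fun t => f t + g t) = mn f + mn g := by
  unfold mn
  rw [intervalIntegral.integral_add (hf.intervalIntegrable _ _) (hg.intervalIntegrable _ _),
    mul_add]

lemma mn_mul (c : ℝ) (f : ℝ → ℝ) : mn (fun t => c * f t) = c * mn f := by
  unfold mn
  rw [intervalIntegral.integral_const_mul]; ring

lemma mn_nonneg {f : ℝ → ℝ} (h0 : ∀ t, 0 ≤ f t) : 0 ≤ mn f := by
  unfold mn
  have hp : (0:ℝ) ≤ 2 * Real.pi := by positivity
  exact mul_nonneg (inv_nonneg.2 hp) (intervalIntegral.integral_nonneg hp (fun t _ => h0 t))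

lemma mn_mono {f g : ℝ → ℝ} (hf : Continuous f) (hg : Continuous g) (h : ∀ t, f t ≤ g t) :
    mn f ≤ mn g := by
  unfold mn
  have hp : (0:ℝ) ≤ 2 * Real.pi := by positivity
  exact mul_le_mul_of_nonneg_left (intervalIntegral.integral_mono_on hp
    (hf.intervalIntegrable _ _) (hg.intervalIntegrable _ _) (fun t _ => h t)) (inv_nonneg.2 hp)

/-- a continuous periodic nonnegative function of nonpositive mean vanishes -/
lemma eq_zero_of_mn {f : ℝ → ℝ} (hf : Continuous f) (h0 : ∀ t, 0 ≤ f t)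
    (hper : ∀ t, f (t + 2 * Real.pi) = f t) (h : mn f ≤ 0) : ∀ t, f t = 0 := by
  have hp : (0:ℝ) < 2 * Real.pi := by positivity
  have h1 : ∫ t in (0:ℝ)..(2 * Real.pi), f t = 0 := by
    have h2 := intervalIntegral.integral_nonneg (μ := volume) hp.le (fun t _ => h0 t)
    unfold mn at h
    have h3 : (2 * Real.pi)⁻¹ * ∫ t in (0:ℝ)..(2 * Real.pi), f t = 0 :=
      le_antisymm h (mul_nonneg (inv_nonneg.2 hp.le) h2)
    rcases mul_eq_zero.1 h3 with h4 | h4
    · exact absurd h4 (inv_pos.2 hp).ne'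
    · exact h4
  have hP : Function.Periodic f (2 * Real.pi) := hper
  intro t
  by_contra hne
  have hpos : 0 < f t := lt_of_le_of_ne (h0 t) (Ne.symm hne)
  have h5 : ∫ s in t..(t + 2 * Real.pi), f s = 0 := by
    rw [hP.intervalIntegral_add_eq t 0, zero_add]; exact h1
  have h6 : 0 < ∫ s in t..(t + 2 * Real.pi), f s := by
    apply intervalIntegral.integral_pos (by linarith) hf.continuousOn
    · intro s _; exact h0 s
    · exact ⟨t, ⟨le_refl _, by linarith⟩, hpos⟩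
  linarith

/-- `r⁴ det < b_w ⊗ b_w >` -/
noncomputable def del (p1 p2 : ℝ) (W1 W2 : ℝ → ℝ) : ℝ :=
  p1 ^ 2 * mn (fun t => W2 t ^ 2) + p2 ^ 2 * mn (fun t => W1 t ^ 2)
    - 2 * p1 * p2 * mn (fun t => W1 t * W2 t)
    + mn (fun t => W1 t ^ 2) * mn (fun t => W2 t ^ 2) - mn (fun t => W1 t * W2 t) ^ 2

section point
variable {p1 p2 α : ℝ} {W1 W2 : ℝ → ℝ}

lemma mn_quad (h1 : Continuous W1) (h2 : Continuous W2) (x y : ℝ) :
    mn (fun t => (x * W1 t + y * W2 t) ^ 2) =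
      x ^ 2 * mn (fun t => W1 t ^ 2) + 2 * x * y * mn (fun t => W1 t * W2 t)
        + y ^ 2 * mn (fun t => W2 t ^ 2) := by
  have e : (fun t => (x * W1 t + y * W2 t) ^ 2) =
      fun t => (x ^ 2 * W1 t ^ 2 + 2 * x * y * (W1 t * W2 t)) + y ^ 2 * W2 t ^ 2 := by
    funext t; ring
  rw [e, mn_add (by fun_prop) (by fun_prop), mn_add (by fun_prop) (by fun_prop), mn_mul, mn_mul,
    mn_mul]

lemma cs (h1 : Continuous W1) (h2 : Continuous W2) :
    mn (fun t => W1 t * W2 t) ^ 2 ≤ mn (fun t => W1 t ^ 2) * mn (fun t => W2 t ^ 2) := by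
  set a := mn (fun t => W1 t ^ 2) with ha
  set b := mn (fun t => W1 t * W2 t) with hb
  set c := mn (fun t => W2 t ^ 2) with hc
  have ha0 : 0 ≤ a := mn_nonneg (fun t => sq_nonneg _)
  have hc0 : 0 ≤ c := mn_nonneg (fun t => sq_nonneg _)
  have key : ∀ x y : ℝ, 0 ≤ x ^ 2 * a + 2 * x * y * b + y ^ 2 * c := by
    intro x y
    rw [ha, hb, hc, ← mn_quad h1 h2]
    exact mn_nonneg (fun t => sq_nonneg _)
  rcases eq_or_lt_of_le hc0 with hc1 | hc1
  · -- c = 0
    rw [← hc1] at key ⊢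
    have : b = 0 := by
      by_contra hb'
      have := key b (-(a + 1))
      have h3 : 0 < b ^ 2 := by positivity
      nlinarith
    rw [this]; simp
  · have := key c (-b)
    nlinarith

lemma del_nonneg (h1 : Continuous W1) (h2 : Continuous W2) : 0 ≤ del p1 p2 W1 W2 := by
  have h3 := cs h1 h2
  have h4 : 0 ≤ mn (fun t => (-p2 * W1 t + p1 * W2 t) ^ 2) := mn_nonneg (fun t => sq_nonneg _)
  rw [mn_quad h1 h2] at h4
  unfold del
  nlinarith

/-- near the boundary of the support of the amplitude -/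
lemma del_low (h1 : Continuous W1) (h2 : Continuous W2) (m1 : mn W1 = 0) (m2 : mn W2 = 0)
    (hc : ∀ t, (p1 + W1 t) ^ 2 + (p2 + W2 t) ^ 2 = p1 ^ 2 + p2 ^ 2 + α ^ 2)
    (hpos : ∀ t, 0 ≤ p1 * (p1 + W1 t) + p2 * (p2 + W2 t)) :
    (p1 ^ 2 + p2 ^ 2) * α ^ 2 / 2 ≤ del p1 p2 W1 W2 := by
  have h3 := cs h1 h2
  have h4 : (p1 ^ 2 + p2 ^ 2) * α ^ 2 / 2 ≤ mn (fun t => (-p2 * W1 t + p1 * W2 t) ^ 2) := by
    have h5 : mn (fun t => (p1 ^ 2 + p2 ^ 2) * α ^ 2 / 2
        + (-(p1 ^ 2 + p2 ^ 2 + α ^ 2 / 2)) * (p1 * W1 t + p2 * W2 t)) =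
        (p1 ^ 2 + p2 ^ 2) * α ^ 2 / 2 := by
      rw [mn_add (by fun_prop) (by fun_prop), mn_const, mn_mul, mn_add (by fun_prop) (by fun_prop),
        mn_mul, mn_mul, m1, m2]
      ring
    rw [← h5]
    apply mn_mono (by fun_prop) (by fun_prop)
    intro t
    have c1 := hc t
    have c2 := hpos t
    set x := W1 t
    set y := W2 t
    set s := p1 * x + p2 * y with hs
    have e1 : x ^ 2 + y ^ 2 = α ^ 2 - 2 * s := by rw [hs]; linarith
    have e2 : (-p2 * x + p1 * y) ^ 2 = (p1 ^ 2 + p2 ^ 2) * (x ^ 2 + y ^ 2) - s ^ 2 := by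
      rw [hs]; ring
    rw [e2, e1]
    have e3 : 0 ≤ s + (p1 ^ 2 + p2 ^ 2) := by rw [hs]; linarith
    have e4 : 0 ≤ α ^ 2 / 2 - s := by
      have : 0 ≤ x ^ 2 + y ^ 2 := by positivity
      linarith
    have e5 := mul_nonneg e3 e4
    nlinarith
  rw [mn_quad h1 h2] at h4
  unfold del
  nlinarith

/-- a continuous function with constant positive square is constant -/
lemma const_of_sq {v : ℝ → ℝ} (hv : Continuous v) {k : ℝ} (hk : 0 < k) (h : ∀ t, v t ^ 2 = k) :
    ∀ t, v t = v 0 := by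
  have hsq : 0 < Real.sqrt k := Real.sqrt_pos.2 hk
  have := isPreconnected_univ.eq_or_eq_neg_of_sq_eq (f := v) (g := fun _ : ℝ => Real.sqrt k)
    hv.continuousOn continuousOn_const (fun t _ => by
      simp only [Pi.pow_apply]
      rw [h t, Real.sq_sqrt hk.le]) (fun {t} _ => hsq.ne')
  rcases this with h1 | h1
  · intro t; rw [h1 (mem_univ t), h1 (mem_univ 0)]
  · intro t; rw [h1 (mem_univ t), h1 (mem_univ 0)]; rfl

/-- the second moments of `p + W` -/
lemma mom (h1 : Continuous W1) (h2 : Continuous W2) (m1 : mn W1 = 0) (m2 : mn W2 = 0) :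
    mn (fun t => (p1 + W1 t) ^ 2) = p1 ^ 2 + mn (fun t => W1 t ^ 2) ∧
    mn (fun t => (p2 + W2 t) ^ 2) = p2 ^ 2 + mn (fun t => W2 t ^ 2) ∧
    mn (fun t => (p1 + W1 t) * (p2 + W2 t)) = p1 * p2 + mn (fun t => W1 t * W2 t) := by
  refine ⟨?_, ?_, ?_⟩
  · have e : (fun t => (p1 + W1 t) ^ 2) = fun t => (p1 ^ 2 + (2 * p1) * W1 t) + W1 t ^ 2 := by
      funext t; ring
    rw [e, mn_add (by fun_prop) (by fun_prop), mn_add (by fun_prop) (by fun_prop), mn_mul, mn_const,
      m1]; ring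
  · have e : (fun t => (p2 + W2 t) ^ 2) = fun t => (p2 ^ 2 + (2 * p2) * W2 t) + W2 t ^ 2 := by
      funext t; ring
    rw [e, mn_add (by fun_prop) (by fun_prop), mn_add (by fun_prop) (by fun_prop), mn_mul, mn_const,
      m2]; ring
  · have e : (fun t => (p1 + W1 t) * (p2 + W2 t)) =
        fun t => ((p1 * p2 + p2 * W1 t) + p1 * W2 t) + W1 t * W2 t := by
      funext t; ring
    rw [e, mn_add (by fun_prop) (by fun_prop), mn_add (by fun_prop) (by fun_prop),
      mn_add (by fun_prop) (by fun_prop), mn_const, mn_mul, mn_mul, m1, m2]; ring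

/-- the key degenerate case -/
lemma alpha_eq_zero_aux {v1 v2 : ℝ → ℝ} (h1 : Continuous v1) (h2 : Continuous v2)
    (hp1 : ∀ t, v1 (t + 2 * Real.pi) = v1 t) (hp2 : ∀ t, v2 (t + 2 * Real.pi) = v2 t)
    {R : ℝ} (hR : 0 < R) (hc : ∀ t, v1 t ^ 2 + v2 t ^ 2 = R)
    (hT : 0 < mn (fun t => v2 t ^ 2))
    (hd : mn (fun t => v1 t ^ 2) * mn (fun t => v2 t ^ 2) ≤ mn (fun t => v1 t * v2 t) ^ 2) :
    (∀ t, v1 t = v1 0) ∧ (∀ t, v2 t = v2 0) := by
  set a := mn (fun t => v1 t ^ 2) with ha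
  set b := mn (fun t => v1 t * v2 t) with hb
  set c := mn (fun t => v2 t ^ 2) with hc'
  have h3 : mn (fun t => (c * v1 t + (-b) * v2 t) ^ 2) ≤ 0 := by
    rw [mn_quad h1 h2, ← ha, ← hb, ← hc']
    nlinarith
  have h4 := eq_zero_of_mn (f := fun t => (c * v1 t + (-b) * v2 t) ^ 2) (by fun_prop)
    (fun t => sq_nonneg _) (fun t => by simp only [hp1, hp2]) h3
  have h5 : ∀ t, v1 t = (b / c) * v2 t := by
    intro t
    have h6 : c * v1 t + (-b) * v2 t = 0 := by
      have := h4 t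
      simpa using this
    field_simp
    linarith
  have h6 : ∀ t, v2 t ^ 2 = R / (1 + (b / c) ^ 2) := by
    intro t
    have h7 := hc t
    rw [h5 t] at h7
    have h8 : 0 < 1 + (b / c) ^ 2 := by positivity
    rw [eq_div_iff h8.ne']
    linarith
  have h7 := const_of_sq h2 (by positivity) h6
  exact ⟨fun t => by rw [h5 t, h5 0, h7 t], h7⟩

/-- positivity of `del` -/
lemma del_pos (h1 : Continuous W1) (h2 : Continuous W2)
    (hp1 : ∀ t, W1 (t + 2 * Real.pi) = W1 t) (hp2 : ∀ t, W2 (t + 2 * Real.pi) = W2 t)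
    (m1 : mn W1 = 0) (m2 : mn W2 = 0)
    (hc : ∀ t, (p1 + W1 t) ^ 2 + (p2 + W2 t) ^ 2 = p1 ^ 2 + p2 ^ 2 + α ^ 2) (hα : α ≠ 0) :
    0 < del p1 p2 W1 W2 := by
  by_contra hcon
  push Not at hcon
  obtain ⟨q1, q2, q3⟩ := mom (p1 := p1) (p2 := p2) h1 h2 m1 m2
  have hα2 : 0 < α ^ 2 := by positivity
  set R := p1 ^ 2 + p2 ^ 2 + α ^ 2 with hRdef
  have hR : 0 < R := by positivity
  have hd : mn (fun t => (p1 + W1 t) ^ 2) * mn (fun t => (p2 + W2 t) ^ 2) ≤
      mn (fun t => (p1 + W1 t) * (p2 + W2 t)) ^ 2 := by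
    rw [q1, q2, q3]
    unfold del at hcon
    nlinarith
  have hsum : mn (fun t => (p1 + W1 t) ^ 2) + mn (fun t => (p2 + W2 t) ^ 2) = R := by
    rw [← mn_add (by fun_prop) (by fun_prop)]
    rw [show (fun t => (p1 + W1 t) ^ 2 + (p2 + W2 t) ^ 2) = fun _ => R from funext hc, mn_const]
  have n1 : 0 ≤ mn (fun t => (p1 + W1 t) ^ 2) := mn_nonneg (fun t => sq_nonneg _)
  have n2 : 0 ≤ mn (fun t => (p2 + W2 t) ^ 2) := mn_nonneg (fun t => sq_nonneg _)
  have hcst : (∀ t, p1 + W1 t = p1 + W1 0) ∧ (∀ t, p2 + W2 t = p2 + W2 0) := by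
    rcases lt_or_ge 0 (mn (fun t => (p2 + W2 t) ^ 2)) with h | h
    · exact alpha_eq_zero_aux (v1 := fun t => p1 + W1 t) (v2 := fun t => p2 + W2 t)
        (by fun_prop) (by fun_prop) (fun t => by simp only [hp1]) (fun t => by simp only [hp2])
        hR hc h hd
    · have h' : 0 < mn (fun t => (p1 + W1 t) ^ 2) := by linarith
      have := alpha_eq_zero_aux (v1 := fun t => p2 + W2 t) (v2 := fun t => p1 + W1 t)
        (by fun_prop) (by fun_prop) (fun t => by simp only [hp2]) (fun t => by simp only [hp1])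
        hR (fun t => by rw [add_comm]; exact hc t) h'
        (by
          rw [show (fun t => (p2 + W2 t) * (p1 + W1 t)) = fun t => (p1 + W1 t) * (p2 + W2 t) from
            funext (fun t => mul_comm _ _)]
          linarith)
      exact ⟨this.2, this.1⟩
  have w1 : W1 0 = 0 := by
    have : W1 = fun _ => W1 0 := by funext t; have := hcst.1 t; linarith
    rw [this, mn_const] at m1; exact m1
  have w2 : W2 0 = 0 := by
    have : W2 = fun _ => W2 0 := by funext t; have := hcst.2 t; linarith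
    rw [this, mn_const] at m2; exact m2
  have := hc 0
  rw [w1, w2, hRdef] at this
  nlinarith

/-- for `α = 0` the loop is constant -/
lemma W_eq_zero (h1 : Continuous W1) (h2 : Continuous W2)
    (hp1 : ∀ t, W1 (t + 2 * Real.pi) = W1 t) (hp2 : ∀ t, W2 (t + 2 * Real.pi) = W2 t)
    (m1 : mn W1 = 0) (m2 : mn W2 = 0)
    (hc : ∀ t, (p1 + W1 t) ^ 2 + (p2 + W2 t) ^ 2 = p1 ^ 2 + p2 ^ 2 + α ^ 2) (hα : α = 0) :
    ∀ t, W1 t = 0 ∧ W2 t = 0 := by
  have e : (fun t => W1 t ^ 2 + W2 t ^ 2) = fun t => (-2 * p1) * W1 t + (-2 * p2) * W2 t := by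
    funext t
    have := hc t
    rw [hα] at this
    nlinarith
  have h3 : mn (fun t => W1 t ^ 2 + W2 t ^ 2) ≤ 0 := by
    rw [e, mn_add (by fun_prop) (by fun_prop), mn_mul, mn_mul, m1, m2]; simp
  have h4 := eq_zero_of_mn (f := fun t => W1 t ^ 2 + W2 t ^ 2) (by fun_prop)
    (fun t => by positivity) (fun t => by simp only [hp1, hp2]) h3
  intro t
  have := h4 t
  constructor <;> nlinarith [sq_nonneg (W1 t), sq_nonneg (W2 t)]

end point

/-! ### compactness -/

section cpt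
variable {Y : Type*} [MetricSpace Y]

lemma cont_mn {S : Set Y} (hS : IsCompact S) {g : Y → ℝ → ℝ}
    (hg : ContinuousOn (fun z : Y × ℝ => g z.1 z.2) (S ×ˢ univ)) :
    ContinuousOn (fun y => mn (g y)) S := by
  have : CompactSpace S := isCompact_iff_compactSpace.1 hS
  rw [continuousOn_iff_continuous_domRestrict]
  have h1 : Continuous (Function.uncurry fun (y : S) (t : ℝ) => g y t) := by
    have h2 : Continuous (fun p : S × ℝ => ((p.1 : Y), p.2)) := by fun_prop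
    have h3 := hg.comp_continuous h2 (fun p => ⟨p.1.2, mem_univ _⟩)
    exact h3
  have h4 := intervalIntegral.continuous_parametric_intervalIntegral_of_continuous' (μ := volume)
    h1 0 (2 * Real.pi)
  unfold mn
  exact continuous_const.mul h4

lemma pos_min {S : Set Y} (hS : IsCompact S) {g : Y → ℝ} (hg : ContinuousOn g S)
    (h : ∀ y ∈ S, 0 < g y) : ∃ c, 0 < c ∧ ∀ y ∈ S, c ≤ g y := by
  rcases S.eq_empty_or_nonempty with he | hne
  · exact ⟨1, one_pos, fun y hy => by rw [he] at hy; exact absurd hy (notMem_empty _)⟩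
  · obtain ⟨y0, hy0, hmin⟩ := hS.exists_isMinOn hne hg
    exact ⟨g y0, h y0 hy0, fun y hy => hmin hy⟩

lemma bdd_abs {S : Set Y} (hS : IsCompact S) {g : Y → ℝ} (hg : ContinuousOn g S) :
    ∃ c, 0 < c ∧ ∀ y ∈ S, g y ≤ c := by
  obtain ⟨C, hC⟩ := hS.exists_bound_of_continuousOn hg
  refine ⟨max C 1, by positivity, fun y hy => ?_⟩
  have := hC y hy
  exact (le_abs_self _).trans (this.trans (le_max_left _ _))

/-- abstract form: families of planar loops over a compact set -/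
theorem del_low_cpt {S : Set Y} (hS : IsCompact S) {α p1 p2 : Y → ℝ} {W1 W2 : Y → ℝ → ℝ}
    (hα : ContinuousOn α S) (hp1 : ContinuousOn p1 S) (hp2 : ContinuousOn p2 S)
    (h1 : ContinuousOn (fun z : Y × ℝ => W1 z.1 z.2) (S ×ˢ univ))
    (h2 : ContinuousOn (fun z : Y × ℝ => W2 z.1 z.2) (S ×ˢ univ))
    (per1 : ∀ y ∈ S, ∀ t, W1 y (t + 2 * Real.pi) = W1 y t)
    (per2 : ∀ y ∈ S, ∀ t, W2 y (t + 2 * Real.pi) = W2 y t)
    (m1 : ∀ y ∈ S, mn (W1 y) = 0) (m2 : ∀ y ∈ S, mn (W2 y) = 0)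
    (hc : ∀ y ∈ S, ∀ t, (p1 y + W1 y t) ^ 2 + (p2 y + W2 y t) ^ 2 =
      p1 y ^ 2 + p2 y ^ 2 + α y ^ 2)
    (h0 : ∀ y ∈ S, α y = 0 → 0 < p1 y ^ 2 + p2 y ^ 2) :
    ∃ c, 0 < c ∧ ∀ y ∈ S, c ≤ p1 y ^ 2 + p2 y ^ 2 + α y ^ 2 ∧
      c * α y ^ 2 ≤ del (p1 y) (p2 y) (W1 y) (W2 y) := by
  -- continuity of the slices
  have s1 : ∀ y ∈ S, Continuous (W1 y) := fun y hy =>
    h1.comp_continuous (f := fun t : ℝ => (y, t)) (by fun_prop) (fun t => ⟨hy, mem_univ _⟩)
  have s2 : ∀ y ∈ S, Continuous (W2 y) := fun y hy =>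
    h2.comp_continuous (f := fun t : ℝ => (y, t)) (by fun_prop) (fun t => ⟨hy, mem_univ _⟩)
  -- continuity of del
  have q1 : ContinuousOn (fun y => mn (fun t => W1 y t ^ 2)) S := cont_mn hS (h1.pow 2)
  have q2 : ContinuousOn (fun y => mn (fun t => W2 y t ^ 2)) S := cont_mn hS (h2.pow 2)
  have q3 : ContinuousOn (fun y => mn (fun t => W1 y t * W2 y t)) S := cont_mn hS (h1.mul h2)
  have hdel : ContinuousOn (fun y => del (p1 y) (p2 y) (W1 y) (W2 y)) S := by
    unfold del; fun_prop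
  -- the set where the loop is not close to `p`
  have hZc : IsCompact {z : Y × ℝ | z ∈ S ×ˢ Icc (0:ℝ) (2 * Real.pi) ∧
      p1 z.1 * (p1 z.1 + W1 z.1 z.2) + p2 z.1 * (p2 z.1 + W2 z.1 z.2) ≤ 0} := by
    have hK : IsCompact (S ×ˢ Icc (0:ℝ) (2 * Real.pi)) := hS.prod isCompact_Icc
    have hcont : ContinuousOn (fun z : Y × ℝ =>
        p1 z.1 * (p1 z.1 + W1 z.1 z.2) + p2 z.1 * (p2 z.1 + W2 z.1 z.2))
        (S ×ˢ Icc (0:ℝ) (2 * Real.pi)) := by
      have e1 : ContinuousOn (fun z : Y × ℝ => p1 z.1) (S ×ˢ Icc (0:ℝ) (2 * Real.pi)) :=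
        hp1.comp continuousOn_fst (fun z hz => hz.1)
      have e2 : ContinuousOn (fun z : Y × ℝ => p2 z.1) (S ×ˢ Icc (0:ℝ) (2 * Real.pi)) :=
        hp2.comp continuousOn_fst (fun z hz => hz.1)
      have e3 : ContinuousOn (fun z : Y × ℝ => W1 z.1 z.2) (S ×ˢ Icc (0:ℝ) (2 * Real.pi)) :=
        h1.mono (prod_mono_right (subset_univ _))
      have e4 : ContinuousOn (fun z : Y × ℝ => W2 z.1 z.2) (S ×ˢ Icc (0:ℝ) (2 * Real.pi)) :=
        h2.mono (prod_mono_right (subset_univ _))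
      exact (e1.mul (e1.add e3)).add (e2.mul (e2.add e4))
    have := hcont.preimage_isClosed_of_isClosed hK.isClosed (isClosed_Iic (a := (0:ℝ)))
    refine hK.of_isClosed_subset (this) (fun z hz => hz.1) |> fun h => ?_
    exact h
  have hp0 : (0:ℝ) < 2 * Real.pi := by positivity
  -- on this set `α ≠ 0`
  obtain ⟨ρ1, hρ1, hρ1'⟩ := pos_min hZc (g := fun z => α z.1 ^ 2)
    ((hα.comp continuousOn_fst (fun z hz => hz.1.1)).pow 2) (by
      rintro ⟨y, t⟩ ⟨⟨hy, _⟩, hle⟩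
      by_contra hcon
      push Not at hcon
      have ha : α y = 0 := by
        have : α y ^ 2 = 0 := le_antisymm hcon (sq_nonneg _)
        exact pow_eq_zero_iff (two_ne_zero) |>.1 this
      have hW := W_eq_zero (s1 y hy) (s2 y hy) (per1 y hy) (per2 y hy) (m1 y hy) (m2 y hy)
        (hc y hy) ha t
      simp only at hle
      rw [hW.1, hW.2] at hle
      have := h0 y hy ha
      nlinarith)
  obtain ⟨c0, hc0, hc0'⟩ := pos_min hS (g := fun y => p1 y ^ 2 + p2 y ^ 2 + α y ^ 2)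
    (by fun_prop) (by
      intro y hy
      by_cases ha : α y = 0
      · have := h0 y hy ha; positivity
      · positivity)
  set ρ := min ρ1 (c0 / 2) with hρ
  have hρpos : 0 < ρ := by positivity
  -- far part
  have hSf : IsCompact {y | y ∈ S ∧ ρ ≤ α y ^ 2} := by
    have := (hα.pow 2).preimage_isClosed_of_isClosed hS.isClosed (isClosed_Ici (a := ρ))
    exact hS.of_isClosed_subset this (fun z hz => hz.1)
  obtain ⟨c1, hc1, hc1'⟩ := pos_min hSf (g := fun y => del (p1 y) (p2 y) (W1 y) (W2 y))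
    (hdel.mono (fun y hy => hy.1)) (by
      rintro y ⟨hy, hαy⟩
      refine del_pos (s1 y hy) (s2 y hy) (per1 y hy) (per2 y hy) (m1 y hy) (m2 y hy) (hc y hy) ?_
      intro ha
      rw [ha] at hαy
      simp at hαy
      linarith)
  obtain ⟨M, hM, hM'⟩ := bdd_abs hS (hα.pow 2)
  refine ⟨min c0 (min (c0 / 4) (c1 / M)), by positivity, fun y hy => ⟨(min_le_left _ _).trans
    (hc0' y hy), ?_⟩⟩
  rcases lt_or_ge (α y ^ 2) ρ with hlt | hge
  · have hP : c0 / 2 ≤ p1 y ^ 2 + p2 y ^ 2 := by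
      have h3 : c0 ≤ p1 y ^ 2 + p2 y ^ 2 + α y ^ 2 := hc0' y hy
      have h4 : α y ^ 2 < c0 / 2 := lt_of_lt_of_le hlt (min_le_right _ _)
      linarith
    have hpos : ∀ t, 0 ≤ p1 y * (p1 y + W1 y t) + p2 y * (p2 y + W2 y t) := by
      -- it suffices to treat `t ∈ [0, 2π]`
      have hI : ∀ t ∈ Icc (0:ℝ) (2 * Real.pi),
          0 ≤ p1 y * (p1 y + W1 y t) + p2 y * (p2 y + W2 y t) := by
        intro t ht
        by_contra hcon
        push Not at hcon
        have h5 : ρ1 ≤ α y ^ 2 := hρ1' (y, t) ⟨⟨hy, ht⟩, hcon.le⟩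
        have h6 : α y ^ 2 < ρ1 := lt_of_lt_of_le hlt (min_le_left _ _)
        linarith
      intro t
      have P1 : Function.Periodic (W1 y) (2 * Real.pi) := per1 y hy
      have P2 : Function.Periodic (W2 y) (2 * Real.pi) := per2 y hy
      have PP : Function.Periodic
          (fun t => p1 y * (p1 y + W1 y t) + p2 y * (p2 y + W2 y t)) (2 * Real.pi) := by
        intro t; simp only [P1 t, P2 t]
      obtain ⟨t', ht', htt'⟩ := PP.exists_mem_Ico₀ hp0 t
      rw [htt']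
      exact hI t' ⟨ht'.1, ht'.2.le⟩
    have h7 := del_low (s1 y hy) (s2 y hy) (m1 y hy) (m2 y hy) (hc y hy) hpos
    calc min c0 (min (c0 / 4) (c1 / M)) * α y ^ 2 ≤ c0 / 4 * α y ^ 2 := by
          apply mul_le_mul_of_nonneg_right _ (sq_nonneg _)
          exact (min_le_right _ _).trans (min_le_left _ _)
      _ ≤ (p1 y ^ 2 + p2 y ^ 2) * α y ^ 2 / 2 := by
          have := mul_le_mul_of_nonneg_right hP (sq_nonneg (α y))
          linarith
      _ ≤ _ := h7
  · have h7 := hc1' y ⟨hy, hge⟩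
    calc min c0 (min (c0 / 4) (c1 / M)) * α y ^ 2 ≤ c1 / M * α y ^ 2 := by
          apply mul_le_mul_of_nonneg_right _ (sq_nonneg _)
          exact (min_le_right _ _).trans (min_le_right _ _)
      _ ≤ c1 / M * M := by
          apply mul_le_mul_of_nonneg_left (hM' y hy) (by positivity)
      _ = c1 := by field_simp
      _ ≤ _ := h7

end cpt

end MacDel

open MacDel in
/-- **MAC-2**: nondegeneracy of the loops for amplitudes close to `A = ampX u β`. -/
theorem mac_del {f : X2 → E4} {u β : X2 → ℝ} {O : Set (X2 × ℝ)} {W : X2 × ℝ → ℝ → E4}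
    (h : MacHyp f u β O W) {b1 b2 : X2 → E4}
    (hc1 : ContinuousOn b1 (closure {x | 0 < u x})) (hc2 : ContinuousOn b2 (closure {x | 0 < u x}))
    (hon : ∀ x ∈ closure {x | 0 < u x}, ‖b1 x‖ = 1 ∧ ‖b2 x‖ = 1 ∧ (inner ℝ (b1 x) (b2 x) : ℝ) = 0)
    (hperp : ∀ x ∈ closure {x | 0 < u x},
      (inner ℝ (b1 x) (d2 f x) : ℝ) = 0 ∧ (inner ℝ (b1 x) (d2 (d2 f) x) : ℝ) = 0 ∧
      (inner ℝ (b2 x) (d2 f x) : ℝ) = 0 ∧ (inner ℝ (b2 x) (d2 (d2 f) x) : ℝ) = 0) :
    ∃ r c : ℝ, 0 < r ∧ 0 < c ∧ ∀ x ∈ closure {x | 0 < u x}, ∀ α : ℝ, 0 ≤ α →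
      |α - ampX u β x| ≤ r → (x, α) ∈ O ∧ c ≤ r2X (d1 f x) (b1 x) (b2 x) α ∧
      c * α ^ 2 ≤ delX (d1 f x) (b1 x) (b2 x) (fun t => W (x, α) t - d1 f x) := by
  set K := closure {x : X2 | 0 < u x} with hK
  have hKc : IsCompact K := h.ha.cpt
  set A : X2 → ℝ := ampX u β with hA
  have hAc : Continuous A := by
    rw [hA]; unfold ampX
    exact ((expNegInvGlue.contDiff (n := 0)).continuous.comp h.ha.hu.continuous).mul
      h.ha.hβ.continuous
  have hd1 : Continuous (d1 f) := by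
    unfold d1
    exact (h.hf.continuous_fderiv (by simp)).clm_apply continuous_const
  have hd2s : ContDiff ℝ ∞ (d2 f) := by
    unfold d2
    exact (h.hf.fderiv_right (m := ∞) (by simp)).clm_apply contDiff_const
  have hd2 : Continuous (d2 f) := hd2s.continuous
  have hd22 : Continuous (d2 (d2 f)) := by
    unfold d2
    exact (hd2s.continuous_fderiv (by simp)).clm_apply continuous_const
  have hp1c : ContinuousOn (fun x => (inner ℝ (d1 f x) (b1 x) : ℝ)) K := hd1.continuousOn.inner hc1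
  have hp2c : ContinuousOn (fun x => (inner ℝ (d1 f x) (b2 x) : ℝ)) K := hd1.continuousOn.inner hc2
  -- frame
  have hFr : ∀ x ∈ K, Fr (d2 f x) (d2 (d2 f) x) (b1 x) (b2 x) := fun x hx =>
    ⟨(h.ind x hx).ne', by rw [real_inner_self_eq_norm_sq, (hon x hx).1, one_pow],
      by rw [real_inner_self_eq_norm_sq, (hon x hx).2.1, one_pow], (hon x hx).2.2,
      (hperp x hx).1, (hperp x hx).2.1, (hperp x hx).2.2.1, (hperp x hx).2.2.2⟩
  -- the graph of A is in O
  have hG : IsCompact ((fun x => (x, A x)) '' K) :=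
    hKc.image (continuous_id.prodMk hAc)
  have hGO : (fun x => (x, A x)) '' K ⊆ O := by
    rintro _ ⟨x, hx, rfl⟩; exact h.hW.mem x hx
  obtain ⟨r1, hr1, hr1'⟩ := hG.exists_cthickening_subset_open h.hW.isOpen hGO
  have hO1 : ∀ x ∈ K, ∀ α, |α - A x| ≤ r1 → (x, α) ∈ O := by
    intro x hx α hα
    apply hr1'
    apply Metric.mem_cthickening_of_dist_le (x, α) (x, A x) r1 ((fun x => (x, A x)) '' K)
      ⟨x, hx, rfl⟩
    rw [Prod.dist_eq]
    simp only [dist_self]
    rw [max_eq_right dist_nonneg, Real.dist_eq]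
    exact hα
  -- the bad set `p = 0`
  have hZ : IsCompact {x | x ∈ K ∧
      (inner ℝ (d1 f x) (b1 x) : ℝ) ^ 2 + (inner ℝ (d1 f x) (b2 x) : ℝ) ^ 2 ≤ 0} := by
    have := ((hp1c.pow 2).add (hp2c.pow 2)).preimage_isClosed_of_isClosed hKc.isClosed
      (isClosed_Iic (a := (0:ℝ)))
    exact hKc.of_isClosed_subset this (fun z hz => hz.1)
  obtain ⟨a0, ha0, ha0'⟩ := pos_min hZ (g := A) hAc.continuousOn (by
    rintro x ⟨hx, hx0⟩
    by_contra hcon
    push Not at hcon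
    have hux : ¬ 0 < u x := by
      intro hu
      have : 0 < A x := mul_pos (expNegInvGlue.pos_of_pos hu) (h.ha.pos x)
      linarith
    have hfr : x ∈ frontier {x : X2 | 0 < u x} := by
      rw [frontier, (isOpen_lt continuous_const h.ha.hu.continuous).interior_eq]
      exact ⟨hx, hux⟩
    apply h.ind1 x hfr
    have e1 : (inner ℝ (d1 f x) (b1 x) : ℝ) = 0 := by nlinarith [sq_nonneg (inner ℝ (d1 f x) (b1 x) : ℝ), sq_nonneg (inner ℝ (d1 f x) (b2 x) : ℝ)]
    have e2 : (inner ℝ (d1 f x) (b2 x) : ℝ) = 0 := by nlinarith [sq_nonneg (inner ℝ (d1 f x) (b1 x) : ℝ), sq_nonneg (inner ℝ (d1 f x) (b2 x) : ℝ)]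
    have := (hFr x hx).decomp_c (d1 f x)
    rw [e1, e2, zero_smul, zero_smul, add_zero, add_zero] at this
    unfold ppr
    rw [← this, sub_self])
  set r := min r1 (a0 / 2) with hr
  have hrpos : 0 < r := by positivity
  set S : Set (X2 × ℝ) := {z | z.1 ∈ K ∧ 0 ≤ z.2 ∧ |z.2 - A z.1| ≤ r} with hSdef
  have hScpt : IsCompact S := by
    obtain ⟨M, hM⟩ := hKc.exists_bound_of_continuousOn hAc.continuousOn
    have hbig : IsCompact (K ×ˢ Icc (0:ℝ) (M + r)) := hKc.prod isCompact_Icc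
    refine hbig.of_isClosed_subset ?_ ?_
    · have c1 : IsClosed {z : X2 × ℝ | z.1 ∈ K} := hKc.isClosed.preimage continuous_fst
      have c2 : IsClosed {z : X2 × ℝ | 0 ≤ z.2} := isClosed_le continuous_const continuous_snd
      have c3 : IsClosed {z : X2 × ℝ | |z.2 - A z.1| ≤ r} :=
        isClosed_le (by fun_prop) continuous_const
      exact c1.inter (c2.inter c3)
    · rintro ⟨x, α⟩ ⟨hx, h0, hα⟩
      refine ⟨hx, h0, ?_⟩
      have h1 := hM x hx
      rw [Real.norm_eq_abs] at h1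
      have h2 := abs_le.1 h1
      have h3 := abs_le.1 hα
      simp only at h3 ⊢
      linarith
  have hSO : S ⊆ O := fun z hz => hO1 z.1 hz.1 z.2 (hz.2.2.trans (min_le_left _ _))
  have hfst : ContinuousOn (fun z : (X2 × ℝ) × ℝ => z.1.1) (S ×ˢ univ) :=
    (continuous_fst.comp continuous_fst).continuousOn
  have hWc : ContinuousOn (fun z : (X2 × ℝ) × ℝ => W z.1 z.2 - d1 f z.1.1) (S ×ˢ univ) :=
    (h.hW.smooth.continuousOn.mono (prod_mono_left hSO)).sub
      (hd1.comp_continuousOn hfst)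
  have hb1 : ContinuousOn (fun z : (X2 × ℝ) × ℝ => b1 z.1.1) (S ×ˢ univ) :=
    hc1.comp hfst (fun z hz => hz.1.1)
  have hb2 : ContinuousOn (fun z : (X2 × ℝ) × ℝ => b2 z.1.1) (S ×ˢ univ) :=
    hc2.comp hfst (fun z hz => hz.1.1)
  -- orthogonality of V
  have hVB : ∀ z ∈ S, ∀ t, (inner ℝ (W z t - d1 f z.1) (d2 f z.1) : ℝ) = 0 := by
    intro z hz t
    rw [inner_sub_left, h.hW.perp2 z (hSO hz) t, sub_self]
  have hVC : ∀ z ∈ S, ∀ t, (inner ℝ (W z t - d1 f z.1) (d2 (d2 f) z.1) : ℝ) = 0 := by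
    intro z hz t
    rw [inner_sub_left, h.hW.perp22 z (hSO hz) t, sub_self]
  have hslice : ∀ z ∈ S, Continuous (fun t => W z t - d1 f z.1) := fun z hz =>
    hWc.comp_continuous (f := fun t : ℝ => (z, t)) (by fun_prop) (fun t => ⟨hz, mem_univ _⟩)
  -- means
  have hmean : ∀ z ∈ S, ∀ b : E4, mn (fun t => (inner ℝ (W z t - d1 f z.1) b : ℝ)) = 0 := by
    intro z hz b
    unfold mn
    have hc : Continuous (fun t => W z t - d1 f z.1) := hslice z hz
    have e1 : ∫ t in (0:ℝ)..(2 * Real.pi), (inner ℝ (W z t - d1 f z.1) b : ℝ) =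
        inner ℝ (∫ t in (0:ℝ)..(2 * Real.pi), (W z t - d1 f z.1)) b := by
      have := ((innerSL ℝ b).intervalIntegral_comp_comm
        (hc.intervalIntegrable (μ := volume) 0 (2 * Real.pi)))
      simp only [innerSL_apply_apply] at this
      rw [real_inner_comm, ← this]
      congr 1
      funext t
      rw [real_inner_comm]
    have hcW : Continuous (fun t => W z t) := by
      have h5 : (fun t => W z t) = fun t => (W z t - d1 f z.1) + d1 f z.1 := by
        funext t; rw [sub_add_cancel]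
      rw [h5]
      exact hc.add continuous_const
    rw [e1, intervalIntegral.integral_sub (hcW.intervalIntegrable _ _)
      (continuous_const.intervalIntegrable _ _), h.hW.mean z (hSO hz),
      intervalIntegral.integral_const, sub_zero, sub_self, inner_zero_left, mul_zero]
  have hcirc : ∀ z ∈ S, ∀ t,
      ((inner ℝ (d1 f z.1) (b1 z.1) : ℝ) + inner ℝ (W z t - d1 f z.1) (b1 z.1)) ^ 2
      + ((inner ℝ (d1 f z.1) (b2 z.1) : ℝ) + inner ℝ (W z t - d1 f z.1) (b2 z.1)) ^ 2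
      = (inner ℝ (d1 f z.1) (b1 z.1) : ℝ) ^ 2 + (inner ℝ (d1 f z.1) (b2 z.1) : ℝ) ^ 2
        + z.2 ^ 2 := by
    intro z hz t
    have n1 := (hFr z.1 hz.1).normsq (W z t)
    have n2 := (hFr z.1 hz.1).normsq (d1 f z.1)
    have n3 := h.hW.norm z (hSO hz) t
    have n4 : cpr (W z t) (d2 f z.1) (d2 (d2 f) z.1) = cpr (d1 f z.1) (d2 f z.1) (d2 (d2 f) z.1) := by
      unfold cpr
      rw [h.hW.perp2 z (hSO hz) t, h.hW.perp22 z (hSO hz) t]
    rw [n4] at n1
    rw [inner_sub_left, inner_sub_left]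
    linarith
  obtain ⟨c, hc, hc'⟩ := del_low_cpt hScpt (α := fun z => z.2)
    (p1 := fun z => inner ℝ (d1 f z.1) (b1 z.1)) (p2 := fun z => inner ℝ (d1 f z.1) (b2 z.1))
    (W1 := fun z t => inner ℝ (W z t - d1 f z.1) (b1 z.1))
    (W2 := fun z t => inner ℝ (W z t - d1 f z.1) (b2 z.1))
    continuousOn_snd (hp1c.comp continuousOn_fst (fun z hz => hz.1))
    (hp2c.comp continuousOn_fst (fun z hz => hz.1))
    (hWc.inner hb1) (hWc.inner hb2)
    (fun z hz t => by simp only [h.hW.per z (hSO hz) t])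
    (fun z hz t => by simp only [h.hW.per z (hSO hz) t])
    (fun z hz => hmean z hz _) (fun z hz => hmean z hz _) hcirc
    (by
      rintro ⟨x, α⟩ ⟨hx, h0, hα⟩ hα0
      simp only at hα0 hx hα ⊢
      by_contra hcon
      push Not at hcon
      have h3 := ha0' x ⟨hx, hcon⟩
      rw [hα0] at hα
      have h4 : |0 - A x| = |A x| := by rw [zero_sub, abs_neg]
      rw [h4] at hα
      have h5 : A x ≤ r := (le_abs_self _).trans hα
      have h6 : r ≤ a0 / 2 := min_le_right _ _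
      linarith)
  refine ⟨r, c, hrpos, hc, fun x hx α h0 hα => ?_⟩
  have hzS : (x, α) ∈ S := ⟨hx, h0, hα⟩
  obtain ⟨g1, g2⟩ := hc' (x, α) hzS
  exact ⟨hSO hzS, g1, g2⟩

end Crest.Agent.R216.TE
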