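import Crest.Agent.R216.MacAmp
import Crest.Agent.R216.MacDel
import Crest.Agent.R216.MacLoop
import Crest.Agent.R216.ClsComp

/-!
# Row 216, Theorem E, MACRO: the data of the engine (helper323).
-/

open Set Topology MeasureTheory
open scoped ContDiff

namespace Crest.Agent.R216.TE

section
variable {f : X2 → E4} {u β : X2 → ℝ} {O : Set (X2 × ℝ)} {W : X2 × ℝ → ℝ → E4}
  {c N : ℕ} {h0 : ℝ}

/-- the engine data of the macroscopic step -/
noncomputable def dataM (h : MacHyp f u β O W) (hc : 1 ≤ c) (hN : 1 ≤ N) (h0 : ℝ) :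
    EData (efamM h.ha hc hN h0) where
  f _ := f
  b1 _ := fr1 f u β W
  b2 _ := fr2 f u β W
  Wl i z := W (z.1, am u β c i.1 z.1) z.2 - d1 f z.1
  G11 _ _ := 0
  G12 _ _ := 0
  G22 _ _ := 0

lemma fixedB (h : MacHyp f u β O W) (hc : 1 ≤ c) (hN : 1 ≤ N) (h0 : ℝ) {g : X2 → E4}
    {O1 : Set X2} (hO : IsOpen O1) (hSO : closure {x | 0 < u x} ⊆ O1)
    (hg : ContDiffOn ℝ ∞ g O1) :
    (efamM h.ha hc hN h0).toFam.B ((efamM h.ha hc hN h0).W 0 0 0) (fun _ => lift g) := by
  have h1 := (Fam.B.lift_fixedOn (𝓕 := (efamM h.ha hc hN h0).toFam) h.ha.cpt hO hSO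
    (fun i => (famM_sub h.ha hc hN i).trans subset_closure) hg).1
  refine h1.weight_congr (fun i x _ => ?_)
  simp [EFam.W]

/-- the engine hypotheses hold for small `h` -/
theorem dataM_hyp (h : MacHyp f u β O W) (hc : 1 ≤ c) (hN : 1 ≤ N) :
    ∃ r : ℝ, 0 < r ∧ ∀ h0 : ℝ,
      (∀ i : MIx h0, ∀ x ∈ closure {x | 0 < u x}, |am u β c i.1 x - ampX u β x| ≤ r) →
      (dataM h hc hN h0).Hyp := by
  obtain ⟨hfo, hfs, _⟩ := frame_aux h
  obtain ⟨r1, c1, hr1, hc1, hdel⟩ := mac_del h (b1 := fr1 f u β W) (b2 := fr2 f u β W)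
    ((fr1_smooth h).continuousOn.mono hfs) ((fr2_smooth h).continuousOn.mono hfs)
    (fun x hx => ⟨(frame_on h hx).1, (frame_on h hx).2.1, (frame_on h hx).2.2.1⟩)
    (fun x hx => (frame_on h hx).2.2.2)
  obtain ⟨r2, hr2, hloop⟩ := mac_loop h
  refine ⟨min r1 r2, lt_min hr1 hr2, fun h0 hclose => ?_⟩
  have hf1 := contDiff_d1 h.hf
  have hf2 := contDiff_d2 h.hf
  have hf12 := contDiff_d1 hf2
  have hf22 := contDiff_d2 hf2
  have hsub : ∀ i : MIx h0, (famM u h.ha.hu.continuous c N h0).D i ⊆ closure {x | 0 < u x} :=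
    fun i => (famM_sub h.ha hc hN i).trans subset_closure
  have hO : ∀ i : MIx h0, ∀ x ∈ (famM u h.ha.hu.continuous c N h0).D i,
      (x, am u β c i.1 x) ∈ O ∧ c1 ≤ r2X (d1 f x) (fr1 f u β W x) (fr2 f u β W x) (am u β c i.1 x) ∧
      c1 * (am u β c i.1 x) ^ 2 ≤ delX (d1 f x) (fr1 f u β W x) (fr2 f u β W x)
        (fun t => W (x, am u β c i.1 x) t - d1 f x) := by
    intro i x hx
    exact hdel x (hsub i hx) _ ((efamM h.ha hc hN h0).a_pos i x hx).le
      ((hclose i x (hsub i hx)).trans (min_le_left _ _))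
  have hfix := fun (g : X2 → E4) (hg : ContDiff ℝ ∞ g) =>
    fixedB h hc hN h0 (g := g) isOpen_univ (subset_univ _) hg.contDiffOn
  have hzero : ∀ (a b : ℕ), (efamM h.ha hc hN h0).toFam.B ((efamM h.ha hc hN h0).W a b 0)
      (fun _ => lift (fun _ => (0:ℝ))) := fun a b => by
    refine Fam.B.zero (fun i x hx => ?_)
    exact EFam.W_nn (𝓔 := efamM h.ha hc hN h0) _ _ _ i x hx
  refine
    { fsm := fun i => (h.hf.comp contDiff_fst).contDiffOn
      f1B := hfix _ hf1
      f2B := hfix _ hf2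
      f12B := hfix _ hf12
      f22B := hfix _ hf22
      gram_low := ?_
      b1B := fixedB h hc hN h0 hfo hfs (fr1_smooth h)
      b2B := fixedB h hc hN h0 hfo hfs (fr2_smooth h)
      b_on := fun i x hx => ⟨(frame_on h (hsub i hx)).1, (frame_on h (hsub i hx)).2.1,
        (frame_on h (hsub i hx)).2.2.1⟩
      b_perp := fun i z hz => (frame_on h (hsub i hz)).2.2.2
      WB := hloop _ (famM_sub h.ha hc hN) (fun i x hx =>
        (hclose i x (hsub i hx)).trans (min_le_right _ _))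
      Wper := ?_
      Weven := ?_
      Wmean := ?_
      Wperp := ?_
      circle := ?_
      r2_low := ⟨c1, hc1, fun i z hz => (hO i z.1 hz).2.1⟩
      Del_low := ⟨c1, hc1, fun i z hz => (hO i z.1 hz).2.2⟩
      G11B := hzero _ _
      G12B := hzero _ _
      G22B := hzero _ _
      star := ?_
      bdd2 := ?_ }
  · have hgc : ContinuousOn (fun x => gram (d2 f x) (d2 (d2 f) x)) (closure {x | 0 < u x}) :=
      (contDiffOn_gram hf2.contDiffOn hf22.contDiffOn (s := univ)).continuousOn.mono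
        (subset_univ _)
    rcases (closure {x | 0 < u x}).eq_empty_or_nonempty with hS | hS
    · refine ⟨1, one_pos, fun i z hz => ?_⟩
      have := hsub i hz
      rw [hS] at this; exact absurd this (notMem_empty _)
    · obtain ⟨x0, hx0, hmin⟩ := h.ha.cpt.exists_isMinOn hS hgc
      exact ⟨_, h.ind x0 hx0, fun i z hz => hmin (hsub i hz)⟩
  · intro i x hx t
    show W _ _ - _ = W _ _ - _
    rw [h.hW.per _ (hO i x hx).1]
  · intro i x hx t
    show W _ _ - _ = W _ _ - _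
    rw [h.hW.even _ (hO i x hx).1]
  · intro i z hz
    have h1 := h.hW.mean _ (hO i z.1 hz).1
    have hcont : Continuous (fun t => W (z.1, am u β c i.1 z.1) t) := by
      have h2 : ContinuousOn (fun t : ℝ => (fun y : (X2 × ℝ) × ℝ => W y.1 y.2)
          ((z.1, am u β c i.1 z.1), t)) univ :=
        h.hW.smooth.continuousOn.comp (by fun_prop) (fun t _ => ⟨(hO i z.1 hz).1, mem_univ _⟩)
      exact continuousOn_univ.1 h2
    show (2 * Real.pi)⁻¹ • ∫ s in (0:ℝ)..(2 * Real.pi),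
      (W (z.1, am u β c i.1 z.1) s - d1 f z.1) = 0
    rw [intervalIntegral.integral_sub (hcont.intervalIntegrable _ _)
      (continuous_const.intervalIntegrable _ _), h1, intervalIntegral.integral_const]
    simp
  · intro i z hz
    have h1 := h.hW.perp2 _ (hO i z.1 hz).1 z.2
    have h2 := h.hW.perp22 _ (hO i z.1 hz).1 z.2
    constructor
    · show (inner ℝ (W (z.1, am u β c i.1 z.1) z.2 - d1 f z.1) (d2 f z.1) : ℝ) = 0
      rw [inner_sub_left]; simp only at h1; linarith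
    · show (inner ℝ (W (z.1, am u β c i.1 z.1) z.2 - d1 f z.1) (d2 (d2 f) z.1) : ℝ) = 0
      rw [inner_sub_left]; simp only at h2; linarith
  · intro i z hz
    have h1 := h.hW.norm _ (hO i z.1 hz).1 z.2
    have e : (dataM h hc hN h0).w i z = W (z.1, am u β c i.1 z.1) z.2 := by
      show d1 f z.1 + (W (z.1, am u β c i.1 z.1) z.2 - d1 f z.1) = _
      abel
    rw [e]; exact h1
  · intro i x hx l hl
    have hL := Lp_ge hc i.2.1 i.2.2.2
    have hK := Lp_ge hN i.2.1 i.2.2.2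
    have hx' : (2 * Lp N i.1)⁻¹ < 2 * Lp c i.1 * u x - 1 := hx
    have hK' : 0 < (2 * Lp N i.1)⁻¹ := by positivity
    have hL2 : 0 < 2 * Lp c i.1 := by linarith
    have h1 := h.ha.star (((2 * Lp N i.1)⁻¹ + 1) / (2 * Lp c i.1)) (by positivity) x
      (by rw [div_lt_iff₀ hL2]; linarith) l hl
    show (2 * Lp N i.1)⁻¹ < 2 * Lp c i.1 * u (x.1, l * x.2) - 1
    rw [div_lt_iff₀ hL2] at h1
    linarith
  · obtain ⟨R, hR⟩ := h.ha.cpt.isBounded.exists_norm_le
    refine ⟨|R| + 1, by positivity, fun i x hx => ?_⟩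
    have h1 := hR x (hsub i hx)
    have h2 : |x.2| ≤ ‖x‖ := by
      rw [← Real.norm_eq_abs]; exact norm_snd_le x
    linarith [le_abs_self R]

end

end Crest.Agent.R216.TE
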