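import Crest.Agent.R216.ClsAlg
import Crest.Agent.R216.EngDefs
import Crest.Agent.R216.Prof2

/-!
# Row 216, Theorem E, section 3: class versions of the profiles.
-/

open Set Topology
open scoped ContDiff

set_option linter.unusedSectionVars false

namespace Crest.Agent.R216.TE

namespace Fam
variable {𝓕 : Fam}
variable {w w' : 𝓕.I → X2 → ℝ}
variable {V : Type*} [NormedAddCommGroup V] [NormedSpace ℝ V]

/-- Composition with one-variable functions (order `k`). -/
lemma Bk.comp1 {v : 𝓕.I → Q → ℝ} {m : 𝓕.I → ℝ} (hv : 𝓕.Sm v) (hm : ∀ i, 0 < m i)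
    (hd : ∀ j, 𝓕.B (fun i _ => 𝓕.Lam i * m i) (fun i => Crest.Agent.R216.TE.pd j (v i))) {k : ℕ} :
    ∀ {w : 𝓕.I → X2 → ℝ} {g : 𝓕.I → ℝ → ℝ}, (∀ i, ContDiff ℝ ∞ (g i)) → Nn w →
    (∀ n : ℕ, ∃ C : ℝ, 0 < C ∧ ∀ i, ∀ z ∈ 𝓕.dom i,
      |iteratedDeriv n (g i) (v i z)| * m i ^ n ≤ C * w i z.1) →
    𝓕.Bk k w (fun i z => g i (v i z)) := by
  have key : ∀ {w : 𝓕.I → X2 → ℝ} {g : 𝓕.I → ℝ → ℝ},
      (∀ n : ℕ, ∃ C : ℝ, 0 < C ∧ ∀ i, ∀ z ∈ 𝓕.dom i,
      |iteratedDeriv n (g i) (v i z)| * m i ^ n ≤ C * w i z.1) →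
      𝓕.Sz w (fun i z => g i (v i z)) := by
    intro w g h
    obtain ⟨C, hC, h⟩ := h 0
    refine ⟨C, hC, fun i z hz => ?_⟩
    have := h i z hz
    simpa using this
  induction k with
  | zero => intro w g _ _ h; exact key h
  | succ k ih =>
    intro w g hg hw h
    refine ⟨key h, fun j => ?_⟩
    have hg' : ∀ i, ContDiff ℝ ∞ (fun s => m i * deriv (g i) s) := fun i =>
      contDiff_const.mul ((contDiff_infty_iff_deriv.1 (hg i)).2)
    have hb : ∀ n : ℕ, ∃ C : ℝ, 0 < C ∧ ∀ i, ∀ z ∈ 𝓕.dom i,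
        |iteratedDeriv n (fun s => m i * deriv (g i) s) (v i z)| * m i ^ n ≤ C * w i z.1 := by
      intro n
      obtain ⟨C, hC, h⟩ := h (n + 1)
      refine ⟨C, hC, fun i z hz => ?_⟩
      have e : iteratedDeriv n (fun s => m i * deriv (g i) s) (v i z)
          = m i * iteratedDeriv (n + 1) (g i) (v i z) := by
        rw [iteratedDeriv_const_mul_field, iteratedDeriv_succ']
      rw [e, abs_mul, abs_of_pos (hm i)]
      have := h i z hz
      calc _ = |iteratedDeriv (n + 1) (g i) (v i z)| * m i ^ (n + 1) := by ring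
        _ ≤ _ := this
    have h1 := ih (w := w) (g := fun i s => m i * deriv (g i) s) hg' hw hb
    have h2 : 𝓕.B (fun i _ => 𝓕.Lam i)
        (fun i z => (m i)⁻¹ • Crest.Agent.R216.TE.pd j (v i) z) := by
      refine (B.smul_const (fun i => (m i)⁻¹)
        (fun i x _ => mul_nonneg (Lam_pos i).le (hm i).le) (hd j)).le (fun i x _ => ?_)
      rw [abs_of_pos (inv_pos.2 (hm i))]
      have := (hm i).ne'
      apply le_of_eq; field_simp
    have s1 : 𝓕.Sm (fun i z => m i * deriv (g i) (v i z)) := fun i => (hg' i).comp_contDiffOn (hv i)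
    have h3 := Bk.bilin (ContinuousLinearMap.mul ℝ ℝ) s1 h2.smooth hw
      (fun i x _ => (Lam_pos i).le) h1 (h2.bound k)
    refine (h3.mono one_pos (fun i x hx => by rw [one_mul, mul_comm])).congr (fun i z hz => ?_)
    have d1 := diffAt (𝓕.isOpen_dom i) (hv i) hz
    have d2 : HasDerivAt (g i) (deriv (g i) (v i z)) (v i z) :=
      ((hg i).differentiable (by simp)).differentiableAt.hasDerivAt
    show _ = fderiv ℝ (fun z => g i (v i z)) z (bas j)
    have e : fderiv ℝ (fun z => g i (v i z)) z = deriv (g i) (v i z) • fderiv ℝ (v i) z :=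
      (d2.comp_hasFDerivAt z d1.hasFDerivAt).fderiv
    have := (hm i).ne'
    rw [e]
    simp only [ContinuousLinearMap.mul_apply', smul_eq_mul, Crest.Agent.R216.TE.pd,
      smul_apply]
    field_simp

/-- Composition with one-variable functions. -/
lemma B.comp1 {v : 𝓕.I → Q → ℝ} {m : 𝓕.I → ℝ} (hv : 𝓕.Sm v) (hm : ∀ i, 0 < m i)
    (hd : ∀ j, 𝓕.B (fun i _ => 𝓕.Lam i * m i) (fun i => Crest.Agent.R216.TE.pd j (v i)))
    {w : 𝓕.I → X2 → ℝ} {g : 𝓕.I → ℝ → ℝ} (hg : ∀ i, ContDiff ℝ ∞ (g i)) (hw : Nn w)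
    (h : ∀ n : ℕ, ∃ C : ℝ, 0 < C ∧ ∀ i, ∀ z ∈ 𝓕.dom i,
      |iteratedDeriv n (g i) (v i z)| * m i ^ n ≤ C * w i z.1) :
    𝓕.B w (fun i z => g i (v i z)) :=
  ⟨fun i => (hg i).comp_contDiffOn (hv i), fun _ => Bk.comp1 hv hm hd hg hw h⟩

/-- A fixed smooth function on a family of domains contained in a compact set. -/
lemma Bk.lift_fixed {S : Set X2} (hS : IsCompact S) (hD : ∀ i, 𝓕.D i ⊆ S) {k : ℕ} :
    ∀ {h : X2 → V}, ContDiff ℝ ∞ h → 𝓕.Bk k (fun _ _ => 1) (fun _ => lift h) := by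
  have key : ∀ {h : X2 → V}, ContDiff ℝ ∞ h → 𝓕.Sz (fun _ _ => 1) (fun _ => lift h) := by
    intro h hh
    obtain ⟨C, hC⟩ := hS.exists_bound_of_continuousOn hh.continuous.continuousOn
    refine ⟨|C| + 1, by positivity, fun i z hz => ?_⟩
    have := hC z.1 (hD i hz)
    rw [mul_one]
    exact this.trans ((le_abs_self C).trans (by linarith))
  induction k with
  | zero => intro h hh; exact key hh
  | succ k ih =>
    intro h hh
    refine ⟨key hh, fun j => ?_⟩
    have h1 : ContDiff ℝ ∞ (fun x => fderiv ℝ h x (bas j).1) :=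
      (hh.fderiv_right (m := ∞) (by simp)).clm_apply contDiff_const
    refine ((ih h1).mono one_pos (w' := fun i _ => 𝓕.Lam i * 1) (fun i x _ => ?_)).congr
      (fun i z hz => ?_)
    · simpa using 𝓕.one_le i
    · have d1 : HasFDerivAt (lift h) ((fderiv ℝ h z.1).comp (ContinuousLinearMap.fst ℝ X2 ℝ)) z :=
        ((hh.differentiable (by simp)).differentiableAt.hasFDerivAt).comp z hasFDerivAt_fst
      simp only [Crest.Agent.R216.TE.pd]
      rw [d1.fderiv]
      rfl

lemma B.lift_fixed {S : Set X2} (hS : IsCompact S) (hD : ∀ i, 𝓕.D i ⊆ S) {h : X2 → V}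
    (hh : ContDiff ℝ ∞ h) : 𝓕.B (fun _ _ => 1) (fun _ => lift h) :=
  ⟨fun _ => (hh.comp contDiff_fst).contDiffOn, fun _ => Bk.lift_fixed hS hD hh⟩

lemma pd_lift_eq {h : X2 → V} (hh : ContDiff ℝ ∞ h) (j : Fin 3) :
    Crest.Agent.R216.TE.pd j (lift h) = lift (fun x => fderiv ℝ h x (bas j).1) := by
  ext z
  have d1 : HasFDerivAt (lift h) ((fderiv ℝ h z.1).comp (ContinuousLinearMap.fst ℝ X2 ℝ)) z :=
    ((hh.differentiable (by simp)).differentiableAt.hasFDerivAt).comp z hasFDerivAt_fst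
  simp only [Crest.Agent.R216.TE.pd]
  rw [d1.fderiv]
  rfl

/-- The derivatives of a fixed smooth function do not cost a factor `Lam`. -/
lemma B.pd_lift_fixed {S : Set X2} (hS : IsCompact S) (hD : ∀ i, 𝓕.D i ⊆ S) {h : X2 → V}
    (hh : ContDiff ℝ ∞ h) (j : Fin 3) :
    𝓕.B (fun _ _ => 1) (fun _ => Crest.Agent.R216.TE.pd j (lift h)) := by
  rw [pd_lift_eq hh j]
  exact B.lift_fixed hS hD ((hh.fderiv_right (m := ∞) (by simp)).clm_apply contDiff_const)

/-- Composition of one-variable functions with `c i * u x + b i`. -/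
lemma B.comp_affine {S : Set X2} (hS : IsCompact S) (hD : ∀ i, 𝓕.D i ⊆ S) {u : X2 → ℝ}
    (hu : ContDiff ℝ ∞ u) {c b m : 𝓕.I → ℝ} (hm : ∀ i, 0 < m i)
    (hcm : ∃ C, 0 < C ∧ ∀ i, |c i| ≤ C * (𝓕.Lam i * m i))
    {w : 𝓕.I → X2 → ℝ} {g : 𝓕.I → ℝ → ℝ} (hg : ∀ i, ContDiff ℝ ∞ (g i)) (hw : Nn w)
    (h : ∀ n : ℕ, ∃ C : ℝ, 0 < C ∧ ∀ i, ∀ x ∈ 𝓕.D i,
      |iteratedDeriv n (g i) (c i * u x + b i)| * m i ^ n ≤ C * w i x) :
    𝓕.B w (fun i => lift (fun x => g i (c i * u x + b i))) := by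
  have hv : ∀ i, ContDiff ℝ ∞ (fun x => c i * u x + b i) := fun i =>
    (contDiff_const.mul hu).add contDiff_const
  refine B.comp1 (v := fun i => lift (fun x => c i * u x + b i)) (m := m)
    (fun i => ((hv i).comp contDiff_fst).contDiffOn) hm (fun j => ?_) hg hw
    (fun n => ?_)
  · obtain ⟨C, hC, hcm⟩ := hcm
    have h1 := B.smul_const c (fun i x _ => zero_le_one) (B.pd_lift_fixed hS hD hu j)
    refine (h1.mono hC (fun i x _ => ?_)).congr (fun i z hz => ?_)
    · rw [mul_one]; exact hcm i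
    · simp only
      rw [pd_lift_eq hu j, pd_lift_eq (hv i) j]
      simp only [lift]
      have : fderiv ℝ (fun x => c i * u x + b i) z.1 = c i • fderiv ℝ u z.1 := by
        have d : HasFDerivAt u (fderiv ℝ u z.1) z.1 :=
          ((hu.differentiable (by simp)).differentiableAt.hasFDerivAt)
        exact ((d.const_mul (c i)).add_const (b i)).fderiv
      rw [this]; rfl
  · obtain ⟨C, hC, h⟩ := h n
    exact ⟨C, hC, fun i z hz => h i z.1 hz⟩

end Fam

/-! ### the amplitude -/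

/-- The amplitude on the plane. -/
noncomputable def amp (u β : X2 → ℝ) (L L' : ℝ) : X2 → ℝ := fun x => Prof.alph L L' (u x) * β x

/-- The domain `{2L'u - 1 > 1/K}`. -/
def profDom (u : X2 → ℝ) (L' K : ℝ) : Set X2 := {x | K⁻¹ < 2 * L' * u x - 1}

/-- The cut-off: `0` where `2L'u-1 ≤ 3/(4K)`, `1` where `2L'u-1 ≥ 1/K`. -/
noncomputable def cutoff (u : X2 → ℝ) (L' K : ℝ) : X2 → ℝ :=
  fun x => Real.smoothTransition (4 * K * (2 * L' * u x - 1) - 3)

/-- Hypotheses on the family of parameters. -/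
structure ProfHyp (𝓕 : Fam) (S : Set X2) (u β : X2 → ℝ) (L L' K : 𝓕.I → ℝ) : Prop where
  compact : IsCompact S
  sub : ∀ i, 𝓕.D i ⊆ S
  u_smooth : ContDiff ℝ ∞ u
  β_smooth : ContDiff ℝ ∞ β
  β_pos : ∀ x, 0 < β x
  adm : ∀ i, Prof.Adm (L i) (L' i)
  K_ge : ∀ i, 1 ≤ K i
  dom : ∀ i, ∀ x ∈ 𝓕.D i, (K i)⁻¹ ≤ 2 * L' i * u x - 1
  cost : ∃ C, 0 < C ∧ ∀ i, (1 + L' i) ^ 3 ≤ C * 𝓕.Lam i ∧ K i ^ 2 * (1 + L' i) ≤ C * 𝓕.Lam i

theorem contDiff_amp {u β : X2 → ℝ} {L L' : ℝ} (hu : ContDiff ℝ ∞ u) (hβ : ContDiff ℝ ∞ β)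
    (h : Prof.Adm L L') : ContDiff ℝ ∞ (amp u β L L') :=
  ((Prof.contDiff_alph h).comp hu).mul hβ

theorem contDiff_cutoff {u : X2 → ℝ} (L' K : ℝ) (hu : ContDiff ℝ ∞ u) :
    ContDiff ℝ ∞ (cutoff u L' K) := by
  unfold cutoff
  exact Real.smoothTransition.contDiff.comp
    ((contDiff_const.mul ((contDiff_const.mul hu).sub contDiff_const)).sub contDiff_const)

section
variable {𝓕 : Fam} {S : Set X2} {u β : X2 → ℝ} {L L' K : 𝓕.I → ℝ}

open Fam in
/-- **Main class statement of the profiles**: `α ∈ B(α)`. -/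
theorem ProfHyp.amp_B (h : ProfHyp 𝓕 S u β L L' K) :
    𝓕.B (fun i => amp u β (L i) (L' i)) (fun i => lift (amp u β (L i) (L' i))) := by
  obtain ⟨C0, hC0, hcost⟩ := h.cost
  have hL'1 : ∀ i, 1 ≤ L' i := fun i => (h.adm i).2.2
  have hL0 : ∀ i, 0 ≤ L i := fun i => (h.adm i).1
  have hLL' : ∀ i, 2 * L i ≤ L' i := fun i => (h.adm i).2.1
  have hLam : ∀ i, 0 < 𝓕.Lam i := fun i => Lam_pos i
  -- `u ≥ 1/(2L')` on the domain
  have hu : ∀ i, ∀ x ∈ 𝓕.D i, (2 * L' i)⁻¹ ≤ u x := by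
    intro i x hx
    have h1 := h.dom i x hx
    have h2 : 0 < (K i)⁻¹ := inv_pos.2 (lt_of_lt_of_le one_pos (h.K_ge i))
    have h3 : 0 < 2 * L' i := by linarith [hL'1 i]
    rw [inv_le_iff_one_le_mul₀ h3]
    linarith
  -- factor 1
  have f1 : 𝓕.B (fun i x => expNegInvGlue (u x)) (fun i => lift (fun x => expNegInvGlue (u x))) := by
    have := B.comp_affine (𝓕 := 𝓕) h.compact h.sub h.u_smooth (c := fun _ => 1) (b := fun _ => 0)
      (m := fun i => (𝓕.Lam i)⁻¹) (fun i => inv_pos.2 (hLam i))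
      ⟨1, one_pos, fun i => by
        have := (hLam i).ne'
        rw [mul_inv_cancel₀ this]; simp⟩
      (w := fun i x => expNegInvGlue (u x)) (g := fun _ => expNegInvGlue)
      (fun _ => expNegInvGlue.contDiff) (fun i x _ => expNegInvGlue.nonneg _) ?_
    · simpa using this
    · intro n
      obtain ⟨C, hC, hb⟩ := Prof.glue_bound n
      refine ⟨(C + 1) * (4 * C0) ^ n, by positivity, fun i x hx => ?_⟩
      have h1 := hb (2 * L' i) (u x) (by linarith [hL'1 i]) (hu i x hx)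
      have he := expNegInvGlue.nonneg (u x)
      have h2 : ((2 * L' i) ^ 2) * (𝓕.Lam i)⁻¹ ≤ 4 * C0 := by
        rw [← div_eq_mul_inv, div_le_iff₀ (hLam i)]
        have h3 := (hcost i).1
        have h4 : L' i ^ 2 ≤ (1 + L' i) ^ 3 := by
          have := hL'1 i
          nlinarith [sq_nonneg (L' i), pow_pos (lt_of_lt_of_le one_pos this) 3]
        nlinarith
      have h5 : 0 ≤ ((2 * L' i) ^ 2) * (𝓕.Lam i)⁻¹ := by have := hLam i; positivity
      rw [one_mul, add_zero]
      calc |iteratedDeriv n expNegInvGlue (u x)| * (𝓕.Lam i)⁻¹ ^ n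
          ≤ (C * (2 * L' i) ^ (2 * n) * expNegInvGlue (u x)) * (𝓕.Lam i)⁻¹ ^ n :=
            mul_le_mul_of_nonneg_right h1 (by have := hLam i; positivity)
        _ = C * (((2 * L' i) ^ 2) * (𝓕.Lam i)⁻¹) ^ n * expNegInvGlue (u x) := by
            rw [mul_pow ((2 * L' i) ^ 2) (𝓕.Lam i)⁻¹ n, ← pow_mul (2 * L' i) 2 n]; ring
        _ ≤ (C + 1) * (4 * C0) ^ n * expNegInvGlue (u x) := by
            refine mul_le_mul_of_nonneg_right ?_ he
            exact mul_le_mul (by linarith) (pow_le_pow_left₀ h5 h2 n) (by positivity) (by linarith)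
  -- factor 2
  have f2 : 𝓕.B (fun i x => Real.smoothTransition (2 * L' i * u x - 1))
      (fun i => lift (fun x => Real.smoothTransition (2 * L' i * u x - 1))) := by
    have := B.comp_affine (𝓕 := 𝓕) h.compact h.sub h.u_smooth (c := fun i => 2 * L' i)
      (b := fun _ => -1)
      (m := fun i => 2 * L' i * (𝓕.Lam i)⁻¹) (fun i => by
        have := hLam i; have := hL'1 i; positivity)
      ⟨1, one_pos, fun i => by
        have := (hLam i).ne'
        have h3 := hL'1 i
        rw [abs_of_pos (by positivity)]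
        apply le_of_eq; field_simp⟩
      (w := fun i x => Real.smoothTransition (2 * L' i * u x - 1))
      (g := fun _ => Real.smoothTransition)
      (fun _ => Real.smoothTransition.contDiff) (fun i x _ => Real.smoothTransition.nonneg _) ?_
    · simpa [sub_eq_add_neg] using this
    · intro n
      obtain ⟨C, hC, hb⟩ := Prof.st_bound n
      refine ⟨(C + 1) * (2 * C0) ^ n, by positivity, fun i x hx => ?_⟩
      rw [← sub_eq_add_neg]
      have h1 := hb (K i) (2 * L' i * u x - 1) (h.K_ge i) (h.dom i x hx)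
      have he := Real.smoothTransition.nonneg (2 * L' i * u x - 1)
      have hl1 := hL'1 i
      have h2 : (K i ^ 2 * (2 * L' i)) * (𝓕.Lam i)⁻¹ ≤ 2 * C0 := by
        rw [← div_eq_mul_inv, div_le_iff₀ (hLam i)]
        have h3 := (hcost i).2
        nlinarith [sq_nonneg (K i)]
      have h5 : 0 ≤ (K i ^ 2 * (2 * L' i)) * (𝓕.Lam i)⁻¹ := by have := hLam i; positivity
      calc |iteratedDeriv n Real.smoothTransition (2 * L' i * u x - 1)|
            * (2 * L' i * (𝓕.Lam i)⁻¹) ^ n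
          ≤ (C * (K i) ^ (2 * n) * Real.smoothTransition (2 * L' i * u x - 1))
            * (2 * L' i * (𝓕.Lam i)⁻¹) ^ n :=
            mul_le_mul_of_nonneg_right h1 (by have := hLam i; positivity)
        _ = C * ((K i ^ 2 * (2 * L' i)) * (𝓕.Lam i)⁻¹) ^ n
              * Real.smoothTransition (2 * L' i * u x - 1) := by
            rw [mul_pow (K i ^ 2 * (2 * L' i)) (𝓕.Lam i)⁻¹ n, mul_pow (K i ^ 2) (2 * L' i) n,
              ← pow_mul (K i) 2 n, mul_pow (2 * L' i) (𝓕.Lam i)⁻¹ n]; ring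
        _ ≤ (C + 1) * (2 * C0) ^ n * Real.smoothTransition (2 * L' i * u x - 1) := by
            refine mul_le_mul_of_nonneg_right ?_ he
            exact mul_le_mul (by linarith) (pow_le_pow_left₀ h5 h2 n) (by positivity) (by linarith)
  -- factor 3: `q`
  have f3 : 𝓕.B (fun i x => Prof.qq (L i) (L' i) (u x))
      (fun i => lift (fun x => Prof.qq (L i) (L' i) (u x))) := by
    have g1 := B.comp_affine (𝓕 := 𝓕) h.compact h.sub h.u_smooth (c := fun i => -(2 * L i))
      (b := fun _ => 2)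
      (m := fun i => (2 * L i + 1) * (𝓕.Lam i)⁻¹) (fun i => by
        have := hLam i; have := hL0 i; positivity)
      ⟨1, one_pos, fun i => by
        have := (hLam i).ne'
        have h3 := hL0 i
        rw [abs_neg, abs_of_nonneg (by positivity), one_mul]
        have : 𝓕.Lam i * ((2 * L i + 1) * (𝓕.Lam i)⁻¹) = 2 * L i + 1 := by field_simp
        rw [this]; linarith⟩
      (w := fun i x => Prof.gst (-(2 * L i) * u x + 2) + Real.exp (-(2 * L i + 1)))
      (g := fun _ => Prof.gst)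
      (fun _ => Prof.contDiff_gst)
      (fun i x _ => add_nonneg (Prof.gst_nonneg _) (Real.exp_pos _).le) ?_
    · have hE : ∀ i, 0 ≤ 1 - Real.exp (-(2 * L i)) := fun i => Prof.one_sub_exp_nonneg (hL0 i)
      have hqpos : ∀ i x, 0 < Prof.qq (L i) (L' i) (u x) := fun i x => Prof.qq_pos (h.adm i) _
      have g2 := B.smul_const (fun i => 1 - Real.exp (-(2 * L i)))
        (fun i x _ => add_nonneg (Prof.gst_nonneg _) (Real.exp_pos _).le) g1
      have g3 : 𝓕.B (fun i x => Prof.qq (L i) (L' i) (u x)) (fun i z =>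
          (1 - Real.exp (-(2 * L i))) • lift (fun x => Prof.gst (-(2 * L i) * u x + 2)) z) := by
        refine g2.le (fun i x _ => ?_)
        rw [abs_of_nonneg (hE i)]
        have e1 : -(2 * L i) * u x + 2 = 2 - 2 * L i * u x := by ring
        rw [e1]
        have h2 := Prof.exp_gap (h.adm i)
        have h3 : Real.exp (-(2 * L i + 1)) ≤ Real.exp (-(2 * L i)) / 2 := by
          rw [show -(2 * L i + 1) = -(2 * L i) + -1 by ring, Real.exp_add]
          have h4 : Real.exp (-1 : ℝ) ≤ 1 / 2 := by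
            have := Real.exp_one_gt_d9
            rw [Real.exp_neg, inv_eq_one_div]
            exact one_div_le_one_div_of_le (by norm_num) (by linarith)
          have h5 := Real.exp_pos (-(2 * L i))
          nlinarith
        have h6 : 1 - Real.exp (-(2 * L i)) ≤ 1 := by linarith [Real.exp_pos (-(2 * L i))]
        have h7 := Real.exp_pos (-(2 * L i + 1))
        unfold Prof.qq
        have h8 : (1 - Real.exp (-(2 * L i))) * Real.exp (-(2 * L i + 1)) ≤
            Real.exp (-(2 * L i + 1)) := by nlinarith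
        nlinarith
      have g4 : 𝓕.B (fun i x => Prof.qq (L i) (L' i) (u x))
          (fun i _ => Real.exp (-(2 * L i)) - Real.exp (-(2 * L' i))) := by
        refine B.const _ ⟨1, one_pos, fun i x _ => ?_⟩ (fun i x _ => (hqpos i x).le)
        have h2 := Prof.exp_gap (h.adm i)
        have h5 := Real.exp_pos (-(2 * L i))
        rw [Real.norm_eq_abs, abs_of_nonneg (by linarith), one_mul]
        have := mul_nonneg (hE i) (Prof.gst_nonneg (2 - 2 * L i * u x))
        unfold Prof.qq; linarith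
      refine (g4.add g3).congr (fun i z _ => ?_)
      have e1 : -(2 * L i) * u z.1 + 2 = 2 - 2 * L i * u z.1 := by ring
      simp only [lift, smul_eq_mul, Prof.qq]
      rw [e1]
    · intro n
      obtain ⟨C, hC, hb⟩ := Prof.gst_bound n
      refine ⟨(C + 1) * C0 ^ n, by positivity, fun i x hx => ?_⟩
      have h1 := hb (2 * L i + 1) (-(2 * L i) * u x + 2) (by linarith [hL0 i])
      have he := add_nonneg (Prof.gst_nonneg (-(2 * L i) * u x + 2))
        (Real.exp_pos (-(2 * L i + 1))).le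
      have hl0 := hL0 i
      have h2 : ((2 * L i + 1) ^ 3) * (𝓕.Lam i)⁻¹ ≤ C0 := by
        rw [← div_eq_mul_inv, div_le_iff₀ (hLam i)]
        refine le_trans ?_ (hcost i).1
        exact pow_le_pow_left₀ (by positivity) (by linarith [hLL' i]) 3
      have h5 : 0 ≤ ((2 * L i + 1) ^ 3) * (𝓕.Lam i)⁻¹ := by have := hLam i; positivity
      calc |iteratedDeriv n Prof.gst (-(2 * L i) * u x + 2)|
            * ((2 * L i + 1) * (𝓕.Lam i)⁻¹) ^ n
          ≤ (C * (2 * L i + 1) ^ (2 * n) *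
              (Prof.gst (-(2 * L i) * u x + 2) + Real.exp (-(2 * L i + 1))))
            * ((2 * L i + 1) * (𝓕.Lam i)⁻¹) ^ n :=
            mul_le_mul_of_nonneg_right h1 (by have := hLam i; positivity)
        _ = C * (((2 * L i + 1) ^ 3) * (𝓕.Lam i)⁻¹) ^ n
              * (Prof.gst (-(2 * L i) * u x + 2) + Real.exp (-(2 * L i + 1))) := by
            rw [mul_pow ((2 * L i + 1) ^ 3) (𝓕.Lam i)⁻¹ n, mul_pow (2 * L i + 1) (𝓕.Lam i)⁻¹ n,
              ← pow_mul (2 * L i + 1) 3 n]; ring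
        _ ≤ (C + 1) * C0 ^ n *
              (Prof.gst (-(2 * L i) * u x + 2) + Real.exp (-(2 * L i + 1))) := by
            refine mul_le_mul_of_nonneg_right ?_ he
            exact mul_le_mul (by linarith) (pow_le_pow_left₀ h5 h2 n) (by positivity) (by linarith)
  have f4 : 𝓕.B (fun i x => Real.sqrt (Prof.qq (L i) (L' i) (u x)))
      (fun i => lift (fun x => Real.sqrt (Prof.qq (L i) (L' i) (u x)))) :=
    B.sqrt one_pos (fun i x _ => Prof.qq_pos (h.adm i) _)
      (fun i z _ => by rw [one_mul]) f3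
  -- factor 5: `β`
  have f5 : 𝓕.B (fun i x => β x) (fun i => lift β) := by
    rcases S.eq_empty_or_nonempty with hS | hS
    · refine (B.lift_fixed h.compact h.sub h.β_smooth).mono one_pos (fun i x hx => ?_)
      exact absurd (h.sub i hx) (by simp [hS])
    obtain ⟨x0, _, hmin⟩ := h.compact.exists_isMinOn hS h.β_smooth.continuous.continuousOn
    have hb0 := h.β_pos x0
    refine (B.lift_fixed h.compact h.sub h.β_smooth).mono (C := (β x0)⁻¹) (inv_pos.2 hb0)
      (fun i x hx => ?_)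
    rw [← div_eq_inv_mul, le_div_iff₀ hb0, one_mul]
    exact hmin (h.sub i hx)
  have n1 : Nn (fun (i : 𝓕.I) (x : X2) => expNegInvGlue (u x)) := fun i x _ => expNegInvGlue.nonneg _
  have n2 : Nn (fun (i : 𝓕.I) (x : X2) => Real.smoothTransition (2 * L' i * u x - 1)) :=
    fun i x _ => Real.smoothTransition.nonneg _
  have n4 : Nn (fun (i : 𝓕.I) (x : X2) => Real.sqrt (Prof.qq (L i) (L' i) (u x))) :=
    fun i x _ => Real.sqrt_nonneg _
  have n5 : Nn (fun (i : 𝓕.I) (x : X2) => β x) := fun i x _ => (h.β_pos x).le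
  have p24 := f2.mul n2 n4 f4
  have n24 : Nn (fun (i : 𝓕.I) (x : X2) => Real.smoothTransition (2 * L' i * u x - 1) *
    Real.sqrt (Prof.qq (L i) (L' i) (u x))) := fun i x hx => mul_nonneg (n2 i x hx) (n4 i x hx)
  have p124 := f1.mul n1 n24 p24
  have n124 : Nn (fun (i : 𝓕.I) (x : X2) => expNegInvGlue (u x) *
    (Real.smoothTransition (2 * L' i * u x - 1) *
    Real.sqrt (Prof.qq (L i) (L' i) (u x)))) := fun i x hx => mul_nonneg (n1 i x hx) (n24 i x hx)
  exact p124.mul n124 n5 f5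

open Fam in
/-- The cut-off is of size `1`. -/
theorem ProfHyp.cutoff_B (h : ProfHyp 𝓕 S u β L L' K) :
    𝓕.B (fun _ _ => 1) (fun i => lift (cutoff u (L' i) (K i))) := by
  obtain ⟨C0, hC0, hcost⟩ := h.cost
  have hL'1 : ∀ i, 1 ≤ L' i := fun i => (h.adm i).2.2
  have hLam : ∀ i, 0 < 𝓕.Lam i := fun i => Lam_pos i
  have hK : ∀ i, 0 < K i := fun i => lt_of_lt_of_le one_pos (h.K_ge i)
  have := B.comp_affine (𝓕 := 𝓕) h.compact h.sub h.u_smooth (c := fun i => 8 * K i * L' i)
    (b := fun i => - 4 * K i - 3) (m := fun i => 1) (fun _ => one_pos)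
    ⟨8 * C0, by positivity, fun i => by
      have h1 := (hcost i).2
      have h2 := hL'1 i
      have h3 := h.K_ge i
      have h4 : 0 ≤ K i * L' i := by have := hK i; positivity
      rw [abs_of_nonneg (by have := hK i; positivity), mul_one]
      have h5 : K i * L' i ≤ K i ^ 2 * (1 + L' i) := by nlinarith
      nlinarith⟩
    (w := fun _ _ => 1) (g := fun _ => Real.smoothTransition)
    (fun _ => Real.smoothTransition.contDiff) (fun _ _ _ => zero_le_one) ?_
  · refine this.congr (fun i z _ => ?_)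
    simp only [lift, cutoff]
    congr 1; ring
  · intro n
    obtain ⟨C, hC, hb⟩ := Prof.st_bdd n
    exact ⟨C + 1, by positivity, fun i x _ => by
      rw [one_pow, mul_one, mul_one]; exact (hb _).trans (by linarith)⟩

end

end Crest.Agent.R216.TE
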