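import Crest.Agent.R216.EFinDefs
import Crest.Agent.R216.Prof3
import Crest.Agent.R216.EngExp

/-!
# Row 216, Theorem E: definitions for the macroscopic step (helper323).
-/

open Set Topology
open scoped ContDiff

namespace Crest.Agent.R216.TE

/-- standing hypotheses of MACRO -/
structure MacHyp (f : X2 → E4) (u β : X2 → ℝ) (O : Set (X2 × ℝ)) (W : X2 × ℝ → ℝ → E4) :
    Prop where
  hf : ContDiff ℝ ∞ f
  ha : AmpHyp u β
  ind : ∀ x ∈ closure {x | 0 < u x}, 0 < gram (d2 f x) (d2 (d2 f) x)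
  ind1 : ∀ x ∈ frontier {x | 0 < u x}, ppr (d1 f x) (d2 f x) (d2 (d2 f) x) ≠ 0
  hW : LoopX f (ampX u β) (closure {x | 0 < u x}) O W

/-! ### general class lemmas used by MACRO (file ClsComp.lean) -/

namespace Fam

/-- restriction of a family to open subsets -/
def restrict (𝓕 : Fam) (U : 𝓕.I → Set X2) (hU : ∀ i, IsOpen (U i)) : Fam where
  I := 𝓕.I
  D i := 𝓕.D i ∩ U i
  isOpen i := (𝓕.isOpen i).inter (hU i)
  Lam := 𝓕.Lam
  one_le := 𝓕.one_le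

end Fam

/-! ### the expressions `r²` and `Del` at a point -/

/-- mean over a period -/
noncomputable def mn (g : ℝ → ℝ) : ℝ := (2 * Real.pi)⁻¹ * ∫ t in (0:ℝ)..(2 * Real.pi), g t

/-- `r²` at a point: `A = f₁`, frame `b1, b2`, amplitude `α` -/
noncomputable def r2X (A b1 b2 : E4) (α : ℝ) : ℝ :=
  (inner ℝ A b1 : ℝ) ^ 2 + (inner ℝ A b2 : ℝ) ^ 2 + α ^ 2

/-- `Del` at a point: `A = f₁`, frame `b1, b2`, `V t = W - f₁` -/
noncomputable def delX (A b1 b2 : E4) (V : ℝ → E4) : ℝ :=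
  (inner ℝ A b1 : ℝ) ^ 2 * mn (fun t => (inner ℝ (V t) b2 : ℝ) ^ 2)
  + (inner ℝ A b2 : ℝ) ^ 2 * mn (fun t => (inner ℝ (V t) b1 : ℝ) ^ 2)
  - 2 * (inner ℝ A b1 : ℝ) * (inner ℝ A b2 : ℝ)
      * mn (fun t => (inner ℝ (V t) b1 : ℝ) * (inner ℝ (V t) b2 : ℝ))
  + mn (fun t => (inner ℝ (V t) b1 : ℝ) ^ 2) * mn (fun t => (inner ℝ (V t) b2 : ℝ) ^ 2)
  - mn (fun t => (inner ℝ (V t) b1 : ℝ) * (inner ℝ (V t) b2 : ℝ)) ^ 2

/-! ### frame -/

/-- first frame vector: normalised `Π`-part of `W(x, A x)(0)` -/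
noncomputable def fr1 (f : X2 → E4) (u β : X2 → ℝ) (W : X2 × ℝ → ℝ → E4) (x : X2) : E4 :=
  ‖ppr (W (x, ampX u β x) 0) (d2 f x) (d2 (d2 f) x)‖⁻¹ •
    ppr (W (x, ampX u β x) 0) (d2 f x) (d2 (d2 f) x)

/-- second frame vector -/
noncomputable def fr2 (f : X2 → E4) (u β : X2 → ℝ) (W : X2 × ℝ → ℝ → E4) (x : X2) : E4 :=
  Jrot (d2 f x) (d2 (d2 f) x) (fr1 f u β W x)

/-! ### the macro family -/

/-- logarithmic parameter `c log (1/h)` -/
noncomputable def Lp (c : ℕ) (h : ℝ) : ℝ := c * Real.log (1 / h)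

/-- the macroscopic amplitude -/
noncomputable def am (u β : X2 → ℝ) (c : ℕ) (h : ℝ) : X2 → ℝ := amp u β 0 (Lp c h)

/-- index set of the macro family -/
def MIx (h0 : ℝ) : Type := {h : ℝ // 0 < h ∧ h < h0 ∧ h ≤ 1 / 3}

lemma profDom_open {u : X2 → ℝ} (hu : Continuous u) (L' K : ℝ) : IsOpen (profDom u L' K) := by
  unfold profDom
  exact isOpen_lt continuous_const ((continuous_const.mul hu).sub continuous_const)

/-- the macro family: `ε = h^16`, `Λ = h^{-1/10}` -/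
noncomputable def famM (u : X2 → ℝ) (hu : Continuous u) (c N : ℕ) (h0 : ℝ) : Fam where
  I := MIx h0
  D i := profDom u (Lp c i.1) (2 * Lp N i.1)
  isOpen i := profDom_open hu _ _
  Lam i := i.1 ^ (-(1 / 10 : ℝ))
  one_le i := by
    have h1 := i.2.1
    have h2 := i.2.2.2
    exact Real.one_le_rpow_of_pos_of_le_one_of_nonpos h1 (by linarith) (by norm_num)

/-! ### cut-off (file Cut.lean) -/

namespace EData
variable {𝓔 : EFam} (d : EData 𝓔)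

/-- `θ (F - f)` on `Q` -/
noncomputable def cutU (F : 𝓔.I → Q → E4) (θ : 𝓔.I → X2 → ℝ) : 𝓔.I → Q → E4 :=
  fun i z => θ i z.1 • (F i z - d.f i z.1)

/-- `g(x) = f(x) + θ(x) (F(x, x₁/ε + t0) - f(x))` -/
noncomputable def cutMap (F : 𝓔.I → Q → E4) (θ : 𝓔.I → X2 → ℝ) (i : 𝓔.I) (t0 : ℝ) : X2 → E4 :=
  fun x => d.f i x + d.cutU F θ i (x, x.1 / 𝓔.eps i + t0)

/-- hypotheses on the cut-off functions -/
structure CutHyp (F : 𝓔.I → Q → E4) (θ : 𝓔.I → X2 → ℝ) : Prop where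
  hyp : d.Hyp
  good : d.Good F
  fsm : ∀ i, ContDiff ℝ ∞ (d.f i)
  θsm : ∀ i, ContDiff ℝ ∞ (θ i)
  θsupp : ∀ i, tsupport (θ i) ⊆ 𝓔.D i
  θ_nonneg : ∀ i x, 0 ≤ θ i x
  θ_le : ∀ i x, θ i x ≤ 1
  θB : 𝓔.toFam.B (fun _ _ => 1) (fun i => lift (θ i))

end EData

end Crest.Agent.R216.TE
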