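import Crest.Agent.R216.MacDefs

/-!
# Row 216, Theorem E, MACRO: FROZEN INTERFACE (helper323). Never import in a proof file.
Prove each section in the file named there, with exactly these statements.
-/

open Set Topology
open scoped ContDiff

namespace Crest.Agent.R216.TE

/-! ## MAC-1 ClsComp.lean (imports MacDefs) -/
namespace Fam
variable {𝓕 : Fam}

/-- composition with a fixed map `G`, smooth on an open set, all of whose derivatives are bounded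
on a set `S'` containing the values. -/
lemma B.comp {E' V : Type} [NormedAddCommGroup E'] [NormedSpace ℝ E'] [NormedAddCommGroup V]
    [NormedSpace ℝ V] {G : E' → V} {O' S' : Set E'} (hO : IsOpen O') (hS : S' ⊆ O')
    (hG : ContDiffOn ℝ ∞ G O')
    (hb : ∀ k : ℕ, ∃ C : ℝ, ∀ y ∈ S', ‖iteratedFDeriv ℝ k G y‖ ≤ C)
    {Φ : 𝓕.I → Q → E'} (hΦ : 𝓕.Sm Φ)
    (hd : ∀ j, 𝓕.B (fun i _ => 𝓕.Lam i) (fun i => Crest.Agent.R216.TE.pd j (Φ i)))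
    (hr : ∀ i, ∀ z ∈ 𝓕.dom i, Φ i z ∈ S') :
    𝓕.B (fun _ _ => 1) (fun i z => G (Φ i z)) := sorry

lemma B.restrict {V : Type*} [NormedAddCommGroup V] [NormedSpace ℝ V] {w : 𝓕.I → X2 → ℝ}
    {v : 𝓕.I → Q → V} (h : 𝓕.B w v) (U : 𝓕.I → Set X2) (hU : ∀ i, IsOpen (U i)) :
    (𝓕.restrict U hU).B w v := sorry

lemma B.of_cover {V : Type*} [NormedAddCommGroup V] [NormedSpace ℝ V] {w : 𝓕.I → X2 → ℝ}
    {v : 𝓕.I → Q → V} (hw : Nn w) {U1 U2 : 𝓕.I → Set X2} (hU1 : ∀ i, IsOpen (U1 i))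
    (hU2 : ∀ i, IsOpen (U2 i)) (hcov : ∀ i, 𝓕.D i ⊆ U1 i ∪ U2 i)
    (h1 : (𝓕.restrict U1 hU1).B w v) (h2 : (𝓕.restrict U2 hU2).B w v) : 𝓕.B w v := sorry

/-- like `B.lift_fixed`, for functions smooth near a compact set only -/
lemma B.lift_fixedOn {V : Type*} [NormedAddCommGroup V] [NormedSpace ℝ V] {S O1 : Set X2}
    (hS : IsCompact S) (hO : IsOpen O1) (hSO : S ⊆ O1) (hD : ∀ i, 𝓕.D i ⊆ S) {h : X2 → V}
    (hh : ContDiffOn ℝ ∞ h O1) :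
    𝓕.B (fun _ _ => 1) (fun _ => lift h) ∧
    ∀ j, 𝓕.B (fun _ _ => 1) (fun _ => Crest.Agent.R216.TE.pd j (lift h)) := sorry

end Fam

/-! ## MAC-2 MacDel.lean -/
section
variable {f : X2 → E4} {u β : X2 → ℝ} {O : Set (X2 × ℝ)} {W : X2 × ℝ → ℝ → E4}

/-- nondegeneracy of the loops for amplitudes close to `A = ampX u β`.
Paper: `Del = mean (p1 W2 - p2 W1)² + (mean W1² mean W2² - (mean W1 W2)²)`, and
`(p1 W2 - p2 W1)² = |p|²|W|² - (p·W)²`, `p·W = (α² - |W|²)/2`, `mean |W|² = α²`. Where `A` is small: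
`|p| ≥ c`, `|W| ≤ C α` [Hadamard: `W(x,0) = f₁`] give `≥ c α²`. Where `A ≥ c`: compactness and
`Del > 0` for `α ≠ 0` (`Del = 0` ⇒ the loop `(p1+W1, p2+W2)` of constant norm `r` lies in a line
⇒ constant ⇒ `|p| = r`, contradiction to `r² = |p|² + α²`). -/
theorem mac_del (h : MacHyp f u β O W) {b1 b2 : X2 → E4}
    (hc1 : ContinuousOn b1 (closure {x | 0 < u x})) (hc2 : ContinuousOn b2 (closure {x | 0 < u x}))
    (hon : ∀ x ∈ closure {x | 0 < u x}, ‖b1 x‖ = 1 ∧ ‖b2 x‖ = 1 ∧ (inner ℝ (b1 x) (b2 x) : ℝ) = 0)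
    (hperp : ∀ x ∈ closure {x | 0 < u x},
      (inner ℝ (b1 x) (d2 f x) : ℝ) = 0 ∧ (inner ℝ (b1 x) (d2 (d2 f) x) : ℝ) = 0 ∧
      (inner ℝ (b2 x) (d2 f x) : ℝ) = 0 ∧ (inner ℝ (b2 x) (d2 (d2 f) x) : ℝ) = 0) :
    ∃ r c : ℝ, 0 < r ∧ 0 < c ∧ ∀ x ∈ closure {x | 0 < u x}, ∀ α : ℝ, 0 ≤ α →
      |α - ampX u β x| ≤ r → (x, α) ∈ O ∧ c ≤ r2X (d1 f x) (b1 x) (b2 x) α ∧
      c * α ^ 2 ≤ delX (d1 f x) (b1 x) (b2 x) (fun t => W (x, α) t - d1 f x) := sorry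

/-! ## MAC-3 MacLoop.lean -/

/-- the loops over a family with amplitude close to `ampX u β` are of class `B(a)`.
Paper: where `ampX < r0/2` write `W(x,α,t) - f₁(x) = α ∫₀¹ ∂_α W(x,sα,t) ds` (`W(x,0,t) = f₁(x)` by the
norm/mean equations) and use `Fam.B.comp`; where `ampX > r0/4` the weight `a` is `≥ c`, use
`Fam.B.comp` directly; glue with `Fam.B.of_cover`. (`ClsComp.lean` = MAC-1.) -/
theorem mac_loop (h : MacHyp f u β O W) : ∃ r : ℝ, 0 < r ∧ ∀ 𝓔 : EFam,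
    (∀ i, 𝓔.D i ⊆ {x | 0 < u x}) →
    (∀ i, ∀ x ∈ 𝓔.D i, |𝓔.a i x - ampX u β x| ≤ r) →
    𝓔.toFam.B (𝓔.W 1 0 0) (fun i z => W (z.1, 𝓔.a i z.1) z.2 - d1 f z.1) := sorry

end

/-! ## MAC-4 Cut.lean -/

/-- evaluation at `t = x₁/ε + t0` -/
lemma ev_d1 {V : Type*} [NormedAddCommGroup V] [NormedSpace ℝ V] {D : Set X2} (hD : IsOpen D)
    {U : Q → V} (hU : ContDiffOn ℝ ∞ U {z | z.1 ∈ D}) (ε t0 : ℝ) {x : X2} (hx : x ∈ D) :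
    d1 (fun x => U (x, x.1 / ε + t0)) x =
      pd 0 U (x, x.1 / ε + t0) + ε⁻¹ • pd 2 U (x, x.1 / ε + t0) := sorry

lemma ev_d2 {V : Type*} [NormedAddCommGroup V] [NormedSpace ℝ V] {D : Set X2} (hD : IsOpen D)
    {U : Q → V} (hU : ContDiffOn ℝ ∞ U {z | z.1 ∈ D}) (ε t0 : ℝ) {x : X2} (hx : x ∈ D) :
    d2 (fun x => U (x, x.1 / ε + t0)) x = pd 1 U (x, x.1 / ε + t0) := sorry

namespace EData
variable {𝓔 : EFam} {d : EData 𝓔} {F : 𝓔.I → Q → E4} {θ : 𝓔.I → X2 → ℝ}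

theorem CutHyp.smooth (h : d.CutHyp F θ) (i : 𝓔.I) (t0 : ℝ) :
    ContDiff ℝ ∞ (d.cutMap F θ i t0) := sorry

/-- off the support of the cut-off nothing is changed -/
theorem CutHyp.eq_off (h : d.CutHyp F θ) (i : 𝓔.I) (t0 : ℝ) {x : X2} (hx : x ∉ tsupport (θ i)) :
    d.cutMap F θ i t0 =ᶠ[𝓝 x] d.f i := sorry

theorem CutHyp.cutU_B (h : d.CutHyp F θ) : 𝓔.toFam.B (𝓔.W 1 16 0) (d.cutU F θ) := sorry

/-- first derivatives on `D i` -/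
theorem CutHyp.d1_eq (h : d.CutHyp F θ) (i : 𝓔.I) (t0 : ℝ) {x : X2} (hx : x ∈ 𝓔.D i) :
    d1 (d.cutMap F θ i t0) x =
      d1 (d.f i) x + 𝓔.A1 (d.cutU F θ) i (x, x.1 / 𝓔.eps i + t0) := sorry

theorem CutHyp.d2_eq (h : d.CutHyp F θ) (i : 𝓔.I) (t0 : ℝ) {x : X2} (hx : x ∈ 𝓔.D i) :
    d2 (d.cutMap F θ i t0) x =
      d2 (d.f i) x + 𝓔.A2 (d.cutU F θ) i (x, x.1 / 𝓔.eps i + t0) := sorry

/-- metric where `θ = 1` -/
theorem CutHyp.metric_one (h : d.CutHyp F θ) {n : ℕ} (hE : d.Err0 n F) : ∃ C : ℝ, 0 < C ∧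
    ∀ (i : 𝓔.I) (t0 : ℝ) (x : X2), x ∈ 𝓔.D i → θ i x = 1 →
      |inner ℝ (d1 (d.cutMap F θ i t0) x) (d1 (d.cutMap F θ i t0) x)
        - (inner ℝ (d1 (d.f i) x) (d1 (d.f i) x) + 𝓔.a i x ^ 2 + d.G11 i x)| ≤ C * 𝓔.η i ^ (15 + n) ∧
      |inner ℝ (d1 (d.cutMap F θ i t0) x) (d2 (d.cutMap F θ i t0) x)
        - (inner ℝ (d1 (d.f i) x) (d2 (d.f i) x) + d.G12 i x)| ≤ C * 𝓔.η i ^ (15 + n) ∧
      |inner ℝ (d2 (d.cutMap F θ i t0) x) (d2 (d.cutMap F θ i t0) x)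
        - (inner ℝ (d2 (d.f i) x) (d2 (d.f i) x) + d.G22 i x)| ≤ C * 𝓔.η i ^ (15 + n) := sorry

/-- metric everywhere on `D i` (used where `θ < 1`, the amplitude is tiny there) -/
theorem CutHyp.metric_crude (h : d.CutHyp F θ) : ∃ C : ℝ, 0 < C ∧
    ∀ (i : 𝓔.I) (t0 : ℝ) (x : X2), x ∈ 𝓔.D i →
      |inner ℝ (d1 (d.cutMap F θ i t0) x) (d1 (d.cutMap F θ i t0) x)
        - inner ℝ (d1 (d.f i) x) (d1 (d.f i) x)| ≤ C * 𝓔.a i x ∧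
      |inner ℝ (d1 (d.cutMap F θ i t0) x) (d2 (d.cutMap F θ i t0) x)
        - inner ℝ (d1 (d.f i) x) (d2 (d.f i) x)| ≤ C * 𝓔.a i x ∧
      |inner ℝ (d2 (d.cutMap F θ i t0) x) (d2 (d.cutMap F θ i t0) x)
        - inner ℝ (d2 (d.f i) x) (d2 (d.f i) x)| ≤ C * 𝓔.a i x := sorry

end EData

end Crest.Agent.R216.TE
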