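import Crest.Agent.R216.MacSt

/-!
# Row 216, Theorem E, MACRO: derivative bounds of the macroscopic map (helper323).
-/

open Set Topology MeasureTheory
open scoped ContDiff

namespace Crest.Agent.R216.TE

section
variable {f : X2 → E4} {u β : X2 → ℝ} {O : Set (X2 × ℝ)} {W : X2 × ℝ → ℝ → E4}
  {c N : ℕ} {h0 : ℝ}

theorem mac_iter (h : MacHyp f u β O W) (hc : 1 ≤ c) (hN : 1 ≤ N) {h0 : ℝ}
    (hy : (dataM h hc hN h0).Hyp) {F : MIx h0 → Q → E4} (hG : (dataM h hc hN h0).Good F)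
    (K₀ : ℕ) {N' : Set X2} (hN' : IsCompact N') :
    ∃ h1 : ℝ, 0 < h1 ∧ ∀ i : MIx h0, i.1 < h1 → ∀ t0 : ℝ, ∀ j, 1 ≤ j → j ≤ K₀ → ∀ x ∈ N',
      ‖iteratedFDeriv ℝ j
        ((dataM h hc hN h0).cutMap F (fun i => thM u c N i.1) i t0) x‖
        ≤ ((i.1 ^ 32)⁻¹) ^ j := by
  have hC := cutHyp_M h hc hN hy hG
  choose C hCp hCb using fun j => hC.corr_iter_unif j
  obtain ⟨A, hA, ha⟩ := (efamM h.ha hc hN h0).a_le
  have hM : ∀ j : ℕ, ∃ M : ℝ, 0 ≤ M ∧ ∀ x ∈ N', ‖iteratedFDeriv ℝ j f x‖ ≤ M := by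
    intro j
    obtain ⟨M, hM⟩ := hN'.exists_bound_of_continuousOn
      ((h.hf.continuous_iteratedFDeriv (m := j) (by exact_mod_cast le_top)).continuousOn)
    exact ⟨|M|, abs_nonneg _, fun x hx => (hM x hx).trans (le_abs_self _)⟩
  choose M hM0 hMb using hM
  set T := ∑ j ∈ Finset.range (K₀ + 1), (C j * A + M j) + 1 with hT
  have hTj : ∀ j, j ≤ K₀ → C j * A + M j ≤ T := by
    intro j hj
    have : C j * A + M j ≤ ∑ j ∈ Finset.range (K₀ + 1), (C j * A + M j) :=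
      Finset.single_le_sum (f := fun j => C j * A + M j)
        (fun k _ => by have := mul_pos (hCp k) hA; linarith [hM0 k])
        (Finset.mem_range.2 (by omega))
    linarith
  have hTp : 1 ≤ T := by
    have : 0 ≤ ∑ j ∈ Finset.range (K₀ + 1), (C j * A + M j) :=
      Finset.sum_nonneg (fun k _ => by have := mul_pos (hCp k) hA; linarith [hM0 k])
    linarith
  refine ⟨T⁻¹, by positivity, fun i hi t0 j hj hjK x hx => ?_⟩
  have hh := i.2.1
  have hh1 : i.1 ≤ 1 := by linarith [i.2.2.2]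
  have hTh : T ≤ (i.1)⁻¹ := by
    rw [le_inv_comm₀ (by linarith) hh]; exact hi.le
  -- powers
  have e1 : (1:ℝ) ≤ (i.1 ^ 17)⁻¹ := (one_le_inv₀ (by positivity)).2 (pow_le_one₀ hh.le hh1)
  have e2 : (i.1)⁻¹ ≤ (i.1 ^ 15)⁻¹ := by
    refine inv_anti₀ (by positivity) ?_
    calc i.1 ^ 15 ≤ i.1 ^ 1 := pow_le_pow_of_le_one hh.le hh1 (by norm_num)
      _ = _ := pow_one _
  have e3 : (i.1 ^ 15)⁻¹ ≤ ((i.1 ^ 15)⁻¹) ^ j :=
    le_self_pow₀ ((one_le_inv₀ (by positivity)).2 (pow_le_one₀ hh.le hh1)) (by omega)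
  have fin : T * ((i.1 ^ 17)⁻¹) ^ j ≤ ((i.1 ^ 32)⁻¹) ^ j := by
    have : ((i.1 ^ 32)⁻¹) ^ j = ((i.1 ^ 15)⁻¹) ^ j * ((i.1 ^ 17)⁻¹) ^ j := by
      rw [← mul_pow, ← mul_inv, ← pow_add]
    rw [this]
    exact mul_le_mul_of_nonneg_right (hTh.trans (e2.trans e3)) (by positivity)
  refine le_trans ?_ fin
  by_cases hxD : x ∈ (famM u h.ha.hu.continuous c N h0).D i
  · have h1 : ContDiff ℝ ∞ (fun x : X2 => (dataM h hc hN h0).cutU F (fun i => thM u c N i.1) i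
        (x, x.1 / (efamM h.ha hc hN h0).eps i + t0)) := hC.corr_smooth i t0
    have h2 : iteratedFDeriv ℝ j
        ((dataM h hc hN h0).cutMap F (fun i => thM u c N i.1) i t0) x =
        iteratedFDeriv ℝ j f x + iteratedFDeriv ℝ j
        (fun x : X2 => (dataM h hc hN h0).cutU F (fun i => thM u c N i.1) i
        (x, x.1 / (efamM h.ha hc hN h0).eps i + t0)) x := by
      have := iteratedFDeriv_add_apply (x := x) (i := j) (𝕜 := ℝ)
        (f := f) (g := fun x : X2 => (dataM h hc hN h0).cutU F (fun i => thM u c N i.1) i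
        (x, x.1 / (efamM h.ha hc hN h0).eps i + t0))
        (h.hf.contDiffAt.of_le (by exact_mod_cast le_top))
        (h1.contDiffAt.of_le (by exact_mod_cast le_top))
      exact this
    rw [h2]
    refine (norm_add_le _ _).trans ?_
    have b1 := hMb j x hx
    have b2 := hCb j i t0 x hxD
    have b3 := ha i x hxD
    have b4 := ((efamM h.ha hc hN h0).a_pos i x hxD).le
    have hLam : (efamM h.ha hc hN h0).Lam i ≤ (i.1)⁻¹ := by
      show i.1 ^ (-(1 / 10 : ℝ)) ≤ _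
      rw [← Real.rpow_neg_one]
      exact Real.rpow_le_rpow_of_exponent_ge hh hh1 (by norm_num)
    have hLam0 : 0 < (efamM h.ha hc hN h0).Lam i :=
      lt_of_lt_of_le one_pos ((efamM h.ha hc hN h0).one_le i)
    have heps : (efamM h.ha hc hN h0).eps i = i.1 ^ 16 := rfl
    have heps1 : (efamM h.ha hc hN h0).eps i ≤ 1 := EFam.eps_le_one (𝓔 := efamM h.ha hc hN h0) i
    have heps0 : 0 < (efamM h.ha hc hN h0).eps i := EFam.eps_pos (𝓔 := efamM h.ha hc hN h0) i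
    have hmu : (efamM h.ha hc hN h0).Lam i * ((efamM h.ha hc hN h0).eps i)⁻¹ ≤ (i.1 ^ 17)⁻¹ := by
      rw [heps, pow_succ' i.1 16, mul_inv]
      exact mul_le_mul_of_nonneg_right hLam (by positivity)
    have b5 : C j * (((efamM h.ha hc hN h0).Lam i * ((efamM h.ha hc hN h0).eps i)⁻¹) ^ j *
        ((efamM h.ha hc hN h0).a i x * (efamM h.ha hc hN h0).eps i)) ≤
        C j * (((i.1 ^ 17)⁻¹) ^ j * A) := by
      refine mul_le_mul_of_nonneg_left ?_ (hCp j).le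
      refine mul_le_mul (pow_le_pow_left₀ (by positivity) hmu j) ?_ (by positivity) (by positivity)
      calc _ ≤ A * 1 := mul_le_mul b3 heps1 heps0.le hA.le
        _ = A := mul_one A
    have e4 : (1:ℝ) ≤ ((i.1 ^ 17)⁻¹) ^ j := one_le_pow₀ e1
    calc _ ≤ M j + C j * (((i.1 ^ 17)⁻¹) ^ j * A) := add_le_add b1 (b2.trans b5)
      _ ≤ M j * ((i.1 ^ 17)⁻¹) ^ j + C j * (((i.1 ^ 17)⁻¹) ^ j * A) := by
          have := mul_le_mul_of_nonneg_left e4 (hM0 j); linarith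
      _ = (C j * A + M j) * ((i.1 ^ 17)⁻¹) ^ j := by ring
      _ ≤ T * ((i.1 ^ 17)⁻¹) ^ j := mul_le_mul_of_nonneg_right (hTj j hjK) (by positivity)
  · rw [((off_D h hc hN hC i t0 hxD).iteratedFDeriv (𝕜 := ℝ) j).eq_of_nhds]
    have e4 : (1:ℝ) ≤ ((i.1 ^ 17)⁻¹) ^ j := one_le_pow₀ e1
    have h5 : 0 < C j * A := mul_pos (hCp j) hA
    calc _ ≤ M j := hMb j x hx
      _ ≤ T := by linarith [hTj j hjK]
      _ ≤ T * ((i.1 ^ 17)⁻¹) ^ j := by nlinarith

end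
end Crest.Agent.R216.TE
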