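import Crest.Agent.R216.EFinDefs
import Crest.Agent.R216.Par

/-!
# R216 / Theorem E, MACRO: Hadamard factorisation of an abstract loop family near amplitude zero.
-/

namespace Crest.Agent.R216.TE

open scoped ContDiff Topology
open Set Filter MeasureTheory

section hadamard

/-- points whose segment to amplitude zero stays in `O` -/
def segO (O : Set (X2 × ℝ)) : Set (X2 × ℝ) := {z | ∀ s ∈ Icc (0:ℝ) 1, (z.1, s * z.2) ∈ O}

lemma isOpen_segO {O : Set (X2 × ℝ)} (hO : IsOpen O) : IsOpen (segO O) := by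
  rw [isOpen_iff_mem_nhds]
  intro z hz
  have hcont : Continuous (fun p : (X2 × ℝ) × ℝ => ((p.1.1, p.2 * p.1.2) : X2 × ℝ)) := by fun_prop
  have hO' : IsOpen ((fun p : (X2 × ℝ) × ℝ => ((p.1.1, p.2 * p.1.2) : X2 × ℝ)) ⁻¹' O) :=
    hO.preimage hcont
  obtain ⟨u, v, hu, hv, hzu, hsv, huv⟩ := generalized_tube_lemma (s := {z})
    isCompact_singleton (isCompact_Icc (a := (0:ℝ)) (b := 1)) hO' (by
      rintro ⟨z', s⟩ ⟨h1, h2⟩
      simp only [mem_singleton_iff] at h1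
      subst h1
      exact hz s h2)
  filter_upwards [hu.mem_nhds (hzu rfl)] with z' hz' s hs
  exact huv (show (z', s) ∈ u ×ˢ v from ⟨hz', hsv hs⟩)

lemma segO_sub {O : Set (X2 × ℝ)} : segO O ⊆ O := fun z hz => by
  have := hz 1 ⟨zero_le_one, le_rfl⟩
  simpa using this

lemma mem_segO_zero {O : Set (X2 × ℝ)} {x : X2} (h : (x, (0:ℝ)) ∈ O) : (x, (0:ℝ)) ∈ segO O :=
  fun s _ => by simpa using h

/-- the Hadamard quotient `H(x,α,t) = ∫₀¹ ∂_α W(x,sα,t) ds` -/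
noncomputable def hadH (W : X2 × ℝ → ℝ → E4) (p : (X2 × ℝ) × ℝ) : E4 :=
  ∫ s in (0:ℝ)..1, fderiv ℝ (fun q : (X2 × ℝ) × ℝ => W q.1 q.2) ((p.1.1, s * p.1.2), p.2)
    (((0, 0), 1), 0)

variable {O : Set (X2 × ℝ)} {W : X2 × ℝ → ℝ → E4}

lemma hadH_smooth (hO : IsOpen O)
    (hW : ContDiffOn ℝ ∞ (fun z : (X2 × ℝ) × ℝ => W z.1 z.2) (O ×ˢ univ)) :
    ContDiffOn ℝ ∞ (hadH W) (segO O ×ˢ univ) := by
  set g : ((X2 × ℝ) × ℝ) × ℝ → E4 := fun p =>
    fderiv ℝ (fun q : (X2 × ℝ) × ℝ => W q.1 q.2) ((p.1.1.1, p.2 * p.1.1.2), p.1.2)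
      (((0, 0), 1), 0) with hg
  have hcont : Continuous (fun p : ((X2 × ℝ) × ℝ) × ℝ =>
      (((p.1.1.1, p.2 * p.1.1.2), p.1.2) : (X2 × ℝ) × ℝ)) := by fun_prop
  have hcd : ContDiff ℝ ∞ (fun p : ((X2 × ℝ) × ℝ) × ℝ =>
      (((p.1.1.1, p.2 * p.1.1.2), p.1.2) : (X2 × ℝ) × ℝ)) := by fun_prop
  have hO2 : IsOpen (O ×ˢ (univ : Set ℝ)) := hO.prod isOpen_univ
  have hO3 : IsOpen ((fun p : ((X2 × ℝ) × ℝ) × ℝ =>
      (((p.1.1.1, p.2 * p.1.1.2), p.1.2) : (X2 × ℝ) × ℝ)) ⁻¹' (O ×ˢ univ)) := hO2.preimage hcont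
  have h1 : ContDiffOn ℝ ∞ (fderiv ℝ (fun q : (X2 × ℝ) × ℝ => W q.1 q.2)) (O ×ˢ univ) :=
    hW.fderiv_of_isOpen hO2 (by simp)
  have h2 : ContDiffOn ℝ ∞ g ((fun p : ((X2 × ℝ) × ℝ) × ℝ =>
      (((p.1.1.1, p.2 * p.1.1.2), p.1.2) : (X2 × ℝ) × ℝ)) ⁻¹' (O ×ˢ univ)) :=
    (h1.comp hcd.contDiffOn (fun p hp => hp)).clm_apply contDiffOn_const
  refine Par.contDiffOn_par (a := 0) (b := 1) ((isOpen_segO hO).prod isOpen_univ) hO3 ?_ h2
  rintro z ⟨hz, -⟩ s hs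
  rw [uIcc_of_le zero_le_one] at hs
  exact ⟨hz s hs, mem_univ _⟩

lemma hadH_eq (hO : IsOpen O)
    (hW : ContDiffOn ℝ ∞ (fun z : (X2 × ℝ) × ℝ => W z.1 z.2) (O ×ˢ univ)) {z : X2 × ℝ}
    (hz : z ∈ segO O) (t : ℝ) : W z t - W (z.1, 0) t = z.2 • hadH W (z, t) := by
  have hO2 : IsOpen (O ×ˢ (univ : Set ℝ)) := hO.prod isOpen_univ
  have h1 : ∀ s ∈ uIcc (0:ℝ) 1, HasDerivAt (fun s : ℝ => W (z.1, s * z.2) t)
      (z.2 • fderiv ℝ (fun q : (X2 × ℝ) × ℝ => W q.1 q.2) ((z.1, s * z.2), t)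
        (((0, 0), 1), 0)) s := by
    intro s hs
    rw [uIcc_of_le zero_le_one] at hs
    have hm : (((z.1, s * z.2), t) : (X2 × ℝ) × ℝ) ∈ O ×ˢ (univ : Set ℝ) := ⟨hz s hs, mem_univ _⟩
    have hd : HasFDerivAt (fun q : (X2 × ℝ) × ℝ => W q.1 q.2) _ ((z.1, s * z.2), t) :=
      ((hW.contDiffAt (hO2.mem_nhds hm)).differentiableAt (by simp)).hasFDerivAt
    have hc : HasDerivAt (fun s : ℝ => (((z.1, s * z.2), t) : (X2 × ℝ) × ℝ))
        (((0, z.2), 0)) s := by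
      have e1 : HasDerivAt (fun s : ℝ => s * z.2) z.2 s := by
        simpa using (hasDerivAt_id s).mul_const z.2
      exact ((hasDerivAt_const s z.1).prodMk e1).prodMk (hasDerivAt_const s t)
    have := hd.comp_hasDerivAt s hc
    have e : ((((0:X2), z.2), (0:ℝ)) : (X2 × ℝ) × ℝ) = z.2 • ((((0, 0), 1), 0) : (X2 × ℝ) × ℝ) := by
      ext <;> simp
    rw [e, map_smul] at this
    exact this
  have h2 : ContinuousOn (fun s : ℝ => z.2 • fderiv ℝ (fun q : (X2 × ℝ) × ℝ => W q.1 q.2)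
      ((z.1, s * z.2), t) (((0, 0), 1), 0)) (uIcc (0:ℝ) 1) := by
    have h3 : ContinuousOn (fderiv ℝ (fun q : (X2 × ℝ) × ℝ => W q.1 q.2)) (O ×ˢ univ) :=
      (hW.fderiv_of_isOpen hO2 (m := ∞) (by simp)).continuousOn
    have h4 : ContinuousOn (fun s : ℝ => fderiv ℝ (fun q : (X2 × ℝ) × ℝ => W q.1 q.2)
      ((z.1, s * z.2), t)) (uIcc (0:ℝ) 1) := by
      refine h3.comp (by fun_prop) ?_
      intro s hs
      rw [uIcc_of_le zero_le_one] at hs
      exact ⟨hz s hs, mem_univ _⟩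
    have h6 : ContinuousOn (fun s : ℝ => fderiv ℝ (fun q : (X2 × ℝ) × ℝ => W q.1 q.2)
      ((z.1, s * z.2), t) (((0, 0), 1), 0)) (uIcc (0:ℝ) 1) := h4.clm_apply continuousOn_const
    exact (continuousOn_const (c := z.2)).smul h6
  have h5 := intervalIntegral.integral_eq_sub_of_hasDerivAt h1 h2.intervalIntegrable
  rw [intervalIntegral.integral_smul] at h5
  rw [hadH, h5]
  simp

end hadamard

/-- at amplitude zero the loop is constant -/
lemma LoopX.at_zero {f : X2 → E4} {a : X2 → ℝ} {K : Set X2} {O : Set (X2 × ℝ)}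
    {W : X2 × ℝ → ℝ → E4} (h : LoopX f a K O W) {x : X2} (hx : (x, (0:ℝ)) ∈ O) (t : ℝ) :
    W (x, 0) t = d1 f x := by
  have hpi : (0:ℝ) < 2 * Real.pi := by positivity
  have hcont : Continuous (fun t => W (x, 0) t) := by
    have h1 : ContinuousOn (fun z : (X2 × ℝ) × ℝ => W z.1 z.2) (O ×ˢ univ) := h.smooth.continuousOn
    have h2 : Continuous (fun t : ℝ => (((x, (0:ℝ)), t) : (X2 × ℝ) × ℝ)) := by fun_prop
    exact h1.comp_continuous h2 (fun t => ⟨hx, mem_univ _⟩)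
  set A := d1 f x with hA
  have hmean : ∫ s in (0:ℝ)..(2 * Real.pi), W (x, 0) s = (2 * Real.pi) • A := h.mean _ hx
  have hI : ∫ s in (0:ℝ)..(2 * Real.pi), ‖W (x, 0) s - A‖ ^ 2 = 0 := by
    have e1 : ∀ s, ‖W (x, 0) s - A‖ ^ 2 = 2 * inner ℝ A A - 2 * inner ℝ A (W (x, 0) s) := by
      intro s
      have hn := h.norm (x, 0) hx s
      have : ‖W (x, 0) s - A‖ ^ 2 = inner ℝ (W (x, 0) s - A) (W (x, 0) s - A) :=
        (real_inner_self_eq_norm_sq _).symm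
      rw [this, inner_sub_left, inner_sub_right, inner_sub_right, hn,
        real_inner_comm A (W (x, 0) s)]
      simp only
      ring
    simp only [e1]
    rw [intervalIntegral.integral_sub (by simp)
      ((continuous_const.inner hcont).const_mul 2 |>.intervalIntegrable _ _)]
    rw [intervalIntegral.integral_const, intervalIntegral.integral_const_mul]
    have e2 : ∫ s in (0:ℝ)..(2 * Real.pi), (inner ℝ A (W (x, 0) s) : ℝ) =
        inner ℝ A (∫ s in (0:ℝ)..(2 * Real.pi), W (x, 0) s) := by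
      have := ContinuousLinearMap.intervalIntegral_comp_comm (innerSL ℝ A)
        (hcont.intervalIntegrable (μ := volume) 0 (2 * Real.pi))
      simpa using this
    rw [e2, hmean, inner_smul_right]
    simp only [sub_zero, smul_eq_mul]
    ring
  have hcs : Continuous (fun s => ‖W (x, 0) s - A‖ ^ 2) := by fun_prop
  have hz : ∀ s ∈ Icc (0:ℝ) (2 * Real.pi), ‖W (x, 0) s - A‖ ^ 2 = 0 := by
    intro s hs
    by_contra hne
    have hpos : 0 < ∫ s in (0:ℝ)..(2 * Real.pi), ‖W (x, 0) s - A‖ ^ 2 := by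
      refine intervalIntegral.integral_pos hpi hcs.continuousOn (fun s _ => by positivity) ?_
      exact ⟨s, hs, lt_of_le_of_ne (by positivity) (Ne.symm hne)⟩
    linarith
  -- periodicity
  obtain ⟨s, hs, hst⟩ : ∃ s ∈ Ico (0:ℝ) (0 + 2 * Real.pi), W (x, 0) t = W (x, 0) s :=
    Function.Periodic.exists_mem_Ico (f := fun t => W (x, 0) t) (fun t => h.per _ hx t) hpi t 0
  rw [hst]
  have := hz s ⟨hs.1, by linarith [hs.2]⟩
  have h0 : ‖W (x, 0) s - A‖ = 0 := by simpa using this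
  exact sub_eq_zero.1 (norm_eq_zero.1 h0)

end Crest.Agent.R216.TE
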