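import Crest.Agent.R216.MacCut

/-!
# Row 216, Theorem E, MACRO: the state `StC` of the macroscopic map (helper323).
-/

open Set Topology MeasureTheory
open scoped ContDiff

namespace Crest.Agent.R216.TE

section
variable {f : X2 → E4} {u β : X2 → ℝ} {O : Set (X2 × ℝ)} {W : X2 × ℝ → ℝ → E4}
  {c N : ℕ} {h0 : ℝ}

lemma lam_Lp (q k₀ : ℕ) (h : ℝ) :
    lam q k₀ ((h ^ 32)⁻¹) = Lp (32 * q * k₀) h := by
  unfold lam Lp
  rw [one_div, Real.log_inv, Real.log_inv, Real.log_pow]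
  push_cast
  ring

lemma exp_lam (q m k₀ : ℕ) {h : ℝ} (hh : 0 < h) :
    Real.exp (-(m * lam q k₀ ((h ^ 32)⁻¹))) = h ^ (m * (32 * q * k₀)) := by
  rw [lam_Lp q k₀ _]
  have : (-(m * Lp (32 * q * k₀) h) : ℝ) = - Lp (m * (32 * q * k₀)) h := by
    unfold Lp; push_cast; ring
  rw [this, exp_Lp _ hh]

lemma off_D (h : MacHyp f u β O W) (hc : 1 ≤ c) (hN : 1 ≤ N)
    {F : MIx h0 → Q → E4}
    (hC : (dataM h hc hN h0).CutHyp F (fun i => thM u c N i.1)) (i : MIx h0) (t0 : ℝ)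
    {x : X2} (hx : x ∉ (famM u h.ha.hu.continuous c N h0).D i) :
    (dataM h hc hN h0).cutMap F (fun i => thM u c N i.1) i t0 =ᶠ[𝓝 x] f := by
  refine hC.eq_off i t0 (fun hx' => hx ?_)
  exact hC.θsupp i hx'

/-- trichotomy -/
lemma mac_cases (h : MacHyp f u β O W) (hN : 1 ≤ N) (i : MIx h0) (x : X2) :
    (x ∈ (famM u h.ha.hu.continuous c N h0).D i ∧ (Lp N i.1)⁻¹ < 2 * Lp c i.1 * u x - 1 ∧
      thM u c N i.1 =ᶠ[𝓝 x] 1) ∨
    (2 * Lp c i.1 * u x - 1 ≤ (Lp N i.1)⁻¹) := by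
  have hK := Lp_ge hN i.2.1 i.2.2.2
  rcases lt_or_ge (Lp N i.1)⁻¹ (2 * Lp c i.1 * u x - 1) with h1 | h1
  · left
    refine ⟨?_, h1, ?_⟩
    · show (2 * Lp N i.1)⁻¹ < _
      refine lt_of_le_of_lt ?_ h1
      exact inv_anti₀ (by linarith) (by linarith)
    · have h2 : Continuous (fun y => 2 * Lp c i.1 * u y - 1) :=
        (continuous_const.mul h.ha.hu.continuous).sub continuous_const
      have h3 : ∀ᶠ y in 𝓝 x, (Lp N i.1)⁻¹ < 2 * Lp c i.1 * u y - 1 :=
        (isOpen_lt continuous_const h2).mem_nhds h1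
      filter_upwards [h3] with y hy
      exact cutoff_one (by linarith) hy.le
  · exact Or.inr h1

/-- **StC** for the macroscopic map -/
theorem mac_st (h : MacHyp f u β O W) (q m k₀ : ℕ) (hc : 1 ≤ 32 * q * k₀)
    (hN : 1 ≤ m * (32 * q * k₀) + 1) {h0 : ℝ}
    (hy : (dataM h hc hN h0).Hyp) {F : MIx h0 → Q → E4} (hG : (dataM h hc hN h0).Good F)
    (hE : (dataM h hc hN h0).Err0 (m * (32 * q * k₀)) F) :
    ∃ h1 : ℝ, 0 < h1 ∧ ∀ i : MIx h0, i.1 < h1 → ∀ t0 : ℝ,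
      StC q m f u (ampX u β) k₀ ((i.1 ^ 32)⁻¹)
        ((dataM h hc hN h0).cutMap F
          (fun i => thM u (32 * q * k₀) (m * (32 * q * k₀) + 1) i.1) i t0) := by
  set c := 32 * q * k₀ with hcdef
  set N := m * c + 1 with hNdef
  have hC := cutHyp_M h hc hN hy hG
  obtain ⟨C1, hC1, hm1⟩ := hC.metric_one hE
  obtain ⟨C2, hC2, hm2⟩ := hC.metric_crude
  obtain ⟨C3, hC3, ht⟩ := am_tiny (c := c) (N := N) h.ha hc hN
  set C4 := C1 + C2 * C3 + C3 * C3 + 1 with hC4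
  have hC4p : 0 < C4 := by positivity
  refine ⟨C4⁻¹, by positivity, fun i hi t0 => ?_⟩
  have hh := i.2.1
  have hh1 : i.1 ≤ 1 := by linarith [i.2.2.2]
  have hK := Lp_ge hN i.2.1 i.2.2.2
  have hL := Lp_ge hc i.2.1 i.2.2.2
  have hsm : C4 * i.1 ≤ 1 := by
    have := mul_le_mul_of_nonneg_left hi.le hC4p.le
    rwa [mul_inv_cancel₀ hC4p.ne'] at this
  have hpw : (0:ℝ) < i.1 ^ (m * c) := by positivity
  -- the two basic numerical facts
  have num1 : C1 * i.1 ^ (15 + m * c) ≤ i.1 ^ (m * c) := by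
    rw [pow_add, ← mul_assoc]
    have h1 : i.1 ^ 15 ≤ i.1 := by
      calc i.1 ^ 15 ≤ i.1 ^ 1 := pow_le_pow_of_le_one hh.le hh1 (by norm_num)
        _ = i.1 := pow_one _
    have h2 : C1 * i.1 ^ 15 ≤ 1 := by
      calc C1 * i.1 ^ 15 ≤ C4 * i.1 :=
            mul_le_mul (by rw [hC4]; nlinarith [mul_pos hC2 hC3, mul_pos hC3 hC3]) h1
              (by positivity) hC4p.le
        _ ≤ 1 := hsm
    nlinarith
  have num2 : ∀ a : ℝ, 0 ≤ a → a ≤ C3 * i.1 ^ N → C2 * a + a ^ 2 ≤ i.1 ^ (m * c) := by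
    intro a ha0 ha
    have hN1 : i.1 ^ N ≤ 1 := pow_le_one₀ hh.le hh1
    have h1 : a ≤ C3 := ha.trans (by nlinarith)
    have h2 : C2 * a + a ^ 2 ≤ (C2 + C3) * (C3 * i.1 ^ N) := by nlinarith
    refine h2.trans ?_
    rw [hNdef, pow_succ]
    have h3 : (C2 + C3) * C3 ≤ C4 := by rw [hC4]; nlinarith
    have h4 : (C2 + C3) * C3 * i.1 ≤ 1 :=
      (mul_le_mul_of_nonneg_right h3 hh.le).trans hsm
    calc (C2 + C3) * (C3 * (i.1 ^ (m * c) * i.1)) = ((C2 + C3) * C3 * i.1) * i.1 ^ (m * c) := by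
          ring
      _ ≤ 1 * i.1 ^ (m * c) := mul_le_mul_of_nonneg_right h4 hpw.le
      _ = _ := one_mul _
  -- the trichotomy
  have key : ∀ x : X2,
      |inner ℝ (d1 ((dataM h hc hN h0).cutMap F (fun i => thM u c N i.1) i t0) x)
          (d1 ((dataM h hc hN h0).cutMap F (fun i => thM u c N i.1) i t0) x)
        - (inner ℝ (d1 f x) (d1 f x) + am u β c i.1 x ^ 2)| ≤ i.1 ^ (m * c) ∧
      |inner ℝ (d1 ((dataM h hc hN h0).cutMap F (fun i => thM u c N i.1) i t0) x)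
          (d2 ((dataM h hc hN h0).cutMap F (fun i => thM u c N i.1) i t0) x)
        - inner ℝ (d1 f x) (d2 f x)| ≤ i.1 ^ (m * c) ∧
      |inner ℝ (d2 ((dataM h hc hN h0).cutMap F (fun i => thM u c N i.1) i t0) x)
          (d2 ((dataM h hc hN h0).cutMap F (fun i => thM u c N i.1) i t0) x)
        - inner ℝ (d2 f x) (d2 f x)| ≤ i.1 ^ (m * c) := by
    intro x
    rcases mac_cases (h0 := h0) (c := c) h hN i x with ⟨hx, hs, hθ⟩ | hs
    · obtain ⟨e1, e2, e3⟩ := hm1 i t0 x hx hθ.eq_of_nhds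
      have e1' : |inner ℝ (d1 ((dataM h hc hN h0).cutMap F (fun i => thM u c N i.1) i t0) x)
          (d1 ((dataM h hc hN h0).cutMap F (fun i => thM u c N i.1) i t0) x)
        - (inner ℝ (d1 f x) (d1 f x) + am u β c i.1 x ^ 2 + 0)| ≤ C1 * i.1 ^ (15 + m * c) := e1
      have e2' : |inner ℝ (d1 ((dataM h hc hN h0).cutMap F (fun i => thM u c N i.1) i t0) x)
          (d2 ((dataM h hc hN h0).cutMap F (fun i => thM u c N i.1) i t0) x)
        - (inner ℝ (d1 f x) (d2 f x) + 0)| ≤ C1 * i.1 ^ (15 + m * c) := e2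
      have e3' : |inner ℝ (d2 ((dataM h hc hN h0).cutMap F (fun i => thM u c N i.1) i t0) x)
          (d2 ((dataM h hc hN h0).cutMap F (fun i => thM u c N i.1) i t0) x)
        - (inner ℝ (d2 f x) (d2 f x) + 0)| ≤ C1 * i.1 ^ (15 + m * c) := e3
      rw [add_zero] at e1' e2' e3'
      exact ⟨e1'.trans num1, e2'.trans num1, e3'.trans num1⟩
    · have ha0 := am_nonneg h.ha c i.1 x
      have ha := ht h0 i x hs
      have hn := num2 _ ha0 ha
      have hsq := sq_nonneg (am u β c i.1 x)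
      have hC2a : 0 ≤ C2 * am u β c i.1 x := mul_nonneg hC2.le ha0
      by_cases hx : x ∈ (famM u h.ha.hu.continuous c N h0).D i
      · obtain ⟨e1, e2, e3⟩ := hm2 i t0 x hx
        have e1' : |inner ℝ (d1 ((dataM h hc hN h0).cutMap F (fun i => thM u c N i.1) i t0) x)
          (d1 ((dataM h hc hN h0).cutMap F (fun i => thM u c N i.1) i t0) x)
          - inner ℝ (d1 f x) (d1 f x)| ≤ C2 * am u β c i.1 x := e1
        have hle : C2 * am u β c i.1 x ≤ i.1 ^ (m * c) := by linarith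
        refine ⟨?_, e2.trans hle, e3.trans hle⟩
        rw [abs_le] at e1' ⊢
        constructor <;> linarith [e1'.1, e1'.2]
      · have e := off_D h hc hN hC i t0 hx
        have g1 : d1 ((dataM h hc hN h0).cutMap F (fun i => thM u c N i.1) i t0) x = d1 f x := by
          unfold d1; rw [e.fderiv_eq]
        have g2 : d2 ((dataM h hc hN h0).cutMap F (fun i => thM u c N i.1) i t0) x = d2 f x := by
          unfold d2; rw [e.fderiv_eq]
        rw [g1, g2]
        refine ⟨?_, ?_, ?_⟩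
        · rw [abs_le]; constructor <;> linarith
        · rw [sub_self, abs_zero]; exact hpw.le
        · rw [sub_self, abs_zero]; exact hpw.le
  constructor
  · intro x hx
    rw [lam_Lp q k₀ _] at hx
    have hx' : 2 * Lp c i.1 * u x ≤ 1 := hx
    show f x + thM u c N i.1 x • _ = f x
    have : thM u c N i.1 x = 0 := by
      refine cutoff_zero ?_
      have : 2 * Lp c i.1 * u x - 1 ≤ 0 := by linarith
      have h2 : Lp N i.1 * (2 * Lp c i.1 * u x - 1) ≤ 0 :=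
        mul_nonpos_of_nonneg_of_nonpos (by linarith) this
      linarith
    rw [this, zero_smul, add_zero]
  · intro x
    rw [exp_lam q m k₀ hh, lam_Lp q k₀ _]
    have h3 := (key x).1
    rw [am_sq hc i x] at h3
    exact h3
  · intro x
    rw [exp_lam q m k₀ hh]
    exact (key x).2.1
  · intro x
    rw [exp_lam q m k₀ hh]
    exact (key x).2.2

end

end Crest.Agent.R216.TE
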