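import Crest.Agent.R216.MacIter
import Crest.Agent.R216.MacClose

/-!
# Row 216, Theorem E, MACRO: the macroscopic step (helper323).
-/

open Set Topology MeasureTheory
open scoped ContDiff

namespace Crest.Agent.R216.TE

/-- **MACRO** -/
theorem macroThm (q m k₀ K₀ : ℕ) (hq : 2 ≤ q) (_hm : 1 ≤ m) (hk : 3 ≤ k₀) : MacroThm q m k₀ K₀ := by
  intro f u β O W hf ha h2 h3 hL N' hN' η hη T
  have h : MacHyp f u β O W :=
    { hf := hf, ha := ha
      ind := fun x hx => (gram_pos_iff _ _).2 (h2 x hx)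
      ind1 := fun x hx => ppr_ne_zero (h3 x hx)
      hW := hL }
  have hc : 1 ≤ 32 * q * k₀ := by nlinarith
  have hN : 1 ≤ m * (32 * q * k₀) + 1 := by omega
  obtain ⟨r, hr, hyp⟩ := dataM_hyp h hc hN
  obtain ⟨h0, hh0, hcl⟩ := am_close (c := 32 * q * k₀) ha hc hr
  have hy := hyp h0 (fun i x hx => (hcl i.1 i.2.1 i.2.2.1 i.2.2.2 x hx).1)
  obtain ⟨F, hG, hE⟩ := EData.engine hy (m * (32 * q * k₀))
  obtain ⟨h1, hh1, hst⟩ := mac_st h q m k₀ hc hN hy hG hE
  obtain ⟨h2', hh2, hcx⟩ := mac_closeX h hc hN hy hG hη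
  obtain ⟨h3', hh3, hit⟩ := mac_iter h hc hN hy hG K₀ hN'
  set h4 : ℝ := min (min h0 (min h1 (min h2' h3'))) (min (1 / 3) (min η (|T| + 1)⁻¹)) with hh4
  have hTp : 0 < |T| + 1 := by positivity
  have h4p : 0 < h4 := by
    rw [hh4]; positivity
  have l0 : h4 ≤ h0 := (min_le_left _ _).trans (min_le_left _ _)
  have l1 : h4 ≤ h1 := (min_le_left _ _).trans ((min_le_right _ _).trans (min_le_left _ _))
  have l2 : h4 ≤ h2' := (min_le_left _ _).trans ((min_le_right _ _).trans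
    ((min_le_right _ _).trans (min_le_left _ _)))
  have l3 : h4 ≤ h3' := (min_le_left _ _).trans ((min_le_right _ _).trans
    ((min_le_right _ _).trans (min_le_right _ _)))
  have l4 : h4 ≤ 1 / 3 := (min_le_right _ _).trans (min_le_left _ _)
  have l5 : h4 ≤ η := (min_le_right _ _).trans ((min_le_right _ _).trans (min_le_left _ _))
  have l6 : h4 ≤ (|T| + 1)⁻¹ :=
    (min_le_right _ _).trans ((min_le_right _ _).trans (min_le_right _ _))
  have hhalf : h4 / 2 < h4 := by linarith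
  have hp : 0 < h4 / 2 := by linarith
  have hle1 : h4 / 2 ≤ 1 := by linarith
  let i : MIx h0 := ⟨h4 / 2, hp, by linarith, by linarith⟩
  have hpow16 : (h4 / 2) ^ 16 ≤ h4 / 2 := by
    calc (h4 / 2) ^ 16 ≤ (h4 / 2) ^ 1 := pow_le_pow_of_le_one hp.le hle1 (by norm_num)
      _ = _ := pow_one _
  have hpow32 : (h4 / 2) ^ 32 ≤ h4 / 2 := by
    calc (h4 / 2) ^ 32 ≤ (h4 / 2) ^ 1 := pow_le_pow_of_le_one hp.le hle1 (by norm_num)
      _ = _ := pow_one _
  refine ⟨(h4 / 2) ^ 16, by positivity, by linarith, ((h4 / 2) ^ 32)⁻¹, ?_, fun t0 => ?_⟩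
  · have h5 : |T| + 1 ≤ ((h4 / 2) ^ 32)⁻¹ := by
      rw [le_inv_comm₀ hTp (by positivity)]
      linarith
    linarith [le_abs_self T]
  · have hC := cutHyp_M h hc hN hy hG
    exact ⟨_, hC.smooth i t0, hst i (by show h4 / 2 < h1; linarith) t0,
      fun j hj hjK x hx => hit i (by show h4 / 2 < h3'; linarith) t0 j hj hjK x hx,
      hcx i (by show h4 / 2 < h2'; linarith) t0⟩

end Crest.Agent.R216.TE
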