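import Crest.Agent.R216.StageDefs
import Crest.Agent.R216.Alg
import Crest.Agent.R216.HypLoop

/-!
# Row 216, Theorem E, STAGE: the micro loops `b = p/|p|` satisfy `LoopHyp`.
-/

open Set Topology MeasureTheory
open scoped ContDiff

namespace Crest.Agent.R216.TE

lemma inner_cpr_perp (A B C b : E4) (hB : inner ℝ b B = (0:ℝ)) (hC : inner ℝ b C = (0:ℝ)) :
    inner ℝ (cpr A B C) b = (0:ℝ) := by
  have hB' : inner ℝ B b = (0:ℝ) := by rw [real_inner_comm]; exact hB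
  have hC' : inner ℝ C b = (0:ℝ) := by rw [real_inner_comm]; exact hC
  simp only [cpr, xiB, xiC, inner_add_left, inner_sub_left, inner_smul_left, hB', hC']
  simp

lemma inner_ppr_perp (A B C b : E4) (hB : inner ℝ b B = (0:ℝ)) (hC : inner ℝ b C = (0:ℝ)) :
    inner ℝ A b = (inner ℝ (ppr A B C) b : ℝ) := by
  rw [ppr, inner_sub_left, inner_cpr_perp A B C b hB hC, sub_zero]

/-- the norm of a vector of the class with positive lower bound -/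
lemma B_norm {𝓔 : EFam} {v : 𝓔.I → Q → E4} (hv : 𝓔.toFam.B (𝓔.W 0 0 0) v)
    (hlow : ∃ c, 0 < c ∧ ∀ i, ∀ z ∈ 𝓔.toFam.dom i, c ≤ ‖v i z‖) :
    𝓔.toFam.B (𝓔.W 0 0 0) (fun i z => ‖v i z‖) := by
  obtain ⟨c, hc, hlow⟩ := hlow
  have h1 := Fam.B.sqrt (𝓕 := 𝓔.toFam) (w := 𝓔.W 0 0 0) (u := fun i z => inner ℝ (v i z) (v i z))
    (c := c ^ 2) (by positivity) (fun i x hx => EFam.W_pos _ _ _ i hx)
    (fun i z hz => by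
      have := hlow i z hz
      rw [real_inner_self_eq_norm_sq]
      simp only [EFam.W, pow_zero, mul_one]
      nlinarith [norm_nonneg (v i z)]) (EFam.B_inner hv hv)
  refine (EFam.B_weq h1 (fun i x _ => by simp [EFam.W])).congr (fun i z _ => ?_)
  simp only [real_inner_self_eq_norm_sq]
  exact Real.sqrt_sq (norm_nonneg _)

lemma B_normalize {𝓔 : EFam} {v : 𝓔.I → Q → E4} (hv : 𝓔.toFam.B (𝓔.W 0 0 0) v)
    (hlow : ∃ c, 0 < c ∧ ∀ i, ∀ z ∈ 𝓔.toFam.dom i, c ≤ ‖v i z‖) :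
    𝓔.toFam.B (𝓔.W 0 0 0) (fun i z => ‖v i z‖⁻¹ • v i z) := by
  obtain ⟨c, hc, hl⟩ := hlow
  exact EFam.B_inv (k := 0) (B_norm hv ⟨c, hc, hl⟩)
    ⟨c, hc, fun i z hz => by simpa using hl i z hz⟩ hv

/-- the frame `b = p/|p|` gives `LoopHyp` (general `A, B, C`) -/
theorem loopHyp_of_p {𝓔 : EFam} {A B C : 𝓔.I → X2 → E4}
    (AB : 𝓔.toFam.B (𝓔.W 0 0 0) (fun i => lift (A i)))
    (BB : 𝓔.toFam.B (𝓔.W 0 0 0) (fun i => lift (B i)))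
    (CB : 𝓔.toFam.B (𝓔.W 0 0 0) (fun i => lift (C i)))
    (gram_low : ∃ c, 0 < c ∧ ∀ i, ∀ x ∈ 𝓔.D i, c ≤ gram (B i x) (C i x))
    (p_low : ∃ c, 0 < c ∧ ∀ i, ∀ x ∈ 𝓔.D i, c ≤ ‖ppr (A i x) (B i x) (C i x)‖) :
    LoopHyp 𝓔 A B C
      (fun i x => (‖ppr (A i x) (B i x) (C i x)‖)⁻¹ • ppr (A i x) (B i x) (C i x)) := by
  obtain ⟨c0, hc0, hg'⟩ := gram_low
  obtain ⟨c1, hc1, hp'⟩ := p_low
  have hgz : ∃ c, 0 < c ∧ ∀ i, ∀ z ∈ 𝓔.toFam.dom i,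
      c ≤ gram (lift (B i) z) (lift (C i) z) :=
    ⟨c0, hc0, fun i z hz => hg' i z.1 hz⟩
  have hpr := B_ppr AB BB CB hgz
  have hne : ∀ i, ∀ x ∈ 𝓔.D i, ‖ppr (A i x) (B i x) (C i x)‖ ≠ 0 :=
    fun i x hx => (lt_of_lt_of_le hc1 (hp' i x hx)).ne'
  have hgn : ∀ i, ∀ x ∈ 𝓔.D i, gram (B i x) (C i x) ≠ 0 :=
    fun i x hx => (lt_of_lt_of_le hc0 (hg' i x hx)).ne'
  have hperp : ∀ i, ∀ x ∈ 𝓔.D i,
      inner ℝ (‖ppr (A i x) (B i x) (C i x)‖⁻¹ • ppr (A i x) (B i x) (C i x)) (B i x) = (0:ℝ) ∧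
      inner ℝ (‖ppr (A i x) (B i x) (C i x)‖⁻¹ • ppr (A i x) (B i x) (C i x)) (C i x)
        = (0:ℝ) := by
    intro i x hx
    obtain ⟨e1, e2⟩ := ppr_perp (A i x) (B i x) (C i x) (hgn i x hx)
    constructor
    · rw [inner_smul_left, e1, mul_zero]
    · rw [inner_smul_left, e2, mul_zero]
  have hunit : ∀ i, ∀ x ∈ 𝓔.D i,
      ‖‖ppr (A i x) (B i x) (C i x)‖⁻¹ • ppr (A i x) (B i x) (C i x)‖ = 1 := by
    intro i x hx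
    rw [norm_smul, norm_inv, norm_norm, inv_mul_cancel₀ (hne i x hx)]
  have hlp1 : ∀ i, ∀ x ∈ 𝓔.D i, lp1 (A i x)
      (‖ppr (A i x) (B i x) (C i x)‖⁻¹ • ppr (A i x) (B i x) (C i x))
      = ‖ppr (A i x) (B i x) (C i x)‖ := by
    intro i x hx
    obtain ⟨e1, e2⟩ := hperp i x hx
    rw [lp1, inner_ppr_perp _ _ _ _ e1 e2, inner_smul_right, real_inner_self_eq_norm_sq]
    have := hne i x hx
    field_simp
  refine ⟨AB, BB, CB, ?_, ⟨c0, hc0, hg'⟩, hunit, hperp, ⟨c1, hc1, fun i x hx => ?_⟩,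
    ⟨1, one_pos, fun i x hx => ?_⟩⟩
  · exact B_normalize hpr ⟨c1, hc1, fun i z hz => hp' i z.1 hz⟩
  · have h := hp' i x hx
    have e := hlp1 i x hx
    rw [lr, e]
    refine h.trans (Real.le_sqrt_of_sq_le ?_)
    nlinarith [sq_nonneg (lp2 (A i x) (B i x) (C i x)
        (‖ppr (A i x) (B i x) (C i x)‖⁻¹ • ppr (A i x) (B i x) (C i x))),
      sq_nonneg (𝓔.a i x)]
  · have e := hlp1 i x hx
    have hx0 : 0 ≤ lx (A i x) (B i x) (C i x)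
        (‖ppr (A i x) (B i x) (C i x)‖⁻¹ • ppr (A i x) (B i x) (C i x)) (𝓔.a i x) := by
      rw [lx, e]
      exact div_nonneg (norm_nonneg _) (Real.sqrt_nonneg _)
    rw [lden]
    nlinarith [sq_nonneg (ly (A i x) (B i x) (C i x)
      (‖ppr (A i x) (B i x) (C i x)‖⁻¹ • ppr (A i x) (B i x) (C i x)) (𝓔.a i x))]

theorem microLoopHyp (𝓔 : EFam) (f : 𝓔.I → X2 → E4)
    (h1 : 𝓔.toFam.B (𝓔.W 0 0 0) (fun i => lift (d1 (f i))))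
    (h2 : 𝓔.toFam.B (𝓔.W 0 0 0) (fun i => lift (d2 (f i))))
    (h22 : 𝓔.toFam.B (𝓔.W 0 0 0) (fun i => lift (d2 (d2 (f i)))))
    (hg : ∃ c, 0 < c ∧ ∀ i, ∀ x ∈ 𝓔.D i, c ≤ gram (d2 (f i) x) (d2 (d2 (f i)) x))
    (hp : ∃ c, 0 < c ∧ ∀ i, ∀ x ∈ 𝓔.D i,
      c ≤ ‖ppr (d1 (f i) x) (d2 (f i) x) (d2 (d2 (f i)) x)‖) :
    LoopHyp 𝓔 (fun i => d1 (f i)) (fun i => d2 (f i)) (fun i => d2 (d2 (f i)))
      (fun i => mb (f i)) :=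
  loopHyp_of_p h1 h2 h22 hg hp

/-- **The micro data satisfy the hypotheses of the engine.** -/
theorem microData_hyp (𝓔 : EFam) (f : 𝓔.I → X2 → E4) (G11 G12 G22 : 𝓔.I → X2 → ℝ)
    (hf : ∀ i, ContDiff ℝ ∞ (f i))
    (h1 : 𝓔.toFam.B (𝓔.W 0 0 0) (fun i => lift (d1 (f i))))
    (h2 : 𝓔.toFam.B (𝓔.W 0 0 0) (fun i => lift (d2 (f i))))
    (h12 : 𝓔.toFam.B (𝓔.W 0 0 0) (fun i => lift (d1 (d2 (f i)))))
    (h22 : 𝓔.toFam.B (𝓔.W 0 0 0) (fun i => lift (d2 (d2 (f i)))))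
    (hg : ∃ c, 0 < c ∧ ∀ i, ∀ x ∈ 𝓔.D i, c ≤ gram (d2 (f i) x) (d2 (d2 (f i)) x))
    (hp : ∃ c, 0 < c ∧ ∀ i, ∀ x ∈ 𝓔.D i,
      c ≤ ‖ppr (d1 (f i) x) (d2 (f i) x) (d2 (d2 (f i)) x)‖)
    (hG11 : 𝓔.toFam.B (𝓔.W 2 48 0) (fun i => lift (G11 i)))
    (hG12 : 𝓔.toFam.B (𝓔.W 2 48 0) (fun i => lift (G12 i)))
    (hG22 : 𝓔.toFam.B (𝓔.W 2 48 0) (fun i => lift (G22 i)))
    (star : ∀ i, ∀ x ∈ 𝓔.D i, ∀ l ∈ Icc (0:ℝ) 1, (x.1, l * x.2) ∈ 𝓔.D i)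
    (bdd2 : ∃ L, 0 < L ∧ ∀ i, ∀ x ∈ 𝓔.D i, |x.2| ≤ L) :
    (microData 𝓔 f G11 G12 G22).Hyp := by
  have hs : 𝓔.toFam.Sm (fun i => lift (f i)) :=
    fun i => ((hf i).comp contDiff_fst).contDiffOn
  exact hyp_of_loop 𝓔 f (fun i => mb (f i)) G11 G12 G22 hs
    (microLoopHyp 𝓔 f h1 h2 h22 hg hp) h12 hG11 hG12 hG22 star bdd2

end Crest.Agent.R216.TE
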