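import Crest.Agent.R216.MorseLoc

/-!
Row 216 (S0335), module MORSE, part 5: existence of Morse functions in exact normal form with distinct
critical values.
-/

set_option autoImplicit false
open scoped Manifold ContDiff Topology InnerProductSpace
open Set Metric Filter MeasureTheory

noncomputable section
namespace Crest.Agent.R216.Morse

variable {E : Type*} [NormedAddCommGroup E] [InnerProductSpace ℝ E] [FiniteDimensional ℝ E]
variable {M : Type*} [TopologicalSpace M] [ChartedSpace E M] [IsManifold 𝓘(ℝ, E) ∞ M]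

/-- One modification step at a nondegenerate critical point. -/
lemma mod_step [T2Space M] {φ : M → ℝ} (hφ : ContMDiff 𝓘(ℝ, E) 𝓘(ℝ, ℝ) ∞ φ) {p : M}
    (hp : NdAt E φ p) {V : Set M} (hV : IsOpen V) (hpV : p ∈ V)
    (hVc : ∀ x ∈ V, mfderiv 𝓘(ℝ, E) 𝓘(ℝ, ℝ) φ x = 0 → x = p) {F : Set ℝ} (hF : F.Finite) :
    ∃ φ' : M → ℝ, ContMDiff 𝓘(ℝ, E) 𝓘(ℝ, ℝ) ∞ φ' ∧ (∀ x ∉ V, φ' =ᶠ[𝓝 x] φ) ∧
      (∀ x, mfderiv 𝓘(ℝ, E) 𝓘(ℝ, ℝ) φ' x = 0 ↔ mfderiv 𝓘(ℝ, E) 𝓘(ℝ, ℝ) φ x = 0) ∧
      QuadAt E φ' p ∧ φ' p ∉ F := by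
  classical
  obtain ⟨L, hL1, hL2⟩ := hp
  set e := L.e with he
  set g : E → ℝ := φ ∘ e.symm with hg
  set U : Set E := e.target ∩ e.symm ⁻¹' V with hU
  have hUo : IsOpen U := e.isOpen_inter_preimage_symm hV
  have h0U : (0 : E) ∈ U := ⟨L.zero_mem, by simp only [mem_preimage]; rw [L.symm_zero]; exact hpV⟩
  have hgU : ContDiffOn ℝ ∞ g U := (contDiffOn_loc hφ L).mono inter_subset_left
  obtain ⟨r, hr, -, hrU, ε₀, hε₀, hmod⟩ := exists_local_mod hUo h0U hgU hL1 hL2 (one_pos)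
  -- choose ε
  obtain ⟨ε, hε, hεF⟩ : ∃ ε : ℝ, |ε| < ε₀ ∧ φ p + ε ∉ F := by
    have h1 : (Ioo (0 : ℝ) ε₀).Infinite := Ioo_infinite hε₀
    have h2 : ((fun ε => φ p + ε) ⁻¹' F).Finite := hF.preimage (by intro a _ b _ h; simpa using h)
    obtain ⟨ε, hε1, hε2⟩ := (h1.sdiff h2).nonempty
    exact ⟨ε, by rw [abs_of_pos hε1.1]; exact hε1.2, hε2⟩
  obtain ⟨k, hk1, hk2, hk3, hk4⟩ := hmod ε hε
  set K : Set M := e.symm '' closedBall 0 r with hK
  have hKc : IsCompact K := by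
    apply (isCompact_closedBall (0 : E) r).image_of_continuousOn
    exact e.continuousOn_symm.mono (fun x hx => (hrU hx).1)
  have hKcl : IsClosed K := hKc.isClosed
  have hKV : K ⊆ V := by
    rintro _ ⟨x, hx, rfl⟩; exact (hrU hx).2
  have hKs : K ⊆ e.source := by
    rintro _ ⟨x, hx, rfl⟩; exact e.map_target (hrU hx).1
  let φ' : M → ℝ := fun x => φ x + (if x ∈ e.source then k (e x) else 0)
  have hoff : ∀ x ∉ K, φ' x = φ x := by
    intro x hx
    by_cases hxs : x ∈ e.source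
    · have : e x ∉ ball (0 : E) r := by
        intro h
        exact hx ⟨e x, ball_subset_closedBall h, e.left_inv hxs⟩
      simp [φ', hxs, hk2 _ this]
    · simp [φ', hxs]
  have hoffn : ∀ x ∉ K, φ' =ᶠ[𝓝 x] φ := fun x hx =>
    Filter.eventuallyEq_of_mem (hKcl.isOpen_compl.mem_nhds hx) (fun y hy => hoff y hy)
  have hin : ∀ y ∈ e.target, φ' (e.symm y) = g y + k y := by
    intro y hy
    have : e.symm y ∈ e.source := e.map_target hy
    simp [φ', this, e.right_inv hy, g]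
  have hφ' : ContMDiff 𝓘(ℝ, E) 𝓘(ℝ, ℝ) ∞ φ' := by
    intro x
    by_cases hxK : x ∈ K
    · have hxs := hKs hxK
      have hxU : e x ∈ U := by
        obtain ⟨y, hy, rfl⟩ := hxK
        rw [e.right_inv (hrU hy).1]; exact hrU hy
      have hW : IsOpen (e.source ∩ e ⁻¹' U) := e.isOpen_inter_preimage hUo
      have h1 : ContMDiffOn 𝓘(ℝ, E) 𝓘(ℝ, ℝ) ∞ (k ∘ e) (e.source ∩ e ⁻¹' U) :=
        hk1.contMDiffOn.comp (L.smooth.mono inter_subset_left) (fun z hz => hz.2)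
      have h2 : ContMDiffAt 𝓘(ℝ, E) 𝓘(ℝ, ℝ) ∞ (k ∘ e) x :=
        h1.contMDiffAt (hW.mem_nhds ⟨hxs, hxU⟩)
      have h3 : ContMDiffAt 𝓘(ℝ, E) 𝓘(ℝ, ℝ) ∞ (fun z => φ z + (k ∘ e) z) x := hφ.contMDiffAt.add h2
      apply h3.congr_of_eventuallyEq
      filter_upwards [e.open_source.mem_nhds hxs] with z hz
      simp [φ', hz]
    · exact hφ.contMDiffAt.congr_of_eventuallyEq (hoffn x hxK)
  -- relation of the coordinate expressions
  have hcoord : ∀ y ∈ e.target, φ' ∘ e.symm =ᶠ[𝓝 y] fun z => g z + k z := fun y hy =>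
    Filter.eventuallyEq_of_mem (e.open_target.mem_nhds hy) (fun z hz => hin z hz)
  have h0cb : (0 : E) ∈ closedBall (0 : E) (r / 2) := by simp; positivity
  have hval : φ' p = φ p + ε := by
    have h1 := hin 0 L.zero_mem
    rw [hk3 0 h0cb] at h1
    rw [L.symm_zero] at h1
    rw [h1]
    simp [g, L.symm_zero, he]
  have hsymm : ∀ v w, ⟪fderiv ℝ (grad g) 0 v, w⟫_ℝ = ⟪v, fderiv ℝ (grad g) 0 w⟫_ℝ :=
    fun v w => hess_symm hUo hgU h0U v w
  have hquad : ∀ x ∈ closedBall (0 : E) (r / 2), φ' (e.symm x)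
      = φ' p + 1 / 2 * ⟪fderiv ℝ (grad g) 0 x, x⟫_ℝ := by
    intro x hx
    have hx' : x ∈ closedBall (0 : E) r := closedBall_subset_closedBall (by linarith) hx
    rw [hin x (hrU hx').1, hk3 x hx, hval]
    simp [g, L.symm_zero, he]
  refine ⟨φ', hφ', fun x hx => hoffn x (fun h => hx (hKV h)), ?_, ?_, ?_⟩
  · intro x
    by_cases hxK : x ∈ K
    · obtain ⟨y, hy, rfl⟩ := hxK
      have hyt := (hrU hy).1
      have hxs : e.symm y ∈ e.source := e.map_target hyt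
      by_cases hy0 : y = 0
      · subst hy0
        constructor
        · intro _
          rw [mfderiv_eq_zero_iff (hφ.mdifferentiableAt (by simp)) e hxs L.smooth L.smooth_symm,
            e.right_inv hyt]
          exact grad_eq_zero.1 hL1
        · intro _
          rw [mfderiv_eq_zero_iff (hφ'.mdifferentiableAt (by simp)) e hxs L.smooth L.smooth_symm,
            e.right_inv hyt]
          have h1 : φ' ∘ e.symm =ᶠ[𝓝 0] fun x => φ' p + 1 / 2 * ⟪fderiv ℝ (grad g) 0 x, x⟫_ℝ :=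
            Filter.eventuallyEq_of_mem (closedBall_mem_nhds 0 (by positivity)) hquad
          rw [h1.fderiv_eq]
          have h2 : HasFDerivAt (fun x => ⟪fderiv ℝ (grad g) 0 x, x⟫_ℝ) _ (0 : E) :=
            (fderiv ℝ (grad g) 0).hasFDerivAt.inner ℝ (hasFDerivAt_id (0 : E))
          have h3 := (h2.const_mul (1 / 2 : ℝ)).const_add (φ' p)
          rw [h3.fderiv]
          ext v
          simp
      · constructor
        · intro h
          exfalso
          rw [mfderiv_eq_zero_iff (hφ'.mdifferentiableAt (by simp)) e hxs L.smooth L.smooth_symm,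
            e.right_inv hyt, ← grad_eq_zero, (grad_congr (hcoord y hyt)).eq_of_nhds] at h
          exact hk4 y hy hy0 h
        · intro h
          exfalso
          have h1 := hVc _ (hrU hy).2 h
          apply hy0
          have h2 : e (e.symm y) = e p := by rw [h1]
          rw [e.right_inv hyt] at h2
          rw [h2]; exact L.zero
    · rw [(hoffn x hxK).mfderiv_eq]
      exact Iff.rfl
  · refine ⟨L, fderiv ℝ (grad g) 0, r / 2, hL2, hsymm, by positivity, ?_, hquad⟩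
    intro x hx
    exact (hrU (closedBall_subset_closedBall (by linarith) hx)).1
  · rw [hval]; exact hεF

/-- punctured neighbourhoods of any point contain no critical point, for a function all of whose
critical points are nondegenerate. -/
lemma isolated {φ : M → ℝ} (hφ : ContMDiff 𝓘(ℝ, E) 𝓘(ℝ, ℝ) ∞ φ) (x : M)
    (hx : mfderiv 𝓘(ℝ, E) 𝓘(ℝ, ℝ) φ x = 0 → NdAt E φ x) :
    ∃ V : Set M, IsOpen V ∧ x ∈ V ∧ ∀ y ∈ V, mfderiv 𝓘(ℝ, E) 𝓘(ℝ, ℝ) φ y = 0 → y = x := by
  -- coordinates in which the gradient is eventually nonzero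
  obtain ⟨L, hL⟩ : ∃ L : LocCoord E x, ∀ᶠ y in 𝓝[≠] (0 : E), grad (φ ∘ L.e.symm) y ≠ 0 := by
    by_cases hc : mfderiv 𝓘(ℝ, E) 𝓘(ℝ, ℝ) φ x = 0
    · obtain ⟨L, h1, h2⟩ := hx hc
      refine ⟨L, ?_⟩
      have hd : DifferentiableAt ℝ (grad (φ ∘ L.e.symm)) 0 :=
        differentiableAt_grad L.e.open_target (contDiffOn_loc hφ L) L.zero_mem
      apply hd.hasFDerivAt.eventually_ne
      let A : E ≃L[ℝ] E := (fderiv ℝ (grad (φ ∘ L.e.symm)) 0).toContinuousLinearEquivOfDetNeZero h2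
      exact ⟨_, A.antilipschitz⟩
    · let L : LocCoord E x := locOfChart x x (mem_chart_source E x)
      refine ⟨L, ?_⟩
      have hcont : ContinuousAt (grad (φ ∘ L.e.symm)) 0 :=
        (differentiableAt_grad L.e.open_target (contDiffOn_loc hφ L) L.zero_mem).continuousAt
      have hne : grad (φ ∘ L.e.symm) 0 ≠ 0 := by
        intro h
        apply hc
        rw [mfderiv_eq_zero_iff (hφ.mdifferentiableAt (by simp)) L.e L.mem L.smooth L.smooth_symm,
          L.zero, ← grad_eq_zero]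
        exact h
      exact (hcont.eventually_ne hne).filter_mono nhdsWithin_le_nhds
  obtain ⟨W, hW, hWo, hW0⟩ := _root_.mem_nhds_iff.1 (eventually_nhdsWithin_iff.1 hL)
  refine ⟨L.e.source ∩ L.e ⁻¹' W, L.e.isOpen_inter_preimage hWo, ⟨L.mem, by
    simp only [mem_preimage]; rw [L.zero]; exact hW0⟩, ?_⟩
  intro y hy hyc
  by_contra hne
  rw [mfderiv_eq_zero_iff (hφ.mdifferentiableAt (by simp)) L.e hy.1 L.smooth L.smooth_symm,
    ← grad_eq_zero] at hyc
  refine hW hy.2 ?_ hyc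
  simp only [mem_compl_iff, mem_singleton_iff]
  intro h
  apply hne
  rw [← L.e.left_inv hy.1, h, L.symm_zero]

/-- Existence of a smooth function with only nondegenerate critical points. -/
lemma exists_nd [T2Space M] [CompactSpace M] :
    ∃ φ : M → ℝ, ContMDiff 𝓘(ℝ, E) 𝓘(ℝ, ℝ) ∞ φ ∧
      ∀ x, mfderiv 𝓘(ℝ, E) 𝓘(ℝ, ℝ) φ x = 0 → NdAt E φ x := by
  classical
  let f : ∀ c : M, SmoothBumpFunction 𝓘(ℝ, E) c := fun c => Classical.arbitrary _
  let N : M → Set M := fun c => (extChartAt 𝓘(ℝ, E) c).source ∩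
    (extChartAt 𝓘(ℝ, E) c) ⁻¹' (ball (extChartAt 𝓘(ℝ, E) c c) ((f c).rIn / 2))
  have hNo : ∀ c, IsOpen (N c) := fun c => isOpen_extChartAt_preimage' c isOpen_ball
  have hcN : ∀ c, c ∈ N c := fun c =>
    ⟨mem_extChartAt_source c, by
      have := (f c).rIn_pos
      simp only [mem_preimage]; exact mem_ball_self (by linarith)⟩
  obtain ⟨s, hs⟩ := isCompact_univ.elim_finite_subcover N hNo (fun c _ => mem_iUnion.2 ⟨c, hcN c⟩)
  obtain ⟨φ, hφ, hgood⟩ := exists_good (E := E) f s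
  refine ⟨φ, hφ, fun x hx => ?_⟩
  obtain ⟨c, hc⟩ := mem_iUnion.1 (hs (mem_univ x))
  obtain ⟨hcs, hxc⟩ := mem_iUnion.1 hc
  have hxs : x ∈ (chartAt E c).source := by
    have := hxc.1
    rwa [extChartAt_source] at this
  have hj := hgood c hcs (extChartAt 𝓘(ℝ, E) c x) (ball_subset_closedBall hxc.2)
  let L : LocCoord E x := locOfChart c x hxs
  have htr : φ ∘ L.e.symm = fun z => (φ ∘ (extChartAt 𝓘(ℝ, E) c).symm)
      (z + extChartAt 𝓘(ℝ, E) c x) := by
    funext z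
    change φ ((chartAt E c).symm (z + - -(chartAt E c x))) = _
    rw [neg_neg]
    rfl
  have hgr : grad (φ ∘ L.e.symm) = fun z => grad (φ ∘ (extChartAt 𝓘(ℝ, E) c).symm)
      (z + extChartAt 𝓘(ℝ, E) c x) := by
    funext z
    rw [htr]
    simp only [grad]
    rw [fderiv_comp_add_right]
  have hc0 : grad (φ ∘ L.e.symm) 0 = 0 := by
    rw [grad_eq_zero]
    rw [mfderiv_eq_zero_iff (hφ.mdifferentiableAt (by simp)) L.e L.mem L.smooth L.smooth_symm,
      L.zero] at hx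
    exact hx
  refine ⟨L, hc0, ?_⟩
  rw [hgr] at hc0 ⊢
  rw [fderiv_comp_add_right]
  simp only [zero_add] at hc0 ⊢
  rcases hj with h | h
  · exact absurd hc0 h
  · exact h

lemma finite_crit [CompactSpace M] {φ : M → ℝ} (hφ : ContMDiff 𝓘(ℝ, E) 𝓘(ℝ, ℝ) ∞ φ)
    (h : ∀ x, mfderiv 𝓘(ℝ, E) 𝓘(ℝ, ℝ) φ x = 0 → NdAt E φ x) :
    {x | mfderiv 𝓘(ℝ, E) 𝓘(ℝ, ℝ) φ x = 0}.Finite := by
  classical
  choose V hVo hxV hV using fun x => isolated hφ x (h x)
  obtain ⟨s, hs⟩ := isCompact_univ.elim_finite_subcover V hVo (fun c _ => mem_iUnion.2 ⟨c, hxV c⟩)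
  apply s.finite_toSet.subset
  intro x hx
  obtain ⟨c, hc⟩ := mem_iUnion.1 (hs (mem_univ x))
  obtain ⟨hcs, hxc⟩ := mem_iUnion.1 hc
  rw [hV c x hxc hx]
  exact hcs

/-- **Existence of Morse functions in exact (quadratic) normal form.** -/
theorem exists_quad [T2Space M] [CompactSpace M] :
    ∃ φ : M → ℝ, ContMDiff 𝓘(ℝ, E) 𝓘(ℝ, ℝ) ∞ φ ∧
      {x | mfderiv 𝓘(ℝ, E) 𝓘(ℝ, ℝ) φ x = 0}.Finite ∧
      InjOn φ {x | mfderiv 𝓘(ℝ, E) 𝓘(ℝ, ℝ) φ x = 0} ∧
      ∀ x, mfderiv 𝓘(ℝ, E) 𝓘(ℝ, ℝ) φ x = 0 → QuadAt E φ x := by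
  classical
  obtain ⟨φ₀, hφ₀, hnd⟩ := exists_nd (E := E) (M := M)
  have hfin := finite_crit hφ₀ hnd
  set C := hfin.toFinset with hC
  have hmemC : ∀ x, x ∈ C ↔ mfderiv 𝓘(ℝ, E) 𝓘(ℝ, ℝ) φ₀ x = 0 := by
    intro x; rw [hC, Set.Finite.mem_toFinset]; rfl
  have key : ∀ S : Finset M, S ⊆ C → ∃ φ : M → ℝ, ContMDiff 𝓘(ℝ, E) 𝓘(ℝ, ℝ) ∞ φ ∧
      (∀ x, mfderiv 𝓘(ℝ, E) 𝓘(ℝ, ℝ) φ x = 0 ↔ x ∈ C) ∧ (∀ p ∈ S, QuadAt E φ p) ∧
      (∀ p ∈ C, p ∉ S → NdAt E φ p) ∧ InjOn φ S := by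
    intro S
    induction S using Finset.induction_on with
    | empty =>
      intro _
      exact ⟨φ₀, hφ₀, fun x => (hmemC x).symm, by simp, fun p hp _ => hnd p ((hmemC p).1 hp),
        by simp⟩
    | insert p S hpS ih =>
      intro hS
      obtain ⟨φ, hφ, hcr, hq, hn, hinj⟩ := ih ((Finset.subset_insert _ _).trans hS)
      have hpC : p ∈ C := hS (Finset.mem_insert_self _ _)
      have hVo : IsOpen ((C.erase p : Set M)ᶜ) := (Finset.finite_toSet _).isClosed.isOpen_compl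
      have hpV : p ∈ ((C.erase p : Set M)ᶜ) := by simp
      obtain ⟨φ', h1, h2, h3, h4, h5⟩ := mod_step hφ (hn p hpC hpS) hVo hpV (by
        intro x hx hxc
        have hxC := (hcr x).1 hxc
        by_contra hne
        exact hx (by simp [hne, hxC])) (F := φ '' S) (S.finite_toSet.image φ)
      have hgerm : ∀ q ∈ C, q ≠ p → φ' =ᶠ[𝓝 q] φ := by
        intro q hq hne
        apply h2
        simp [hq, hne]
      refine ⟨φ', h1, fun x => (h3 x).trans (hcr x), ?_, ?_, ?_⟩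
      · intro q hqi
        rcases Finset.mem_insert.1 hqi with rfl | hqS
        · exact h4
        · have hne : q ≠ p := fun h => hpS (h ▸ hqS)
          exact (hq q hqS).congr (hgerm q (hS (Finset.mem_insert_of_mem hqS)) hne).symm
      · intro q hqC hqi
        simp only [Finset.mem_insert, not_or] at hqi
        exact (hn q hqC hqi.2).congr (hgerm q hqC hqi.1).symm
      · have hval : ∀ q ∈ S, φ' q = φ q := fun q hqS =>
          (hgerm q (hS (Finset.mem_insert_of_mem hqS)) (fun h => hpS (h ▸ hqS))).eq_of_nhds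
        rw [Finset.coe_insert]
        rw [injOn_insert (by simpa using hpS)]
        constructor
        · intro a ha b hb hab
          rw [hval a ha, hval b hb] at hab
          exact hinj ha hb hab
        · rintro ⟨q, hqS, hqv⟩
          apply h5
          exact ⟨q, hqS, by rw [← hqv, hval q hqS]⟩
  obtain ⟨φ, hφ, hcr, hq, -, hinj⟩ := key C subset_rfl
  have hset : {x | mfderiv 𝓘(ℝ, E) 𝓘(ℝ, ℝ) φ x = 0} = (C : Set M) := by
    ext x; exact hcr x
  refine ⟨φ, hφ, ?_, ?_, ?_⟩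
  · rw [hset]; exact C.finite_toSet
  · rw [hset]; exact hinj
  · intro x hx
    exact hq x ((hcr x).1 hx)

end Crest.Agent.R216.Morse
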