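import Crest.Agent.R216.MorseJet

/-!
Row 216 (S0335), module MORSE, part 2: existence of a smooth function all of whose critical points are
nondegenerate (in suitable charts).
-/

set_option autoImplicit false
open scoped Manifold ContDiff Topology InnerProductSpace
open Set Metric Filter MeasureTheory

noncomputable section
namespace Crest.Agent.R216.Morse

variable {E : Type*} [NormedAddCommGroup E] [InnerProductSpace ℝ E] [FiniteDimensional ℝ E]
variable {M : Type*} [TopologicalSpace M] [ChartedSpace E M]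

lemma isOpen_target (c : M) : IsOpen (extChartAt 𝓘(ℝ, E) c).target := isOpen_extChartAt_target c

lemma contDiffOn_comp_symm {F : Type*} [NormedAddCommGroup F] [NormedSpace ℝ F]
    [IsManifold 𝓘(ℝ, E) ∞ M] {φ : M → F}
    (hφ : ContMDiff 𝓘(ℝ, E) 𝓘(ℝ, F) ∞ φ) (c : M) :
    ContDiffOn ℝ ∞ (φ ∘ (extChartAt 𝓘(ℝ, E) c).symm) (extChartAt 𝓘(ℝ, E) c).target := by
  rw [← contMDiffOn_iff_contDiffOn]
  exact hφ.comp_contMDiffOn (contMDiffOn_extChartAt_symm c)

variable [T2Space M] [IsManifold 𝓘(ℝ, E) ∞ M]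

/-- goodness of a function on the half-radius closed ball of a chart -/
def GoodOn (f : ∀ c : M, SmoothBumpFunction 𝓘(ℝ, E) c) (φ : M → ℝ) (c : M) : Prop :=
  ∀ y ∈ closedBall (extChartAt 𝓘(ℝ, E) c c) ((f c).rIn / 2),
    jet (φ ∘ (extChartAt 𝓘(ℝ, E) c).symm) y ∈ goodJet E

omit [T2Space M] in
lemma closedBall_sub (f : ∀ c : M, SmoothBumpFunction 𝓘(ℝ, E) c) (c : M) :
    closedBall (extChartAt 𝓘(ℝ, E) c c) ((f c).rIn) ⊆ (extChartAt 𝓘(ℝ, E) c).target := by
  have h := (f c).closedBall_subset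
  simp only [ModelWithCorners.range_eq_univ, inter_univ] at h
  exact (closedBall_subset_closedBall (f c).rIn_lt_rOut.le).trans h

/-- One perturbation step. -/
lemma good_step (f : ∀ c : M, SmoothBumpFunction 𝓘(ℝ, E) c) (s : Finset M) (c : M) {φ : M → ℝ}
    (hφ : ContMDiff 𝓘(ℝ, E) 𝓘(ℝ, ℝ) ∞ φ) (hs : ∀ d ∈ s, GoodOn f φ d) :
    ∃ φ' : M → ℝ, ContMDiff 𝓘(ℝ, E) 𝓘(ℝ, ℝ) ∞ φ' ∧ (∀ d ∈ s, GoodOn f φ' d) ∧ GoodOn f φ' c := by
  classical
  letI : MeasurableSpace E := borel E
  haveI : BorelSpace E := ⟨rfl⟩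
  let B := stdOrthonormalBasis ℝ E
  let e := extChartAt 𝓘(ℝ, E) c
  -- the perturbing functions
  let ψ : M → E := fun x => f c x • (e x - e c)
  have hψ : ContMDiff 𝓘(ℝ, E) 𝓘(ℝ, E) ∞ ψ := by
    apply (f c).contMDiff_smul
    exact ((contMDiffOn_chart (I := 𝓘(ℝ, E)) (x := c)).sub contMDiffOn_const)
  let P : Fin (Module.finrank ℝ E) → M → ℝ := fun i x => ⟪B i, ψ x⟫_ℝ
  have hP : ∀ i, ContMDiff 𝓘(ℝ, E) 𝓘(ℝ, ℝ) ∞ (P i) := by
    intro i
    have h1 : ContDiff ℝ ∞ (fun v : E => ⟪B i, v⟫_ℝ) := contDiff_const.inner ℝ contDiff_id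
    exact h1.contMDiff.comp hψ
  -- eventually good on previous ones
  have hev : ∀ᶠ b : Fin (Module.finrank ℝ E) → ℝ in 𝓝 0, ∀ d ∈ s,
      ∀ y ∈ closedBall (extChartAt 𝓘(ℝ, E) d d) ((f d).rIn / 2),
      jet (fun z => (φ ∘ (extChartAt 𝓘(ℝ, E) d).symm) z
        + ∑ i, b i * (P i ∘ (extChartAt 𝓘(ℝ, E) d).symm) z) y ∈ goodJet E := by
    rw [Filter.eventually_all_finset]
    intro d hd
    apply eventually_good (isOpen_target d) (contDiffOn_comp_symm hφ d)
      (fun i => contDiffOn_comp_symm (hP i) d) (isCompact_closedBall _ _)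
    · exact (closedBall_subset_closedBall (by have := (f d).rIn_pos; linarith)).trans
        (closedBall_sub f d)
    · exact hs d hd
  -- pull back to E
  let L : E → (Fin (Module.finrank ℝ E) → ℝ) := fun b i => ⟪B i, b⟫_ℝ
  have hL : Tendsto L (𝓝 0) (𝓝 0) := by
    have : Continuous L := by
      apply continuous_pi; intro i; exact continuous_const.inner continuous_id
    have h := this.tendsto 0
    have h0 : L 0 = 0 := by ext i; simp [L]
    rwa [h0] at h
  have hev' := hL.eventually hev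
  -- Sard
  have hball : ball (e c) ((f c).rIn) ⊆ e.target := ball_subset_closedBall.trans (closedBall_sub f c)
  have hsard := ae_good (s := ball (e c) ((f c).rIn)) isOpen_ball
    ((contDiffOn_comp_symm hφ c).mono hball)
  have hd : Dense {b : E | ∀ y ∈ ball (e c) ((f c).rIn),
      (grad (φ ∘ e.symm) y + b, fderiv ℝ (grad (φ ∘ e.symm)) y) ∈ goodJet E} :=
    Measure.dense_of_ae hsard
  obtain ⟨b, hb1, hb2⟩ := (hd.inter_nhds_nonempty hev')
  refine ⟨fun x => φ x + ∑ i, L b i * P i x, ?_, ?_, ?_⟩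
  · apply hφ.add
    apply ContMDiff.sum
    intro i _
    exact contMDiff_const.mul (hP i)
  · intro d hd
    exact hb2 d hd
  · intro y hy
    have hy' : y ∈ ball (e c) ((f c).rIn) := by
      have := (f c).rIn_pos
      exact closedBall_subset_ball (by linarith) hy
    have hloc : (fun x => φ x + ∑ i, L b i * P i x) ∘ e.symm =ᶠ[𝓝 y]
        fun z => (φ ∘ e.symm) z + ⟪b, z - e c⟫_ℝ := by
      filter_upwards [isOpen_ball.mem_nhds hy'] with z hz
      have hzt := hball hz
      have h1 : f c (e.symm z) = 1 := by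
        apply (f c).one_of_dist_le
        · have := e.map_target hzt
          rwa [extChartAt_source] at this
        · change dist (e (e.symm z)) (e c) ≤ _
          rw [e.right_inv hzt]; exact (mem_ball.1 hz).le
      simp only [Function.comp, L, P, ψ, h1, one_smul, e.right_inv hzt]
      congr 1
      rw [← B.sum_inner_mul_inner b (z - e c)]
      apply Finset.sum_congr rfl
      intro i _
      rw [real_inner_comm b (B i)]
    have hg : ContDiffOn ℝ ∞ (φ ∘ e.symm) (ball (e c) ((f c).rIn)) :=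
      (contDiffOn_comp_symm hφ c).mono hball
    have hgrad : ∀ z ∈ ball (e c) ((f c).rIn),
        grad (fun z => (φ ∘ e.symm) z + ⟪b, z - e c⟫_ℝ) z = grad (φ ∘ e.symm) z + b := by
      intro z hz
      have hgd : DifferentiableAt ℝ (φ ∘ e.symm) z :=
        (hg.differentiableOn (by simp)).differentiableAt (isOpen_ball.mem_nhds hz)
      have h1 : HasFDerivAt (fun z => (φ ∘ e.symm) z + ⟪b, z - e c⟫_ℝ)
          (fderiv ℝ (φ ∘ e.symm) z + innerSL ℝ b) z := by
        apply hgd.hasFDerivAt.add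
        have h2 : HasFDerivAt (fun z => innerSL ℝ b (z - e c)) (innerSL ℝ b) z :=
          (innerSL ℝ b).hasFDerivAt.comp z ((hasFDerivAt_id z).sub_const (e c))
        simpa using h2
      simp only [grad, h1.fderiv, map_add, D_innerSL]
    have hjet : jet (fun z => (φ ∘ e.symm) z + ⟪b, z - e c⟫_ℝ) y
        = (grad (φ ∘ e.symm) y + b, fderiv ℝ (grad (φ ∘ e.symm)) y) := by
      refine Prod.ext (hgrad y hy') ?_
      have h3 : grad (fun z => (φ ∘ e.symm) z + ⟪b, z - e c⟫_ℝ) =ᶠ[𝓝 y]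
          fun z => grad (φ ∘ e.symm) z + b :=
        Filter.eventuallyEq_of_mem (isOpen_ball.mem_nhds hy') hgrad
      simp only [jet]
      rw [h3.fderiv_eq, fderiv_add_const]
    change jet ((fun x => φ x + ∑ i, L b i * P i x) ∘ e.symm) y ∈ goodJet E
    rw [jet_congr hloc, hjet]
    exact hb1 y hy'

/-- Good functions for finitely many charts exist. -/
lemma exists_good (f : ∀ c : M, SmoothBumpFunction 𝓘(ℝ, E) c) (s : Finset M) :
    ∃ φ : M → ℝ, ContMDiff 𝓘(ℝ, E) 𝓘(ℝ, ℝ) ∞ φ ∧ (∀ d ∈ s, GoodOn f φ d) := by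
  classical
  induction s using Finset.induction_on with
  | empty => exact ⟨fun _ => 0, contMDiff_const, by simp⟩
  | insert c s hc ih =>
    obtain ⟨φ, hφ, hs⟩ := ih
    obtain ⟨φ', h1, h2, h3⟩ := good_step f s c hφ hs
    refine ⟨φ', h1, ?_⟩
    intro d hd
    rcases Finset.mem_insert.1 hd with rfl | hd
    · exact h3
    · exact h2 d hd

end Crest.Agent.R216.Morse
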