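import Mathlib

/-!
Row 216 (S0335), module MORSE, part 1: 2-jets, nondegenerate 2-jets form an open set, and
generic linear perturbation in a chart (Sard).
-/

set_option autoImplicit false
set_option linter.style.haveILetI false
open scoped Manifold ContDiff Topology InnerProductSpace
open Set Metric Filter MeasureTheory

noncomputable section
namespace Crest.Agent.R216.Morse

variable {E : Type*} [NormedAddCommGroup E] [InnerProductSpace ℝ E] [FiniteDimensional ℝ E]

instance complE : CompleteSpace E := FiniteDimensional.complete ℝ E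

/-- Good jets: nonzero gradient or nondegenerate Hessian. -/
def goodJet (E : Type*) [NormedAddCommGroup E] [InnerProductSpace ℝ E] : Set (E × (E →L[ℝ] E)) :=
  {j | j.1 ≠ 0 ∨ j.2.det ≠ 0}

lemma isOpen_goodJet : IsOpen (goodJet E) := by
  apply IsOpen.union
  · exact isOpen_ne.preimage continuous_fst
  · exact isOpen_ne.preimage (ContinuousLinearMap.continuous_det.comp continuous_snd)

variable (E) in
/-- the identification of the dual with the space -/
def D : (E →L[ℝ] ℝ) ≃L[ℝ] E := (InnerProductSpace.toDual ℝ E).symm.toContinuousLinearEquiv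

lemma D_innerSL (b : E) : D E (innerSL ℝ b) = b := by
  have : (innerSL ℝ b : E →L[ℝ] ℝ) = InnerProductSpace.toDual ℝ E b := by
    ext v; simp
  rw [this]
  simp [D]

/-- gradient -/
def grad (g : E → ℝ) (y : E) : E := D E (fderiv ℝ g y)

lemma grad_eq_zero {g : E → ℝ} {y : E} : grad g y = 0 ↔ fderiv ℝ g y = 0 := by
  simp [grad]

/-- the 2-jet of a function -/
def jet (g : E → ℝ) (y : E) : E × (E →L[ℝ] E) := (grad g y, fderiv ℝ (grad g) y)

lemma grad_congr {g h : E → ℝ} {y : E} (hgh : g =ᶠ[𝓝 y] h) : grad g =ᶠ[𝓝 y] grad h := by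
  have h1 : fderiv ℝ g =ᶠ[𝓝 y] fderiv ℝ h := hgh.fderiv
  filter_upwards [h1] with z hz
  simp [grad, hz]

lemma jet_congr {g h : E → ℝ} {y : E} (hgh : g =ᶠ[𝓝 y] h) : jet g y = jet h y := by
  simp only [jet, (grad_congr hgh).fderiv_eq, (grad_congr hgh).eq_of_nhds]

lemma contDiffOn_grad {g : E → ℝ} {s : Set E} (hs : IsOpen s) (hg : ContDiffOn ℝ ∞ g s) :
    ContDiffOn ℝ ∞ (grad g) s :=
  (D E).contDiff.comp_contDiffOn (hg.fderiv_of_isOpen (m := ∞) hs (by simp))

lemma differentiableAt_grad {g : E → ℝ} {s : Set E} (hs : IsOpen s) (hg : ContDiffOn ℝ ∞ g s)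
    {y : E} (hy : y ∈ s) : DifferentiableAt ℝ (grad g) y :=
  ((contDiffOn_grad hs hg).differentiableOn (by simp)).differentiableAt (hs.mem_nhds hy)

/-- Sard for gradients: for almost every `b` the function `g + ⟪b, ·⟫` has only nondegenerate critical
points in the open set `s`. -/
lemma ae_good [MeasurableSpace E] [BorelSpace E]
    {g : E → ℝ} {s : Set E} (hs : IsOpen s) (hg : ContDiffOn ℝ ∞ g s) :
    ∀ᵐ b : E, ∀ y ∈ s, (grad g y + b, fderiv ℝ (grad g) y) ∈ goodJet E := by
  classical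
  let S : Set E := {y ∈ s | (fderiv ℝ (grad g) y).det = 0}
  have hz : volume (grad g '' S) = 0 := by
    exact addHaar_image_eq_zero_of_det_fderivWithin_eq_zero volume (f' := fderiv ℝ (grad g))
      (fun y hy => (differentiableAt_grad hs hg hy.1).hasFDerivAt.hasFDerivWithinAt)
      (fun y hy => hy.2)
  have hz' : volume (Neg.neg ⁻¹' (grad g '' S)) = 0 := by
    rw [Measure.measure_preimage_neg, hz]
  have hae : ∀ᵐ b : E, b ∉ Neg.neg ⁻¹' (grad g '' S) := by
    rw [ae_iff]; simp only [not_not]; exact hz'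
  filter_upwards [hae] with b hb y hy
  by_contra hbad
  simp only [goodJet, mem_ofPred_eq, not_or, not_not] at hbad
  obtain ⟨h0, h1⟩ := hbad
  exact hb ⟨y, ⟨hy, h1⟩, by rw [← add_eq_zero_iff_eq_neg]; exact h0⟩

lemma grad_add_sum {ι : Type*} [Fintype ι] {g : E → ℝ} {p : ι → E → ℝ} {s : Set E} (hs : IsOpen s)
    (hg : ContDiffOn ℝ ∞ g s) (hp : ∀ i, ContDiffOn ℝ ∞ (p i) s) (b : ι → ℝ) {z : E} (hz : z ∈ s) :
    grad (fun z => g z + ∑ i, b i * p i z) z = grad g z + ∑ i, b i • grad (p i) z := by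
  have hgd : DifferentiableAt ℝ g z :=
    (hg.differentiableOn (by simp)).differentiableAt (hs.mem_nhds hz)
  have hpd : ∀ i, DifferentiableAt ℝ (p i) z := fun i =>
    ((hp i).differentiableOn (by simp)).differentiableAt (hs.mem_nhds hz)
  have h1 : HasFDerivAt (fun z => g z + ∑ i, b i * p i z)
      (fderiv ℝ g z + ∑ i, b i • fderiv ℝ (p i) z) z := by
    apply hgd.hasFDerivAt.add
    apply HasFDerivAt.fun_sum
    intro i _
    exact (hpd i).hasFDerivAt.const_mul (b i)
  simp only [grad, h1.fderiv, map_add, map_sum, map_smul]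

lemma jet_add_sum {ι : Type*} [Fintype ι] {g : E → ℝ} {p : ι → E → ℝ} {s : Set E} (hs : IsOpen s)
    (hg : ContDiffOn ℝ ∞ g s) (hp : ∀ i, ContDiffOn ℝ ∞ (p i) s) (b : ι → ℝ) {y : E} (hy : y ∈ s) :
    jet (fun z => g z + ∑ i, b i * p i z) y = jet g y + ∑ i, b i • jet (p i) y := by
  have key' : grad (fun z => g z + ∑ i, b i * p i z) =ᶠ[𝓝 y]
      fun z => grad g z + ∑ i, b i • grad (p i) z :=
    Filter.eventuallyEq_of_mem (hs.mem_nhds hy) (fun z hz => grad_add_sum hs hg hp b hz)
  have h2 : HasFDerivAt (fun z => grad g z + ∑ i, b i • grad (p i) z)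
      (fderiv ℝ (grad g) y + ∑ i, b i • fderiv ℝ (grad (p i)) y) y := by
    apply (differentiableAt_grad hs hg hy).hasFDerivAt.add
    apply HasFDerivAt.fun_sum
    intro i _
    exact (differentiableAt_grad hs (hp i) hy).hasFDerivAt.const_smul (b i)
  refine Prod.ext ?_ ?_
  · simp only [jet, Prod.fst_add, Prod.fst_sum, Prod.smul_fst]
    exact grad_add_sum hs hg hp b hy
  · simp only [jet, Prod.snd_add, Prod.snd_sum, Prod.smul_snd]
    rw [key'.fderiv_eq, h2.fderiv]

lemma continuousOn_jet {g : E → ℝ} {s : Set E} (hs : IsOpen s)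
    (hg : ContDiffOn ℝ ∞ g s) : ContinuousOn (jet g) s := by
  have h1 := contDiffOn_grad hs hg
  have h2 : ContDiffOn ℝ 0 (fderiv ℝ (grad g)) s := h1.fderiv_of_isOpen (m := 0) hs (by simp)
  exact h1.continuousOn.prodMk h2.continuousOn

/-- Openness: goodness on a compact set persists under small perturbations. -/
lemma eventually_good {ι : Type*} [Fintype ι] {g : E → ℝ} {p : ι → E → ℝ} {s K : Set E}
    (hs : IsOpen s)
    (hg : ContDiffOn ℝ ∞ g s) (hp : ∀ i, ContDiffOn ℝ ∞ (p i) s) (hK : IsCompact K) (hKs : K ⊆ s)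
    (h0 : ∀ y ∈ K, jet g y ∈ goodJet E) :
    ∀ᶠ b : ι → ℝ in 𝓝 0, ∀ y ∈ K, jet (fun z => g z + ∑ i, b i * p i z) y ∈ goodJet E := by
  apply hK.eventually_forall_of_forall_eventually
  intro y hy
  have hc : ContinuousAt (fun z : (ι → ℝ) × E => jet g z.2 + ∑ i, z.1 i • jet (p i) z.2) (0, y) := by
    have hgc : ContinuousAt (jet g) y := (continuousOn_jet hs hg).continuousAt (hs.mem_nhds (hKs hy))
    have hpc : ∀ i, ContinuousAt (jet (p i)) y := fun i =>
      (continuousOn_jet hs (hp i)).continuousAt (hs.mem_nhds (hKs hy))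
    apply Tendsto.add
    · exact ContinuousAt.comp (f := fun z : (ι → ℝ) × E => z.2) (x := ((0 : ι → ℝ), y)) hgc
        continuousAt_snd
    · apply tendsto_finsetSum
      intro i _
      apply Tendsto.smul
      · have : Continuous fun z : (ι → ℝ) × E => z.1 i := by fun_prop
        exact this.continuousAt
      · exact ContinuousAt.comp (f := fun z : (ι → ℝ) × E => z.2) (x := ((0 : ι → ℝ), y)) (hpc i)
          continuousAt_snd
  have h1 : ∀ᶠ z : (ι → ℝ) × E in 𝓝 (0, y), jet g z.2 + ∑ i, z.1 i • jet (p i) z.2 ∈ goodJet E := by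
    apply hc
    apply isOpen_goodJet.mem_nhds
    simpa using h0 y hy
  have h2 : ∀ᶠ z : (ι → ℝ) × E in 𝓝 (0, y), z.2 ∈ s :=
    continuousAt_snd (hs.mem_nhds (hKs hy))
  filter_upwards [h1, h2] with z hz1 hz2
  rw [jet_add_sum hs hg hp z.1 hz2]
  exact hz1

end Crest.Agent.R216.Morse
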