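import Crest.Agent.R216.MorseJet

/-!
Row 216 (S0335), module MORSE, part 3: local modification of a function near a nondegenerate critical
point making it exactly quadratic and shifting the critical value.
-/

set_option autoImplicit false
open scoped Manifold ContDiff Topology InnerProductSpace
open Set Metric Filter MeasureTheory

noncomputable section
namespace Crest.Agent.R216.Morse

variable {E : Type*} [NormedAddCommGroup E] [InnerProductSpace ℝ E] [FiniteDimensional ℝ E]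

lemma innerSL_D (l : E →L[ℝ] ℝ) : innerSL ℝ (D E l) = l := by
  ext v
  simp [D]

lemma grad_eq_of_hasFDerivAt {f : E → ℝ} {v x : E} (h : HasFDerivAt f (innerSL ℝ v) x) :
    grad f x = v := by
  rw [grad, h.fderiv, D_innerSL]

lemma hasFDerivAt_grad {f : E → ℝ} {x : E} (h : DifferentiableAt ℝ f x) :
    HasFDerivAt f (innerSL ℝ (grad f x)) x := by
  rw [grad, innerSL_D]; exact h.hasFDerivAt

lemma norm_grad (f : E → ℝ) (x : E) : ‖grad f x‖ = ‖fderiv ℝ f x‖ := by
  simp [grad, D]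

/-- the Hessian is symmetric -/
lemma hess_symm {g : E → ℝ} {U : Set E} (hU : IsOpen U) (hg : ContDiffOn ℝ ∞ g U) {y : E}
    (hy : y ∈ U) (v w : E) :
    ⟪fderiv ℝ (grad g) y v, w⟫_ℝ = ⟪v, fderiv ℝ (grad g) y w⟫_ℝ := by
  have hgy : ContDiffAt ℝ ∞ g y := hg.contDiffAt (hU.mem_nhds hy)
  have hs : IsSymmSndFDerivAt ℝ g y := hgy.isSymmSndFDerivAt (by
    simp only [minSmoothness_of_isRCLikeNormedField]
    exact WithTop.coe_le_coe.2 (le_top : (2 : ℕ∞) ≤ ⊤))
  have hd : DifferentiableAt ℝ (fderiv ℝ g) y :=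
    ((hg.fderiv_of_isOpen (m := ∞) hU (by simp)).differentiableOn
      (by simp)).differentiableAt (hU.mem_nhds hy)
  have h1 : HasFDerivAt (grad g) ((D E : (E →L[ℝ] ℝ) →L[ℝ] E) ∘L fderiv ℝ (fderiv ℝ g) y) y :=
    (D E).hasFDerivAt.comp y hd.hasFDerivAt
  rw [h1.fderiv]
  have key : ∀ a b : E, ⟪((D E : (E →L[ℝ] ℝ) →L[ℝ] E) ∘L fderiv ℝ (fderiv ℝ g) y) a, b⟫_ℝ
      = fderiv ℝ (fderiv ℝ g) y a b := by
    intro a b
    have := innerSL_D (fderiv ℝ (fderiv ℝ g) y a)
    have h2 := congrArg (fun l : E →L[ℝ] ℝ => l b) this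
    simpa using h2
  rw [key, real_inner_comm, key]
  exact hs v w

lemma bounded_below {H : E →L[ℝ] E} (hH : H.det ≠ 0) : ∃ m > 0, ∀ x, m * ‖x‖ ≤ ‖H x‖ := by
  let A : E ≃L[ℝ] E := H.toContinuousLinearEquivOfDetNeZero hH
  refine ⟨(‖(A.symm : E →L[ℝ] E)‖ + 1)⁻¹, by positivity, fun x => ?_⟩
  have h1 : ‖x‖ ≤ ‖(A.symm : E →L[ℝ] E)‖ * ‖H x‖ := by
    have h2 := (A.symm : E →L[ℝ] E).le_opNorm (H x)
    have h3 : (A.symm : E →L[ℝ] E) (H x) = x := by
      have : H x = A x := rfl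
      rw [this]; simp
    rwa [h3] at h2
  rw [inv_mul_le_iff₀ (by positivity)]
  nlinarith [norm_nonneg (H x)]

/-- a smooth radial cut-off with gradient bound `C / r`. -/
lemma exists_cutoff (E : Type*) [NormedAddCommGroup E] [InnerProductSpace ℝ E]
    [FiniteDimensional ℝ E] : ∃ C > 0, ∀ r > 0, ∃ η : E → ℝ, ContDiff ℝ ∞ η ∧
    (∀ x, 0 ≤ η x ∧ η x ≤ 1) ∧ (∀ x ∈ closedBall (0 : E) (r / 2), η x = 1) ∧
    (∀ x ∉ ball (0 : E) r, η x = 0) ∧ (∀ x, ‖grad η x‖ ≤ C / r) ∧
    (∀ x ∈ ball (0 : E) (r / 2), grad η x = 0) := by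
  let η₁ : ContDiffBump (0 : E) := ⟨1 / 2, 1, by norm_num, by norm_num⟩
  have hcont : Continuous (fderiv ℝ (η₁ : E → ℝ)) := η₁.contDiff.continuous_fderiv (n := ∞) (by simp)
  have hsupp : HasCompactSupport (fderiv ℝ (η₁ : E → ℝ)) := η₁.hasCompactSupport.fderiv (𝕜 := ℝ)
  obtain ⟨C, hC⟩ := hsupp.exists_bound_of_continuous hcont
  refine ⟨|C| + 1, by positivity, fun r hr => ?_⟩
  refine ⟨fun x => η₁ (r⁻¹ • x), ?_, ?_, ?_, ?_, ?_, ?_⟩
  · exact η₁.contDiff.comp (contDiff_const_smul _)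
  · intro x; exact ⟨η₁.nonneg, η₁.le_one⟩
  · intro x hx
    apply η₁.one_of_mem_closedBall
    rw [mem_closedBall_zero_iff] at hx ⊢
    rw [norm_smul, norm_inv, Real.norm_of_nonneg hr.le, inv_mul_le_iff₀ hr]
    change _ ≤ r * (1 / 2)
    linarith
  · intro x hx
    apply η₁.zero_of_le_dist
    rw [mem_ball_zero_iff, not_lt] at hx
    rw [dist_zero_right, norm_smul, norm_inv, Real.norm_of_nonneg hr.le, le_inv_mul_iff₀ hr]
    change r * 1 ≤ _
    linarith
  · intro x
    rw [norm_grad]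
    have hd : HasFDerivAt (fun x : E => η₁ (r⁻¹ • x))
        ((fderiv ℝ (η₁ : E → ℝ) (r⁻¹ • x)) ∘L (r⁻¹ • ContinuousLinearMap.id ℝ E)) x := by
      apply HasFDerivAt.comp x (g := (η₁ : E → ℝ))
      · exact ((η₁.contDiff (n := ⊤)).differentiable (by simp) _).hasFDerivAt
      · exact (hasFDerivAt_id x).const_smul r⁻¹
    rw [hd.fderiv]
    calc _ ≤ ‖fderiv ℝ (η₁ : E → ℝ) (r⁻¹ • x)‖ * ‖r⁻¹ • ContinuousLinearMap.id ℝ E‖ :=
          ContinuousLinearMap.opNorm_comp_le _ _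
      _ ≤ (|C| + 1) * (r⁻¹ * 1) := by
          gcongr
          · exact (hC _).trans (by linarith [le_abs_self C])
          · rw [norm_smul, norm_inv, Real.norm_of_nonneg hr.le]
            gcongr
            exact ContinuousLinearMap.norm_id_le
      _ = (|C| + 1) / r := by rw [mul_one, div_eq_mul_inv]
  · intro x hx
    have : (fun x : E => η₁ (r⁻¹ • x)) =ᶠ[𝓝 x] fun _ => (1 : ℝ) := by
      filter_upwards [isOpen_ball.mem_nhds hx] with z hz
      apply η₁.one_of_mem_closedBall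
      rw [mem_ball_zero_iff] at hz
      rw [mem_closedBall_zero_iff, norm_smul, norm_inv, Real.norm_of_nonneg hr.le,
        inv_mul_le_iff₀ hr]
      change _ ≤ r * (1 / 2)
      linarith
    rw [grad_eq_zero, this.fderiv_eq]
    simp

/-- Local modification near a nondegenerate critical point. -/
lemma exists_local_mod {g : E → ℝ} {U : Set E} (hU : IsOpen U) (h0 : (0 : E) ∈ U)
    (hg : ContDiffOn ℝ ∞ g U) (hc : grad g 0 = 0) (hH : (fderiv ℝ (grad g) 0).det ≠ 0)
    {r₁ : ℝ} (hr₁ : 0 < r₁) :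
    ∃ r > 0, r < r₁ ∧ closedBall (0 : E) r ⊆ U ∧ ∃ ε₀ > 0, ∀ ε : ℝ, |ε| < ε₀ →
      ∃ k : E → ℝ, ContDiffOn ℝ ∞ k U ∧ (∀ x ∉ ball (0 : E) r, k x = 0) ∧
        (∀ x ∈ closedBall (0 : E) (r / 2),
          g x + k x = g 0 + ε + 1 / 2 * ⟪fderiv ℝ (grad g) 0 x, x⟫_ℝ) ∧
        (∀ x ∈ closedBall (0 : E) r, x ≠ 0 → grad (fun y => g y + k y) x ≠ 0) := by
  set H := fderiv ℝ (grad g) 0 with hHdef
  obtain ⟨C, hC, hcut⟩ := exists_cutoff E
  obtain ⟨m, hm, hmb⟩ := bounded_below hH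
  -- the smallness constant
  set δ : ℝ := m / (4 * (1 + C)) with hδ
  have hδpos : 0 < δ := by positivity
  have hδm : δ * (1 + C) = m / 4 := by rw [hδ]; field_simp
  -- quadratic part
  let q : E → ℝ := fun x => 1 / 2 * ⟪H x, x⟫_ℝ
  have hsymm : ∀ v w, ⟪H v, w⟫_ℝ = ⟪v, H w⟫_ℝ := fun v w => hess_symm hU hg h0 v w
  have hq : ∀ x, HasFDerivAt q (innerSL ℝ (H x)) x := by
    intro x
    have h1 : HasFDerivAt (fun x => ⟪H x, x⟫_ℝ) _ x := H.hasFDerivAt.inner ℝ (hasFDerivAt_id x)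
    have h2 := h1.const_mul (1 / 2 : ℝ)
    refine h2.congr_fderiv ?_
    ext v
    simp only [innerSL_apply_apply, smul_apply, ContinuousLinearMap.comp_apply,
      ContinuousLinearMap.prod_apply, fderivInnerCLM_apply, ContinuousLinearMap.id_apply, smul_eq_mul, id]
    rw [hsymm v x, real_inner_comm v (H x)]
    ring
  have hqsm : ContDiff ℝ ∞ q := contDiff_const.mul (H.contDiff.inner ℝ contDiff_id)
  -- remainder
  let R : E → ℝ := fun x => g x - g 0 - q x
  have hRsm : ContDiffOn ℝ ∞ R U := (hg.sub contDiffOn_const).sub hqsm.contDiffOn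
  have hR : ∀ x ∈ U, HasFDerivAt R (innerSL ℝ (grad g x - H x)) x := by
    intro x hx
    have hgd : DifferentiableAt ℝ g x :=
      (hg.differentiableOn (by simp)).differentiableAt (hU.mem_nhds hx)
    have h1 := ((hasFDerivAt_grad hgd).sub_const (g 0)).sub (hq x)
    rw [map_sub]
    exact h1
  have hlin : ∀ᶠ x in 𝓝 (0 : E), ‖grad g x - H x‖ ≤ δ * ‖x‖ := by
    have hd : HasFDerivAt (grad g) H 0 := (differentiableAt_grad hU hg h0).hasFDerivAt
    have h1 := hd.isLittleO.def hδpos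
    filter_upwards [h1] with x hx
    simpa [hc] using hx
  obtain ⟨r₂, hr₂, hball⟩ := Metric.eventually_nhds_iff_ball.1 (hlin.and (hU.mem_nhds h0))
  set r : ℝ := min (r₂ / 2) (r₁ / 2) with hr
  have hrpos : 0 < r := by positivity
  have hrr₂ : r < r₂ := lt_of_le_of_lt (min_le_left _ _) (by linarith)
  have hrr₁ : r < r₁ := lt_of_le_of_lt (min_le_right _ _) (by linarith)
  have hcb : ∀ x ∈ closedBall (0 : E) r, ‖grad g x - H x‖ ≤ δ * ‖x‖ ∧ x ∈ U := fun x hx =>
    hball x (closedBall_subset_ball hrr₂ hx)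
  -- quadratic bound of the remainder
  have hRq : ∀ x ∈ closedBall (0 : E) r, |R x| ≤ δ * ‖x‖ ^ 2 := by
    intro x hx
    have hx' : ‖x‖ ≤ r := by simpa using hx
    have hsub : closedBall (0 : E) ‖x‖ ⊆ closedBall 0 r := closedBall_subset_closedBall hx'
    have h1 := (convex_closedBall (0 : E) ‖x‖).norm_image_sub_le_of_norm_hasFDerivWithin_le
      (f := R) (f' := fun y => innerSL ℝ (grad g y - H y)) (C := δ * ‖x‖)
      (fun y hy => (hR y (hcb y (hsub hy)).2).hasFDerivWithinAt)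
      (fun y hy => by
        rw [innerSL_apply_norm]
        refine (hcb y (hsub hy)).1.trans ?_
        have : ‖y‖ ≤ ‖x‖ := by simpa using hy
        gcongr)
      (x := 0) (y := x) (by simp) (by simp)
    have hR0 : R 0 = 0 := by simp [R, q]
    rw [hR0, sub_zero, sub_zero, Real.norm_eq_abs] at h1
    calc |R x| ≤ δ * ‖x‖ * ‖x‖ := h1
      _ = δ * ‖x‖ ^ 2 := by ring
  obtain ⟨η, hηs, hη01, hη1, hη0, hηg, hηg0⟩ := hcut r hrpos
  refine ⟨r, hrpos, hrr₁, fun x hx => (hcb x hx).2, m * r ^ 2 / (8 * C), by positivity, ?_⟩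
  intro ε hε
  refine ⟨fun x => η x * (ε - R x), ?_, ?_, ?_, ?_⟩
  · exact hηs.contDiffOn.mul (contDiffOn_const.sub hRsm)
  · intro x hx
    simp [hη0 x hx]
  · intro x hx
    simp only [hη1 x hx, R, q]
    ring
  · intro x hx hx0
    have hxU := (hcb x hx).2
    have hgd : DifferentiableAt ℝ g x :=
      (hg.differentiableOn (by simp)).differentiableAt (hU.mem_nhds hxU)
    have hηd : DifferentiableAt ℝ η x := (hηs.differentiable (by simp)) x
    have h1 : HasFDerivAt (fun y => g y + η y * (ε - R y))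
        (innerSL ℝ (grad g x + (η x • (- (grad g x - H x)) + (ε - R x) • grad η x))) x := by
      rw [map_add, map_add, map_smul, map_smul, map_neg]
      apply (hasFDerivAt_grad hgd).add
      exact (hasFDerivAt_grad hηd).mul ((hR x hxU).const_sub ε)
    rw [grad_eq_of_hasFDerivAt h1]
    have hxn : 0 < ‖x‖ := norm_pos_iff.2 hx0
    have hxr : ‖x‖ ≤ r := by simpa using hx
    obtain ⟨he0, he1⟩ := hη01 x
    -- rewrite
    have h2 : grad g x + (η x • (- (grad g x - H x)) + (ε - R x) • grad η x)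
        = H x + ((1 - η x) • (grad g x - H x) + (ε - R x) • grad η x) := by
      module
    rw [h2]
    have h3 : ‖(1 - η x) • (grad g x - H x)‖ ≤ δ * ‖x‖ := by
      rw [norm_smul, Real.norm_of_nonneg (by linarith)]
      calc (1 - η x) * ‖grad g x - H x‖ ≤ 1 * (δ * ‖x‖) := by
            gcongr
            · linarith
            · exact (hcb x hx).1
        _ = δ * ‖x‖ := one_mul _
    have h4 : ‖(ε - R x) • grad η x‖ < m / 2 * ‖x‖ := by
      by_cases hxs : x ∈ ball (0 : E) (r / 2)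
      · rw [hηg0 x hxs, smul_zero, norm_zero]; positivity
      · rw [mem_ball_zero_iff, not_lt] at hxs
        rw [norm_smul, Real.norm_eq_abs]
        have h5 : |ε - R x| ≤ |ε| + δ * ‖x‖ ^ 2 :=
          (abs_sub _ _).trans (add_le_add le_rfl (hRq x hx))
        have hεr : |ε| * (C / r) < m / 8 * r := by
          calc |ε| * (C / r) < m * r ^ 2 / (8 * C) * (C / r) := by gcongr
            _ = m / 8 * r := by field_simp
        have h6 : δ * ‖x‖ ^ 2 * (C / r) ≤ δ * C * ‖x‖ := by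
          have : δ * ‖x‖ ^ 2 * (C / r) = δ * C * ‖x‖ * (‖x‖ / r) := by ring
          rw [this]
          have : ‖x‖ / r ≤ 1 := by rw [div_le_one hrpos]; exact hxr
          have h7 : 0 ≤ δ * C * ‖x‖ := by positivity
          nlinarith
        calc |ε - R x| * ‖grad η x‖ ≤ (|ε| + δ * ‖x‖ ^ 2) * (C / r) := by
              gcongr
              exact hηg x
          _ = |ε| * (C / r) + δ * ‖x‖ ^ 2 * (C / r) := by ring
          _ < m / 8 * r + δ * C * ‖x‖ := by linarith
          _ ≤ m / 4 * ‖x‖ + m / 4 * ‖x‖ := by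
              have : δ * C ≤ m / 4 := by nlinarith
              nlinarith
          _ = m / 2 * ‖x‖ := by ring
    have h8 : δ ≤ m / 4 := by nlinarith
    intro hzero
    have h9 : H x = - ((1 - η x) • (grad g x - H x) + (ε - R x) • grad η x) :=
      eq_neg_of_add_eq_zero_left hzero
    have h10 : ‖H x‖ ≤ δ * ‖x‖ + m / 2 * ‖x‖ := by
      rw [h9, norm_neg]
      exact (norm_add_le _ _).trans (add_le_add h3 h4.le)
    have h11 := hmb x
    nlinarith

end Crest.Agent.R216.Morse
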