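import Crest.Agent.R216.MorseInd
import Crest.Agent.R216.MorseMod

/-!
Row 216 (S0335), module MORSE, part 4: local coordinates, critical points, globalisation of the local
modification.
-/

set_option autoImplicit false
open scoped Manifold ContDiff Topology InnerProductSpace
open Set Metric Filter MeasureTheory

noncomputable section
namespace Crest.Agent.R216.Morse

variable {E : Type*} [NormedAddCommGroup E] [InnerProductSpace ℝ E]
variable {M : Type*} [TopologicalSpace M] [ChartedSpace E M]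

/-- Smooth local coordinates centred at `p`. -/
structure LocCoord (E : Type*) [NormedAddCommGroup E] [InnerProductSpace ℝ E]
    {M : Type*} [TopologicalSpace M] [ChartedSpace E M] (p : M) where
  /-- the underlying partial homeomorphism -/
  e : OpenPartialHomeomorph M E
  mem : p ∈ e.source
  zero : e p = 0
  smooth : ContMDiffOn 𝓘(ℝ, E) 𝓘(ℝ, E) ∞ e e.source
  smooth_symm : ContMDiffOn 𝓘(ℝ, E) 𝓘(ℝ, E) ∞ e.symm e.target

namespace LocCoord

variable {p : M}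

lemma symm_zero (L : LocCoord E p) : L.e.symm 0 = p := by
  rw [← L.zero]; exact L.e.left_inv L.mem

lemma zero_mem (L : LocCoord E p) : (0 : E) ∈ L.e.target := by
  rw [← L.zero]; exact L.e.map_source L.mem

/-- composition with a linear automorphism -/
def compLin (L : LocCoord E p) (A : E ≃L[ℝ] E) : LocCoord E p where
  e := L.e.transHomeomorph A.toHomeomorph
  mem := L.mem
  zero := by simp [L.zero]
  smooth := by
    have h : ContMDiffOn 𝓘(ℝ, E) 𝓘(ℝ, E) ∞ (A ∘ L.e) L.e.source :=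
      (A.contDiff.contMDiff).comp_contMDiffOn L.smooth
    exact h
  smooth_symm := by
    have h : ContMDiffOn 𝓘(ℝ, E) 𝓘(ℝ, E) ∞ (L.e.symm ∘ A.symm) (A.symm ⁻¹' L.e.target) :=
      L.smooth_symm.comp (A.symm.contDiff.contMDiff.contMDiffOn) (fun x hx => hx)
    exact h

lemma compLin_symm (L : LocCoord E p) (A : E ≃L[ℝ] E) (x : E) :
    (L.compLin A).e.symm x = L.e.symm (A.symm x) := rfl

lemma compLin_target (L : LocCoord E p) (A : E ≃L[ℝ] E) :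
    (L.compLin A).e.target = A.symm ⁻¹' L.e.target := rfl

end LocCoord

/-- coordinates centred at `p` from the preferred chart at `c`. -/
def locOfChart [IsManifold 𝓘(ℝ, E) ∞ M] (c p : M) (hp : p ∈ (chartAt E c).source) : LocCoord E p where
  e := (chartAt E c).transHomeomorph (Homeomorph.addRight (-(chartAt E c p)))
  mem := hp
  zero := by simp
  smooth := by
    have h1 : ContMDiff 𝓘(ℝ, E) 𝓘(ℝ, E) ∞ (fun x : E => x + (-(chartAt E c p))) :=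
      (contDiff_id.add contDiff_const).contMDiff
    exact h1.comp_contMDiffOn (contMDiffOn_chart (I := 𝓘(ℝ, E)) (x := c))
  smooth_symm := by
    have h1 : ContMDiff 𝓘(ℝ, E) 𝓘(ℝ, E) ∞ (fun x : E => x + -(-(chartAt E c p))) :=
      (contDiff_id.add contDiff_const).contMDiff
    exact (contMDiffOn_chart_symm (I := 𝓘(ℝ, E)) (x := c)).comp h1.contMDiffOn (fun x hx => hx)

/-- critical point criterion in coordinates -/
lemma mfderiv_eq_zero_iff [IsManifold 𝓘(ℝ, E) ∞ M] {φ : M → ℝ} {x : M}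
    (hφ : MDifferentiableAt 𝓘(ℝ, E) 𝓘(ℝ, ℝ) φ x)
    (e : OpenPartialHomeomorph M E) (hx : x ∈ e.source)
    (hs : ContMDiffOn 𝓘(ℝ, E) 𝓘(ℝ, E) ∞ e e.source)
    (hs' : ContMDiffOn 𝓘(ℝ, E) 𝓘(ℝ, E) ∞ e.symm e.target) :
    mfderiv 𝓘(ℝ, E) 𝓘(ℝ, ℝ) φ x = 0 ↔ fderiv ℝ (φ ∘ e.symm) (e x) = 0 := by
  have he : MDifferentiableAt 𝓘(ℝ, E) 𝓘(ℝ, E) e x :=
    ((hs x hx).contMDiffAt (e.open_source.mem_nhds hx)).mdifferentiableAt (by simp)
  have hex : e x ∈ e.target := e.map_source hx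
  have he' : MDifferentiableAt 𝓘(ℝ, E) 𝓘(ℝ, E) e.symm (e x) :=
    ((hs' (e x) hex).contMDiffAt (e.open_target.mem_nhds hex)).mdifferentiableAt (by simp)
  have hφ' : MDifferentiableAt 𝓘(ℝ, E) 𝓘(ℝ, ℝ) φ (e.symm (e x)) := by
    rw [e.left_inv hx]; exact hφ
  have h1 : HasMFDerivAt 𝓘(ℝ, E) 𝓘(ℝ, ℝ) (φ ∘ e.symm) (e x)
      ((mfderiv 𝓘(ℝ, E) 𝓘(ℝ, ℝ) φ (e.symm (e x))).comp
        (mfderiv 𝓘(ℝ, E) 𝓘(ℝ, E) e.symm (e x))) :=
    hφ'.hasMFDerivAt.comp (e x) he'.hasMFDerivAt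
  have h1' : mfderiv 𝓘(ℝ, E) 𝓘(ℝ, ℝ) (φ ∘ e.symm) (e x) = fderiv ℝ (φ ∘ e.symm) (e x) :=
    mfderiv_eq_fderiv
  constructor
  · intro h
    rw [← h1', h1.mfderiv]
    have h2 : mfderiv 𝓘(ℝ, E) 𝓘(ℝ, ℝ) φ (e.symm (e x)) = 0 := by
      rw [e.left_inv hx]; exact h
    rw [h2]
    exact ContinuousLinearMap.zero_comp _
  · intro h
    have h3 : φ =ᶠ[𝓝 x] (φ ∘ e.symm) ∘ e := by
      filter_upwards [e.open_source.mem_nhds hx] with z hz
      simp [e.left_inv hz]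
    have h4 : MDifferentiableAt 𝓘(ℝ, E) 𝓘(ℝ, ℝ) (φ ∘ e.symm) (e x) := h1.mdifferentiableAt
    have h5 : HasMFDerivAt 𝓘(ℝ, E) 𝓘(ℝ, ℝ) ((φ ∘ e.symm) ∘ e) x
        ((mfderiv 𝓘(ℝ, E) 𝓘(ℝ, ℝ) (φ ∘ e.symm) (e x)).comp (mfderiv 𝓘(ℝ, E) 𝓘(ℝ, E) e x)) :=
      h4.hasMFDerivAt.comp x he.hasMFDerivAt
    rw [h3.mfderiv_eq, h5.mfderiv, h1', h]
    exact ContinuousLinearMap.zero_comp _

lemma contDiffOn_loc [IsManifold 𝓘(ℝ, E) ∞ M] {φ : M → ℝ} (hφ : ContMDiff 𝓘(ℝ, E) 𝓘(ℝ, ℝ) ∞ φ)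
    {p : M} (L : LocCoord E p) : ContDiffOn ℝ ∞ (φ ∘ L.e.symm) L.e.target := by
  rw [← contMDiffOn_iff_contDiffOn]
  exact hφ.comp_contMDiffOn L.smooth_symm

variable [FiniteDimensional ℝ E]

/-- `p` is a nondegenerate critical point. -/
def NdAt (E : Type*) [NormedAddCommGroup E] [InnerProductSpace ℝ E] [FiniteDimensional ℝ E]
    {M : Type*} [TopologicalSpace M] [ChartedSpace E M] (φ : M → ℝ) (p : M) : Prop :=
  ∃ L : LocCoord E p, grad (φ ∘ L.e.symm) 0 = 0 ∧ (fderiv ℝ (grad (φ ∘ L.e.symm)) 0).det ≠ 0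

/-- `φ` is exactly quadratic nondegenerate near `p`. -/
def QuadAt (E : Type*) [NormedAddCommGroup E] [InnerProductSpace ℝ E] [FiniteDimensional ℝ E]
    {M : Type*} [TopologicalSpace M] [ChartedSpace E M] (φ : M → ℝ) (p : M) : Prop :=
  ∃ (L : LocCoord E p) (H : E →L[ℝ] E) (r : ℝ), H.det ≠ 0 ∧ (∀ v w, ⟪H v, w⟫_ℝ = ⟪v, H w⟫_ℝ) ∧
    0 < r ∧ closedBall 0 r ⊆ L.e.target ∧
    ∀ x ∈ closedBall (0 : E) r, φ (L.e.symm x) = φ p + 1 / 2 * ⟪H x, x⟫_ℝ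

lemma NdAt.congr {φ ψ : M → ℝ} {p : M} (h : NdAt E φ p) (hφψ : φ =ᶠ[𝓝 p] ψ) : NdAt E ψ p := by
  obtain ⟨L, h1, h2⟩ := h
  have h3 : φ ∘ L.e.symm =ᶠ[𝓝 0] ψ ∘ L.e.symm := by
    have hc : Tendsto L.e.symm (𝓝 0) (𝓝 p) := by
      have := L.e.continuousAt_symm L.zero_mem
      rwa [ContinuousAt, L.symm_zero] at this
    exact hc.eventually hφψ
  refine ⟨L, ?_, ?_⟩
  · rw [← (grad_congr h3).eq_of_nhds, h1]
  · rw [← (grad_congr h3).fderiv_eq]; exact h2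

lemma QuadAt.congr {φ ψ : M → ℝ} {p : M} (h : QuadAt E φ p) (hφψ : φ =ᶠ[𝓝 p] ψ) : QuadAt E ψ p := by
  obtain ⟨L, H, r, hdet, hsym, hr, hsub, h1⟩ := h
  have h3 : φ ∘ L.e.symm =ᶠ[𝓝 0] ψ ∘ L.e.symm := by
    have hc : Tendsto L.e.symm (𝓝 0) (𝓝 p) := by
      have := L.e.continuousAt_symm L.zero_mem
      rwa [ContinuousAt, L.symm_zero] at this
    exact hc.eventually hφψ
  obtain ⟨s, hs, hball⟩ := Metric.eventually_nhds_iff_ball.1 h3
  refine ⟨L, H, min r (s / 2), hdet, hsym, by positivity,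
    (closedBall_subset_closedBall (min_le_left _ _)).trans hsub, ?_⟩
  intro x hx
  have hx1 : x ∈ closedBall (0 : E) r := closedBall_subset_closedBall (min_le_left _ _) hx
  have hx2 : x ∈ ball (0 : E) s :=
    closedBall_subset_ball (lt_of_le_of_lt (min_le_right _ _) (by linarith)) hx
  have h4 := hball x hx2
  have h5 : φ p = ψ p := hφψ.eq_of_nhds
  simp only [Function.comp] at h4
  rw [← h4, ← h5]
  exact h1 x hx1

end Crest.Agent.R216.Morse
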