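import Crest.Agent.R216.MorseExists

/-!
Row 216 (S0335), module MORSE, part 6: diagonalisation; `exists_morse`.
-/

set_option autoImplicit false
open scoped Manifold ContDiff Topology InnerProductSpace
open Set Metric Filter

noncomputable section
namespace Crest.Agent.R216.Morse

variable {n : ℕ}

/-- `φ` has exact standard Morse form near `p`: in suitable smooth coordinates centred at `p`,
`φ = φ p + ∑ ± xᵢ²` on a closed ball. -/
def StdAt {n : ℕ} {M : Type*} [TopologicalSpace M] [ChartedSpace (EuclideanSpace ℝ (Fin n)) M]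
    (φ : M → ℝ) (p : M) : Prop :=
  ∃ (L : LocCoord (EuclideanSpace ℝ (Fin n)) p) (w : Fin n → ℝ) (r : ℝ),
    (∀ i, w i = 1 ∨ w i = -1) ∧ 0 < r ∧ closedBall 0 r ⊆ L.e.target ∧
    ∀ x ∈ closedBall (0 : EuclideanSpace ℝ (Fin n)) r,
      φ (L.e.symm x) = φ p + ∑ i, w i * (x i) ^ 2

/-- diagonal scaling -/
def diagEquiv (s : Fin n → ℝ) (hs : ∀ i, s i ≠ 0) :
    EuclideanSpace ℝ (Fin n) ≃L[ℝ] EuclideanSpace ℝ (Fin n) :=
  LinearEquiv.toContinuousLinearEquiv
    { toFun := fun x => WithLp.toLp 2 (fun i => s i * x i)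
      invFun := fun x => WithLp.toLp 2 (fun i => (s i)⁻¹ * x i)
      map_add' := by intro x y; ext i; simp [mul_add]
      map_smul' := by intro c x; ext i; simp; ring
      left_inv := by intro x; ext i; simp [hs i]
      right_inv := by intro x; ext i; simp [hs i] }

lemma diagEquiv_apply (s : Fin n → ℝ) (hs : ∀ i, s i ≠ 0) (x : EuclideanSpace ℝ (Fin n)) (i : Fin n) :
    diagEquiv s hs x i = s i * x i := rfl

/-- diagonalisation of a nondegenerate symmetric operator to signs -/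
lemma exists_diag (H : EuclideanSpace ℝ (Fin n) →L[ℝ] EuclideanSpace ℝ (Fin n)) (hdet : H.det ≠ 0)
    (hsym : ∀ v w, ⟪H v, w⟫_ℝ = ⟪v, H w⟫_ℝ) :
    ∃ (A : EuclideanSpace ℝ (Fin n) ≃L[ℝ] EuclideanSpace ℝ (Fin n)) (w : Fin n → ℝ),
      (∀ i, w i = 1 ∨ w i = -1) ∧ ∀ x, 1 / 2 * ⟪H x, x⟫_ℝ = ∑ i, w i * (A x i) ^ 2 := by
  have hT : (H : EuclideanSpace ℝ (Fin n) →ₗ[ℝ] EuclideanSpace ℝ (Fin n)).IsSymmetric := hsym
  have hn : Module.finrank ℝ (EuclideanSpace ℝ (Fin n)) = n := by simp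
  set b := hT.eigenvectorBasis hn with hb
  set l := hT.eigenvalues hn with hl
  have hl0 : ∀ i, l i ≠ 0 := by
    intro i h
    have h1 : H (b i) = 0 := by
      have h2 := hT.apply_eigenvectorBasis hn i
      rw [← hl, h] at h2
      have h3 : ((0 : ℝ) : ℝ) • (hT.eigenvectorBasis hn i) = 0 := zero_smul _ _
      exact h2.trans h3
    obtain ⟨m, hm, hmb⟩ := bounded_below hdet
    have h3 := hmb (b i)
    rw [h1, norm_zero, b.norm_eq_one] at h3
    linarith
  let s : Fin n → ℝ := fun i => Real.sqrt (|l i| / 2)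
  have hs : ∀ i, s i ≠ 0 := by
    intro i
    have : 0 < |l i| := abs_pos.2 (hl0 i)
    have h1 : 0 < s i := Real.sqrt_pos.2 (by positivity)
    exact h1.ne'
  refine ⟨b.repr.toContinuousLinearEquiv.trans (diagEquiv s hs), fun i => if 0 < l i then 1 else -1,
    ?_, ?_⟩
  · intro i
    by_cases h : 0 < l i <;> simp [h]
  · intro x
    have h1 : ⟪H x, x⟫_ℝ = ∑ i, l i * (b.repr x i) ^ 2 := by
      rw [← b.sum_inner_mul_inner (H x) x]
      apply Finset.sum_congr rfl
      intro i _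
      have h2 : ⟪H x, b i⟫_ℝ = l i * b.repr x i := by
        rw [real_inner_comm, ← b.repr_apply_apply]
        exact hT.eigenvectorBasis_apply_self_apply hn x i
      rw [h2, ← b.repr_apply_apply]
      ring
    rw [h1, Finset.mul_sum]
    apply Finset.sum_congr rfl
    intro i _
    have h3 : (b.repr.toContinuousLinearEquiv.trans (diagEquiv s hs)) x i = s i * b.repr x i := rfl
    simp only [h3]
    rw [mul_pow, Real.sq_sqrt (by positivity)]
    rcases lt_or_gt_of_ne (hl0 i) with h | h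
    · rw [if_neg (by linarith), abs_of_neg h]; ring
    · rw [if_pos h, abs_of_pos h]; ring

lemma QuadAt.stdAt {n : ℕ} {M : Type*} [TopologicalSpace M] [ChartedSpace (EuclideanSpace ℝ (Fin n)) M]
    {φ : M → ℝ} {p : M} (h : QuadAt (EuclideanSpace ℝ (Fin n)) φ p) : StdAt (n := n) φ p := by
  obtain ⟨L, H, r, hdet, hsym, hr, hsub, hval⟩ := h
  obtain ⟨A, w, hw, hA⟩ := exists_diag H hdet hsym
  -- radius
  have hcont : Tendsto (fun x => A.symm x) (𝓝 0) (𝓝 0) := by
    have := A.symm.continuous.tendsto 0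
    simpa using this
  obtain ⟨s, hs, hball⟩ := Metric.eventually_nhds_iff_ball.1
    (hcont.eventually (closedBall_mem_nhds (0 : EuclideanSpace ℝ (Fin n)) hr))
  refine ⟨L.compLin A, w, s / 2, hw, by positivity, ?_, ?_⟩
  · intro x hx
    rw [LocCoord.compLin_target]
    exact hsub (hball x (closedBall_subset_ball (by linarith) hx))
  · intro x hx
    rw [LocCoord.compLin_symm, hval _ (hball x (closedBall_subset_ball (by linarith) hx)), hA]
    simp

/-- **Existence of Morse functions** in exact standard form with pairwise distinct critical values. -/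
theorem exists_morse (M : Type*) [TopologicalSpace M] [ChartedSpace (EuclideanSpace ℝ (Fin n)) M]
    [IsManifold (𝓡 n) ∞ M] [T2Space M] [CompactSpace M] :
    ∃ φ : M → ℝ, ContMDiff (𝓡 n) 𝓘(ℝ, ℝ) ∞ φ ∧
      {x | mfderiv (𝓡 n) 𝓘(ℝ, ℝ) φ x = 0}.Finite ∧
      InjOn φ {x | mfderiv (𝓡 n) 𝓘(ℝ, ℝ) φ x = 0} ∧
      ∀ x, mfderiv (𝓡 n) 𝓘(ℝ, ℝ) φ x = 0 → StdAt (n := n) φ x := by
  obtain ⟨φ, h1, h2, h3, h4⟩ := exists_quad (E := EuclideanSpace ℝ (Fin n)) (M := M)
  exact ⟨φ, h1, h2, h3, fun x hx => (h4 x hx).stdAt⟩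

end Crest.Agent.R216.Morse
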