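import Crest.Agent.R216.PSLLin

/-!
Row 216, PSL-2: theorema egregium.
-/

set_option autoImplicit false

noncomputable section

open scoped Manifold ContDiff Topology
open Set MeasureTheory

namespace Crest.Agent.R216.PSL

lemma inner_nor_nor {A B : P4} (h : gr A B ≠ 0) (X Y : P4) :
    inner ℝ (nor A B X) (nor A B Y) = inner ℝ X Y - (gr A B)⁻¹ *
      (inner ℝ X A * inner ℝ Y A * inner ℝ B B
        - (inner ℝ X A * inner ℝ Y B + inner ℝ X B * inner ℝ Y A) * inner ℝ A B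
        + inner ℝ X B * inner ℝ Y B * inner ℝ A A) := by
  have h1 : inner ℝ (nor A B X) (nor A B Y) = inner ℝ (nor A B X) Y := by
    conv_lhs => rw [nor.eq_def A B Y]
    rw [inner_sub_right, inner_smul_right, inner_add_right, inner_smul_right, inner_smul_right,
      inner_nor_left h, inner_nor_right h]
    ring
  rw [h1, nor]
  simp only [inner_sub_left, inner_add_left, inner_smul_left, RCLike.conj_to_real]
  rw [real_inner_comm Y A, real_inner_comm Y B]
  ring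

lemma two_le_inf : (2 : WithTop ℕ∞) ≤ ∞ := WithTop.coe_le_coe.mpr le_top
lemma oneone_le_inf : (1 + 1 : WithTop ℕ∞) ≤ ∞ := WithTop.coe_le_coe.mpr le_top
lemma inf_add_one_le_inf : (∞ + 1 : WithTop ℕ∞) ≤ ∞ := le_rfl

/-- `⟪D²F(v,w), DF(z)⟫` -/
def ch (F : P2 → P4) (x v w z : P2) : ℝ := inner ℝ (d2 F x v w) (d1 F x z)

lemma d2_symm {F : P2 → P4} {x : P2} (hF : ContDiffAt ℝ ∞ F x) (v w : P2) :
    d2 F x v w = d2 F x w v := by
  have h : IsSymmSndFDerivAt ℝ F x := hF.isSymmSndFDerivAt (by rw [minSmoothness_of_isRCLikeNormedField]; exact two_le_inf)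
  exact h v w

lemma hasFDerivAt_d1 {F : P2 → P4} {x : P2} (hF : ContDiffAt ℝ ∞ F x) (v : P2) :
    HasFDerivAt (fun y => d1 F y v)
      ((ContinuousLinearMap.apply ℝ P4 v).comp (fderiv ℝ (fderiv ℝ F) x)) x := by
  have h1 : DifferentiableAt ℝ (fderiv ℝ F) x :=
    (hF.fderiv_right (m := 1) oneone_le_inf).differentiableAt (by norm_num)
  exact (ContinuousLinearMap.apply ℝ P4 v).hasFDerivAt.comp x h1.hasFDerivAt

lemma fderiv_d1 {F : P2 → P4} {x : P2} (hF : ContDiffAt ℝ ∞ F x) (v z : P2) :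
    fderiv ℝ (fun y => d1 F y v) x z = d2 F x z v := by
  rw [(hasFDerivAt_d1 hF v).fderiv]; rfl

lemma fderiv_met {F : P2 → P4} {x : P2} (hF : ContDiffAt ℝ ∞ F x) (v w z : P2) :
    fderiv ℝ (fun y => met F y v w) x z = ch F x z v w + ch F x z w v := by
  have h := (hasFDerivAt_d1 hF v).inner ℝ (hasFDerivAt_d1 hF w)
  have h2 : fderiv ℝ (fun y => met F y v w) x = _ := h.fderiv
  rw [h2]
  simp only [ContinuousLinearMap.comp_apply, ContinuousLinearMap.prod_apply,
    fderivInnerCLM_apply, ContinuousLinearMap.apply_apply]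
  rw [ch, ch, d2, d2, real_inner_comm (d1 F x v)]
  ring

lemma fderiv_inner_d1 {F H : P2 → P4} {x : P2} (hF : ContDiffAt ℝ ∞ F x)
    (hH : ContDiffAt ℝ ∞ H x) (v w z : P2) :
    fderiv ℝ (fun y => (inner ℝ (d1 F y v) (d1 H y w) : ℝ)) x z =
      inner ℝ (d2 F x z v) (d1 H x w) + inner ℝ (d1 F x v) (d2 H x z w) := by
  have h := (hasFDerivAt_d1 hF v).inner ℝ (hasFDerivAt_d1 hH w)
  have h2 : fderiv ℝ (fun y => (inner ℝ (d1 F y v) (d1 H y w) : ℝ)) x = _ := h.fderiv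
  rw [h2]
  simp only [ContinuousLinearMap.comp_apply, ContinuousLinearMap.prod_apply,
    fderivInnerCLM_apply, ContinuousLinearMap.apply_apply]
  rw [d2, d2]
  ring

lemma met_symm (F : P2 → P4) (x v w : P2) : met F x v w = met F x w v := real_inner_comm _ _

lemma two_ch {F : P2 → P4} {x : P2} (hF : ContDiffAt ℝ ∞ F x) (v w z : P2) :
    2 * ch F x v w z = fderiv ℝ (fun y => met F y w z) x v + fderiv ℝ (fun y => met F y v z) x w
      - fderiv ℝ (fun y => met F y v w) x z := by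
  rw [fderiv_met hF, fderiv_met hF, fderiv_met hF]
  simp only [ch]
  rw [d2_symm hF w v, d2_symm hF z v, d2_symm hF z w]
  ring

lemma ch_eq_of_met {F G : P2 → P4} {D : Set P2} (hD : IsOpen D) (hF : ContDiffOn ℝ ∞ F D)
    (hG : ContDiffOn ℝ ∞ G D) (hmet : ∀ x ∈ D, ∀ v w : P2, met F x v w = met G x v w)
    {x : P2} (hx : x ∈ D) (v w z : P2) : ch F x v w z = ch G x v w z := by
  have hFx : ContDiffAt ℝ ∞ F x := hF.contDiffAt (hD.mem_nhds hx)
  have hGx : ContDiffAt ℝ ∞ G x := hG.contDiffAt (hD.mem_nhds hx)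
  have key : ∀ v w : P2, fderiv ℝ (fun y => met F y v w) x = fderiv ℝ (fun y => met G y v w) x := by
    intro v w
    apply Filter.EventuallyEq.fderiv_eq
    filter_upwards [hD.mem_nhds hx] with y hy
    exact hmet y hy v w
  have h1 := two_ch hFx v w z
  have h2 := two_ch hGx v w z
  rw [key, key, key] at h1
  linarith

lemma contDiffAt_d1 {F : P2 → P4} {x : P2} (hF : ContDiffAt ℝ ∞ F x) (v : P2) :
    ContDiffAt ℝ ∞ (fun y => d1 F y v) x :=
  (hF.fderiv_right (m := ∞) inf_add_one_le_inf).clm_apply contDiffAt_const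

/-- the Gauss identity -/
lemma fderiv_ch_sub {F : P2 → P4} {D : Set P2} (hD : IsOpen D) (hF : ContDiffOn ℝ ∞ F D)
    {x : P2} (hx : x ∈ D) :
    fderiv ℝ (fun y => ch F y e2 e2 e1) x e1 - fderiv ℝ (fun y => ch F y e1 e2 e1) x e2 =
      inner ℝ (d2 F x e1 e1) (d2 F x e2 e2) - inner ℝ (d2 F x e1 e2) (d2 F x e1 e2) := by
  have hFx : ContDiffAt ℝ ∞ F x := hF.contDiffAt (hD.mem_nhds hx)
  set H : P2 → P4 := fun y => d1 F y e2 with hH
  have hHx : ContDiffAt ℝ ∞ H x := contDiffAt_d1 hFx e2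
  have hd : ∀ y ∈ D, ∀ v, d1 H y v = d2 F y v e2 := by
    intro y hy v
    exact fderiv_d1 (hF.contDiffAt (hD.mem_nhds hy)) e2 v
  have hc : ∀ v : P2, fderiv ℝ (fun y => ch F y v e2 e1) x =
      fderiv ℝ (fun y => (inner ℝ (d1 H y v) (d1 F y e1) : ℝ)) x := by
    intro v
    apply Filter.EventuallyEq.fderiv_eq
    filter_upwards [hD.mem_nhds hx] with y hy
    rw [hd y hy v]; rfl
  rw [hc, hc, fderiv_inner_d1 hHx hFx, fderiv_inner_d1 hHx hFx, hd x hx, hd x hx,
    d2_symm hHx e2 e1, d2_symm hFx e2 e1, real_inner_comm (d2 F x e1 e1)]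
  ring

/-- `KK` as a function of the Christoffel symbols and the metric -/
lemma KK_eq {F : P2 → P4} {x : P2} (hinj : Function.Injective (fderiv ℝ F x)) :
    KK F x = (inner ℝ (d2 F x e1 e1) (d2 F x e2 e2) - inner ℝ (d2 F x e1 e2) (d2 F x e1 e2))
      - (met F x e1 e1 * met F x e2 e2 - met F x e1 e2 ^ 2)⁻¹ *
        ((ch F x e1 e1 e1 * ch F x e2 e2 e1 * met F x e2 e2
          - (ch F x e1 e1 e1 * ch F x e2 e2 e2 + ch F x e1 e1 e2 * ch F x e2 e2 e1) * met F x e1 e2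
          + ch F x e1 e1 e2 * ch F x e2 e2 e2 * met F x e1 e1)
        - (ch F x e1 e2 e1 * ch F x e1 e2 e1 * met F x e2 e2
          - (ch F x e1 e2 e1 * ch F x e1 e2 e2 + ch F x e1 e2 e2 * ch F x e1 e2 e1) * met F x e1 e2
          + ch F x e1 e2 e2 * ch F x e1 e2 e2 * met F x e1 e1)) := by
  have hg := (gr_d1_pos hinj).ne'
  rw [KK, hN_eq_nor hinj, hN_eq_nor hinj, hN_eq_nor hinj, inner_nor_nor hg, inner_nor_nor hg]
  simp only [ch, met, gr]
  ring

/-- Theorema egregium: `KK` depends only on the metric. -/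
theorem KK_eq_of_met {F G : P2 → P4} {D : Set P2} (hD : IsOpen D) (hF : ContDiffOn ℝ ∞ F D)
    (hG : ContDiffOn ℝ ∞ G D) (hFi : ∀ x ∈ D, Function.Injective (fderiv ℝ F x))
    (hGi : ∀ x ∈ D, Function.Injective (fderiv ℝ G x))
    (hmet : ∀ x ∈ D, ∀ v w : P2, met F x v w = met G x v w) :
    ∀ x ∈ D, KK F x = KK G x := by
  intro x hx
  have hch : ∀ y ∈ D, ∀ v w z, ch F y v w z = ch G y v w z := fun y hy v w z =>
    ch_eq_of_met hD hF hG hmet hy v w z
  have hfd : ∀ v w z : P2, fderiv ℝ (fun y => ch F y v w z) x = fderiv ℝ (fun y => ch G y v w z) x := by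
    intro v w z
    apply Filter.EventuallyEq.fderiv_eq
    filter_upwards [hD.mem_nhds hx] with y hy
    exact hch y hy v w z
  rw [KK_eq (hFi x hx), KK_eq (hGi x hx), ← fderiv_ch_sub hD hF hx, ← fderiv_ch_sub hD hG hx]
  simp only [hch x hx, hmet x hx, hfd]

end Crest.Agent.R216.PSL
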