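import Crest.Agent.R216.PSLDefs

/-!
Row 216, PSL (helper621): the compactness lemma `LL0` (choice of the speed).
-/

set_option autoImplicit false

noncomputable section

open scoped Manifold ContDiff Topology
open Set MeasureTheory Filter

namespace Crest.Agent.R216.PSL

namespace Lim0

lemma grpos {A B : P4} (h : LinearIndependent ℝ ![A, B]) : 0 < gr A B := by
  have hA : A ≠ 0 := by simpa using h.ne_zero 0
  have hB : B ≠ 0 := by simpa using h.ne_zero 1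
  unfold gr
  have h1 : inner ℝ A B ^ 2 ≤ inner ℝ A A * inner ℝ B B := by
    have := real_inner_mul_inner_self_le A B
    nlinarith [this]
  rcases lt_or_eq_of_le h1 with h2 | h2
  · linarith
  · exfalso
    -- equality in Cauchy-Schwarz
    have h3 : inner ℝ B B • A - inner ℝ A B • B = 0 := by
      have : inner ℝ (inner ℝ B B • A - inner ℝ A B • B) (inner ℝ B B • A - inner ℝ A B • B)
          = (0 : ℝ) := by
        simp only [inner_sub_left, inner_sub_right, real_inner_smul_left, real_inner_smul_right,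
          real_inner_comm A B]
        rw [real_inner_comm B A] at *
        linear_combination (-(inner ℝ B B)) * h2
      exact inner_self_eq_zero.mp this
    have h4 := (LinearIndependent.pair_iff.mp h) (inner ℝ B B) (-(inner ℝ A B)) (by
      rw [neg_smul, ← sub_eq_add_neg]; exact h3)
    exact hB (inner_self_eq_zero.mp h4.1)

lemma ind12 {A B C : P4} (h : LinearIndependent ℝ ![A, B, C]) : LinearIndependent ℝ ![A, B] := by
  have := h.comp (![0, 1] : Fin 2 → Fin 3) (by decide)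
  convert this using 1
  ext i
  fin_cases i <;> rfl

lemma nor_add (A B X Y : P4) : nor A B (X + Y) = nor A B X + nor A B Y := by
  unfold nor
  simp only [inner_add_left, add_mul, smul_sub, smul_add, add_smul, sub_smul, mul_smul]
  module

lemma nor_smul (A B X : P4) (c : ℝ) : nor A B (c • X) = c • nor A B X := by
  unfold nor
  simp only [real_inner_smul_left, smul_sub, smul_add, smul_smul]
  module

lemma inner_nor_of_perp {A B X Y : P4} (hA : inner ℝ Y A = 0) (hB : inner ℝ Y B = 0) :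
    inner ℝ (nor A B X) Y = inner ℝ X Y := by
  unfold nor
  rw [inner_sub_left, real_inner_smul_left, inner_add_left, real_inner_smul_left,
    real_inner_smul_left, real_inner_comm Y A, real_inner_comm Y B, hA, hB]
  ring

lemma nor_perp {A B X : P4} (h : gr A B ≠ 0) :
    inner ℝ (nor A B X) A = 0 ∧ inner ℝ (nor A B X) B = 0 := by
  have hg : inner ℝ A A * inner ℝ B B - inner ℝ A B ^ 2 ≠ 0 := h
  constructor
  · unfold nor gr
    rw [inner_sub_left, real_inner_smul_left, inner_add_left, real_inner_smul_left,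
      real_inner_smul_left, real_inner_comm A B]
    field_simp
    ring
  · unfold nor gr
    rw [inner_sub_left, real_inner_smul_left, inner_add_left, real_inner_smul_left,
      real_inner_smul_left]
    field_simp
    ring

lemma nor_ne_zero {A B C : P4} (h : LinearIndependent ℝ ![A, B, C]) : nor A B C ≠ 0 := by
  intro h0
  unfold nor at h0
  set p : ℝ := (gr A B)⁻¹ * (inner ℝ C A * inner ℝ B B - inner ℝ C B * inner ℝ A B) with hp
  set q : ℝ := (gr A B)⁻¹ * (inner ℝ C B * inner ℝ A A - inner ℝ C A * inner ℝ A B) with hq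
  have h1 : (-p) • A + (-q) • B + (1 : ℝ) • C = 0 := by
    rw [← h0, hp, hq]
    module
  have h2 := Fintype.linearIndependent_iff.mp h ![-p, -q, 1] (by
    simp only [Fin.sum_univ_three, Matrix.cons_val_zero, Matrix.cons_val_one, Matrix.cons_val]
    exact h1)
  have := h2 2
  simp at this

lemma tendsto_nor {ι : Type*} {l : Filter ι} {A B X : ι → P4} {a b x : P4}
    (hA : Tendsto A l (𝓝 a)) (hB : Tendsto B l (𝓝 b)) (hX : Tendsto X l (𝓝 x))
    (h : gr a b ≠ 0) : Tendsto (fun i => nor (A i) (B i) (X i)) l (𝓝 (nor a b x)) := by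
  unfold nor
  have hgr : Tendsto (fun i => gr (A i) (B i)) l (𝓝 (gr a b)) := by
    unfold gr
    exact ((hA.inner hA).mul (hB.inner hB)).sub ((hA.inner hB).pow 2)
  exact hX.sub ((hgr.inv₀ h).smul
    (((((hX.inner hA).mul (hB.inner hB)).sub ((hX.inner hB).mul (hA.inner hB))).smul hA).add
      ((((hX.inner hB).mul (hA.inner hA)).sub ((hX.inner hA).mul (hA.inner hB))).smul hB)))

end Lim0

open Lim0

/-- LL0: choice of the speed `L`. -/
theorem LL0 {K : Set P2} (hK : IsCompact K) {G : Set (P2 × P2)} (hG : IsCompact G)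
    (hGK : ∀ z ∈ G, z.1 ∈ K) (hGv : ∀ z ∈ G, z.2 ≠ 0) {δ : ℝ} (hδ : 0 < δ)
    {f2 f22 : P2 → P4} (hf2 : ContinuousOn f2 K) (hf22 : ContinuousOn f22 K)
    {W W2 Wϑ : P2 × ℝ × ℝ → P4}
    (hW : ContinuousOn W (K ×ˢ Icc 0 δ ×ˢ univ)) (hW2 : ContinuousOn W2 (K ×ˢ Icc 0 δ ×ˢ univ))
    (hWϑ : ContinuousOn Wϑ (K ×ˢ Icc 0 δ ×ˢ univ))
    (hper : ∀ x ∈ K, ∀ ϑ ∈ Icc 0 δ, ∀ t, W (x, ϑ, t + 2 * Real.pi) = W (x, ϑ, t) ∧
      W2 (x, ϑ, t + 2 * Real.pi) = W2 (x, ϑ, t) ∧ Wϑ (x, ϑ, t + 2 * Real.pi) = Wϑ (x, ϑ, t))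
    {κ a : P2 → ℝ} (hκ : ContinuousOn κ K) (ha : ContinuousOn a K)
    (hind : ∀ x ∈ K, ∀ ϑ ∈ Icc 0 δ, ∀ t, LinearIndependent ℝ ![W (x, ϑ, t), f2 x, f22 x])
    (hperp : ∀ x ∈ K, ∀ ϑ ∈ Icc 0 δ, ∀ t, inner ℝ (Wϑ (x, ϑ, t)) (W (x, ϑ, t)) = 0 ∧
      inner ℝ (Wϑ (x, ϑ, t)) (f2 x) = 0 ∧ inner ℝ (Wϑ (x, ϑ, t)) (f22 x) = 0)
    (hfast : ∀ x ∈ K, a x ≠ 0 → ∀ t, Real.sin t = 0 → Wϑ (x, 0, t) ≠ 0)
    (hbd : ∀ z ∈ G, a z.1 = 0 → ∀ t,
      0 < κ z.1 * (z.2 0) ^ 2 * ‖nor (W (z.1, 0, t)) (f2 z.1) (f22 z.1)‖ ^ 2 +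
        inner ℝ (nor (W (z.1, 0, t)) (f2 z.1) (z.2 0 • W2 (z.1, 0, t) + z.2 1 • f22 z.1))
          (nor (W (z.1, 0, t)) (f2 z.1) (f22 z.1)) ^ 2) :
    ∃ L0 : ℝ, 0 < L0 ∧ ∀ z ∈ G, ∀ t, (a z.1 = 0 ∨ Real.sin t = 0) →
      ∀ ϑ ∈ Icc 0 δ, ϑ ≤ 1 / L0 → ∀ s, L0 ≤ s →
      0 < κ z.1 * (z.2 0) ^ 2 + ‖nor (W (z.1, ϑ, t)) (f2 z.1)
        (z.2 0 • (W2 (z.1, ϑ, t) + s • Wϑ (z.1, ϑ, t)) + z.2 1 • f22 z.1)‖ ^ 2 := by
  by_contra hcon
  push Not at hcon
  -- bad sequence, with phases reduced to `[0, 2π]`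
  have hbad : ∀ n : ℕ, ∃ (z : P2 × P2) (t ϑ s : ℝ), z ∈ G ∧ t ∈ Icc 0 (2 * Real.pi) ∧
      (a z.1 = 0 ∨ Real.sin t = 0) ∧ ϑ ∈ Icc 0 δ ∧ ϑ ≤ 1 / ((n : ℝ) + 1) ∧ (n : ℝ) + 1 ≤ s ∧
      κ z.1 * (z.2 0) ^ 2 + ‖nor (W (z.1, ϑ, t)) (f2 z.1)
        (z.2 0 • (W2 (z.1, ϑ, t) + s • Wϑ (z.1, ϑ, t)) + z.2 1 • f22 z.1)‖ ^ 2 ≤ 0 := by
    intro n
    obtain ⟨z, hz, t, ht, ϑ, hϑ, hϑn, s, hs, hle⟩ := hcon ((n : ℝ) + 1) (by positivity)
    have hpi : (0 : ℝ) < 2 * Real.pi := by positivity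
    obtain ⟨m, hm⟩ : ∃ m : ℤ, t = toIcoMod hpi 0 t + m * (2 * Real.pi) := by
      refine ⟨toIcoDiv hpi 0 t, ?_⟩
      have := toIcoMod_add_toIcoDiv_zsmul hpi 0 t
      rw [zsmul_eq_mul] at this
      exact this.symm
    set t' := toIcoMod hpi 0 t with ht'
    have hmem : t' ∈ Ico 0 (0 + 2 * Real.pi) := toIcoMod_mem_Ico hpi 0 t
    have hx := hGK z hz
    have hP : Function.Periodic (fun t => (W (z.1, ϑ, t), W2 (z.1, ϑ, t), Wϑ (z.1, ϑ, t)))
        (2 * Real.pi) := by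
      intro t
      obtain ⟨h1, h2, h3⟩ := hper z.1 hx ϑ hϑ t
      simp only [h1, h2, h3]
    have hval := hP.int_mul m t'
    simp only [← hm, Prod.mk.injEq] at hval
    refine ⟨z, t', ϑ, s, hz, ⟨hmem.1, by linarith [hmem.2]⟩, ?_, hϑ, hϑn, hs, ?_⟩
    · rcases ht with h | h
      · exact Or.inl h
      · right
        have := Real.sin_periodic.int_mul m t'
        rw [← this, ← hm]; exact h
    · rw [← hval.1, ← hval.2.1, ← hval.2.2]; exact hle
  choose z t ϑ s hz ht hor hϑ hϑn hs hle using hbad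
  obtain ⟨p, hp, φ, hφ, hlim⟩ := (hG.prod (isCompact_Icc (a := (0:ℝ)) (b := 2 * Real.pi))
    ).tendsto_subseq (x := fun n => (z n, t n)) (fun n => ⟨hz n, ht n⟩)
  obtain ⟨⟨x0, v0⟩, t0⟩ := p
  have hzG : (x0, v0) ∈ G := hp.1
  have hxK : x0 ∈ K := hGK _ hzG
  have hzl : Tendsto (fun n => z (φ n)) atTop (𝓝 (x0, v0)) := by
    have := (continuous_fst.tendsto _).comp hlim
    exact this
  have htl : Tendsto (fun n => t (φ n)) atTop (𝓝 t0) := by
    have := (continuous_snd.tendsto _).comp hlim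
    exact this
  have hxl : Tendsto (fun n => (z (φ n)).1) atTop (𝓝 x0) := (continuous_fst.tendsto _).comp hzl
  have hvl : Tendsto (fun n => (z (φ n)).2) atTop (𝓝 v0) := (continuous_snd.tendsto _).comp hzl
  have hφn : Tendsto (fun n => ((φ n : ℕ) : ℝ) + 1) atTop atTop :=
    tendsto_atTop_add_const_right _ _ (tendsto_natCast_atTop_atTop.comp hφ.tendsto_atTop)
  have hϑl : Tendsto (fun n => ϑ (φ n)) atTop (𝓝 0) := by
    refine squeeze_zero (fun n => (hϑ (φ n)).1) (fun n => hϑn (φ n)) ?_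
    simp only [one_div]
    exact tendsto_inv_atTop_zero.comp hφn
  have hsl : Tendsto (fun n => s (φ n)) atTop atTop :=
    tendsto_atTop_mono (fun n => hs (φ n)) hφn
  have hv0l : Tendsto (fun n => (z (φ n)).2 0) atTop (𝓝 (v0 0)) :=
    ((EuclideanSpace.proj (𝕜 := ℝ) (0 : Fin 2)).continuous.tendsto v0).comp hvl
  have hv1l : Tendsto (fun n => (z (φ n)).2 1) atTop (𝓝 (v0 1)) :=
    ((EuclideanSpace.proj (𝕜 := ℝ) (1 : Fin 2)).continuous.tendsto v0).comp hvl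
  -- limits of the continuous data
  have hxK' : Tendsto (fun n => (z (φ n)).1) atTop (𝓝[K] x0) :=
    tendsto_nhdsWithin_iff.mpr ⟨hxl, Eventually.of_forall fun n => hGK _ (hz (φ n))⟩
  have h0δ : (0 : ℝ) ∈ Icc 0 δ := ⟨le_rfl, hδ.le⟩
  have hal : Tendsto (fun n => a (z (φ n)).1) atTop (𝓝 (a x0)) := (ha x0 hxK).tendsto.comp hxK'
  have hκl : Tendsto (fun n => κ (z (φ n)).1) atTop (𝓝 (κ x0)) := (hκ x0 hxK).tendsto.comp hxK'
  have hf2l : Tendsto (fun n => f2 (z (φ n)).1) atTop (𝓝 (f2 x0)) :=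
    (hf2 x0 hxK).tendsto.comp hxK'
  have hf22l : Tendsto (fun n => f22 (z (φ n)).1) atTop (𝓝 (f22 x0)) :=
    (hf22 x0 hxK).tendsto.comp hxK'
  have hcomp : Tendsto (fun n => ((z (φ n)).1, ϑ (φ n), t (φ n))) atTop
      (𝓝[K ×ˢ Icc 0 δ ×ˢ univ] (x0, 0, t0)) :=
    tendsto_nhdsWithin_iff.mpr ⟨hxl.prodMk_nhds (hϑl.prodMk_nhds htl),
      Eventually.of_forall fun n => ⟨hGK _ (hz (φ n)), hϑ (φ n), mem_univ _⟩⟩
  have hm0 : ((x0, 0, t0) : P2 × ℝ × ℝ) ∈ K ×ˢ Icc (0:ℝ) δ ×ˢ (univ : Set ℝ) :=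
    ⟨hxK, h0δ, mem_univ _⟩
  have hWl : Tendsto (fun n => W ((z (φ n)).1, ϑ (φ n), t (φ n))) atTop (𝓝 (W (x0, 0, t0))) :=
    (hW _ hm0).tendsto.comp hcomp
  have hW2l : Tendsto (fun n => W2 ((z (φ n)).1, ϑ (φ n), t (φ n))) atTop
      (𝓝 (W2 (x0, 0, t0))) := (hW2 _ hm0).tendsto.comp hcomp
  have hWϑl : Tendsto (fun n => Wϑ ((z (φ n)).1, ϑ (φ n), t (φ n))) atTop
      (𝓝 (Wϑ (x0, 0, t0))) := (hWϑ _ hm0).tendsto.comp hcomp
  have hgr0 : gr (W (x0, 0, t0)) (f2 x0) ≠ 0 := (grpos (ind12 (hind x0 hxK 0 h0δ t0))).ne'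
  have hgrn : ∀ n, gr (W ((z n).1, ϑ n, t n)) (f2 (z n).1) ≠ 0 := fun n =>
    (grpos (ind12 (hind _ (hGK _ (hz n)) _ (hϑ n) _))).ne'
  by_cases hax : a x0 = 0
  · -- boundary case
    have hnl : Tendsto (fun n => nor (W ((z (φ n)).1, ϑ (φ n), t (φ n))) (f2 (z (φ n)).1)
        (f22 (z (φ n)).1)) atTop (𝓝 (nor (W (x0, 0, t0)) (f2 x0) (f22 x0))) :=
      tendsto_nor hWl hf2l hf22l hgr0
    have hml : Tendsto (fun n => nor (W ((z (φ n)).1, ϑ (φ n), t (φ n))) (f2 (z (φ n)).1)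
        ((z (φ n)).2 0 • W2 ((z (φ n)).1, ϑ (φ n), t (φ n)) + (z (φ n)).2 1 • f22 (z (φ n)).1))
        atTop (𝓝 (nor (W (x0, 0, t0)) (f2 x0) (v0 0 • W2 (x0, 0, t0) + v0 1 • f22 x0))) :=
      tendsto_nor hWl hf2l ((hv0l.smul hW2l).add (hv1l.smul hf22l)) hgr0
    have hlimE := (((hκl.mul (hv0l.pow 2)).mul (hnl.norm.pow 2)).add ((hml.inner hnl).pow 2))
    have hpos := hbd (x0, v0) hzG hax t0
    have hev := hlimE.eventually (lt_mem_nhds hpos)
    obtain ⟨n, hn⟩ := hev.exists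
    set m := φ n with hmdef
    have hperpn := hperp _ (hGK _ (hz m)) _ (hϑ m) (t m)
    set A := W ((z m).1, ϑ m, t m)
    set B := f2 (z m).1
    set C := f22 (z m).1
    set D2 := W2 ((z m).1, ϑ m, t m)
    set T := Wϑ ((z m).1, ϑ m, t m)
    have hgr : gr A B ≠ 0 := hgrn m
    have hnp := nor_perp (X := C) hgr
    -- `⟪nor T, nor C⟫ = 0`
    have hTC : inner ℝ (nor A B T) (nor A B C) = 0 := by
      rw [inner_nor_of_perp hnp.1 hnp.2, real_inner_comm,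
        inner_nor_of_perp (Y := T) hperpn.1 hperpn.2.1, real_inner_comm]
      exact hperpn.2.2
    have hX : inner ℝ (nor A B ((z m).2 0 • (D2 + s m • T) + (z m).2 1 • C)) (nor A B C)
        = inner ℝ (nor A B ((z m).2 0 • D2 + (z m).2 1 • C)) (nor A B C) := by
      have : (z m).2 0 • (D2 + s m • T) + (z m).2 1 • C
          = ((z m).2 0 • D2 + (z m).2 1 • C) + ((z m).2 0 * s m) • T := by
        module
      rw [this, nor_add, nor_smul, inner_add_left, real_inner_smul_left, hTC]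
      ring
    have hCS := abs_real_inner_le_norm
      (nor A B ((z m).2 0 • (D2 + s m • T) + (z m).2 1 • C)) (nor A B C)
    rw [hX] at hCS
    have hCS2 : inner ℝ (nor A B ((z m).2 0 • D2 + (z m).2 1 • C)) (nor A B C) ^ 2 ≤
        ‖nor A B ((z m).2 0 • (D2 + s m • T) + (z m).2 1 • C)‖ ^ 2 * ‖nor A B C‖ ^ 2 := by
      rw [← mul_pow, ← sq_abs (inner ℝ _ _)]
      exact pow_le_pow_left₀ (abs_nonneg _) hCS 2
    have hlem := hle m
    have hsq : 0 ≤ ‖nor A B C‖ ^ 2 := by positivity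
    nlinarith [mul_nonneg hsq (neg_nonneg.mpr hlem)]
  · -- interior case
    have hsin : ∀ᶠ n in atTop, Real.sin (t (φ n)) = 0 := by
      have : ∀ᶠ n in atTop, a (z (φ n)).1 ≠ 0 := hal.eventually_ne hax
      filter_upwards [this] with n hn
      exact (hor (φ n)).resolve_left hn
    have hsin0 : Real.sin t0 = 0 := by
      have h1 : Tendsto (fun n => Real.sin (t (φ n))) atTop (𝓝 (Real.sin t0)) :=
        (Real.continuous_sin.tendsto t0).comp htl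
      have h2 : Tendsto (fun n => Real.sin (t (φ n))) atTop (𝓝 0) :=
        (tendsto_const_nhds (x := (0:ℝ))).congr' (hsin.mono fun n hn => hn.symm)
      exact tendsto_nhds_unique h1 h2
    have hT0 : Wϑ (x0, 0, t0) ≠ 0 := hfast x0 hxK hax t0 hsin0
    -- `(s |T|² + ⟨W2,T⟩)² > (|κ| + 1) |T|²` eventually
    have hTn : Tendsto (fun n => ‖Wϑ ((z (φ n)).1, ϑ (φ n), t (φ n))‖ ^ 2) atTop
        (𝓝 (‖Wϑ (x0, 0, t0)‖ ^ 2)) := hWϑl.norm.pow 2
    have hT2pos : 0 < ‖Wϑ (x0, 0, t0)‖ ^ 2 := by positivity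
    have hbig : Tendsto (fun n => s (φ n) * ‖Wϑ ((z (φ n)).1, ϑ (φ n), t (φ n))‖ ^ 2 +
        inner ℝ (W2 ((z (φ n)).1, ϑ (φ n), t (φ n))) (Wϑ ((z (φ n)).1, ϑ (φ n), t (φ n))))
        atTop atTop :=
      (hsl.atTop_mul_pos hT2pos hTn).atTop_add (hW2l.inner hWϑl)
    have hrhs : Tendsto (fun n => -κ (z (φ n)).1 * ‖Wϑ ((z (φ n)).1, ϑ (φ n), t (φ n))‖ ^ 2)
        atTop (𝓝 (-κ x0 * ‖Wϑ (x0, 0, t0)‖ ^ 2)) := hκl.neg.mul hTn
    have hev1 : ∀ᶠ n in atTop, -κ (z (φ n)).1 * ‖Wϑ ((z (φ n)).1, ϑ (φ n), t (φ n))‖ ^ 2 <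
        (s (φ n) * ‖Wϑ ((z (φ n)).1, ϑ (φ n), t (φ n))‖ ^ 2 +
        inner ℝ (W2 ((z (φ n)).1, ϑ (φ n), t (φ n)))
          (Wϑ ((z (φ n)).1, ϑ (φ n), t (φ n)))) ^ 2 := by
      have h1 := hrhs.eventually (gt_mem_nhds (lt_add_one _))
      have h2 := hbig.eventually (eventually_ge_atTop
        (1 + |(-κ x0 * ‖Wϑ (x0, 0, t0)‖ ^ 2 + 1)|))
      filter_upwards [h1, h2] with n hn1 hn2
      have h3 := le_abs_self (-κ x0 * ‖Wϑ (x0, 0, t0)‖ ^ 2 + 1)
      have h4 := abs_nonneg (-κ x0 * ‖Wϑ (x0, 0, t0)‖ ^ 2 + 1)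
      nlinarith
    obtain ⟨n, hn⟩ := hev1.exists
    set m := φ n with hmdef
    have hxm := hGK _ (hz m)
    have hperpn := hperp _ hxm _ (hϑ m) (t m)
    have hindn := hind _ hxm _ (hϑ m) (t m)
    have hlem := hle m
    have hgr := hgrn m
    have hne := hGv _ (hz m)
    set A := W ((z m).1, ϑ m, t m)
    set B := f2 (z m).1
    set C := f22 (z m).1
    set D2 := W2 ((z m).1, ϑ m, t m)
    set T := Wϑ ((z m).1, ϑ m, t m)
    set X := (z m).2 0 • (D2 + s m • T) + (z m).2 1 • C with hXdef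
    by_cases hv : (z m).2 0 = 0
    · -- the direction is `e₂`
      have hv1 : (z m).2 1 ≠ 0 := by
        intro h1
        apply hne
        ext i
        fin_cases i
        · exact hv
        · exact h1
      have hXC : X = (z m).2 1 • C := by rw [hXdef, hv]; module
      rw [hXC, hv, nor_smul] at hlem
      have h4 : (z m).2 1 • nor A B C ≠ 0 := smul_ne_zero hv1 (nor_ne_zero hindn)
      have h5 : 0 < ‖(z m).2 1 • nor A B C‖ ^ 2 := by positivity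
      linarith
    · have hXT : inner ℝ (nor A B X) T = (z m).2 0 * (s m * ‖T‖ ^ 2 + inner ℝ D2 T) := by
        rw [inner_nor_of_perp hperpn.1 hperpn.2.1, hXdef, inner_add_left, real_inner_smul_left,
          inner_add_left, real_inner_smul_left, real_inner_smul_left, real_inner_comm T C,
          hperpn.2.2, real_inner_self_eq_norm_sq]
        ring
      have hCS := abs_real_inner_le_norm (nor A B X) T
      have hCS2 : inner ℝ (nor A B X) T ^ 2 ≤ ‖nor A B X‖ ^ 2 * ‖T‖ ^ 2 := by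
        rw [← mul_pow, ← sq_abs (inner ℝ _ _)]
        exact pow_le_pow_left₀ (abs_nonneg _) hCS 2
      rw [hXT, mul_pow] at hCS2
      have hv2 : 0 < ((z m).2 0) ^ 2 := by positivity
      have h6 := mul_lt_mul_of_pos_left hn hv2
      have h7 : ‖nor A B X‖ ^ 2 * ‖T‖ ^ 2 ≤ -(κ (z m).1 * (z m).2 0 ^ 2) * ‖T‖ ^ 2 :=
        mul_le_mul_of_nonneg_right (by linarith) (by positivity)
      nlinarith

end Crest.Agent.R216.PSL
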