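import Crest.Agent.R216.PSLDefs

/-!
Row 216, PSL-4: `LL1` (after the speed is chosen, closeness suffices) and `LLind`.
-/

set_option autoImplicit false

noncomputable section

open scoped Manifold ContDiff Topology
open Set MeasureTheory Filter

namespace Crest.Agent.R216.PSL

namespace Lim1

/-! ### algebra of `nor` -/

lemma nor_add (A B X Y : P4) : nor A B (X + Y) = nor A B X + nor A B Y := by
  unfold nor
  simp only [inner_add_left]
  module

lemma nor_smul (A B X : P4) (c : ℝ) : nor A B (c • X) = c • nor A B X := by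
  unfold nor
  simp only [real_inner_smul_left]
  module

lemma inner_nor_A {A B : P4} (h : gr A B ≠ 0) (X : P4) : inner ℝ (nor A B X) A = 0 := by
  unfold nor
  simp only [inner_sub_left, real_inner_smul_left, inner_add_left]
  have hc : inner ℝ B A = inner ℝ A B := real_inner_comm _ _
  rw [hc]
  have h' : inner ℝ A A * inner ℝ B B - inner ℝ A B ^ 2 ≠ 0 := h
  unfold gr
  field_simp
  ring

lemma inner_nor_B {A B : P4} (h : gr A B ≠ 0) (X : P4) : inner ℝ (nor A B X) B = 0 := by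
  unfold nor
  simp only [inner_sub_left, real_inner_smul_left, inner_add_left]
  have h' : inner ℝ A A * inner ℝ B B - inner ℝ A B ^ 2 ≠ 0 := h
  unfold gr
  field_simp
  ring

/-- pairing of normal parts -/
lemma inner_nor_left {A B : P4} (Y X : P4) (hA : inner ℝ Y A = 0) (hB : inner ℝ Y B = 0) :
    inner ℝ Y (nor A B X) = inner ℝ Y X := by
  unfold nor
  simp only [inner_sub_right, real_inner_smul_right, inner_add_right, hA, hB]
  ring

lemma nor_of_perp {A B X : P4} (hA : inner ℝ X A = 0) (hB : inner ℝ X B = 0) :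
    nor A B X = X := by
  unfold nor
  rw [hA, hB]
  simp

lemma nor_quad (A B X11 X12 X22 : P4) (v : P2) :
    nor A B (quad X11 X12 X22 v) =
      (v 0 ^ 2) • nor A B X11 + (2 * v 0 * v 1) • nor A B X12 + (v 1 ^ 2) • nor A B X22 := by
  unfold quad
  rw [nor_add, nor_add, nor_smul, nor_smul, nor_smul]

lemma nor_ne_zero {A B X : P4} (h : LinearIndependent ℝ ![A, B, X]) : nor A B X ≠ 0 := by
  intro h0
  unfold nor at h0
  rw [sub_eq_zero] at h0
  obtain ⟨a, b, hX⟩ : ∃ a b : ℝ, X = a • A + b • B :=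
    ⟨_, _, h0.trans (by rw [smul_add, smul_smul, smul_smul])⟩
  rw [Fintype.linearIndependent_iff] at h
  have := h ![-a, -b, 1] (by
      simp only [Fin.sum_univ_three, Matrix.cons_val_zero, Matrix.cons_val_one,
        Matrix.cons_val_two, Matrix.head_cons, Matrix.tail_cons]
      rw [hX]
      module) 2
  simp at this

lemma gr_pos' {A B X : P4} (h : LinearIndependent ℝ ![A, B, X]) : 0 < gr A B := by
  by_contra hneg
  have h1 : inner ℝ (inner ℝ B B • A - inner ℝ A B • B) (inner ℝ B B • A - inner ℝ A B • B) =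
      inner ℝ B B * gr A B := by
    simp only [inner_sub_left, inner_sub_right, real_inner_smul_left, real_inner_smul_right, gr,
      real_inner_comm A B]
    ring
  have hB : (0 : ℝ) ≤ inner ℝ B B := real_inner_self_nonneg
  have h2 : inner ℝ B B • A - inner ℝ A B • B = (0 : P4) := by
    rw [← inner_self_eq_zero (𝕜 := ℝ)]
    refine le_antisymm ?_ real_inner_self_nonneg
    rw [h1]
    exact mul_nonpos_of_nonneg_of_nonpos hB (not_lt.1 hneg)
  rw [Fintype.linearIndependent_iff] at h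
  have h3 := h ![inner ℝ B B, -inner ℝ A B, 0] (by
      simp only [Fin.sum_univ_three, Matrix.cons_val_zero, Matrix.cons_val_one,
        Matrix.cons_val_two, Matrix.head_cons, Matrix.tail_cons]
      rw [neg_smul, zero_smul, add_zero, ← sub_eq_add_neg, h2]) 0
  have h4 : inner ℝ B B = 0 := by simpa using h3
  have hB0 : B = 0 := inner_self_eq_zero.1 h4
  have h5 := h ![0, 1, 0] (by
      simp only [Fin.sum_univ_three, Matrix.cons_val_zero, Matrix.cons_val_one,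
        Matrix.cons_val_two, Matrix.head_cons, Matrix.tail_cons]
      rw [hB0]; simp) 1
  simp at h5

/-- continuity of `gr` along sequences -/
lemma tendsto_gr {ι : Type*} {l : Filter ι} {A B : ι → P4} {A0 B0 : P4}
    (hA : Tendsto A l (𝓝 A0)) (hB : Tendsto B l (𝓝 B0)) :
    Tendsto (fun n => gr (A n) (B n)) l (𝓝 (gr A0 B0)) := by
  unfold gr
  exact ((hA.inner hA).mul (hB.inner hB)).sub ((hA.inner hB).pow 2)

/-- continuity of `nor` along sequences -/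
lemma tendsto_nor {ι : Type*} {l : Filter ι} {A B X : ι → P4} {A0 B0 X0 : P4}
    (hA : Tendsto A l (𝓝 A0)) (hB : Tendsto B l (𝓝 B0)) (hX : Tendsto X l (𝓝 X0))
    (h0 : gr A0 B0 ≠ 0) :
    Tendsto (fun n => nor (A n) (B n) (X n)) l (𝓝 (nor A0 B0 X0)) := by
  unfold nor
  have hg := (tendsto_gr hA hB).inv₀ h0
  have hAA := hA.inner (𝕜 := ℝ) hA
  have hBB := hB.inner (𝕜 := ℝ) hB
  have hAB := hA.inner (𝕜 := ℝ) hB
  have hXA := hX.inner (𝕜 := ℝ) hA
  have hXB := hX.inner (𝕜 := ℝ) hB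
  exact hX.sub (hg.smul ((((hXA.mul hBB).sub (hXB.mul hAB)).smul hA).add
    (((hXB.mul hAA).sub (hXA.mul hAB)).smul hB)))

lemma tendsto_of_close {E : Type*} [SeminormedAddCommGroup E] {ι : Type*} {l : Filter ι}
    {A B : ι → E} {δ : ι → ℝ} {b : E} (hδ : Tendsto δ l (𝓝 0)) (h : ∀ n, ‖A n - B n‖ ≤ δ n)
    (hB : Tendsto B l (𝓝 b)) : Tendsto A l (𝓝 b) := by
  have h1 : Tendsto (fun n => A n - B n) l (𝓝 0) := squeeze_zero_norm h hδ
  simpa using h1.add hB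

/-- the Gauss identity for the quadratic form -/
lemma gauss_quad {A B X11 X12 X22 : P4} {κ : ℝ} (v : P2)
    (hG : inner ℝ (nor A B X11) (nor A B X22) - inner ℝ (nor A B X12) (nor A B X12) = κ) :
    inner ℝ (nor A B (quad X11 X12 X22 v)) (nor A B X22) =
      κ * v 0 ^ 2 + ‖nor A B (v 0 • X12 + v 1 • X22)‖ ^ 2 := by
  rw [nor_quad, nor_add, nor_smul, nor_smul, ← hG, ← real_inner_self_eq_norm_sq]
  simp only [inner_add_left, inner_add_right, real_inner_smul_left, real_inner_smul_right,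
    real_inner_comm (nor A B X22) (nor A B X12)]
  ring

end Lim1

open Lim1

/-- LL1': the perturbed vectors stay independent. -/
theorem LLind {K : Set P2} (hK : IsCompact K)
    {f2 f22 : P2 → P4} (hf2 : ContinuousOn f2 K) (hf22 : ContinuousOn f22 K)
    {w : P2 × ℝ → P4} (hw : ContinuousOn w (K ×ˢ univ))
    (hper : ∀ x ∈ K, ∀ t, w (x, t + 2 * Real.pi) = w (x, t))
    (hind : ∀ x ∈ K, ∀ t, LinearIndependent ℝ ![w (x, t), f2 x, f22 x]) :
    ∃ η : ℝ, 0 < η ∧ ∀ x ∈ K, ∀ t, ∀ A B X22 : P4,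
      ‖A - w (x, t)‖ ≤ η → ‖B - f2 x‖ ≤ η → ‖X22 - f22 x‖ ≤ η →
      LinearIndependent ℝ ![A, B, X22] ∧ nor A B X22 ≠ 0 := by
  set U : Set (P4 × P4 × P4) := {p | LinearIndependent ℝ ![p.1, p.2.1, p.2.2]} with hU
  have hUo : IsOpen U := by
    have h1 : IsOpen {f : Fin 3 → P4 | LinearIndependent ℝ f} := isOpen_setOfPred_linearIndependent
    refine h1.preimage (f := fun p : P4 × P4 × P4 => ![p.1, p.2.1, p.2.2]) ?_
    refine continuous_pi fun i => ?_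
    fin_cases i
    · exact continuous_fst
    · exact continuous_fst.comp continuous_snd
    · exact continuous_snd.comp continuous_snd
  set S : Set (P4 × P4 × P4) :=
    (fun z : P2 × ℝ => (w z, f2 z.1, f22 z.1)) '' (K ×ˢ Icc 0 (2 * Real.pi)) with hS
  have hScomp : IsCompact S := by
    refine (hK.prod isCompact_Icc).image_of_continuousOn ?_
    have hmaps : MapsTo (Prod.fst : P2 × ℝ → P2) (K ×ˢ Icc 0 (2 * Real.pi)) K := fun z hz => hz.1
    exact (hw.mono (prod_mono subset_rfl (subset_univ _))).prodMk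
      ((hf2.comp continuousOn_fst hmaps).prodMk (hf22.comp continuousOn_fst hmaps))
  have hSU : S ⊆ U := by
    rintro _ ⟨z, hz, rfl⟩
    exact hind z.1 hz.1 z.2
  obtain ⟨δ, hδ, hδU⟩ := hScomp.exists_cthickening_subset_open hUo hSU
  refine ⟨δ, hδ, fun x hx t A B X22 hA hB hX => ?_⟩
  have hli : LinearIndependent ℝ ![A, B, X22] := by
    obtain ⟨s, hs, hst⟩ := (show Function.Periodic (fun t => w (x, t)) (2 * Real.pi) from
      fun t => hper x hx t).exists_mem_Ico₀ Real.two_pi_pos t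
    have hmem : (A, B, X22) ∈ Metric.cthickening δ S := by
      refine Metric.mem_cthickening_of_dist_le (A, B, X22) (w (x, s), f2 x, f22 x) δ S
        ⟨(x, s), ⟨hx, hs.1, hs.2.le⟩, rfl⟩ ?_
      rw [Prod.dist_eq, Prod.dist_eq]
      simp only [dist_eq_norm]
      have hA' : ‖A - w (x, s)‖ ≤ δ := by rw [← hst]; exact hA
      exact max_le hA' (max_le hB hX)
    have h3 := hδU hmem
    rw [hU, mem_setOf_eq] at h3
    exact h3
  exact ⟨hli, nor_ne_zero hli⟩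

/-- LL1: after `L` is chosen, closeness `η` suffices. -/
theorem LL1 {K : Set P2} (hK : IsCompact K) {G : Set (P2 × P2)} (hG : IsCompact G)
    (hGK : ∀ z ∈ G, z.1 ∈ K)
    {f2 f22 : P2 → P4} (hf2 : ContinuousOn f2 K) (hf22 : ContinuousOn f22 K)
    {w w2 wt : P2 × ℝ → P4} (hw : ContinuousOn w (K ×ˢ univ)) (hw2 : ContinuousOn w2 (K ×ˢ univ))
    (hwt : ContinuousOn wt (K ×ˢ univ))
    (hper : ∀ x ∈ K, ∀ t, w (x, t + 2 * Real.pi) = w (x, t) ∧
      w2 (x, t + 2 * Real.pi) = w2 (x, t) ∧ wt (x, t + 2 * Real.pi) = wt (x, t))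
    {κ : P2 → ℝ} (hκ : ContinuousOn κ K)
    (hind : ∀ x ∈ K, ∀ t, LinearIndependent ℝ ![w (x, t), f2 x, f22 x])
    (hperp : ∀ x ∈ K, ∀ t, inner ℝ (wt (x, t)) (w (x, t)) = 0 ∧
      inner ℝ (wt (x, t)) (f2 x) = 0 ∧ inner ℝ (wt (x, t)) (f22 x) = 0)
    (hnd : ∀ z ∈ G, ∀ t, (z.2 0 = 0 ∨ wt (z.1, t) = 0) →
      0 < κ z.1 * (z.2 0) ^ 2 +
        ‖nor (w (z.1, t)) (f2 z.1) (z.2 0 • w2 (z.1, t) + z.2 1 • f22 z.1)‖ ^ 2) :
    ∃ η : ℝ, 0 < η ∧ ∀ z ∈ G, ∀ t, ∀ A B X11 X12 X22 : P4, ∀ ε, 0 < ε → ε < η →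
      ‖A - w (z.1, t)‖ ≤ η → ‖B - f2 z.1‖ ≤ η → ‖X12 - w2 (z.1, t)‖ ≤ η →
      ‖X22 - f22 z.1‖ ≤ η → ‖ε • X11 - wt (z.1, t)‖ ≤ η →
      inner ℝ (nor A B X11) (nor A B X22) - inner ℝ (nor A B X12) (nor A B X12) = κ z.1 →
      ∀ c : ℝ, 0 ≤ c → nor A B (quad X11 X12 X22 z.2) ≠ -(c • nor A B X22) := by
  by_contra hcon
  push Not at hcon
  have hex : ∀ n : ℕ, ∃ z ∈ G, ∃ t ∈ Icc 0 (2 * Real.pi), ∃ A B X11 X12 X22 : P4, ∃ ε : ℝ,
      0 < ε ∧ ε < 1 / ((n : ℝ) + 1) ∧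
      ‖A - w (z.1, t)‖ ≤ 1 / ((n : ℝ) + 1) ∧ ‖B - f2 z.1‖ ≤ 1 / ((n : ℝ) + 1) ∧
      ‖X12 - w2 (z.1, t)‖ ≤ 1 / ((n : ℝ) + 1) ∧ ‖X22 - f22 z.1‖ ≤ 1 / ((n : ℝ) + 1) ∧
      ‖ε • X11 - wt (z.1, t)‖ ≤ 1 / ((n : ℝ) + 1) ∧
      inner ℝ (nor A B X11) (nor A B X22) - inner ℝ (nor A B X12) (nor A B X12) = κ z.1 ∧
      ∃ c : ℝ, 0 ≤ c ∧ nor A B (quad X11 X12 X22 z.2) = -(c • nor A B X22) := by
    intro n
    obtain ⟨z, hz, t, A, B, X11, X12, X22, ε, h1, h2, h3, h4, h5, h6, h7, h8, c, h9, h10⟩ :=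
      hcon (1 / ((n : ℝ) + 1)) (by positivity)
    obtain ⟨s, hs, hst⟩ := (show Function.Periodic
      (fun t => (w (z.1, t), w2 (z.1, t), wt (z.1, t))) (2 * Real.pi) from fun t => by
        obtain ⟨a, b, c⟩ := hper z.1 (hGK z hz) t
        simp only [a, b, c]).exists_mem_Ico₀ Real.two_pi_pos t
    simp only [Prod.mk.injEq] at hst
    obtain ⟨e1, e2, e3⟩ := hst
    rw [e1] at h3
    rw [e2] at h5
    rw [e3] at h7
    exact ⟨z, hz, s, ⟨hs.1, hs.2.le⟩, A, B, X11, X12, X22, ε, h1, h2, h3, h4, h5, h6, h7, h8, c,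
      h9, h10⟩
  choose z hz t ht A B X11 X12 X22 ε hε0 hε1 hA hB h12 h22 h11 hgs c hc0 hc using hex
  obtain ⟨p, hp, φ, hφ, hlim⟩ := (hG.prod (isCompact_Icc (a := (0 : ℝ)) (b := 2 * Real.pi))).tendsto_subseq
    (x := fun n => (z n, t n)) (fun n => ⟨hz n, ht n⟩)
  have hzl : Tendsto (fun n => z (φ n)) atTop (𝓝 p.1) :=
    (continuous_fst.tendsto p).comp hlim
  have htl : Tendsto (fun n => t (φ n)) atTop (𝓝 p.2) :=
    (continuous_snd.tendsto p).comp hlim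
  have hxl : Tendsto (fun n => (z (φ n)).1) atTop (𝓝 p.1.1) :=
    (continuous_fst.tendsto p.1).comp hzl
  have hvl : Tendsto (fun n => (z (φ n)).2) atTop (𝓝 p.1.2) :=
    (continuous_snd.tendsto p.1).comp hzl
  have hv0 : Tendsto (fun n => (z (φ n)).2 0) atTop (𝓝 (p.1.2 0)) :=
    ((EuclideanSpace.proj (𝕜 := ℝ) (0 : Fin 2)).continuous.tendsto p.1.2).comp hvl
  have hv1 : Tendsto (fun n => (z (φ n)).2 1) atTop (𝓝 (p.1.2 1)) :=
    ((EuclideanSpace.proj (𝕜 := ℝ) (1 : Fin 2)).continuous.tendsto p.1.2).comp hvl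
  have hxK : ∀ n, (z (φ n)).1 ∈ K := fun n => hGK _ (hz _)
  have hpK : p.1.1 ∈ K := hGK _ hp.1
  have hxlK : Tendsto (fun n => (z (φ n)).1) atTop (𝓝[K] p.1.1) :=
    tendsto_nhdsWithin_iff.2 ⟨hxl, Eventually.of_forall hxK⟩
  have hxtl : Tendsto (fun n => ((z (φ n)).1, t (φ n))) atTop (𝓝[K ×ˢ univ] (p.1.1, p.2)) :=
    tendsto_nhdsWithin_iff.2 ⟨hxl.prodMk_nhds htl, Eventually.of_forall fun n => ⟨hxK n, mem_univ _⟩⟩
  have hδ : Tendsto (fun n => 1 / (((φ n : ℕ) : ℝ) + 1)) atTop (𝓝 0) :=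
    tendsto_one_div_add_atTop_nhds_zero_nat.comp hφ.tendsto_atTop
  have hAl : Tendsto (fun n => A (φ n)) atTop (𝓝 (w (p.1.1, p.2))) :=
    tendsto_of_close hδ (fun n => hA (φ n)) ((hw (p.1.1, p.2) ⟨hpK, mem_univ _⟩).tendsto.comp hxtl)
  have hBl : Tendsto (fun n => B (φ n)) atTop (𝓝 (f2 p.1.1)) :=
    tendsto_of_close hδ (fun n => hB (φ n)) ((hf2 p.1.1 hpK).tendsto.comp hxlK)
  have h12l : Tendsto (fun n => X12 (φ n)) atTop (𝓝 (w2 (p.1.1, p.2))) :=
    tendsto_of_close hδ (fun n => h12 (φ n)) ((hw2 (p.1.1, p.2) ⟨hpK, mem_univ _⟩).tendsto.comp hxtl)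
  have h22l : Tendsto (fun n => X22 (φ n)) atTop (𝓝 (f22 p.1.1)) :=
    tendsto_of_close hδ (fun n => h22 (φ n)) ((hf22 p.1.1 hpK).tendsto.comp hxlK)
  have h11l : Tendsto (fun n => ε (φ n) • X11 (φ n)) atTop (𝓝 (wt (p.1.1, p.2))) :=
    tendsto_of_close hδ (fun n => h11 (φ n)) ((hwt (p.1.1, p.2) ⟨hpK, mem_univ _⟩).tendsto.comp hxtl)
  have hκl : Tendsto (fun n => κ (z (φ n)).1) atTop (𝓝 (κ p.1.1)) :=
    (hκ p.1.1 hpK).tendsto.comp hxlK
  have hεl : Tendsto (fun n => ε (φ n)) atTop (𝓝 0) :=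
    squeeze_zero (fun n => (hε0 _).le) (fun n => (hε1 _).le) hδ
  have hli := hind p.1.1 hpK p.2
  have hg0 : gr (w (p.1.1, p.2)) (f2 p.1.1) ≠ 0 := (gr_pos' hli).ne'
  obtain ⟨hp1, hp2, hp3⟩ := hperp p.1.1 hpK p.2
  -- the limit of the Gauss identity
  have hlim1 : κ p.1.1 * (p.1.2 0) ^ 2 + ‖nor (w (p.1.1, p.2)) (f2 p.1.1)
      (p.1.2 0 • w2 (p.1.1, p.2) + p.1.2 1 • f22 p.1.1)‖ ^ 2 ≤ 0 := by
    have h1 : Tendsto (fun n => κ (z (φ n)).1 * ((z (φ n)).2 0) ^ 2 +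
        ‖nor (A (φ n)) (B (φ n)) ((z (φ n)).2 0 • X12 (φ n) + (z (φ n)).2 1 • X22 (φ n))‖ ^ 2)
        atTop (𝓝 (κ p.1.1 * (p.1.2 0) ^ 2 + ‖nor (w (p.1.1, p.2)) (f2 p.1.1)
          (p.1.2 0 • w2 (p.1.1, p.2) + p.1.2 1 • f22 p.1.1)‖ ^ 2)) :=
      (hκl.mul (hv0.pow 2)).add
        ((tendsto_nor hAl hBl ((hv0.smul h12l).add (hv1.smul h22l)) hg0).norm.pow 2)
    refine le_of_tendsto h1 (Eventually.of_forall fun n => ?_)
    have h2 := gauss_quad (z (φ n)).2 (hgs (φ n))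
    rw [hc (φ n), inner_neg_left, real_inner_smul_left] at h2
    have h3 : 0 ≤ inner ℝ (nor (A (φ n)) (B (φ n)) (X22 (φ n)))
      (nor (A (φ n)) (B (φ n)) (X22 (φ n))) := real_inner_self_nonneg
    have h4 := mul_nonneg (hc0 (φ n)) h3
    rw [← h2]
    linarith
  -- the test vectors
  set T : ℕ → P4 := fun n =>
    nor (A (φ n)) (B (φ n)) (wt (p.1.1, p.2)) -
      (inner ℝ (nor (A (φ n)) (B (φ n)) (wt (p.1.1, p.2))) (nor (A (φ n)) (B (φ n)) (X22 (φ n))) /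
        inner ℝ (nor (A (φ n)) (B (φ n)) (X22 (φ n))) (nor (A (φ n)) (B (φ n)) (X22 (φ n)))) •
      nor (A (φ n)) (B (φ n)) (X22 (φ n)) with hT
  have hn0 : nor (w (p.1.1, p.2)) (f2 p.1.1) (f22 p.1.1) ≠ 0 := nor_ne_zero hli
  have hTl : Tendsto T atTop (𝓝 (wt (p.1.1, p.2))) := by
    have h1 := tendsto_nor hAl hBl (tendsto_const_nhds (x := wt (p.1.1, p.2))) hg0
    have h2 := tendsto_nor hAl hBl h22l hg0
    have h3 := h1.sub (((h1.inner (𝕜 := ℝ) h2).div (h2.inner (𝕜 := ℝ) h2)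
      (inner_self_ne_zero.2 hn0)).smul h2)
    rw [nor_of_perp hp1 hp2, inner_nor_left _ _ hp1 hp2, hp3, zero_div, zero_smul, sub_zero] at h3
    exact h3
  have hprod : Tendsto (fun n => (z (φ n)).2 0 ^ 2 * inner ℝ (ε (φ n) • X11 (φ n)) (T n) +
      ε (φ n) * (2 * (z (φ n)).2 0 * (z (φ n)).2 1 * inner ℝ (X12 (φ n)) (T n))) atTop
      (𝓝 ((p.1.2 0) ^ 2 * inner ℝ (wt (p.1.1, p.2)) (wt (p.1.1, p.2)) +
        0 * (2 * p.1.2 0 * p.1.2 1 * inner ℝ (w2 (p.1.1, p.2)) (wt (p.1.1, p.2))))) :=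
    ((hv0.pow 2).mul (h11l.inner hTl)).add
      (hεl.mul (((hv0.const_mul 2).mul hv1).mul (h12l.inner hTl)))
  have hzero : ∀ᶠ n in atTop, (z (φ n)).2 0 ^ 2 * inner ℝ (ε (φ n) • X11 (φ n)) (T n) +
      ε (φ n) * (2 * (z (φ n)).2 0 * (z (φ n)).2 1 * inner ℝ (X12 (φ n)) (T n)) = 0 := by
    have hgr := (tendsto_gr hAl hBl).eventually_ne hg0
    have hnor := ((tendsto_nor hAl hBl h22l hg0)).eventually_ne hn0
    filter_upwards [hgr, hnor] with n hn hn'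
    have hTA : inner ℝ (T n) (A (φ n)) = 0 := by
      simp only [hT, inner_sub_left, real_inner_smul_left, inner_nor_A hn]
      ring
    have hTB : inner ℝ (T n) (B (φ n)) = 0 := by
      simp only [hT, inner_sub_left, real_inner_smul_left, inner_nor_B hn]
      ring
    have hTn : inner ℝ (T n) (nor (A (φ n)) (B (φ n)) (X22 (φ n))) = 0 := by
      simp only [hT, inner_sub_left, real_inner_smul_left]
      rw [div_mul_cancel₀ _ (inner_self_ne_zero.2 hn'), sub_self]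
    have hq : inner ℝ (T n) (nor (A (φ n)) (B (φ n)) (quad (X11 (φ n)) (X12 (φ n)) (X22 (φ n))
        (z (φ n)).2)) = 0 := by
      rw [hc (φ n), inner_neg_right, real_inner_smul_right, hTn]
      simp
    rw [inner_nor_left _ _ hTA hTB] at hq hTn
    unfold quad at hq
    simp only [inner_add_right, real_inner_smul_right, hTn, mul_zero, add_zero] at hq
    rw [real_inner_smul_left, real_inner_comm (T n) (X11 (φ n)), real_inner_comm (T n) (X12 (φ n))]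
    have : (z (φ n)).2 0 ^ 2 * (ε (φ n) * inner ℝ (T n) (X11 (φ n))) +
      ε (φ n) * (2 * (z (φ n)).2 0 * (z (φ n)).2 1 * inner ℝ (T n) (X12 (φ n))) =
      ε (φ n) * ((z (φ n)).2 0 ^ 2 * inner ℝ (T n) (X11 (φ n)) +
        2 * (z (φ n)).2 0 * (z (φ n)).2 1 * inner ℝ (T n) (X12 (φ n))) := by ring
    rw [this, hq, mul_zero]
  have hfin : (p.1.2 0) ^ 2 * inner ℝ (wt (p.1.1, p.2)) (wt (p.1.1, p.2)) +
      0 * (2 * p.1.2 0 * p.1.2 1 * inner ℝ (w2 (p.1.1, p.2)) (wt (p.1.1, p.2))) = 0 :=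
    tendsto_nhds_unique_of_eventuallyEq hprod tendsto_const_nhds hzero
  have hor : p.1.2 0 = 0 ∨ wt (p.1.1, p.2) = 0 := by
    rw [zero_mul, add_zero, mul_eq_zero] at hfin
    rcases hfin with h | h
    · exact Or.inl (pow_eq_zero_iff (two_ne_zero)|>.1 h)
    · exact Or.inr (inner_self_eq_zero.1 h)
  exact absurd (hnd p.1 hp.1 p.2 hor) (not_lt.2 hlim1)

end Crest.Agent.R216.PSL
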