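import Crest.Agent.R216.PSLDefs

/-!
Row 216, PSL: lemma `LL2` of the frozen interface `PSLIface.lean` (helper107).
One crossing point with two directions, in the open support of the stage.
-/

set_option autoImplicit false

noncomputable section

open scoped Manifold ContDiff Topology
open Set MeasureTheory

namespace Crest.Agent.R216.PSL
namespace LL2P

lemma nor_add (A B X Y : P4) : nor A B (X + Y) = nor A B X + nor A B Y := by
  simp only [nor, inner_add_left]; module

lemma nor_smul (A B X : P4) (c : ℝ) : nor A B (c • X) = c • nor A B X := by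
  simp only [nor, real_inner_smul_left]; module

lemma inner_nor_of_perp {A B X Y : P4} (h1 : inner ℝ Y A = 0) (h2 : inner ℝ Y B = 0) :
    inner ℝ Y (nor A B X) = inner ℝ Y X := by
  simp only [nor, inner_sub_right, inner_smul_right, inner_add_right, h1, h2]; ring

lemma nor_of_perp {A B X : P4} (h1 : inner ℝ X A = 0) (h2 : inner ℝ X B = 0) :
    nor A B X = X := by
  simp [nor, h1, h2]

lemma gr_pos3 {A B C : P4} (h : LinearIndependent ℝ ![A, B, C]) : 0 < gr A B := by
  rw [Fintype.linearIndependent_iff] at h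
  have hB : B ≠ 0 := by
    intro hB
    have := h ![0, 1, 0] (by simp [Fin.sum_univ_three, hB]) 1
    simp at this
  have hBB : 0 < inner ℝ B B := real_inner_self_pos.2 hB
  have hZ : (inner ℝ B B : ℝ) • A - (inner ℝ A B : ℝ) • B ≠ 0 := by
    intro hZ
    have := h ![inner ℝ B B, -inner ℝ A B, 0] (by
      simp only [Fin.sum_univ_three, Matrix.cons_val_zero, Matrix.cons_val_one,
        Matrix.cons_val_two, Matrix.head_cons, Matrix.tail_cons, zero_smul, add_zero]
      simpa [neg_smul, sub_eq_add_neg] using hZ) 0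
    simp only [Matrix.cons_val_zero] at this
    exact hBB.ne' this
  have h2 := real_inner_self_pos.2 hZ
  have h3 : inner ℝ ((inner ℝ B B : ℝ) • A - (inner ℝ A B : ℝ) • B)
      ((inner ℝ B B : ℝ) • A - (inner ℝ A B : ℝ) • B) = inner ℝ B B * gr A B := by
    simp only [gr, inner_sub_left, inner_sub_right, real_inner_smul_left, real_inner_smul_right,
      real_inner_comm A B]
    ring
  rw [h3] at h2
  exact (pos_iff_pos_of_mul_pos h2).1 hBB

lemma nor_ne_zero {A B C : P4} (h : LinearIndependent ℝ ![A, B, C]) : nor A B C ≠ 0 := by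
  rw [Fintype.linearIndependent_iff] at h
  intro h0
  have := h ![-((gr A B)⁻¹ * (inner ℝ C A * inner ℝ B B - inner ℝ C B * inner ℝ A B)),
    -((gr A B)⁻¹ * (inner ℝ C B * inner ℝ A A - inner ℝ C A * inner ℝ A B)), 1] (by
      simp only [Fin.sum_univ_three, Matrix.cons_val_zero, Matrix.cons_val_one,
        Matrix.cons_val_two, Matrix.head_cons, Matrix.tail_cons]
      rw [← h0, nor]
      module) 2
  simp at this

lemma cinner {α : Type*} [TopologicalSpace α] {a b : α → P4} {z0 : α}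
    (ha : ContinuousAt a z0) (hb : ContinuousAt b z0) :
    ContinuousAt (fun z => inner ℝ (a z) (b z)) z0 := ContinuousAt.inner (𝕜 := ℝ) ha hb

lemma continuousAt_nor {α : Type*} [TopologicalSpace α] {a b x : α → P4} {z0 : α}
    (ha : ContinuousAt a z0) (hb : ContinuousAt b z0) (hx : ContinuousAt x z0)
    (h : gr (a z0) (b z0) ≠ 0) : ContinuousAt (fun z => nor (a z) (b z) (x z)) z0 := by
  have hg : ContinuousAt (fun z => gr (a z) (b z)) z0 :=
    ((cinner ha ha).mul (cinner hb hb)).sub ((cinner ha hb).pow 2)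
  have hg' : ContinuousAt (fun z => (gr (a z) (b z))⁻¹) z0 := hg.inv₀ h
  have h1 : ContinuousAt (fun z => inner ℝ (x z) (a z) * inner ℝ (b z) (b z) -
      inner ℝ (x z) (b z) * inner ℝ (a z) (b z)) z0 :=
    ((cinner hx ha).mul (cinner hb hb)).sub ((cinner hx hb).mul (cinner ha hb))
  have h2 : ContinuousAt (fun z => inner ℝ (x z) (b z) * inner ℝ (a z) (a z) -
      inner ℝ (x z) (a z) * inner ℝ (a z) (b z)) z0 :=
    ((cinner hx hb).mul (cinner ha ha)).sub ((cinner hx ha).mul (cinner ha hb))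
  exact ContinuousAt.sub hx (ContinuousAt.smul hg' (ContinuousAt.add (ContinuousAt.smul h1 ha)
    (ContinuousAt.smul h2 hb)))

/-- the parameter space: `A, B, Y = ε X11, X12, X22, ε` -/
abbrev Z := P4 × P4 × P4 × P4 × P4 × ℝ

def NY (z : Z) : P4 := nor z.1 z.2.1 z.2.2.1
def N12 (z : Z) : P4 := nor z.1 z.2.1 z.2.2.2.1
def N22 (z : Z) : P4 := nor z.1 z.2.1 z.2.2.2.2.1

def Hq (p q : P2) (z : Z) : P4 :=
  (p 0 * q 0) • NY z + (z.2.2.2.2.2 * (p 0 * q 1 + p 1 * q 0)) • N12 z
    + (z.2.2.2.2.2 * (p 1 * q 1)) • N22 z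

lemma continuousAt_NY {z : Z} (h : gr z.1 z.2.1 ≠ 0) : ContinuousAt NY z :=
  continuousAt_nor (by fun_prop) (by fun_prop) (by fun_prop) h

lemma continuousAt_N12 {z : Z} (h : gr z.1 z.2.1 ≠ 0) : ContinuousAt N12 z :=
  continuousAt_nor (by fun_prop) (by fun_prop) (by fun_prop) h

lemma continuousAt_N22 {z : Z} (h : gr z.1 z.2.1 ≠ 0) : ContinuousAt N22 z :=
  continuousAt_nor (by fun_prop) (by fun_prop) (by fun_prop) h

lemma continuousAt_Hq (p q : P2) {z : Z} (h : gr z.1 z.2.1 ≠ 0) : ContinuousAt (Hq p q) z := by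
  have h1 := continuousAt_NY h
  have h2 := continuousAt_N12 h
  have h3 := continuousAt_N22 h
  have he : ContinuousAt (fun z : Z => z.2.2.2.2.2) z := by fun_prop
  have k1 : ContinuousAt (fun z : Z => z.2.2.2.2.2 * (p 0 * q 1 + p 1 * q 0)) z :=
    he.mul continuousAt_const
  have k2 : ContinuousAt (fun z : Z => z.2.2.2.2.2 * (p 1 * q 1)) z :=
    he.mul continuousAt_const
  have k0 : ContinuousAt (fun _ : Z => (p 0 * q 0 : ℝ)) z := continuousAt_const
  exact ContinuousAt.add (ContinuousAt.add (ContinuousAt.smul k0 h1)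
    (ContinuousAt.smul k1 h2)) (ContinuousAt.smul k2 h3)

def gb (κ : ℝ) (v v' : P2) (z : Z) : ℝ :=
  z.2.2.2.2.2 ^ 2 * (κ * (v 0 * v' 1 - v 1 * v' 0) ^ 2) *
      inner ℝ (Hq v' v' z) (Hq v' v' z) + inner ℝ (Hq v v' z) (Hq v' v' z) ^ 2
def gc (z : Z) : ℝ := inner ℝ (NY z + N22 z) (N22 z)
def gd (v : P2) (z : Z) : ℝ := inner ℝ (NY z + N22 z) (Hq v v z)

/-- the four open conditions -/
def Good (κ : ℝ) (v v' : P2) (z : Z) : Prop :=
  0 < gb κ v v' z ∧ 0 < gc z ∧ 0 < gd v z ∧ 0 < gd v' z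

lemma good_nhds {κ : ℝ} {v v' : P2} {z : Z} (hg : gr z.1 z.2.1 ≠ 0) (h : Good κ v v' z) :
    ∀ᶠ z' in 𝓝 z, Good κ v v' z' := by
  have h1 := continuousAt_NY hg
  have h3 := continuousAt_N22 hg
  have he : ContinuousAt (fun z : Z => z.2.2.2.2.2) z := by fun_prop
  have hvv := continuousAt_Hq v v hg
  have hvw := continuousAt_Hq v v' hg
  have hww := continuousAt_Hq v' v' hg
  have hb : ContinuousAt (gb κ v v') z :=
    (((he.pow 2).mul continuousAt_const).mul (cinner hww hww)).add ((cinner hvw hww).pow 2)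
  have hc : ContinuousAt gc z :=
    cinner (h1.add h3) h3
  have hd : ContinuousAt (gd v) z :=
    cinner (h1.add h3) hvv
  have hee : ContinuousAt (gd v') z :=
    cinner (h1.add h3) hww
  filter_upwards [hb.eventually (lt_mem_nhds h.1), hc.eventually (lt_mem_nhds h.2.1),
    hd.eventually (lt_mem_nhds h.2.2.1), hee.eventually (lt_mem_nhds h.2.2.2)] with y a1 a2 a3 a4
  exact ⟨a1, a2, a3, a4⟩

lemma good_base {κ : ℝ} {v v' : P2} (hv : v 0 ≠ 0) (hv' : v' 0 ≠ 0) {A B C Y X : P4}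
    (hind : LinearIndependent ℝ ![A, B, C])
    (hp : inner ℝ Y A = 0 ∧ inner ℝ Y B = 0 ∧ inner ℝ Y C = 0) (hY : Y ≠ 0) :
    Good κ v v' (A, B, Y, X, C, 0) := by
  have hNY : NY (A, B, Y, X, C, 0) = Y := nor_of_perp hp.1 hp.2.1
  have hYY : 0 < inner ℝ Y Y := real_inner_self_pos.2 hY
  have hYm : inner ℝ Y (N22 (A, B, Y, X, C, 0)) = 0 := by
    rw [N22, inner_nor_of_perp hp.1 hp.2.1, hp.2.2]
  have hm : N22 (A, B, Y, X, C, 0) ≠ 0 := nor_ne_zero hind
  have hmm := real_inner_self_pos.2 hm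
  have hH : ∀ p q : P2, Hq p q (A, B, Y, X, C, 0) = (p 0 * q 0) • Y := by
    intro p q
    simp [Hq, hNY]
  refine ⟨?_, ?_, ?_, ?_⟩
  · simp only [gb, hH, real_inner_smul_left, real_inner_smul_right]
    have : 0 < ((v 0 * v' 0) * ((v' 0 * v' 0) * inner ℝ Y Y)) ^ 2 := by positivity
    nlinarith [this]
  · rw [gc, hNY, inner_add_left, hYm]; linarith
  · rw [gd, hNY, hH, inner_add_left, real_inner_smul_right, real_inner_smul_right,
      real_inner_comm Y (N22 _), hYm]
    have : 0 < v 0 * v 0 := mul_self_pos.2 hv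
    nlinarith [mul_pos this hYY]
  · rw [gd, hNY, hH, inner_add_left, real_inner_smul_right, real_inner_smul_right,
      real_inner_comm Y (N22 _), hYm]
    have : 0 < v' 0 * v' 0 := mul_self_pos.2 hv'
    nlinarith [mul_pos this hYY]

/-- Gauss identity for a symmetric bilinear form with values in an inner product space -/
lemma gauss_bilin (a b c : P4) (κ : ℝ) (hκ : inner ℝ a c - inner ℝ b b = κ) (p q : P2) :
    inner ℝ ((p 0 * p 0) • a + (p 0 * p 1 + p 1 * p 0) • b + (p 1 * p 1) • c)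
      ((q 0 * q 0) • a + (q 0 * q 1 + q 1 * q 0) • b + (q 1 * q 1) • c) =
    κ * (p 0 * q 1 - p 1 * q 0) ^ 2 +
      inner ℝ ((p 0 * q 0) • a + (p 0 * q 1 + p 1 * q 0) • b + (p 1 * q 1) • c)
        ((p 0 * q 0) • a + (p 0 * q 1 + p 1 * q 0) • b + (p 1 * q 1) • c) := by
  subst hκ
  simp only [inner_add_left, inner_add_right, real_inner_smul_left, real_inner_smul_right]
  rw [real_inner_comm b a, real_inner_comm c a, real_inner_comm c b]
  ring

lemma good_final {κ : ℝ} {v v' : P2} {A B X11 X12 X22 : P4} {ε : ℝ} (hε : 0 < ε)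
    (hg : Good κ v v' (A, B, ε • X11, X12, X22, ε))
    (hG : inner ℝ (nor A B X11) (nor A B X22) - inner ℝ (nor A B X12) (nor A B X12) = κ)
    {h : P2 → P2 → P4}
    (hh : ∀ p q : P2, h p q = nor A B ((p 0 * q 0) • X11 + (p 0 * q 1 + p 1 * q 0) • X12
          + (p 1 * q 1) • X22)) :
    Q2 h v v' ∧ Q3 h (‖nor A B X22‖⁻¹ • nor A B X22) v v' := by
  have hh' : ∀ p q : P2, h p q = (p 0 * q 0) • nor A B X11 +
      (p 0 * q 1 + p 1 * q 0) • nor A B X12 + (p 1 * q 1) • nor A B X22 := by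
    intro p q
    rw [hh, nor_add, nor_add, nor_smul, nor_smul, nor_smul]
  have hH : ∀ p q : P2, Hq p q (A, B, ε • X11, X12, X22, ε) = ε • h p q := by
    intro p q
    rw [hh', Hq, NY, N12, N22, nor_smul]
    module
  have hb := hg.1
  have hc := hg.2.1
  have hd := hg.2.2.1
  have he := hg.2.2.2
  rw [gb] at hb
  rw [gc] at hc
  rw [gd] at hd he
  rw [hH, hH] at hb
  rw [hH] at hd he
  simp only [real_inner_smul_left, real_inner_smul_right] at hb
  have hgauss : inner ℝ (h v v) (h v' v') = κ * (v 0 * v' 1 - v 1 * v' 0) ^ 2 +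
      inner ℝ (h v v') (h v v') := by
    rw [hh', hh', hh']
    exact gauss_bilin _ _ _ κ hG v v'
  constructor
  · rw [Q2, hgauss]
    have h4 : 0 < ε ^ 4 := by positivity
    have : 0 < ε ^ 4 * (κ * (v 0 * v' 1 - v 1 * v' 0) ^ 2 * inner ℝ (h v' v') (h v' v') +
        inner ℝ (h v v') (h v' v') ^ 2) := by
      calc (0:ℝ) < _ := hb
        _ = _ := by ring
    have := pos_of_mul_pos_right this h4.le
    nlinarith [this]
  · refine ⟨NY (A, B, ε • X11, X12, X22, ε) + N22 (A, B, ε • X11, X12, X22, ε), ?_, ?_, ?_⟩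
    · have hne : nor A B X22 ≠ 0 := by
        intro h0
        have : N22 (A, B, ε • X11, X12, X22, ε) = 0 := h0
        rw [this, inner_zero_right] at hc
        exact lt_irrefl _ hc
      rw [real_inner_smul_right]
      exact mul_pos (inv_pos.2 (norm_pos_iff.2 hne)) hc
    · rw [real_inner_smul_right] at hd; exact pos_of_mul_pos_right hd hε.le
    · rw [real_inner_smul_right] at he; exact pos_of_mul_pos_right he hε.le

end LL2P

open LL2P in
/-- LL2: one crossing point with two directions. -/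
theorem LL2 {f2 f22 : P4} {w w2 wt : ℝ → P4} (hw : Continuous w) (hw2 : Continuous w2)
    (hwt : Continuous wt)
    (hper : ∀ t, w (t + 2 * Real.pi) = w t ∧ w2 (t + 2 * Real.pi) = w2 t ∧
      wt (t + 2 * Real.pi) = wt t) (κ : ℝ)
    (hind : ∀ t, LinearIndependent ℝ ![w t, f2, f22])
    (hperp : ∀ t, inner ℝ (wt t) (w t) = 0 ∧ inner ℝ (wt t) f2 = 0 ∧ inner ℝ (wt t) f22 = 0)
    {c3 : ℝ} (hc3 : 0 < c3) (hne : ∀ t, c3 ≤ |Real.sin t| → wt t ≠ 0)
    {v v' : P2} (hv : v 0 ≠ 0) (hv' : v' 0 ≠ 0) :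
    ∃ η : ℝ, 0 < η ∧ ∀ t, c3 ≤ |Real.sin t| → ∀ A B X11 X12 X22 : P4, ∀ ε, 0 < ε → ε < η →
      ‖A - w t‖ ≤ η → ‖B - f2‖ ≤ η → ‖X12 - w2 t‖ ≤ η →
      ‖X22 - f22‖ ≤ η → ‖ε • X11 - wt t‖ ≤ η →
      inner ℝ (nor A B X11) (nor A B X22) - inner ℝ (nor A B X12) (nor A B X12) = κ →
      ∀ h : P2 → P2 → P4,
        (∀ p q : P2, h p q = nor A B ((p 0 * q 0) • X11 + (p 0 * q 1 + p 1 * q 0) • X12
          + (p 1 * q 1) • X22)) →
        Q2 h v v' ∧ Q3 h (‖nor A B X22‖⁻¹ • nor A B X22) v v' := by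
  set φ : ℝ → Z := fun t => (w t, f2, wt t, w2 t, f22, 0) with hφ
  have hφc : Continuous φ := by fun_prop
  set T : Set ℝ := {t | t ∈ Icc 0 (2 * Real.pi) ∧ c3 ≤ |Real.sin t|} with hT
  have hTc : IsCompact T := by
    apply isCompact_Icc.inter_right (s := Icc 0 (2 * Real.pi)) (t := {t | c3 ≤ |Real.sin t|})
    exact isClosed_le continuous_const (Real.continuous_sin.abs)
  have hK : IsCompact (φ '' T) := hTc.image hφc
  have hsub : φ '' T ⊆ interior {z | Good κ v v' z} := by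
    rintro _ ⟨t, ht, rfl⟩
    rw [mem_interior_iff_mem_nhds]
    exact good_nhds (gr_pos3 (hind t)).ne' (good_base hv hv' (hind t) (hperp t) (hne t ht.2))
  obtain ⟨δ, hδ, hδs⟩ := hK.exists_cthickening_subset_open isOpen_interior hsub
  refine ⟨δ, hδ, ?_⟩
  intro t ht A B X11 X12 X22 ε hε hεδ hA hB h12 h22 hY hG h hh
  -- reduce `t` to `[0, 2π]`
  have hP : Function.Periodic (fun t => (w t, w2 t, wt t, Real.sin t)) (2 * Real.pi) := by
    intro t
    simp [(hper t).1, (hper t).2.1, (hper t).2.2]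
  obtain ⟨s, hs, hst⟩ := hP.exists_mem_Ico₀ (by positivity) t
  simp only [Prod.mk.injEq] at hst
  obtain ⟨hsw, hsw2, hswt, hsin⟩ := hst
  have hmem : φ s ∈ φ '' T := ⟨s, ⟨Ico_subset_Icc_self hs, by rw [← hsin]; exact ht⟩, rfl⟩
  have hgood : Good κ v v' (A, B, ε • X11, X12, X22, ε) := by
    have : (A, B, ε • X11, X12, X22, ε) ∈ {z | Good κ v v' z} := by
     apply interior_subset
     apply hδs
     refine Metric.mem_cthickening_of_dist_le _ (φ s) δ _ hmem ?_
     simp only [hφ, ← hsw, ← hsw2, ← hswt]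
     simp only [Prod.dist_eq, max_le_iff]
     simp only [dist_eq_norm]
     refine ⟨hA, hB, hY, h12, h22, ?_⟩
     rw [sub_zero, Real.norm_of_nonneg hε.le]; exact hεδ.le
    exact this
  exact good_final hε hgood hG hh

end Crest.Agent.R216.PSL
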