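import Crest.Agent.R216.PSLDefs
import Crest.Agent.R216.AlgP
import Crest.Agent.R216.LoopOm

/-!
Row 216 (S0335), PSL-7: loops from the unit normal field (helper342).
-/

set_option autoImplicit false

noncomputable section

open scoped Manifold ContDiff Topology Real
open Set MeasureTheory Complex

namespace Crest.Agent.R216.PSL

open Crest.Agent.R216.TE (gram xiB xiC cpr ppr cross3 Jrot)

/-! ### the real-linear map `ℂ → ℝ⁴` of a frame -/

/-- `w ↦ r (Re w · b + Im w · b')` -/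
def lin (r : ℝ) (b b' : P4) : ℂ →L[ℝ] P4 :=
  r • (Complex.reCLM.smulRight b + Complex.imCLM.smulRight b')

lemma lin_apply (r : ℝ) (b b' : P4) (w : ℂ) : lin r b b' w = r • (w.re • b + w.im • b') := by
  simp [lin]

lemma inner_lin_lin {r : ℝ} {b b' : P4} (h1 : inner ℝ b b = (1:ℝ)) (h2 : inner ℝ b' b' = (1:ℝ))
    (h12 : inner ℝ b b' = (0:ℝ)) (w : ℂ) :
    inner ℝ (lin r b b' w) (lin r b b' w) = r ^ 2 * ‖w‖ ^ 2 := by
  rw [lin_apply, ← Complex.normSq_eq_norm_sq, Complex.normSq_apply]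
  simp only [inner_add_left, inner_add_right, real_inner_smul_left, real_inner_smul_right, h1, h2,
    h12, real_inner_comm b b']
  ring

lemma lin_eq_zero {r : ℝ} {b b' : P4} (hr : r ≠ 0) (h1 : inner ℝ b b = (1:ℝ))
    (h2 : inner ℝ b' b' = (1:ℝ)) (h12 : inner ℝ b b' = (0:ℝ)) {w : ℂ}
    (h : lin r b b' w = 0) : w = 0 := by
  have := inner_lin_lin (r := r) h1 h2 h12 w
  rw [h, inner_zero_left] at this
  have h3 : ‖w‖ ^ 2 = 0 := by
    have hr2 : r ^ 2 ≠ 0 := pow_ne_zero 2 hr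
    rcases mul_eq_zero.mp this.symm with h | h
    · exact absurd h hr2
    · exact h
  exact norm_eq_zero.mp (pow_eq_zero_iff (two_ne_zero) |>.mp h3)

/-! ### linear algebra -/

section alg
variable {A B C N : P4}

/-- `Γ = ⟪C,A⟫⟪B,B⟫ - ⟪C,B⟫⟪A,B⟫` -/
def Gam (A B C : P4) : ℝ := inner ℝ C A * inner ℝ B B - inner ℝ C B * inner ℝ A B

lemma gram_pos_of_Gam (h : Gam A B C ≠ 0) : 0 < gram B C := by
  rw [TE.gram_pos_iff, LinearIndependent.pair_iff]
  intro s t hst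
  have hE : inner ℝ (s • B + t • C) (inner ℝ B B • A - inner ℝ A B • B) = t * Gam A B C := by
    unfold Gam
    simp only [inner_add_left, inner_sub_right, real_inner_smul_left, real_inner_smul_right,
      real_inner_comm B A]
    ring
  rw [hst, inner_zero_left] at hE
  have ht : t = 0 := by
    rcases mul_eq_zero.mp hE.symm with h' | h'
    · exact h'
    · exact absurd h' h
  refine ⟨?_, ht⟩
  rw [ht, zero_smul, add_zero] at hst
  rcases smul_eq_zero.mp hst with h' | h'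
  · exact h'
  · exfalso
    apply h
    unfold Gam
    rw [h']
    simp

lemma ppr_add (X Y B C : P4) : ppr (X + Y) B C = ppr X B C + ppr Y B C := by
  unfold ppr cpr
  simp only [inner_add_left, add_smul]
  abel

lemma ppr_smul (c : ℝ) (X B C : P4) : ppr (c • X) B C = c • ppr X B C := by
  unfold ppr cpr
  simp only [real_inner_smul_left, smul_sub, smul_add, smul_smul]

lemma ppr_B (h : gram B C ≠ 0) : ppr B B C = 0 := by
  unfold ppr cpr xiB xiC
  have : (gram B C)⁻¹ * gram B C = 1 := inv_mul_cancel₀ h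
  have e : B = ((gram B C)⁻¹ * gram B C) • B := by rw [this, one_smul]
  rw [sub_eq_zero]
  conv_lhs => rw [e]
  unfold gram
  module

lemma ppr_C (h : gram B C ≠ 0) : ppr C B C = 0 := by
  unfold ppr cpr xiB xiC
  have : (gram B C)⁻¹ * gram B C = 1 := inv_mul_cancel₀ h
  have e : C = ((gram B C)⁻¹ * gram B C) • C := by rw [this, one_smul]
  rw [sub_eq_zero]
  conv_lhs => rw [e]
  unfold gram
  rw [real_inner_comm B C]
  module

/-- a normal vector with vanishing `Π`-part vanishes -/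
lemma eq_zero_of_normal (h : Gam A B C ≠ 0) (hA : inner ℝ N A = (0:ℝ)) (hB : inner ℝ N B = (0:ℝ))
    (hp : ppr N B C = 0) : N = 0 := by
  have hg := gram_pos_of_Gam h
  have h1 : N = inner ℝ N C • xiC B C := by
    have : N - cpr N B C = 0 := hp
    unfold cpr at this
    rw [hB, zero_smul, zero_add, sub_eq_zero] at this
    exact this
  have h2 : inner ℝ (xiC B C) A = (gram B C)⁻¹ * Gam A B C := by
    unfold xiC Gam
    simp only [inner_sub_left, real_inner_smul_left, real_inner_comm B C, real_inner_comm B A]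
    ring
  have h3 : inner ℝ N C * ((gram B C)⁻¹ * Gam A B C) = 0 := by
    rw [← h2, ← real_inner_smul_left, ← h1, hA]
  have h4 : inner ℝ N C = (0:ℝ) := by
    rcases mul_eq_zero.mp h3 with h' | h'
    · exact h'
    · exact absurd h' (mul_ne_zero (inv_ne_zero hg.ne') h)
  rw [h1, h4, zero_smul]

/-- direction of the frame before normalisation -/
def b0 (A B C ν : P4) : P4 := -(Gam A B C) • ppr ν B C
/-- first vector of the frame of `Π = {B,C}ᗮ` -/
def bb (A B C ν : P4) : P4 := ‖b0 A B C ν‖⁻¹ • b0 A B C ν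
/-- second vector of the frame -/
def bb' (A B C ν : P4) : P4 := Jrot B C (bb A B C ν)
/-- radius -/
def rr (A B C : P4) (α : ℝ) : ℝ := √(‖ppr A B C‖ ^ 2 + α ^ 2)
/-- normalised mean -/
def zz (A B C ν : P4) (α : ℝ) : ℂ :=
  ((inner ℝ A (bb A B C ν) / rr A B C α : ℝ) : ℂ) +
    I * ((inner ℝ A (bb' A B C ν) / rr A B C α : ℝ) : ℂ)

lemma fr {ν : P4} (hg : 0 < gram B C) (hb : b0 A B C ν ≠ 0) :
    TE.Fr B C (bb A B C ν) (bb' A B C ν) := by
  have hn : ‖bb A B C ν‖ = 1 := by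
    unfold bb
    rw [norm_smul, norm_inv, norm_norm, inv_mul_cancel₀ (norm_ne_zero_iff.mpr hb)]
  have hp := TE.ppr_perp ν B C hg.ne'
  have h1 : inner ℝ (bb A B C ν) B = (0:ℝ) := by
    unfold bb b0
    simp only [real_inner_smul_left, hp.1, mul_zero]
  have h2 : inner ℝ (bb A B C ν) C = (0:ℝ) := by
    unfold bb b0
    simp only [real_inner_smul_left, hp.2, mul_zero]
  obtain ⟨j1, j2, j3⟩ := TE.Jrot_perp B C (bb A B C ν)
  have hn' : ‖bb' A B C ν‖ = 1 := by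
    unfold bb'
    rw [TE.norm_Jrot B C _ hg h1 h2, hn]
  exact ⟨hg.ne', by rw [real_inner_self_eq_norm_sq, hn, one_pow],
    by rw [real_inner_self_eq_norm_sq, hn', one_pow], by rw [real_inner_comm]; exact j3,
    h1, h2, j1, j2⟩

lemma inner_ppr_of_orth {v : P4} (hB : inner ℝ v B = (0:ℝ)) (hC : inner ℝ v C = (0:ℝ)) :
    inner ℝ (ppr A B C) v = (inner ℝ A v : ℝ) := by
  unfold ppr
  rw [inner_sub_left, real_inner_comm v (cpr A B C), TE.inner_cpr_of_orth A hB hC, sub_zero]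

lemma norm_ppr_sq {b b' : P4} (F : TE.Fr B C b b') :
    ‖ppr A B C‖ ^ 2 = inner ℝ A b ^ 2 + inner ℝ A b' ^ 2 := by
  obtain ⟨p1, p2⟩ := TE.ppr_perp A B C F.gr
  have h := TE.Fr.decomp_p F p1 p2
  rw [inner_ppr_of_orth F.o1B F.o1C, inner_ppr_of_orth F.o2B F.o2C] at h
  rw [← real_inner_self_eq_norm_sq, h]
  simp only [inner_add_left, inner_add_right, real_inner_smul_left, real_inner_smul_right,
    F.n1, F.n2, F.n12, real_inner_comm b b']
  ring

lemma rr_sq (A B C : P4) (α : ℝ) : rr A B C α ^ 2 = ‖ppr A B C‖ ^ 2 + α ^ 2 := by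
  unfold rr
  rw [Real.sq_sqrt (by positivity)]

lemma zz_re (A B C ν : P4) (α : ℝ) : (zz A B C ν α).re = inner ℝ A (bb A B C ν) / rr A B C α := by
  simp [zz]
lemma zz_im (A B C ν : P4) (α : ℝ) : (zz A B C ν α).im = inner ℝ A (bb' A B C ν) / rr A B C α := by
  simp [zz]

lemma norm_zz {ν : P4} {α : ℝ} (hg : 0 < gram B C) (hb : b0 A B C ν ≠ 0)
    (hr : 0 < ‖ppr A B C‖ ^ 2 + α ^ 2) :
    ‖zz A B C ν α‖ ^ 2 + (α / rr A B C α) ^ 2 = 1 := by
  rw [← Complex.normSq_eq_norm_sq, Complex.normSq_apply, zz_re, zz_im]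
  have h1 := norm_ppr_sq (A := A) (fr hg hb)
  have h2 := rr_sq A B C α
  have h3 : rr A B C α ≠ 0 := by
    intro h
    rw [h] at h2
    linarith
  have h4 : inner ℝ A (bb A B C ν) ^ 2 + inner ℝ A (bb' A B C ν) ^ 2 + α ^ 2 = rr A B C α ^ 2 := by
    rw [h2, h1]
  field_simp
  linarith

lemma rr_pos {α : ℝ} (hr : 0 < ‖ppr A B C‖ ^ 2 + α ^ 2) : 0 < rr A B C α :=
  Real.sqrt_pos.mpr hr

/-- the point of `K`: the conditions of the domain hold -/
lemma domain_mem {ν n : P4} {α s t : ℝ} (h : Gam A B C ≠ 0)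
    (hν : ‖ν‖ = 1) (hνA : inner ℝ ν A = (0:ℝ)) (hνB : inner ℝ ν B = (0:ℝ))
    (hnA : inner ℝ n A = (0:ℝ)) (hnB : inner ℝ n B = (0:ℝ)) (hC : C - n = s • A + t • B)
    (hα : 0 ≤ α) (hQ : α = 0 → ∀ c : ℝ, 0 ≤ c → n ≠ -(c • ν)) :
    0 < gram B C ∧ b0 A B C ν ≠ 0 ∧ 0 < ‖ppr A B C‖ ^ 2 + α ^ 2 ∧
      0 < 1 + (zz A B C ν α).re := by
  have hg := gram_pos_of_Gam h
  have hpν : ppr ν B C ≠ 0 := by
    intro h0
    have := eq_zero_of_normal h hνA hνB h0
    rw [this] at hν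
    simp at hν
  have hb : b0 A B C ν ≠ 0 := by
    unfold b0
    exact smul_ne_zero (neg_ne_zero.mpr h) hpν
  -- `ppr n = -s ppr A`
  have hpn : ppr n B C = -(s • ppr A B C) := by
    have e1 : C = n + (s • A + t • B) := by rw [← hC]; abel
    have e2 := ppr_C hg.ne'
    have e3 : ppr (n + (s • A + t • B)) B C = 0 := by rw [← e1]; exact e2
    rw [ppr_add, ppr_add, ppr_smul, ppr_smul, ppr_B hg.ne', smul_zero, add_zero] at e3
    exact eq_neg_of_add_eq_zero_left e3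
  -- `s * gram(A,B) = Γ`
  have hs : s * gram A B = Gam A B C := by
    have e1 : C = n + (s • A + t • B) := by rw [← hC]; abel
    unfold Gam gram
    conv_rhs => rw [e1]
    simp only [inner_add_left, real_inner_smul_left, hnA, hnB, real_inner_comm B A]
    rw [real_inner_comm A B]
    ring
  have hgAB : 0 < gram A B := by
    refine lt_of_le_of_ne (TE.gram_nonneg A B) ?_
    intro h0
    rw [← h0, mul_zero] at hs
    exact h hs.symm
  have hrp : 0 < ‖ppr A B C‖ ^ 2 + α ^ 2 := by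
    rcases eq_or_lt_of_le hα with h0 | h0
    · have hA0 : ppr A B C ≠ 0 := by
        intro h1
        rw [h1, smul_zero, neg_zero] at hpn
        have := eq_zero_of_normal h hnA hnB hpn
        exact hQ h0.symm 0 le_rfl (by rw [this]; simp)
      have : 0 < ‖ppr A B C‖ := norm_pos_iff.mpr hA0
      positivity
    · positivity
  refine ⟨hg, hb, hrp, ?_⟩
  have hr := rr_pos hrp
  rw [zz_re]
  have e1 : 1 + inner ℝ A (bb A B C ν) / rr A B C α =
      (rr A B C α + inner ℝ A (bb A B C ν)) / rr A B C α := by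
    field_simp
  rw [e1]
  apply div_pos _ hr
  have F := fr hg hb
  have h1 := norm_ppr_sq (A := A) F
  have h2 := rr_sq A B C α
  rcases eq_or_lt_of_le hα with h0 | h0
  · -- `α = 0`
    by_contra hcon
    push Not at hcon
    have h3 : inner ℝ A (bb' A B C ν) = (0:ℝ) := by
      rw [← h0] at h2
      have h4 : rr A B C α ≤ - inner ℝ A (bb A B C ν) := by linarith
      have h5 : rr A B C α ^ 2 ≤ (inner ℝ A (bb A B C ν)) ^ 2 := by
        rw [← neg_sq (inner ℝ A (bb A B C ν))]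
        exact pow_le_pow_left₀ hr.le h4 2
      rw [← h0] at h5
      have h6 : (inner ℝ A (bb' A B C ν)) ^ 2 ≤ 0 := by nlinarith
      exact pow_eq_zero_iff (two_ne_zero) |>.mp (le_antisymm h6 (sq_nonneg _))
    obtain ⟨p1, p2⟩ := TE.ppr_perp A B C hg.ne'
    have h4 := TE.Fr.decomp_p F p1 p2
    rw [inner_ppr_of_orth F.o1B F.o1C, inner_ppr_of_orth F.o2B F.o2C, h3, zero_smul,
      add_zero] at h4
    set m : ℝ := inner ℝ A (bb A B C ν) with hm
    have hm0 : m < 0 := by linarith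
    -- `ppr A = m b = -(m Γ / ‖b0‖) ppr ν`
    have h5 : ppr A B C = (-(m * ‖b0 A B C ν‖⁻¹ * Gam A B C)) • ppr ν B C := by
      rw [h4]
      unfold bb
      rw [b0, smul_smul, smul_smul]
      congr 1
      ring
    have hk : 0 ≤ -(s * (m * ‖b0 A B C ν‖⁻¹ * Gam A B C)) := by
      rw [← hs]
      have : 0 < ‖b0 A B C ν‖⁻¹ := inv_pos.mpr (norm_pos_iff.mpr hb)
      have e : -(s * (m * ‖b0 A B C ν‖⁻¹ * (s * gram A B))) =
        (-m) * (s ^ 2 * ‖b0 A B C ν‖⁻¹ * gram A B) := by ring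
      rw [e]
      have : 0 < -m := by linarith
      positivity
    apply hQ h0.symm _ hk
    -- `n + k ν = 0`
    rw [eq_neg_iff_add_eq_zero]
    apply eq_zero_of_normal h
    · rw [inner_add_left, real_inner_smul_left, hnA, hνA]; ring
    · rw [inner_add_left, real_inner_smul_left, hnB, hνB]; ring
    · rw [ppr_add, ppr_smul, hpn, h5, smul_smul, ← neg_smul, ← add_smul]
      convert zero_smul ℝ _ using 2
      ring
  · have h3 : (inner ℝ A (bb A B C ν)) ^ 2 < rr A B C α ^ 2 := by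
      rw [h2, h1]
      nlinarith [sq_nonneg (inner ℝ A (bb' A B C ν) : ℝ), sq_pos_of_pos h0]
    have := abs_lt_of_sq_lt_sq' h3 hr.le
    linarith [this.1]

end alg

/-! ### smoothness -/

section smooth
variable {E : Type*} [NormedAddCommGroup E] [NormedSpace ℝ E] {n : ℕ∞ω}
  {A B C ν : E → P4} {α : E → ℝ} {x : E}

lemma cda_inner {F G : E → P4} (hF : ContDiffAt ℝ n F x) (hG : ContDiffAt ℝ n G x) :
    ContDiffAt ℝ n (fun y => (inner ℝ (F y) (G y) : ℝ)) x := hF.inner ℝ hG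

lemma cda_gram (hB : ContDiffAt ℝ n B x) (hC : ContDiffAt ℝ n C x) :
    ContDiffAt ℝ n (fun y => gram (B y) (C y)) x := by
  unfold gram
  exact ((cda_inner hB hB).mul (cda_inner hC hC)).sub ((cda_inner hB hC).pow 2)

lemma cda_xiB (hB : ContDiffAt ℝ n B x) (hC : ContDiffAt ℝ n C x) (h : gram (B x) (C x) ≠ 0) :
    ContDiffAt ℝ n (fun y => xiB (B y) (C y)) x := by
  unfold xiB
  exact ((cda_gram hB hC).inv h).smul
    (((cda_inner hC hC).smul hB).sub ((cda_inner hB hC).smul hC))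

lemma cda_xiC (hB : ContDiffAt ℝ n B x) (hC : ContDiffAt ℝ n C x) (h : gram (B x) (C x) ≠ 0) :
    ContDiffAt ℝ n (fun y => xiC (B y) (C y)) x := by
  unfold xiC
  exact ((cda_gram hB hC).inv h).smul
    (((cda_inner hB hB).smul hC).sub ((cda_inner hB hC).smul hB))

lemma cda_cpr (hA : ContDiffAt ℝ n A x) (hB : ContDiffAt ℝ n B x) (hC : ContDiffAt ℝ n C x)
    (h : gram (B x) (C x) ≠ 0) :
    ContDiffAt ℝ n (fun y => cpr (A y) (B y) (C y)) x := by
  unfold cpr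
  exact ((cda_inner hA hB).smul (cda_xiB hB hC h)).add ((cda_inner hA hC).smul (cda_xiC hB hC h))

lemma cda_ppr (hA : ContDiffAt ℝ n A x) (hB : ContDiffAt ℝ n B x) (hC : ContDiffAt ℝ n C x)
    (h : gram (B x) (C x) ≠ 0) :
    ContDiffAt ℝ n (fun y => ppr (A y) (B y) (C y)) x := by
  unfold ppr
  exact hA.sub (cda_cpr hA hB hC h)

lemma cda_Gam (hA : ContDiffAt ℝ n A x) (hB : ContDiffAt ℝ n B x) (hC : ContDiffAt ℝ n C x) :
    ContDiffAt ℝ n (fun y => Gam (A y) (B y) (C y)) x := by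
  unfold Gam
  exact ((cda_inner hC hA).mul (cda_inner hB hB)).sub ((cda_inner hC hB).mul (cda_inner hA hB))

lemma cda_b0 (hA : ContDiffAt ℝ n A x) (hB : ContDiffAt ℝ n B x) (hC : ContDiffAt ℝ n C x)
    (hν : ContDiffAt ℝ n ν x) (h : gram (B x) (C x) ≠ 0) :
    ContDiffAt ℝ n (fun y => b0 (A y) (B y) (C y) (ν y)) x := by
  unfold b0
  exact (cda_Gam hA hB hC).neg.smul (cda_ppr hν hB hC h)

lemma cda_bb (hA : ContDiffAt ℝ n A x) (hB : ContDiffAt ℝ n B x) (hC : ContDiffAt ℝ n C x)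
    (hν : ContDiffAt ℝ n ν x) (h : gram (B x) (C x) ≠ 0)
    (h0 : b0 (A x) (B x) (C x) (ν x) ≠ 0) :
    ContDiffAt ℝ n (fun y => bb (A y) (B y) (C y) (ν y)) x := by
  unfold bb
  have h1 := cda_b0 hA hB hC hν h
  exact ((h1.norm ℝ h0).inv (norm_ne_zero_iff.mpr h0)).smul h1

lemma cda_coord {F : E → P4} (hF : ContDiffAt ℝ n F x) (i : Fin 4) :
    ContDiffAt ℝ n (fun y => F y i) x := by
  have := (contDiffAt_euclidean (𝕜 := ℝ)).mp hF i
  exact this

lemma cda_cross3 {F G H : E → P4} (hF : ContDiffAt ℝ n F x) (hG : ContDiffAt ℝ n G x)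
    (hH : ContDiffAt ℝ n H x) :
    ContDiffAt ℝ n (fun y => cross3 (F y) (G y) (H y)) x := by
  have f := cda_coord hF
  have g := cda_coord hG
  have h := cda_coord hH
  rw [contDiffAt_euclidean]
  intro i
  unfold cross3
  have f0 := f 0
  have f1 := f 1
  have f2 := f 2
  have f3 := f 3
  have g0 := g 0
  have g1 := g 1
  have g2 := g 2
  have g3 := g 3
  have h0 := h 0
  have h1 := h 1
  have h2 := h 2
  have h3 := h 3
  fin_cases i <;> simp <;> fun_prop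

lemma cda_bb' (hA : ContDiffAt ℝ n A x) (hB : ContDiffAt ℝ n B x) (hC : ContDiffAt ℝ n C x)
    (hν : ContDiffAt ℝ n ν x) (h : gram (B x) (C x) ≠ 0)
    (h0 : b0 (A x) (B x) (C x) (ν x) ≠ 0) :
    ContDiffAt ℝ n (fun y => bb' (A y) (B y) (C y) (ν y)) x := by
  unfold bb' Jrot
  have h1 := cda_bb hA hB hC hν h h0
  have hs : ContDiffAt ℝ n (fun y => √(gram (B y) (C y))) x := (cda_gram hB hC).sqrt h
  have hs0 : √(gram (B x) (C x)) ≠ 0 := by
    rw [Real.sqrt_ne_zero (TE.gram_nonneg _ _)]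
    exact h
  exact (hs.inv hs0).smul (cda_cross3 hB hC h1)

lemma cda_rr (hA : ContDiffAt ℝ n A x) (hB : ContDiffAt ℝ n B x) (hC : ContDiffAt ℝ n C x)
    (hα : ContDiffAt ℝ n α x) (h : gram (B x) (C x) ≠ 0)
    (hr : 0 < ‖ppr (A x) (B x) (C x)‖ ^ 2 + α x ^ 2) :
    ContDiffAt ℝ n (fun y => rr (A y) (B y) (C y) (α y)) x := by
  unfold rr
  exact (((cda_ppr hA hB hC h).norm_sq ℝ).add (hα.pow 2)).sqrt hr.ne'

lemma cda_zz (hA : ContDiffAt ℝ n A x) (hB : ContDiffAt ℝ n B x) (hC : ContDiffAt ℝ n C x)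
    (hν : ContDiffAt ℝ n ν x) (hα : ContDiffAt ℝ n α x) (h : gram (B x) (C x) ≠ 0)
    (h0 : b0 (A x) (B x) (C x) (ν x) ≠ 0)
    (hr : 0 < ‖ppr (A x) (B x) (C x)‖ ^ 2 + α x ^ 2) :
    ContDiffAt ℝ n (fun y => zz (A y) (B y) (C y) (ν y) (α y)) x := by
  unfold zz
  have h1 := cda_bb hA hB hC hν h h0
  have h2 := cda_bb' hA hB hC hν h h0
  have h3 := cda_rr hA hB hC hα h hr
  have h4 := (rr_pos hr).ne'
  apply ContDiffAt.add
  · exact Complex.ofRealCLM.contDiff.contDiffAt.comp x ((cda_inner hA h1).div h3 h4)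
  · exact contDiffAt_const.mul
      (Complex.ofRealCLM.contDiff.contDiffAt.comp x ((cda_inner hA h2).div h3 h4))

end smooth

/-! ### the loop family -/

/-- the loop, pointwise -/
def Wl (A B C ν : P4) (α ϑ t : ℝ) : P4 :=
  cpr A B C + lin (rr A B C α) (bb A B C ν) (bb' A B C ν)
    (exp (I * ϑ) * Loop.om (exp (-(I * ϑ)) * zz A B C ν α) (α / rr A B C α) t)

/-- domain conditions -/
def Dl (A B C ν : P4) (α ϑ : ℝ) : Prop :=
  0 < gram B C ∧ b0 A B C ν ≠ 0 ∧ 0 < ‖ppr A B C‖ ^ 2 + α ^ 2 ∧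
    0 < 1 + (exp (-(I * ϑ)) * zz A B C ν α).re

lemma norm_exp_neg (ϑ : ℝ) : ‖exp (-(I * (ϑ : ℂ)))‖ = 1 := by
  have : -(I * (ϑ : ℂ)) = ((-ϑ : ℝ) : ℂ) * I := by push_cast; ring
  rw [this, Complex.norm_exp_ofReal_mul_I]

lemma norm_exp_pos' (ϑ : ℝ) : ‖exp (I * (ϑ : ℂ))‖ = 1 := by
  rw [mul_comm, Complex.norm_exp_ofReal_mul_I]

section prop
variable {A B C ν : P4} {α ϑ : ℝ}

lemma norm_rot (h : Dl A B C ν α ϑ) :
    ‖exp (-(I * ϑ)) * zz A B C ν α‖ ^ 2 + (α / rr A B C α) ^ 2 = 1 := by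
  rw [norm_mul, norm_exp_neg, one_mul]
  exact norm_zz h.1 h.2.1 h.2.2.1

lemma Wl_mean (h : Dl A B C ν α ϑ) :
    ∫ t in (0:ℝ)..(2 * Real.pi), Wl A B C ν α ϑ t = (2 * Real.pi) • A := by
  have hr := rr_pos h.2.2.1
  have F := fr h.1 h.2.1
  have hc := Loop.continuous_om (exp (-(I * ϑ)) * zz A B C ν α) (α / rr A B C α)
  have hI := Loop.integral_om h.2.2.2 (norm_rot h)
  unfold Wl
  rw [intervalIntegral.integral_add (continuous_const.intervalIntegrable _ _)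
    (Continuous.intervalIntegrable (by fun_prop) _ _),
    ContinuousLinearMap.intervalIntegral_comp_comm _
      (Continuous.intervalIntegrable (by fun_prop) _ _),
    intervalIntegral.integral_const_mul, hI, intervalIntegral.integral_const, sub_zero]
  have e : exp (I * ϑ) * (2 * π * (exp (-(I * ϑ)) * zz A B C ν α)) =
      ((2 * π : ℝ) : ℂ) * zz A B C ν α := by
    have : exp (I * ϑ) * exp (-(I * ϑ)) = 1 := by
      rw [← Complex.exp_add]; simp
    push_cast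
    linear_combination (2 * π * zz A B C ν α) * this
  rw [e, ← Complex.real_smul, ContinuousLinearMap.map_smul, ← smul_add]
  congr 1
  rw [lin_apply, zz_re, zz_im, smul_add, smul_smul, smul_smul, mul_div_cancel₀ _ hr.ne',
    mul_div_cancel₀ _ hr.ne', ← add_assoc]
  exact (F.decomp_c A).symm

lemma Wl_perpB (h : Dl A B C ν α ϑ) (t : ℝ) : inner ℝ (Wl A B C ν α ϑ t) B = inner ℝ A B := by
  have F := fr h.1 h.2.1
  unfold Wl
  rw [inner_add_left, TE.inner_cpr_B A F.gr, lin_apply]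
  simp only [real_inner_smul_left, inner_add_left, F.o1B, F.o2B]
  ring

lemma Wl_perpC (h : Dl A B C ν α ϑ) (t : ℝ) : inner ℝ (Wl A B C ν α ϑ t) C = inner ℝ A C := by
  have F := fr h.1 h.2.1
  unfold Wl
  rw [inner_add_left, TE.inner_cpr_C A F.gr, lin_apply]
  simp only [real_inner_smul_left, inner_add_left, F.o1C, F.o2C]
  ring

lemma Wl_norm (h : Dl A B C ν α ϑ) (t : ℝ) :
    inner ℝ (Wl A B C ν α ϑ t) (Wl A B C ν α ϑ t) = inner ℝ A A + α ^ 2 := by
  have F := fr h.1 h.2.1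
  have hl : ∀ w : ℂ, inner ℝ (lin (rr A B C α) (bb A B C ν) (bb' A B C ν) w) (cpr A B C)
      = (0:ℝ) := by
    intro w
    rw [lin_apply, real_inner_smul_left, inner_add_left, real_inner_smul_left,
      real_inner_smul_left, TE.inner_cpr_of_orth A F.o1B F.o1C,
      TE.inner_cpr_of_orth A F.o2B F.o2C]
    ring
  unfold Wl
  rw [inner_add_left, inner_add_right, inner_add_right,
    real_inner_comm (lin (rr A B C α) (bb A B C ν) (bb' A B C ν) _) (cpr A B C), hl,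
    inner_lin_lin F.n1 F.n2 F.n12, norm_mul, norm_exp_pos', Loop.norm_om, rr_sq,
    norm_ppr_sq F, F.normsq A]
  ring

lemma hasDerivAt_Wl (t : ℝ) {d : ℂ}
    (hd : HasDerivAt (fun t => Loop.om (exp (-(I * ϑ)) * zz A B C ν α) (α / rr A B C α) t) d t) :
    HasDerivAt (fun t => Wl A B C ν α ϑ t)
      (lin (rr A B C α) (bb A B C ν) (bb' A B C ν) (exp (I * ϑ) * d)) t := by
  unfold Wl
  have h1 := hd.const_mul (exp (I * ϑ))
  have h2 := (lin (rr A B C α) (bb A B C ν) (bb' A B C ν)).hasFDerivAt.comp_hasDerivAt t h1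
  exact h2.const_add _

lemma Wl_turn (h : Dl A B C ν α ϑ) (t : ℝ) (h0 : deriv (fun s => Wl A B C ν α ϑ s) t = 0) :
    α = 0 ∨ Real.sin t = 0 := by
  have hr := rr_pos h.2.2.1
  have F := fr h.1 h.2.1
  have hd := Loop.hasDerivAt_om (z := exp (-(I * ϑ)) * zz A B C ν α) (s := α / rr A B C α) t
  rw [(hasDerivAt_Wl t hd).deriv] at h0
  have h1 := lin_eq_zero hr.ne' F.n1 F.n2 F.n12 h0
  have h2 := (mul_eq_zero.mp h1).resolve_left (Complex.exp_ne_zero _)
  have h3 := (Loop.deriv_om_eq_zero_iff h.2.2.2 t).mp (by rw [hd.deriv]; exact h2)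
  rcases h3 with h3 | h3
  · left
    rcases div_eq_zero_iff.mp h3 with h4 | h4
    · exact h4
    · exact absurd h4 hr.ne'
  · exact Or.inr h3

lemma Wl_fast (h : Dl A B C ν α 0) (hα : α ≠ 0) (t : ℝ) (ht : Real.sin t = 0) :
    deriv (fun ϑ : ℝ => Wl A B C ν α ϑ t) 0 ≠ 0 := by
  have hr := rr_pos h.2.2.1
  have F := fr h.1 h.2.1
  have hs : α / rr A B C α ≠ 0 := div_ne_zero hα hr.ne'
  obtain ⟨κ, -, hκ, hd⟩ := Loop.hasDerivAt_rot_om (θ := 0) h.2.2.2 hs
    (norm_zz h.1 h.2.1 h.2.2.1) ht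
  have h2 := (lin (rr A B C α) (bb A B C ν) (bb' A B C ν)).hasFDerivAt.comp_hasDerivAt (0:ℝ) hd
  have h3 : HasDerivAt (fun ϑ : ℝ => Wl A B C ν α ϑ t) _ 0 := h2.const_add (cpr A B C)
  rw [h3.deriv]
  intro h0
  have h1 := lin_eq_zero hr.ne' F.n1 F.n2 F.n12 h0
  have h4 : ‖(I * κ * (exp (I * (0:ℝ)) * Loop.om (exp (-(I * (0:ℝ))) * zz A B C ν α)
      (α / rr A B C α) t) : ℂ)‖ = 0 := by rw [h1]; simp
  rw [norm_mul, norm_mul, norm_mul, norm_exp_pos', Loop.norm_om] at h4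
  simp at h4
  exact hκ.ne' h4

end prop

lemma cda_Wl {E : Type*} [NormedAddCommGroup E] [NormedSpace ℝ E] {n : ℕ∞ω}
    {A B C ν : E → P4} {α ϑ t : E → ℝ} {x : E}
    (hA : ContDiffAt ℝ n A x) (hB : ContDiffAt ℝ n B x) (hC : ContDiffAt ℝ n C x)
    (hν : ContDiffAt ℝ n ν x) (hα : ContDiffAt ℝ n α x) (hϑ : ContDiffAt ℝ n ϑ x)
    (ht : ContDiffAt ℝ n t x) (h : Dl (A x) (B x) (C x) (ν x) (α x) (ϑ x)) :
    ContDiffAt ℝ n (fun y => Wl (A y) (B y) (C y) (ν y) (α y) (ϑ y) (t y)) x := by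
  have hg := h.1.ne'
  have h1 := cda_bb hA hB hC hν hg h.2.1
  have h2 := cda_bb' hA hB hC hν hg h.2.1
  have h3 := cda_rr hA hB hC hα hg h.2.2.1
  have h4 := cda_zz hA hB hC hν hα hg h.2.1 h.2.2.1
  have hr := (rr_pos h.2.2.1).ne'
  have hϑc : ContDiffAt ℝ n (fun y => ((ϑ y : ℝ) : ℂ)) x :=
    Complex.ofRealCLM.contDiff.contDiffAt.comp x hϑ
  have he1 : ContDiffAt ℝ n (fun y => exp (I * ((ϑ y : ℝ) : ℂ))) x :=
    (contDiffAt_const.mul hϑc).cexp
  have he2 : ContDiffAt ℝ n (fun y => exp (-(I * ((ϑ y : ℝ) : ℂ)))) x :=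
    ((contDiffAt_const.mul hϑc).neg).cexp
  have hom := Loop.ContDiffAt.om' (he2.mul h4) (hα.div h3 hr) ht h.2.2.2
  have hw := he1.mul hom
  have hre := Complex.reCLM.contDiff.contDiffAt.comp x hw
  have him := Complex.imCLM.contDiff.contDiffAt.comp x hw
  unfold Wl
  simp only [lin_apply]
  exact (cda_cpr hA hB hC hg).add (h3.smul ((hre.smul h1).add (him.smul h2)))

lemma cda_d1 {f : P2 → P4} (hf : ContDiff ℝ ∞ f) (v : P2) : ContDiff ℝ ∞ (fun x => d1 f x v) := by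
  unfold d1
  exact (hf.fderiv_right (m := ∞) (by simp)).clm_apply contDiff_const

lemma cda_d2 {f : P2 → P4} (hf : ContDiff ℝ ∞ f) (v w : P2) :
    ContDiff ℝ ∞ (fun x => d2 f x v w) := by
  unfold d2
  exact (((hf.fderiv_right (m := ∞) (by simp)).fderiv_right (m := ∞) (by simp)).clm_apply
    contDiff_const).clm_apply contDiff_const

/-- **PSL-7** -/
theorem exists_RLoop {f ν : P2 → P4} {a : P2 → ℝ} {K : Set P2} (hK : IsCompact K)
    (hf : ContDiff ℝ ∞ f) (hν : ContDiff ℝ ∞ ν) (ha : ContDiff ℝ ∞ a) (ha0 : ∀ x ∈ K, 0 ≤ a x)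
    (hfi : ∀ x ∈ K, Function.Injective (fderiv ℝ f x))
    (hν1 : ∀ x ∈ K, ‖ν x‖ = 1) (hν2 : ∀ x ∈ K, ∀ v, inner ℝ (ν x) (d1 f x v) = 0)
    (hgam : ∀ x ∈ K, gamN f x ≠ 0)
    (hQ1 : ∀ x ∈ K, a x = 0 → Q1 (hN f x) (ν x) e2) :
    ∃ (O : Set (P2 × ℝ × ℝ)) (W : P2 × ℝ × ℝ → ℝ → P4), RLoop f a K O W := by
  set A : P2 → P4 := fun x => d1 f x e1 with hAdef
  set B : P2 → P4 := fun x => d1 f x e2 with hBdef
  set C : P2 → P4 := fun x => d2 f x e2 e2 with hCdef
  have hA : ContDiff ℝ ∞ A := cda_d1 hf e1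
  have hB : ContDiff ℝ ∞ B := cda_d1 hf e2
  have hC : ContDiff ℝ ∞ C := cda_d2 hf e2 e2
  refine ⟨{v | Dl (A v.1) (B v.1) (C v.1) (ν v.1) v.2.1 v.2.2},
    fun v t => Wl (A v.1) (B v.1) (C v.1) (ν v.1) v.2.1 v.2.2 t, ?_⟩
  constructor
  · -- open
    rw [isOpen_iff_mem_nhds]
    intro v hv
    have hv' : Dl (A v.1) (B v.1) (C v.1) (ν v.1) v.2.1 v.2.2 := hv
    have a1 : ContDiffAt ℝ (0 : ℕ∞ω) (fun v : P2 × ℝ × ℝ => A v.1) v :=
      ((hA.of_le (by simp)).contDiffAt).comp v contDiffAt_fst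
    have b1 : ContDiffAt ℝ (0 : ℕ∞ω) (fun v : P2 × ℝ × ℝ => B v.1) v :=
      ((hB.of_le (by simp)).contDiffAt).comp v contDiffAt_fst
    have c1 : ContDiffAt ℝ (0 : ℕ∞ω) (fun v : P2 × ℝ × ℝ => C v.1) v :=
      ((hC.of_le (by simp)).contDiffAt).comp v contDiffAt_fst
    have n1 : ContDiffAt ℝ (0 : ℕ∞ω) (fun v : P2 × ℝ × ℝ => ν v.1) v :=
      ((hν.of_le (by simp)).contDiffAt).comp v contDiffAt_fst
    have al : ContDiffAt ℝ (0 : ℕ∞ω) (fun v : P2 × ℝ × ℝ => v.2.1) v := contDiffAt_snd.fst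
    have th : ContDiffAt ℝ (0 : ℕ∞ω) (fun v : P2 × ℝ × ℝ => v.2.2) v := contDiffAt_snd.snd
    have thc : ContDiffAt ℝ (0 : ℕ∞ω) (fun v : P2 × ℝ × ℝ => exp (-(I * ((v.2.2 : ℝ) : ℂ)))) v :=
      ((contDiffAt_const.mul (Complex.ofRealCLM.contDiff.contDiffAt.comp v th)).neg).cexp
    have e1 := (cda_gram b1 c1).continuousAt.eventually (lt_mem_nhds hv'.1)
    have e2 := (cda_b0 a1 b1 c1 n1 hv'.1.ne').continuousAt.eventually_ne hv'.2.1
    have e3 := (((cda_ppr a1 b1 c1 hv'.1.ne').norm_sq ℝ).add (al.pow 2)).continuousAt.eventually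
      (lt_mem_nhds hv'.2.2.1)
    have e4 := (contDiffAt_const.add (Complex.reCLM.contDiff.contDiffAt.comp v
      (thc.mul (cda_zz a1 b1 c1 n1 al hv'.1.ne' hv'.2.1 hv'.2.2.1)))).continuousAt.eventually
      (lt_mem_nhds hv'.2.2.2)
    filter_upwards [e1, e2, e3, e4] with w h1 h2 h3 h4
    exact ⟨h1, h2, h3, h4⟩
  · -- mem
    intro x hx
    have hG : Gam (A x) (B x) (C x) ≠ 0 := hgam x hx
    have hn1 : ∀ v, inner ℝ (hN f x e2 e2) (d1 f x v) = (0:ℝ) := by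
      intro v
      have h1 : hN f x e2 e2 ∈ (tanSp f x)ᗮ := orthP_mem _ _
      rw [Submodule.mem_orthogonal] at h1
      rw [real_inner_comm]
      exact h1 _ ⟨v, rfl⟩
    obtain ⟨w, hw⟩ : ∃ w : P2, fderiv ℝ f x w = C x - hN f x e2 e2 := by
      have h1 : C x - hN f x e2 e2 ∈ tanSp f x := sub_orthP_mem _ _
      obtain ⟨w, hw⟩ := h1
      exact ⟨w, hw⟩
    have hw' : C x - hN f x e2 e2 = w 0 • A x + w 1 • B x := by
      rw [← hw]
      have e : w = w 0 • e1 + w 1 • e2 := by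
        ext i
        fin_cases i <;> simp [e1, e2]
      conv_lhs => rw [e]
      rw [map_add, map_smul, map_smul]
      rfl
    have hd := domain_mem (ν := ν x) (n := hN f x e2 e2) (α := a x) hG (hν1 x hx)
      (hν2 x hx e1) (hν2 x hx e2) (hn1 e1) (hn1 e2) hw' (ha0 x hx)
      (fun h0 => hQ1 x hx h0)
    refine ⟨hd.1, hd.2.1, hd.2.2.1, ?_⟩
    simpa using hd.2.2.2
  · -- smooth
    rintro ⟨v, t⟩ ⟨hv, -⟩
    apply ContDiffAt.contDiffWithinAt
    have f1 : ContDiffAt ℝ ∞ (fun z : (P2 × ℝ × ℝ) × ℝ => z.1.1) (v, t) := contDiffAt_fst.fst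
    exact cda_Wl (hA.contDiffAt.comp (v, t) f1) (hB.contDiffAt.comp (v, t) f1)
      (hC.contDiffAt.comp (v, t) f1) (hν.contDiffAt.comp (v, t) f1)
      (contDiffAt_fst.snd.fst) (contDiffAt_fst.snd.snd) contDiffAt_snd hv
  · intro z _ t
    simp only [Wl, Loop.om_add_two_pi]
  · intro z _ t
    simp only [Wl, Loop.om_neg]
  · intro z hz
    exact Wl_mean hz
  · intro z hz t
    exact Wl_perpB hz t
  · intro z hz t
    exact Wl_perpC hz t
  · intro z hz t
    exact Wl_norm hz t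
  · intro z hz t h0
    exact Wl_turn hz t h0
  · intro x α hx hα t ht
    exact Wl_fast hx hα t ht

end Crest.Agent.R216.PSL
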