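import Mathlib
import Crest.Agent.R216.ParamInt

/-!
# The thinness lemma (row 216, note 6825 (A))

`Γ ⊂ ℝ × ℝ` compact, all vertical slices null. For all `η, L > 0` there is a smooth
`θ : ℝ × ℝ → ℝ` with `0 ≤ θ ≤ η`, `∂₂ θ ≥ 0`, and `∂₂ θ ≥ L` (even `= L`) on a neighbourhood of `Γ`.
-/

set_option autoImplicit false

open MeasureTheory Set Filter Topology
open scoped ContDiff

namespace Crest.Agent.R216

/-- slices of small thickenings of a compact set with null slices have uniformly small measure -/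
theorem exists_thickening_slice_le (Γ : Set (ℝ × ℝ)) (hΓ : IsCompact Γ)
    (hnull : ∀ x₁ : ℝ, volume {x₂ : ℝ | (x₁, x₂) ∈ Γ} = 0) {δ : ENNReal} (hδ : 0 < δ) :
    ∃ κ : ℝ, 0 < κ ∧ ∀ x₁ : ℝ, volume {x₂ : ℝ | (x₁, x₂) ∈ Metric.cthickening κ Γ} ≤ δ := by
  classical
  set S : ℝ → ℝ → Set ℝ := fun κ x₁ => {x₂ : ℝ | (x₁, x₂) ∈ Metric.cthickening κ Γ} with hS
  have hSmono : ∀ {κ κ' : ℝ} (x₁ : ℝ), κ ≤ κ' → S κ x₁ ⊆ S κ' x₁ := by
    intro κ κ' x₁ h x₂ hx
    exact Metric.cthickening_mono h Γ hx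
  have hSclosed : ∀ κ x₁, IsClosed (S κ x₁) := by
    intro κ x₁
    exact Metric.isClosed_cthickening.preimage (by fun_prop : Continuous fun x₂ : ℝ => (x₁, x₂))
  -- bounded
  have hbdd : ∀ κ x₁, Bornology.IsBounded (S κ x₁) := by
    intro κ x₁
    have h1 : Bornology.IsBounded (Metric.cthickening κ Γ) := hΓ.isBounded.cthickening
    have h2 : Bornology.IsBounded (Prod.snd '' (Metric.cthickening κ Γ)) :=
      (LipschitzWith.prod_snd).isBounded_image h1
    exact h2.subset (fun x₂ hx => ⟨(x₁, x₂), hx, rfl⟩)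
  -- pointwise statement
  have hpt : ∀ x₁ : ℝ, ∃ κ : ℝ, 0 < κ ∧ volume (S κ x₁) ≤ δ := by
    intro x₁
    have hanti : Antitone (fun n : ℕ => S (1 / ((n:ℝ) + 1)) x₁) := by
      intro m n hmn
      exact hSmono x₁ (one_div_le_one_div_of_le (by positivity) (by exact_mod_cast Nat.succ_le_succ hmn))
    have hlim := tendsto_measure_iInter_atTop (μ := (volume : Measure ℝ))
      (s := fun n : ℕ => S (1 / ((n:ℝ) + 1)) x₁)
      (fun n => (hSclosed _ _).measurableSet.nullMeasurableSet) hanti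
      ⟨0, ((hbdd _ _).measure_lt_top).ne⟩
    have hinter : (⋂ n : ℕ, S (1 / ((n:ℝ) + 1)) x₁) ⊆ {x₂ : ℝ | (x₁, x₂) ∈ Γ} := by
      intro x₂ hx
      simp only [mem_iInter] at hx
      have : (x₁, x₂) ∈ closure Γ := by
        rw [Metric.closure_eq_iInter_cthickening]
        simp only [mem_iInter]
        intro ε hε
        obtain ⟨n, hn⟩ := exists_nat_one_div_lt hε
        exact Metric.cthickening_mono hn.le Γ (hx n)
      rwa [hΓ.isClosed.closure_eq] at this
    rw [measure_mono_null hinter (hnull x₁)] at hlim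
    obtain ⟨n, hn⟩ := (hlim.eventually (gt_mem_nhds hδ)).exists
    exact ⟨1 / ((n:ℝ) + 1), by positivity, hn.le⟩
  -- uniform statement on a compact set
  set K : Set ℝ := Prod.fst '' (Metric.cthickening 1 Γ) with hK
  have hKc : IsCompact K := (hΓ.cthickening).image continuous_fst
  have hunif : ∃ κ : ℝ, 0 < κ ∧ ∀ x₁ ∈ K, volume (S κ x₁) ≤ δ := by
    refine hKc.induction_on (p := fun T => ∃ κ : ℝ, 0 < κ ∧ ∀ x₁ ∈ T, volume (S κ x₁) ≤ δ)
      ⟨1, one_pos, by simp⟩ ?_ ?_ ?_
    · rintro s t hst ⟨κ, hκ, h⟩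
      exact ⟨κ, hκ, fun x hx => h x (hst hx)⟩
    · rintro s t ⟨κ, hκ, h⟩ ⟨κ', hκ', h'⟩
      refine ⟨min κ κ', lt_min hκ hκ', ?_⟩
      rintro x (hx | hx)
      · exact (measure_mono (hSmono x (min_le_left _ _))).trans (h x hx)
      · exact (measure_mono (hSmono x (min_le_right _ _))).trans (h' x hx)
    · intro x _
      obtain ⟨κ, hκ, h⟩ := hpt x
      refine ⟨Metric.ball x (κ/2), mem_nhdsWithin_of_mem_nhds (Metric.ball_mem_nhds _ (by positivity)),
        κ/2, by positivity, ?_⟩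
      intro y hy
      refine (measure_mono ?_).trans h
      intro x₂ hx₂
      -- (y, x₂) within κ/2 of Γ, hence (x, x₂) within κ
      have h1 : (x, x₂) ∈ Metric.cthickening (κ/2) (Metric.cthickening (κ/2) Γ) := by
        refine Metric.mem_cthickening_of_dist_le (x, x₂) (y, x₂) _ _ hx₂ ?_
        rw [Prod.dist_eq]
        simp only [dist_self]
        rw [dist_comm]
        exact max_le (Metric.mem_ball.1 hy).le (by positivity)
      have h2 := Metric.cthickening_cthickening_subset (by positivity : (0:ℝ) ≤ κ/2)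
        (by positivity : (0:ℝ) ≤ κ/2) Γ h1
      simpa [hS, add_halves] using h2
  obtain ⟨κ, hκ, h⟩ := hunif
  refine ⟨min κ 1, lt_min hκ one_pos, ?_⟩
  intro x₁
  by_cases hx : x₁ ∈ K
  · exact (measure_mono (hSmono x₁ (min_le_left _ _))).trans (h x₁ hx)
  · have : S (min κ 1) x₁ = ∅ := by
      ext x₂
      simp only [mem_empty_iff_false, iff_false]
      intro hx₂
      exact hx ⟨(x₁, x₂), Metric.cthickening_mono (min_le_right _ _) Γ hx₂, rfl⟩
    change volume (S (min κ 1) x₁) ≤ δ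
    rw [this, measure_empty]
    exact bot_le

/-- **Thinness lemma.** -/
theorem exists_thin (Γ : Set (ℝ × ℝ)) (hΓ : IsCompact Γ)
    (hnull : ∀ x₁ : ℝ, volume {x₂ : ℝ | (x₁, x₂) ∈ Γ} = 0) {η L : ℝ} (hη : 0 < η) (hL : 0 < L) :
    ∃ θ : ℝ × ℝ → ℝ, ContDiff ℝ ∞ θ ∧ (∀ x, 0 ≤ θ x) ∧ (∀ x, θ x ≤ η) ∧
      (∀ x, 0 ≤ fderiv ℝ θ x (0, 1)) ∧ (∀ x, fderiv ℝ θ x (0, 1) ≤ L) ∧
      ∃ U : Set (ℝ × ℝ), IsOpen U ∧ Γ ⊆ U ∧ ∀ x ∈ U, fderiv ℝ θ x (0, 1) = L := by
  classical
  obtain ⟨κ, hκ, hslice⟩ := exists_thickening_slice_le Γ hΓ hnull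
    (δ := ENNReal.ofReal (η / L)) (by rw [ENNReal.ofReal_pos]; positivity)
  -- cut-off
  have hdisj : Disjoint (Metric.thickening κ Γ)ᶜ (Metric.cthickening (κ/2) Γ) := by
    rw [Set.disjoint_left]
    intro x hx hx'
    exact hx (Metric.cthickening_subset_thickening' hκ (by linarith) Γ hx')
  obtain ⟨χ, hχ0, hχ1, hχI⟩ := exists_contMDiffMap_zero_one_of_isClosed (n := (⊤ : ℕ∞))
    (modelWithCornersSelf ℝ (ℝ × ℝ)) (Metric.isOpen_thickening (δ := κ) (E := Γ)).isClosed_compl
    (Metric.isClosed_cthickening (δ := κ/2) (E := Γ)) hdisj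
  have hχs : ContDiff ℝ ∞ (χ : ℝ × ℝ → ℝ) := χ.contMDiff.contDiff
  have hχsupp : ∀ x, x ∉ Metric.cthickening κ Γ → χ x = 0 := by
    intro x hx
    exact hχ0 (fun h => hx (Metric.thickening_subset_cthickening κ Γ h))
  -- bounded support
  obtain ⟨R, hR⟩ : ∃ R : ℝ, Metric.cthickening κ Γ ⊆ Metric.closedBall (0:ℝ × ℝ) R :=
    (hΓ.isBounded.cthickening).subset_closedBall 0
  have hχR : ∀ x₁ s : ℝ, s < -R → χ (x₁, s) = 0 := by
    intro x₁ s hs
    apply hχsupp
    intro h
    have := hR h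
    rw [Metric.mem_closedBall, dist_zero_right, Prod.norm_def] at this
    have h2 : |s| ≤ R := (le_max_right _ _).trans this
    rw [abs_le] at h2
    linarith [h2.1]
  set θ₀ : ℝ × ℝ → ℝ := fun x => ∫ s in (-R)..x.2, χ (x.1, s) with hθ₀
  have hθs : ContDiff ℝ ∞ θ₀ :=
    contDiff_param_primitive (n := (⊤ : ℕ∞)) (h := fun (x:ℝ) (s:ℝ) => χ (x, s)) (-R) (by
      have : (Function.uncurry fun (x:ℝ) (s:ℝ) => χ (x, s)) = (χ : ℝ × ℝ → ℝ) := by
        funext q; rfl
      rw [this]; exact hχs)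
  have hderiv : ∀ x : ℝ × ℝ, fderiv ℝ θ₀ x (0, 1) = χ x := by
    intro x
    have h1 : HasDerivAt (fun s => θ₀ (x.1, s)) (χ (x.1, x.2)) x.2 :=
      hasDerivAt_param_primitive (P := ℝ) (h := fun (x:ℝ) (s:ℝ) => χ (x, s)) (-R)
        (by
          have : (Function.uncurry fun (x:ℝ) (s:ℝ) => χ (x, s)) = (χ : ℝ × ℝ → ℝ) := by
            funext q; rfl
          rw [this]; exact hχs.continuous) x.1 x.2
    have h2 : HasDerivAt (fun s : ℝ => θ₀ (x.1, s)) (fderiv ℝ θ₀ x (0, 1)) x.2 := by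
      have hd : HasFDerivAt θ₀ (fderiv ℝ θ₀ x) (x.1, x.2) :=
        (hθs.differentiable (by simp) x).hasFDerivAt
      have hl : HasDerivAt (fun s : ℝ => (x.1, s)) ((0:ℝ), (1:ℝ)) x.2 :=
        (hasDerivAt_const x.2 x.1).prodMk (hasDerivAt_id x.2)
      exact hd.comp_hasDerivAt x.2 hl
    rw [h2.unique h1]
  -- bounds
  have hnonneg : ∀ x, 0 ≤ χ x := fun x => (hχI x).1
  have hle1 : ∀ x, χ x ≤ 1 := fun x => (hχI x).2
  have hθ0 : ∀ x, 0 ≤ θ₀ x := by
    intro x
    rcases le_or_gt (-R) x.2 with h | h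
    · exact intervalIntegral.integral_nonneg h (fun s _ => hnonneg _)
    · have : θ₀ x = 0 := by
        simp only [hθ₀]
        rw [intervalIntegral.integral_symm]
        rw [neg_eq_zero]
        rw [intervalIntegral.integral_of_le h.le, ← integral_Ico_eq_integral_Ioc]
        rw [setIntegral_congr_fun measurableSet_Ico (g := fun _ => (0:ℝ))
          (fun s hs => hχR x.1 s hs.2)]
        simp
      rw [this]
  have hθη : ∀ x, θ₀ x ≤ η / L := by
    intro x
    rcases le_or_gt (-R) x.2 with h | h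
    · simp only [hθ₀]
      rw [intervalIntegral.integral_of_le h]
      set T : Set ℝ := {x₂ : ℝ | (x.1, x₂) ∈ Metric.cthickening κ Γ} with hT
      have hTm : MeasurableSet T :=
        (Metric.isClosed_cthickening.preimage (by fun_prop : Continuous fun x₂ : ℝ => (x.1, x₂))).measurableSet
      have h1 : ∫ s in Ioc (-R) x.2, χ (x.1, s) ≤ ∫ s in Ioc (-R) x.2, T.indicator (fun _ => (1:ℝ)) s := by
        refine setIntegral_mono_on ?_ ?_ measurableSet_Ioc ?_
        · have : Continuous fun s : ℝ => χ (x.1, s) := hχs.continuous.comp (by fun_prop)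
          exact (this.integrableOn_Icc).mono_set Ioc_subset_Icc_self
        · exact ((integrableOn_const (by simp)).indicator hTm)
        · intro s _
          by_cases hs : s ∈ T
          · rw [indicator_of_mem hs]; exact hle1 _
          · rw [indicator_of_notMem hs, hχsupp _ hs]
      refine h1.trans ?_
      rw [setIntegral_indicator hTm, setIntegral_const, smul_eq_mul, mul_one]
      have h2 : volume (Ioc (-R) x.2 ∩ T) ≤ ENNReal.ofReal (η / L) :=
        (measure_mono inter_subset_right).trans (hslice x.1)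
      exact ENNReal.toReal_le_of_le_ofReal (by positivity) h2
    · have : θ₀ x = 0 := by
        simp only [hθ₀]
        rw [intervalIntegral.integral_symm]
        rw [neg_eq_zero]
        rw [intervalIntegral.integral_of_le h.le, ← integral_Ico_eq_integral_Ioc]
        rw [setIntegral_congr_fun measurableSet_Ico (g := fun _ => (0:ℝ))
          (fun s hs => hχR x.1 s hs.2)]
        simp
      rw [this]; positivity
  have hfd : ∀ x, fderiv ℝ (fun y => L * θ₀ y) x (0, 1) = L * χ x := by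
    intro x
    rw [fderiv_const_mul (hθs.differentiable (by simp) x)]
    simp [hderiv]
  refine ⟨fun x => L * θ₀ x, contDiff_const.mul hθs, fun x => mul_nonneg hL.le (hθ0 x), ?_, ?_, ?_,
    Metric.thickening (κ/2) Γ, Metric.isOpen_thickening, Metric.self_subset_thickening (by positivity) Γ, ?_⟩
  · intro x
    calc L * θ₀ x ≤ L * (η / L) := mul_le_mul_of_nonneg_left (hθη x) hL.le
      _ = η := by field_simp
  · intro x
    rw [hfd]; exact mul_nonneg hL.le (hnonneg x)
  · intro x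
    rw [hfd]
    calc L * χ x ≤ L * 1 := mul_le_mul_of_nonneg_left (hle1 x) hL.le
      _ = L := mul_one L
  · intro x hx
    rw [hfd, hχ1 (Metric.thickening_subset_cthickening _ _ hx)]
    simp

end Crest.Agent.R216
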