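import Mathlib
import Crest.Agent.R216.Thin
import Crest.Agent.R216.GlobDefs

/-!
# The thinness lemma in the Euclidean plane (form used by PSL)
-/

set_option autoImplicit false

open MeasureTheory Set Filter Topology
open scoped ContDiff

namespace Crest.Agent.R216

/-- coordinates as a continuous linear equivalence -/
noncomputable def coordEquiv : EuclideanSpace ℝ (Fin 2) ≃L[ℝ] ℝ × ℝ :=
  LinearEquiv.toContinuousLinearEquiv
    { toFun := fun x => (x 0, x 1)
      invFun := fun y => y.1 • e1 + y.2 • e2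
      map_add' := by intro x y; simp
      map_smul' := by intro c x; simp
      left_inv := by
        intro x
        ext i
        fin_cases i <;> simp [e1, e2]
      right_inv := by
        intro y
        simp [e1, e2] }

@[simp] theorem coordEquiv_apply (x : EuclideanSpace ℝ (Fin 2)) : coordEquiv x = (x 0, x 1) := rfl

@[simp] theorem coordEquiv_symm_apply (y : ℝ × ℝ) : coordEquiv.symm y = y.1 • e1 + y.2 • e2 := rfl

/-- **Thinness lemma** in the Euclidean plane. -/
theorem exists_thin_E2 (Γ : Set (EuclideanSpace ℝ (Fin 2))) (hΓ : IsCompact Γ)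
    (hnull : ∀ s : ℝ, volume {t : ℝ | s • e1 + t • e2 ∈ Γ} = 0) {η L : ℝ} (hη : 0 < η)
    (hL : 0 < L) :
    ∃ θ : EuclideanSpace ℝ (Fin 2) → ℝ, ContDiff ℝ ∞ θ ∧ (∀ x, 0 ≤ θ x) ∧ (∀ x, θ x ≤ η) ∧
      (∀ x, 0 ≤ fderiv ℝ θ x e2) ∧ (∀ x, fderiv ℝ θ x e2 ≤ L) ∧
      ∃ U : Set (EuclideanSpace ℝ (Fin 2)), IsOpen U ∧ Γ ⊆ U ∧ ∀ x ∈ U, fderiv ℝ θ x e2 = L := by
  have hΓ' : IsCompact (coordEquiv '' Γ) := hΓ.image coordEquiv.continuous
  have hnull' : ∀ s : ℝ, volume {t : ℝ | (s, t) ∈ coordEquiv '' Γ} = 0 := by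
    intro s
    have : {t : ℝ | (s, t) ∈ coordEquiv '' Γ} = {t : ℝ | s • e1 + t • e2 ∈ Γ} := by
      ext t
      constructor
      · rintro ⟨x, hx, hxt⟩
        have : coordEquiv.symm (s, t) = x := by rw [← hxt, coordEquiv.symm_apply_apply]
        change s • e1 + t • e2 ∈ Γ
        rw [← coordEquiv_symm_apply (s, t), this]; exact hx
      · intro ht
        refine ⟨s • e1 + t • e2, ht, ?_⟩
        rw [← coordEquiv_symm_apply (s, t), coordEquiv.apply_symm_apply]
    rw [this]; exact hnull s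
  obtain ⟨θ, h1, h2, h3, h4, h5, U, hU, hΓU, h6⟩ := exists_thin _ hΓ' hnull' hη hL
  have hfd : ∀ x, fderiv ℝ (θ ∘ coordEquiv) x e2 = fderiv ℝ θ (coordEquiv x) (0, 1) := by
    intro x
    rw [fderiv_comp x (h1.differentiable (by simp) _) coordEquiv.differentiableAt]
    rw [coordEquiv.fderiv]
    simp [e2]
  refine ⟨θ ∘ coordEquiv, h1.comp coordEquiv.contDiff, fun x => h2 _, fun x => h3 _, ?_, ?_,
    coordEquiv ⁻¹' U, hU.preimage coordEquiv.continuous, ?_, ?_⟩
  · intro x; rw [hfd]; exact h4 _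
  · intro x; rw [hfd]; exact h5 _
  · intro x hx; exact hΓU ⟨x, hx, rfl⟩
  · intro x hx; rw [hfd]; exact h6 _ hx

end Crest.Agent.R216
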