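import Crest.Agent.R216.PSLNu
import Crest.Agent.R216.PSLGauss
import Crest.Agent.R216.PSLLim0
import Crest.Agent.R216.PSLLim1
import Crest.Agent.R216.PSLLim2
import Crest.Agent.R216.PSLLoop
import Crest.Agent.R216.ThinE2

/-!
Row 216, PSL: the planar step lemma from Theorem E (helper920).
-/

set_option autoImplicit false

noncomputable section

open scoped Manifold ContDiff Topology
open Set MeasureTheory

namespace Crest.Agent.R216.PSL.Asm

lemma sq_pair_pos {A B : P4} (h : LinearIndependent ℝ ![A, B]) : gr A B ≠ 0 := (gr_pos h).ne'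

/-- tube: the family is defined for small rotation angles -/
lemma exists_tube {a : P2 → ℝ} {K : Set P2} {O : Set (P2 × ℝ × ℝ)} (hK : IsCompact K)
    (ha : Continuous a) (hO : IsOpen O) (hmem : ∀ x ∈ K, (x, a x, (0:ℝ)) ∈ O) :
    ∃ δ : ℝ, 0 < δ ∧ ∀ x ∈ K, ∀ ϑ ∈ Icc (0:ℝ) δ, (x, a x, ϑ) ∈ O := by
  have hcont : Continuous fun q : P2 × ℝ => ((q.1, a q.1, q.2) : P2 × ℝ × ℝ) := by fun_prop
  obtain ⟨U, V, hU, hV, hKU, h0V, hUV⟩ := generalized_tube_lemma hK (isCompact_singleton (x := (0:ℝ)))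
    (hO.preimage hcont) (by
      rintro ⟨x, s⟩ ⟨hx, hs⟩
      simp only [mem_singleton_iff] at hs
      subst hs
      exact hmem x hx)
  obtain ⟨δ, hδ, hball⟩ := Metric.isOpen_iff.1 hV 0 (h0V rfl)
  refine ⟨δ / 2, half_pos hδ, fun x hx ϑ hϑ => ?_⟩
  have : ϑ ∈ V := by
    apply hball
    rw [Metric.mem_ball, dist_zero_right, Real.norm_eq_abs, abs_of_nonneg hϑ.1]
    linarith [hϑ.2]
  exact hUV (⟨hKU hx, this⟩ : (x, ϑ) ∈ U ×ˢ V)

/-- induced metrics bounded below by the metric of an immersion give immersions -/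
lemma injective_of_met {F f : P2 → P4} {x : P2} {c : ℝ} (hc : 0 ≤ c)
    (hf : Function.Injective (fderiv ℝ f x))
    (h : ∀ v w : P2, met F x v w = met f x v w + c * (v 0 * w 0)) :
    Function.Injective (fderiv ℝ F x) := by
  rw [injective_iff_map_eq_zero] at hf ⊢
  intro v hv
  apply hf
  have h1 := h v v
  have h2 : met F x v v = 0 := by simp [met, d1, hv]
  have h3 : 0 ≤ met f x v v := real_inner_self_nonneg
  have h4 : 0 ≤ c * (v 0 * v 0) := mul_nonneg hc (mul_self_nonneg _)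
  have h5 : met f x v v = 0 := by linarith
  exact inner_self_eq_zero.1 h5

lemma indep_of_injective {F : P2 → P4} {x : P2} (h : Function.Injective (fderiv ℝ F x)) :
    LinearIndependent ℝ ![d1 F x e1, d1 F x e2] := by
  rw [LinearIndependent.pair_iff]
  intro s t hst
  have h1 : fderiv ℝ F x (s • e1 + t • e2) = 0 := by
    simpa [d1] using hst
  have h2 : s • e1 + t • e2 = 0 := by
    apply h
    rw [h1, map_zero]
  constructor
  · have := congrArg (fun v : P2 => v 0) h2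
    simpa [e1, e2] using this
  · have := congrArg (fun v : P2 => v 1) h2
    simpa [e1, e2] using this

/-- Gauss equation for the pair `(v, e₂)` in terms of the three normal vectors. -/
lemma gauss_alg (h11 h12 h22 : P4) (p q : ℝ) :
    inner ℝ ((p ^ 2) • h11 + (2 * p * q) • h12 + (q ^ 2) • h22) h22 =
      (inner ℝ h11 h22 - inner ℝ h12 h12) * p ^ 2 + ‖p • h12 + q • h22‖ ^ 2 := by
  rw [← real_inner_self_eq_norm_sq]
  simp only [inner_add_left, inner_add_right, real_inner_smul_left, inner_smul_right]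
  rw [real_inner_comm h12 h22]
  simp
  ring

lemma hN_e2 {F : P2 → P4} {x : P2} (hF : ContDiffAt ℝ 2 F x)
    (hi : Function.Injective (fderiv ℝ F x)) (v : P2) :
    hN F x v e2 = v 0 • hN F x e1 e2 + v 1 • hN F x e2 e2 := by
  rw [hN_eq_nor hi, hN_eq_nor hi, hN_eq_nor hi, ← nor_smul, ← nor_smul, ← nor_add, d2_eq hF v e2]
  congr 1
  simp [e2_0, e2_1]

lemma hN_vv {F : P2 → P4} {x : P2} (hF : ContDiffAt ℝ 2 F x)
    (hi : Function.Injective (fderiv ℝ F x)) (v : P2) :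
    hN F x v v = (v 0 ^ 2) • hN F x e1 e1 + (2 * v 0 * v 1) • hN F x e1 e2
      + (v 1 ^ 2) • hN F x e2 e2 := by
  rw [hN_eq_nor hi, hN_eq_nor hi, hN_eq_nor hi, hN_eq_nor hi, ← nor_smul, ← nor_smul, ← nor_smul,
    ← nor_add, ← nor_add, quad_eq hF v, quad]


lemma nor_self_left {A B : P4} (h : gr A B ≠ 0) : nor A B A = 0 := by
  have h' : inner ℝ A A * inner ℝ B B - inner ℝ A B ^ 2 ≠ 0 := h
  have e1 : inner ℝ A A * inner ℝ B B - inner ℝ A B * inner ℝ A B = gr A B := by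
    simp only [gr]; ring
  have e2 : inner ℝ A B * inner ℝ A A - inner ℝ A A * inner ℝ A B = 0 := by ring
  rw [nor, e1, e2, zero_smul, add_zero, smul_smul, inv_mul_cancel₀ h, one_smul, sub_self]

lemma nor_self_right {A B : P4} (h : gr A B ≠ 0) : nor A B B = 0 := by
  have e1 : inner ℝ B A * inner ℝ B B - inner ℝ B B * inner ℝ A B = 0 := by
    rw [real_inner_comm A B]; ring
  have e2 : inner ℝ B B * inner ℝ A A - inner ℝ B A * inner ℝ A B = gr A B := by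
    simp only [gr]; rw [real_inner_comm A B]; ring
  rw [nor, e1, e2, zero_smul, zero_add, smul_smul, inv_mul_cancel₀ h, one_smul, sub_self]

lemma indep3_of_nor {A B C : P4} (h : LinearIndependent ℝ ![A, B]) (hn : nor A B C ≠ 0) :
    LinearIndependent ℝ ![A, B, C] := by
  have hg := sq_pair_pos h
  rw [Fintype.linearIndependent_iff]
  intro c hc
  simp only [Fin.sum_univ_three, Matrix.cons_val_zero, Matrix.cons_val_one, Matrix.cons_val] at hc
  have h1 : nor A B (c 0 • A + c 1 • B + c 2 • C) = 0 := by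
    rw [hc]
    have := nor_smul A B 0 0
    simpa using this
  rw [nor_add, nor_add, nor_smul, nor_smul, nor_smul, nor_self_left hg, nor_self_right hg] at h1
  simp only [smul_zero, zero_add] at h1
  have h2 : c 2 = 0 := (smul_eq_zero.1 h1).resolve_right hn
  rw [h2, zero_smul, add_zero] at hc
  obtain ⟨h3, h4⟩ := LinearIndependent.pair_iff.1 h _ _ hc
  intro i
  fin_cases i
  · exact h3
  · exact h4
  · exact h2

/-- freezing the rotation angle -/
lemma loopFam_of_rot {f : P2 → P4} {a : P2 → ℝ} {K : Set P2} {O : Set (P2 × ℝ × ℝ)}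
    {W : P2 × ℝ × ℝ → ℝ → P4} (h : RLoop f a K O W) {θ : P2 → ℝ} (hθ : ContDiff ℝ ∞ θ)
    (hmem : ∀ x ∈ K, (x, a x, θ x) ∈ O) :
    LoopFam f a K {q : P2 × ℝ | (q.1, q.2, θ q.1) ∈ O} (fun q t => W (q.1, q.2, θ q.1) t) where
  isOpen := by
    have : Continuous fun q : P2 × ℝ => ((q.1, q.2, θ q.1) : P2 × ℝ × ℝ) := by
      have := hθ.continuous
      fun_prop
    exact h.isOpen.preimage this
  mem := hmem
  smooth := by
    have h1 : ContDiff ℝ ∞ (fun z : (P2 × ℝ) × ℝ =>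
        (((z.1.1, z.1.2, θ z.1.1) : P2 × ℝ × ℝ), z.2)) := by fun_prop
    exact h.smooth.comp h1.contDiffOn (fun z hz => ⟨hz.1, mem_univ _⟩)
  per := fun z hz t => h.per _ hz t
  even := fun z hz t => h.even _ hz t
  mean := fun z hz => h.mean _ hz
  perp2 := fun z hz t => h.perp2 _ hz t
  perp22 := fun z hz t => h.perp22 _ hz t
  norm := fun z hz t => h.norm _ hz t

lemma continuous_d1 {f : P2 → P4} (hf : ContDiff ℝ ∞ f) (v : P2) :
    Continuous fun x => d1 f x v :=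
  (hf.continuous_fderiv (by simp)).clm_apply continuous_const

lemma continuous_d2 {f : P2 → P4} (hf : ContDiff ℝ ∞ f) (v w : P2) :
    Continuous fun x => d2 f x v w := by
  have h1 : ContDiff ℝ 1 (fderiv ℝ f) :=
    (hf.of_le (WithTop.coe_le_coe.2 le_top : (2 : WithTop ℕ∞) ≤ ∞)).fderiv_right (by norm_num)
  exact ((h1.continuous_fderiv (by simp)).clm_apply continuous_const).clm_apply continuous_const

/-- finite minimum of thresholds -/
lemma exists_common {α : Type*} (T : Finset α) (P : α → ℝ → Prop)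
    (hP : ∀ q ∈ T, ∃ η : ℝ, 0 < η ∧ ∀ η', 0 < η' → η' ≤ η → P q η') :
    ∃ η : ℝ, 0 < η ∧ ∀ q ∈ T, ∀ η', 0 < η' → η' ≤ η → P q η' := by
  classical
  induction T using Finset.induction_on with
  | empty => exact ⟨1, one_pos, by simp⟩
  | insert q T hq ih =>
    obtain ⟨η1, h1, h1'⟩ := ih (fun r hr => hP r (Finset.mem_insert_of_mem hr))
    obtain ⟨η2, h2, h2'⟩ := hP q (Finset.mem_insert_self q T)
    refine ⟨min η1 η2, lt_min h1 h2, ?_⟩
    intro r hr η' hη' hle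
    rcases Finset.mem_insert.1 hr with rfl | hr
    · exact h2' η' hη' (hle.trans (min_le_right _ _))
    · exact h1' r hr η' hη' (hle.trans (min_le_left _ _))

lemma nor_ne_zero {A B C : P4} (h : LinearIndependent ℝ ![A, B, C]) : nor A B C ≠ 0 := by
  intro h0
  rw [Fintype.linearIndependent_iff] at h
  rw [nor, sub_eq_zero] at h0
  set p := (gr A B)⁻¹ * (inner ℝ C A * inner ℝ B B - inner ℝ C B * inner ℝ A B) with hp
  set q := (gr A B)⁻¹ * (inner ℝ C B * inner ℝ A A - inner ℝ C A * inner ℝ A B) with hq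
  have h3 : p • A + q • B + (-1 : ℝ) • C = 0 := by
    have h4 : C = p • A + q • B := by
      conv_lhs => rw [h0]
      rw [smul_add, smul_smul, smul_smul]
    conv_lhs => rw [h4]
    module
  have h1 := h ![p, q, -1] (by
    simp only [Fin.sum_univ_three, Matrix.cons_val_zero, Matrix.cons_val_one, Matrix.cons_val]
    exact h3) 2
  simp at h1

lemma indep2_of_indep3 {A B C : P4} (h : LinearIndependent ℝ ![A, B, C]) :
    LinearIndependent ℝ ![A, B] := by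
  rw [Fintype.linearIndependent_iff] at h
  rw [LinearIndependent.pair_iff]
  intro s t hst
  have h1 := h ![s, t, 0] (by
    simp only [Fin.sum_univ_three, Matrix.cons_val_zero, Matrix.cons_val_one, Matrix.cons_val,
      zero_smul, add_zero]
    exact hst)
  have h2 := h1 0
  have h3 := h1 1
  simp only [Matrix.cons_val_zero, Matrix.cons_val_one] at h2 h3
  exact ⟨h2, h3⟩

lemma hN_of_jets {F f : P2 → P4} {x : P2} (h1 : fderiv ℝ F x = fderiv ℝ f x)
    (h2 : fderiv ℝ (fderiv ℝ F) x = fderiv ℝ (fderiv ℝ f) x) (v w : P2) :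
    hN F x v w = hN f x v w := by
  simp only [hN, tanSp, d2, h1, h2]

lemma fderiv_Phi_per {f : P2 → P4} {a : P2 → ℝ} {K : Set P2} {O : Set (P2 × ℝ × ℝ)}
    {W : P2 × ℝ × ℝ → ℝ → P4} (h : RLoop f a K O W) (ha : ContDiff ℝ ∞ a) {x : P2} {ϑ t : ℝ}
    (hz : (x, ϑ, t) ∈ domPhi a O) :
    fderiv ℝ (Phi a W) (x, ϑ, t + 2 * Real.pi) = fderiv ℝ (Phi a W) (x, ϑ, t) := by
  have h1 : (fun z : P2 × ℝ × ℝ => Phi a W (z + ((0 : P2), (0 : ℝ), 2 * Real.pi)))
      =ᶠ[𝓝 (x, ϑ, t)] Phi a W := by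
    filter_upwards [(isOpen_domPhi h.isOpen ha).mem_nhds hz] with z hz'
    have := h.per _ hz' z.2.2
    simpa [Phi] using this
  have h2 := h1.fderiv_eq (𝕜 := ℝ)
  rw [fderiv_comp_add_right] at h2
  simpa using h2

lemma perp_theta {f : P2 → P4} {a : P2 → ℝ} {K : Set P2} {O : Set (P2 × ℝ × ℝ)}
    {W : P2 × ℝ × ℝ → ℝ → P4} (h : RLoop f a K O W) (ha : ContDiff ℝ ∞ a) {x : P2} {ϑ t : ℝ}
    (hz : (x, ϑ, t) ∈ domPhi a O) :
    inner ℝ (PhiT a W (x, ϑ, t)) (Phi a W (x, ϑ, t)) = 0 ∧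
      inner ℝ (PhiT a W (x, ϑ, t)) (d1 f x e2) = 0 ∧
      inner ℝ (PhiT a W (x, ϑ, t)) (d2 f x e2 e2) = 0 := by
  have hd := deriv_theta h ha hz
  have hO : ∀ᶠ s in 𝓝 ϑ, ((x, a x, s) : P2 × ℝ × ℝ) ∈ O := by
    have hcont : Continuous fun s : ℝ => ((x, a x, s) : P2 × ℝ × ℝ) := by fun_prop
    exact hcont.continuousAt.preimage_mem_nhds (h.isOpen.mem_nhds hz)
  rw [← hd.deriv]
  refine ⟨?_, ?_, ?_⟩
  · exact inner_deriv_self_zero (g := fun s : ℝ => W (x, a x, s) t)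
      (c := inner ℝ (d1 f x e1) (d1 f x e1) + a x ^ 2) hd.differentiableAt
      (hO.mono fun s hs => h.norm _ hs t)
  · exact inner_deriv_zero (g := fun s : ℝ => W (x, a x, s) t)
      (c := inner ℝ (d1 f x e1) (d1 f x e2)) hd.differentiableAt
      (hO.mono fun s hs => h.perp2 _ hs t)
  · exact inner_deriv_zero (g := fun s : ℝ => W (x, a x, s) t)
      (c := inner ℝ (d1 f x e1) (d2 f x e2 e2)) hd.differentiableAt
      (hO.mono fun s hs => h.perp22 _ hs t)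

lemma perp_time {f : P2 → P4} {a : P2 → ℝ} {K : Set P2} {O : Set (P2 × ℝ × ℝ)}
    {W : P2 × ℝ × ℝ → ℝ → P4} (h : RLoop f a K O W) (ha : ContDiff ℝ ∞ a) {x : P2} {ϑ t : ℝ}
    (hz : (x, ϑ, t) ∈ domPhi a O) :
    inner ℝ (Phit a W (x, ϑ, t)) (Phi a W (x, ϑ, t)) = 0 ∧
      inner ℝ (Phit a W (x, ϑ, t)) (d1 f x e2) = 0 ∧
      inner ℝ (Phit a W (x, ϑ, t)) (d2 f x e2 e2) = 0 := by
  have hd := deriv_time h ha hz
  rw [← hd.deriv]
  refine ⟨?_, ?_, ?_⟩
  · exact inner_deriv_self_zero (g := fun s : ℝ => W (x, a x, ϑ) s) hd.differentiableAt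
      (Filter.Eventually.of_forall fun s => h.norm _ hz s)
  · exact inner_deriv_zero (g := fun s : ℝ => W (x, a x, ϑ) s) hd.differentiableAt
      (Filter.Eventually.of_forall fun s => h.perp2 _ hz s)
  · exact inner_deriv_zero (g := fun s : ℝ => W (x, a x, ϑ) s) hd.differentiableAt
      (Filter.Eventually.of_forall fun s => h.perp22 _ hz s)

theorem core (hE : TheoremE) {f ν : P2 → P4} {u b : P2 → ℝ} (hf : ContDiff ℝ ∞ f)
    (hν : ContDiff ℝ ∞ ν) (hamp : IsAmp u b) {N : Set P2} (hNo : IsOpen N)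
    (hKN : closure {x : P2 | 0 < u x} ⊆ N)
    (hfi : ∀ x ∈ N, Function.Injective (fderiv ℝ f x))
    (hν1 : ∀ x ∈ closure {x : P2 | 0 < u x}, ‖ν x‖ = 1)
    (hν2 : ∀ x ∈ closure {x : P2 | 0 < u x}, ∀ v, inner ℝ (ν x) (d1 f x v) = 0)
    (hgam : ∀ x ∈ closure {x : P2 | 0 < u x}, gamN f x ≠ 0)
    (hQ1 : ∀ x ∈ frontier {x : P2 | 0 < u x}, Q1 (hN f x) (ν x) e2)
    {G : Set (P2 × P2)} (hG : IsCompact G) (hGK : ∀ z ∈ G, z.1 ∈ closure {x : P2 | 0 < u x})
    (hGv : ∀ z ∈ G, z.2 ≠ 0)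
    (hnull : ∀ s : ℝ, volume {t : ℝ | s • e1 + t • e2 ∈ Prod.fst '' G} = 0)
    (hQ2 : ∀ z ∈ G, ¬ 0 < u z.1 → Q2 (hN f z.1) z.2 e2)
    (T : Finset (P2 × P2 × P2)) (hT : ∀ q ∈ T, 0 < u q.1 ∧ q.2.1 0 ≠ 0 ∧ q.2.2 0 ≠ 0) :
    ∃ F : P2 → P4, ContDiff ℝ ∞ F ∧
      (∀ x, ¬ 0 < u x → F x = f x ∧ fderiv ℝ F x = fderiv ℝ f x ∧
        fderiv ℝ (fderiv ℝ F) x = fderiv ℝ (fderiv ℝ f) x) ∧
      (∀ x, ∀ v w : P2, met F x v w = met f x v w + amp u b x ^ 2 * (v 0 * w 0)) ∧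
      (∀ x, 0 < u x → hN F x e2 e2 ≠ 0) ∧
      (∀ z ∈ G, 0 < u z.1 → ∀ c : ℝ, 0 ≤ c →
        hN F z.1 z.2 z.2 ≠ -(c • hN F z.1 e2 e2)) ∧
      (∀ q ∈ T, Q2 (hN F q.1) q.2.1 q.2.2 ∧
        Q3 (hN F q.1)
          (‖hN F q.1 e2 e2‖⁻¹ • hN F q.1 e2 e2)
          q.2.1 q.2.2) := by
  classical
  set K : Set P2 := closure {x : P2 | 0 < u x} with hKdef
  set a : P2 → ℝ := amp u b with hadef
  have hKc : IsCompact K := hamp.cpt
  have ha : ContDiff ℝ ∞ a := contDiff_amp hamp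
  have ha' : Continuous a := ha.continuous
  have hopenU : IsOpen {x : P2 | 0 < u x} := isOpen_lt continuous_const hamp.hu.continuous
  have hUK : ∀ x, 0 < u x → x ∈ K := fun x hx => subset_closure hx
  have hfront : ∀ x ∈ K, ¬ 0 < u x → x ∈ frontier {x : P2 | 0 < u x} := by
    intro x hx hx0
    rw [hopenU.frontier_eq]
    exact ⟨hx, hx0⟩
  have hfr2 : ∀ x ∈ frontier {x : P2 | 0 < u x}, x ∈ K ∧ ¬ 0 < u x := by
    intro x hx
    rw [hopenU.frontier_eq] at hx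
    exact hx
  have ha0 : ∀ x, a x = 0 → ¬ 0 < u x := fun x h => (amp_eq_zero_iff hamp).1 h
  have hfiK : ∀ x ∈ K, Function.Injective (fderiv ℝ f x) := fun x hx => hfi x (hKN hx)
  have h12 : ∀ x ∈ K, LinearIndependent ℝ ![d1 f x e1, d1 f x e2] :=
    fun x hx => indep_of_injective (hfiK x hx)
  have h2_22 : ∀ x ∈ K, LinearIndependent ℝ ![d1 f x e2, d2 f x e2 e2] :=
    fun x hx => indep_f2_f22 (h12 x hx) (hgam x hx)
  have hh22 : ∀ x ∈ K, ¬ 0 < u x → hN f x e2 e2 ≠ 0 := by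
    intro x hx h0
    have := hQ1 x (hfront x hx h0) 0 le_rfl
    simpa using this
  have hind3 : ∀ x ∈ K, ¬ 0 < u x →
      LinearIndependent ℝ ![d1 f x e1, d1 f x e2, d2 f x e2 e2] := by
    intro x hx h0
    refine indep3_of_nor (h12 x hx) ?_
    rw [← hN_eq_nor (hfiK x hx)]
    exact hh22 x hx h0
  obtain ⟨O, W, hW⟩ := exists_RLoop hKc hf hν ha (fun x _ => amp_nonneg hamp x) hfiK hν1 hν2 hgam
    (fun x hx h0 => hQ1 x (hfront x hx (ha0 x h0)))
  obtain ⟨δ, hδ, htube⟩ := exists_tube hKc ha' hW.isOpen hW.mem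
  have hdom : ∀ x ∈ K, ∀ ϑ ∈ Icc (0:ℝ) δ, ∀ t : ℝ, ((x, ϑ, t) : P2 × ℝ × ℝ) ∈ domPhi a O :=
    fun x hx ϑ hϑ t => htube x hx ϑ hϑ
  have h0δ : (0:ℝ) ∈ Icc (0:ℝ) δ := ⟨le_rfl, hδ.le⟩
  have hsub : K ×ˢ Icc (0:ℝ) δ ×ˢ (univ : Set ℝ) ⊆ domPhi a O := by
    rintro ⟨x, ϑ, t⟩ ⟨hx, hϑ, -⟩
    exact hdom x hx ϑ hϑ t
  have hΦc : ContinuousOn (Phi a W) (domPhi a O) := (contDiffOn_Phi hW ha).continuousOn
  have hΦ2c : ContinuousOn (Phi2 a W) (domPhi a O) := continuousOn_fderiv_Phi hW ha _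
  have hΦTc : ContinuousOn (PhiT a W) (domPhi a O) := continuousOn_fderiv_Phi hW ha _
  have hΦtc : ContinuousOn (Phit a W) (domPhi a O) := continuousOn_fderiv_Phi hW ha _
  have hperΦ : ∀ x ϑ t, ((x, ϑ, t) : P2 × ℝ × ℝ) ∈ domPhi a O →
      Phi a W (x, ϑ, t + 2 * Real.pi) = Phi a W (x, ϑ, t) ∧
      Phi2 a W (x, ϑ, t + 2 * Real.pi) = Phi2 a W (x, ϑ, t) ∧
      PhiT a W (x, ϑ, t + 2 * Real.pi) = PhiT a W (x, ϑ, t) ∧
      Phit a W (x, ϑ, t + 2 * Real.pi) = Phit a W (x, ϑ, t) := by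
    intro x ϑ t hz
    have h1 := fderiv_Phi_per hW ha hz
    refine ⟨hW.per _ hz t, ?_, ?_, ?_⟩
    · simp only [Phi2, h1]
    · simp only [PhiT, h1]
    · simp only [Phit, h1]
  have hindΦ : ∀ x ∈ K, ∀ ϑ ∈ Icc (0:ℝ) δ, ∀ t : ℝ,
      LinearIndependent ℝ ![Phi a W (x, ϑ, t), d1 f x e2, d2 f x e2 e2] := by
    intro x hx ϑ hϑ t
    have hz := htube x hx ϑ hϑ
    exact indep_of_circle (h2_22 x hx) (hW.perp2 _ hz t) (hW.perp22 _ hz t) (hW.norm _ hz t)
      (fun h0 => hind3 x hx (ha0 x h0))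
  -- reference immersion and curvature
  have LF0 := loopFam_of_rot hW (θ := fun _ => 0) contDiff_const hW.mem
  obtain ⟨ε0, -, -, hF0⟩ := hE f u b _ _ hf hamp h2_22
    (fun x hx => hind3 x (hfr2 x hx).1 (hfr2 x hx).2) LF0 1 one_pos
  obtain ⟨F0, hF0s, hF0j, hF0m, -⟩ := hF0 0
  have hinj : ∀ F : P2 → P4, (∀ x, ∀ v w : P2, met F x v w = met f x v w + a x ^ 2 * (v 0 * w 0)) →
      ∀ x ∈ N, Function.Injective (fderiv ℝ F x) := fun F hF x hx =>
    injective_of_met (sq_nonneg (a x)) (hfi x hx) (hF x)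
  have hF0i := hinj F0 hF0m
  set κ : P2 → ℝ := KK F0 with hκdef
  have hκc : ContinuousOn κ K := by
    have hg : ∀ x ∈ K, gr (d1 F0 x e1) (d1 F0 x e2) ≠ 0 := fun x hx =>
      sq_pair_pos (indep_of_injective (hF0i x (hKN hx)))
    have hc : ∀ v w : P2, ContinuousOn (fun x => nor (d1 F0 x e1) (d1 F0 x e2) (d2 F0 x v w)) K :=
      fun v w => continuousOn_nor (continuous_d1 hF0s e1).continuousOn
        (continuous_d1 hF0s e2).continuousOn (continuous_d2 hF0s v w).continuousOn hg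
    have h1 : ContinuousOn (fun x =>
        inner ℝ (nor (d1 F0 x e1) (d1 F0 x e2) (d2 F0 x e1 e1))
          (nor (d1 F0 x e1) (d1 F0 x e2) (d2 F0 x e2 e2)) -
        inner ℝ (nor (d1 F0 x e1) (d1 F0 x e2) (d2 F0 x e1 e2))
          (nor (d1 F0 x e1) (d1 F0 x e2) (d2 F0 x e1 e2))) K :=
      ((hc e1 e1).inner (hc e2 e2)).sub ((hc e1 e2).inner (hc e1 e2))
    refine h1.congr ?_
    intro x hx
    have hi := hF0i x (hKN hx)
    simp only [hκdef, KK, hN_eq_nor hi]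
  -- LL0
  obtain ⟨L0, hL0, hLL0⟩ := LL0 hKc hG hGK hGv hδ
    (f2 := fun x => d1 f x e2) (f22 := fun x => d2 f x e2 e2)
    (continuous_d1 hf e2).continuousOn (continuous_d2 hf e2 e2).continuousOn
    (W := Phi a W) (W2 := Phi2 a W) (Wϑ := PhiT a W)
    (hΦc.mono hsub) (hΦ2c.mono hsub) (hΦTc.mono hsub)
    (fun x hx ϑ hϑ t => by
      obtain ⟨h1, h2, h3, -⟩ := hperΦ x ϑ t (hdom x hx ϑ hϑ t)
      exact ⟨h1, h2, h3⟩)
    hκc ha'.continuousOn hindΦ
    (fun x hx ϑ hϑ t => perp_theta hW ha (hdom x hx ϑ hϑ t))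
    (fun x hx hax t hst => by
      have h1 := hW.fast x (a x) (hW.mem x hx) hax t hst
      rwa [(deriv_theta hW ha (hdom x hx 0 h0δ t)).deriv] at h1)
    (by
      intro z hz haz t
      have hx := hGK z hz
      have hu0 := ha0 _ haz
      have hzO : (z.1, (0:ℝ), t) ∈ domPhi a O := hdom _ hx 0 h0δ t
      have e1' : Phi a W (z.1, 0, t) = d1 f z.1 e1 := W_const hW hzO haz t
      have e2' : Phi2 a W (z.1, 0, t) = d2 f z.1 e1 e2 := by
        rw [Phi2_bd hW hf ha hzO haz (fderiv_amp_zero hamp hu0)]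
        exact d2_symm (cd2 hf _) _ _
      have hi := hfiK _ hx
      have hcd := cd2 hf z.1
      have hq := hQ2 z hz hu0
      rw [Q2, hN_e2 hcd hi z.2, hN_vv hcd hi z.2] at hq
      have hga := gauss_alg (hN f z.1 e1 e1) (hN f z.1 e1 e2) (hN f z.1 e2 e2) (z.2 0) (z.2 1)
      rw [hga] at hq
      have hκz : κ z.1 = inner ℝ (hN f z.1 e1 e1) (hN f z.1 e2 e2)
          - inner ℝ (hN f z.1 e1 e2) (hN f z.1 e1 e2) := by
        obtain ⟨-, j1, j2⟩ := hF0j z.1 hu0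
        simp only [hκdef, KK, hN_of_jets j1 j2]
      rw [e1', e2', nor_add, nor_smul, nor_smul, ← hN_eq_nor hi, ← hN_eq_nor hi, hκz]
      rw [real_inner_self_eq_norm_sq (z.2 0 • hN f z.1 e1 e2 + z.2 1 • hN f z.1 e2 e2),
        real_inner_self_eq_norm_sq (hN f z.1 e2 e2)] at hq
      nlinarith [hq])
  -- thinness
  have hGc : IsCompact (Prod.fst '' G) := hG.image continuous_fst
  obtain ⟨θ, hθs, hθ0, hθη, -, -, U0, -, hGU0, hθL⟩ := exists_thin_E2 (Prod.fst '' G) hGc hnull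
    (η := min (1 / L0) δ) (L := L0) (lt_min (by positivity) hδ) hL0
  have hθI : ∀ x, θ x ∈ Icc (0:ℝ) δ := fun x => ⟨hθ0 x, (hθη x).trans (min_le_right _ _)⟩
  have hθL' : ∀ z ∈ G, fderiv ℝ θ z.1 e2 = L0 := fun z hz => hθL _ (hGU0 ⟨z, hz, rfl⟩)
  have LFθ := loopFam_of_rot hW hθs (fun x hx => htube x hx (θ x) (hθI x))
  set w : P2 × ℝ → P4 := fun q => Phi a W (q.1, θ q.1, q.2) with hwdef
  set w2 : P2 × ℝ → P4 := fun q => Phi2 a W (q.1, θ q.1, q.2)
    + (fderiv ℝ θ q.1 e2) • PhiT a W (q.1, θ q.1, q.2) with hw2def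
  set wt : P2 × ℝ → P4 := fun q => Phit a W (q.1, θ q.1, q.2) with hwtdef
  have hmap : ContinuousOn (fun q : P2 × ℝ => ((q.1, θ q.1, q.2) : P2 × ℝ × ℝ)) (K ×ˢ univ) := by
    have := hθs.continuous
    fun_prop
  have hmaps : MapsTo (fun q : P2 × ℝ => ((q.1, θ q.1, q.2) : P2 × ℝ × ℝ)) (K ×ˢ univ)
      (domPhi a O) := by
    rintro ⟨x, t⟩ ⟨hx, -⟩
    exact hdom x hx _ (hθI x) t
  have hwc : ContinuousOn w (K ×ˢ univ) := hΦc.comp hmap hmaps
  have hw2c : ContinuousOn w2 (K ×ˢ univ) := by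
    have h1 : Continuous fun q : P2 × ℝ => fderiv ℝ θ q.1 e2 :=
      ((hθs.continuous_fderiv (by simp)).comp continuous_fst).clm_apply continuous_const
    exact (hΦ2c.comp hmap hmaps).add (h1.continuousOn.smul (hΦTc.comp hmap hmaps))
  have hwtc : ContinuousOn wt (K ×ˢ univ) := hΦtc.comp hmap hmaps
  have hperw : ∀ x ∈ K, ∀ t, w (x, t + 2 * Real.pi) = w (x, t) ∧
      w2 (x, t + 2 * Real.pi) = w2 (x, t) ∧ wt (x, t + 2 * Real.pi) = wt (x, t) := by
    intro x hx t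
    obtain ⟨h1, h2, h3, h4⟩ := hperΦ x (θ x) t (hdom x hx _ (hθI x) t)
    refine ⟨h1, ?_, h4⟩
    simp only [hw2def, h2, h3]
  have hindw : ∀ x ∈ K, ∀ t, LinearIndependent ℝ ![w (x, t), d1 f x e2, d2 f x e2 e2] :=
    fun x hx t => hindΦ x hx _ (hθI x) t
  have hperpw : ∀ x ∈ K, ∀ t, inner ℝ (wt (x, t)) (w (x, t)) = 0 ∧
      inner ℝ (wt (x, t)) (d1 f x e2) = 0 ∧ inner ℝ (wt (x, t)) (d2 f x e2 e2) = 0 :=
    fun x hx t => perp_time hW ha (hdom x hx _ (hθI x) t)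
  have hturn : ∀ x ∈ K, ∀ t, wt (x, t) = 0 → a x = 0 ∨ Real.sin t = 0 := by
    intro x hx t h0
    have hz := hdom x hx _ (hθI x) t
    apply hW.turn (x, a x, θ x) hz t
    rw [(deriv_time hW ha hz).deriv]
    exact h0
  have hnd : ∀ z ∈ G, ∀ t, (z.2 0 = 0 ∨ wt (z.1, t) = 0) →
      0 < κ z.1 * (z.2 0) ^ 2 + ‖nor (w (z.1, t)) (d1 f z.1 e2)
        (z.2 0 • w2 (z.1, t) + z.2 1 • d2 f z.1 e2 e2)‖ ^ 2 := by
    intro z hz t hcase
    rcases hcase with h0 | h0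
    · rw [h0]
      have h1 : z.2 1 ≠ 0 := by
        intro h1
        apply hGv z hz
        rw [P2_eq z.2, h0, h1]
        simp
      have h2 := nor_ne_zero (hindw z.1 (hGK z hz) t)
      rw [nor_add, nor_smul, nor_smul, zero_smul, zero_add]
      have h3 : 0 < ‖z.2 1 • nor (w (z.1, t)) (d1 f z.1 e2) (d2 f z.1 e2 e2)‖ :=
        norm_pos_iff.2 (smul_ne_zero h1 h2)
      have h4 : κ z.1 * (0:ℝ) ^ 2 = 0 := by ring
      rw [h4, zero_add]
      positivity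
    · have h1 := hturn z.1 (hGK z hz) t h0
      have h2 := hLL0 z hz t h1 (θ z.1) (hθI z.1) ((hθη z.1).trans (min_le_left _ _)) L0 le_rfl
      have h3 : w2 (z.1, t) = Phi2 a W (z.1, θ z.1, t) + L0 • PhiT a W (z.1, θ z.1, t) := by
        simp only [hw2def, hθL' z hz]
      rw [h3]
      exact h2
  obtain ⟨η1, hη1, hLL1⟩ := LL1 hKc hG hGK (f2 := fun x => d1 f x e2)
    (f22 := fun x => d2 f x e2 e2) (continuous_d1 hf e2).continuousOn
    (continuous_d2 hf e2 e2).continuousOn hwc hw2c hwtc hperw hκc hindw hperpw hnd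
  obtain ⟨η2, hη2, hLLi⟩ := LLind hKc (f2 := fun x => d1 f x e2)
    (f22 := fun x => d2 f x e2 e2) (continuous_d1 hf e2).continuousOn
    (continuous_d2 hf e2 e2).continuousOn hwc (fun x hx t => (hperw x hx t).1) hindw
  obtain ⟨c3, hc3, hphase⟩ := exists_phase T.card
  obtain ⟨η3, hη3, hLL2⟩ := exists_common T (fun q η => ∀ t, c3 ≤ |Real.sin t| →
      ∀ A B X11 X12 X22 : P4, ∀ ε, 0 < ε → ε < η →
      ‖A - w (q.1, t)‖ ≤ η → ‖B - d1 f q.1 e2‖ ≤ η → ‖X12 - w2 (q.1, t)‖ ≤ η →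
      ‖X22 - d2 f q.1 e2 e2‖ ≤ η → ‖ε • X11 - wt (q.1, t)‖ ≤ η →
      inner ℝ (nor A B X11) (nor A B X22) - inner ℝ (nor A B X12) (nor A B X12) = κ q.1 →
      ∀ h : P2 → P2 → P4,
        (∀ p q : P2, h p q = nor A B ((p 0 * q 0) • X11 + (p 0 * q 1 + p 1 * q 0) • X12
          + (p 1 * q 1) • X22)) →
        Q2 h q.2.1 q.2.2 ∧ Q3 h (‖nor A B X22‖⁻¹ • nor A B X22) q.2.1 q.2.2) (by
      intro q hq
      obtain ⟨hq0, hq1, hq2⟩ := hT q hq
      have hqK := hUK _ hq0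
      have hcw : ∀ {g : P2 × ℝ → P4}, ContinuousOn g (K ×ˢ univ) → Continuous fun t => g (q.1, t) := by
        intro g hg
        have h2 : ContinuousOn (fun s : ℝ => g (q.1, s)) univ :=
          hg.comp (f := fun s : ℝ => ((q.1, s) : P2 × ℝ)) (by fun_prop)
            (fun s _ => ⟨hqK, mem_univ _⟩)
        simpa [continuousOn_univ] using h2
      obtain ⟨η, hη, h⟩ := LL2 (hcw hwc) (hcw hw2c) (hcw hwtc) (hperw q.1 hqK) (κ q.1)
        (hindw q.1 hqK) (hperpw q.1 hqK) hc3 (by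
          intro t ht h0
          rcases hturn q.1 hqK t h0 with h1 | h1
          · exact ha0 _ h1 hq0
          · rw [h1, abs_zero] at ht
            linarith) hq1 hq2
      refine ⟨η, hη, ?_⟩
      intro η' hη' hle t ht A B X11 X12 X22 ε hε hεη c1 c2 c4 c5 c6 hκ' h' hh'
      exact h t ht A B X11 X12 X22 ε hε (hεη.trans_le hle) (c1.trans hle) (c2.trans hle)
        (c4.trans hle) (c5.trans hle) (c6.trans hle) hκ' h' hh')
  -- apply Theorem E
  set η := min (min η1 η2) η3 with hηdef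
  have hηpos : 0 < η := lt_min (lt_min hη1 hη2) hη3
  have hηη1 : η ≤ η1 := (min_le_left _ _).trans (min_le_left _ _)
  have hηη2 : η ≤ η2 := (min_le_left _ _).trans (min_le_right _ _)
  have hηη3 : η ≤ η3 := min_le_right _ _
  obtain ⟨ε, hε, hεη, hFex⟩ := hE f u b _ _ hf hamp h2_22
    (fun x hx => hind3 x (hfr2 x hx).1 (hfr2 x hx).2) LFθ η hηpos
  obtain ⟨t0, ht0⟩ := hphase (fun i => (T.equivFin.symm i).1.1 0 / ε)
  obtain ⟨F, hFs, hFj, hFm, hFc⟩ := hFex t0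
  have hFi := hinj F hFm
  have hKKF : ∀ x ∈ K, KK F x = κ x := by
    intro x hx
    exact KK_eq_of_met hNo hFs.contDiffOn hF0s.contDiffOn hFi hF0i
      (fun y _ v w' => by rw [hFm y v w', hF0m y v w']) x (hKN hx)
  have hgauss : ∀ x ∈ K, inner ℝ (nor (d1 F x e1) (d1 F x e2) (d2 F x e1 e1))
      (nor (d1 F x e1) (d1 F x e2) (d2 F x e2 e2)) -
      inner ℝ (nor (d1 F x e1) (d1 F x e2) (d2 F x e1 e2))
        (nor (d1 F x e1) (d1 F x e2) (d2 F x e1 e2)) = κ x := by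
    intro x hx
    have hi := hFi x (hKN hx)
    rw [← hKKF x hx]
    simp only [KK, hN_eq_nor hi]
  have hclose : ∀ x ∈ K, ‖d1 F x e1 - w (x, x 0 / ε + t0)‖ ≤ η ∧ ‖d1 F x e2 - d1 f x e2‖ ≤ η ∧
      ‖d2 F x e2 e2 - d2 f x e2 e2‖ ≤ η ∧ ‖d2 F x e1 e2 - w2 (x, x 0 / ε + t0)‖ ≤ η ∧
      ‖ε • d2 F x e1 e1 - wt (x, x 0 / ε + t0)‖ ≤ η := by
    intro x hx
    obtain ⟨c1, c2, c3', c4, c5⟩ := hFc x hx
    have hz := hdom x hx _ (hθI x) (x 0 / ε + t0)
    refine ⟨c1, c2, c3', ?_, ?_⟩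
    · rw [show w2 (x, x 0 / ε + t0) =
        fderiv ℝ (fun y => W (y, a y, θ y) (x 0 / ε + t0)) x e2 from
          (fderiv_along hW ha hθs hz).symm]
      exact c4
    · rw [show wt (x, x 0 / ε + t0) = deriv (fun t => W (x, a x, θ x) t) (x 0 / ε + t0) from
          (deriv_time hW ha hz).deriv.symm]
      exact c5
  refine ⟨F, hFs, hFj, hFm, ?_, ?_, ?_⟩
  · intro x hx
    have hxK := hUK x hx
    obtain ⟨c1, c2, c3', -, -⟩ := hclose x hxK
    have h1 := (hLLi x hxK _ _ _ _ (c1.trans hηη2) (c2.trans hηη2) (c3'.trans hηη2)).2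
    rw [hN_eq_nor (hFi x (hKN hxK))]
    exact h1
  · intro z hz hzu c hc
    have hxK := hGK z hz
    obtain ⟨c1, c2, c3', c4, c5⟩ := hclose z.1 hxK
    have hi := hFi z.1 (hKN hxK)
    rw [hN_eq_nor hi, hN_eq_nor hi, quad_eq (cd2 hFs _)]
    exact hLL1 z hz _ _ _ _ _ _ ε hε (hεη.trans_le hηη1) (c1.trans hηη1) (c2.trans hηη1)
      (c4.trans hηη1) (c3'.trans hηη1) (c5.trans hηη1) (hgauss z.1 hxK) c hc
  · intro q hq
    have hxK := hUK _ (hT q hq).1
    obtain ⟨c1, c2, c3', c4, c5⟩ := hclose q.1 hxK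
    have hi := hFi q.1 (hKN hxK)
    have hs : c3 ≤ |Real.sin (q.1 0 / ε + t0)| := by
      have := ht0 (T.equivFin ⟨q, hq⟩)
      simpa using this
    have h1 := hLL2 q hq η hηpos hηη3 (q.1 0 / ε + t0) hs _ _ _ _ _ ε hε hεη c1 c2 c4 c3' c5
      (hgauss q.1 hxK) (hN F q.1) (by
        intro p p'
        rw [hN_eq_nor hi, d2_eq (cd2 hFs _)])
    rw [← hN_eq_nor hi] at h1
    exact h1

theorem planarStep_of_theoremE' (hE : TheoremE) : PlanarStep := by
  intro D f ν u b hD hf hν hfi hun hamp hKD hgam hQ1 ι _ G v hGc hGK hGn hv hv0 hG1 hG2 hG3 T hT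
  classical
  set K : Set P2 := closure {x : P2 | 0 < u x} with hKdef
  have hKc : IsCompact K := hamp.cpt
  have hopenU : IsOpen {x : P2 | 0 < u x} := isOpen_lt continuous_const hamp.hu.continuous
  have hUK : ∀ x, 0 < u x → x ∈ K := fun x hx => subset_closure hx
  have hfront : ∀ x ∈ K, ¬ 0 < u x → x ∈ frontier {x : P2 | 0 < u x} := by
    intro x hx hx0
    rw [hopenU.frontier_eq]
    exact ⟨hx, hx0⟩
  have hfr2 : ∀ x ∈ frontier {x : P2 | 0 < u x}, x ∈ K ∧ ¬ 0 < u x := by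
    intro x hx
    rw [hopenU.frontier_eq] at hx
    exact hx
  -- global extensions
  obtain ⟨N, g, hN, hKN, hND, hg, hgf⟩ := exists_global hD hKc hKD hf
  obtain ⟨N', ν', hN', hKN', hND', hν', hνν⟩ := exists_global hD hKc hKD hν
  have germ : ∀ x ∈ N, g =ᶠ[𝓝 x] f := fun x hx => by
    filter_upwards [hN.mem_nhds hx] with y hy
    exact hgf y hy
  have hd : ∀ x ∈ N, fderiv ℝ g x = fderiv ℝ f x := fun x hx => (germ x hx).fderiv_eq
  have hdd : ∀ x ∈ N, fderiv ℝ (fderiv ℝ g) x = fderiv ℝ (fderiv ℝ f) x :=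
    fun x hx => (germ x hx).fderiv.fderiv_eq
  have hgN : ∀ x ∈ K, ∀ p q, Crest.Agent.R216.hN g x p q = Crest.Agent.R216.hN f x p q :=
    fun x hx p q => hN_of_jets (hd x (hKN hx)) (hdd x (hKN hx)) p q
  -- the set of pairs
  set GG : Set (P2 × P2) := ⋃ j, (fun x => (x, v j x)) '' G j with hGG
  have hGGc : IsCompact GG := isCompact_iUnion fun j =>
    (hGc j).image_of_continuousOn (continuousOn_id.prodMk (hv j))
  have hGGm : ∀ z ∈ GG, ∃ j, z.1 ∈ G j ∧ z.2 = v j z.1 := by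
    intro z hz
    obtain ⟨j, x, hx, rfl⟩ := mem_iUnion.1 hz
    exact ⟨j, hx, rfl⟩
  have hGGK : ∀ z ∈ GG, z.1 ∈ K := by
    intro z hz
    obtain ⟨j, hj, -⟩ := hGGm z hz
    exact hGK j hj
  have hGGv : ∀ z ∈ GG, z.2 ≠ 0 := by
    intro z hz
    obtain ⟨j, hj, h2⟩ := hGGm z hz
    rw [h2]
    exact hv0 j _ hj
  have hnull : ∀ s : ℝ, volume {t : ℝ | s • e1 + t • e2 ∈ Prod.fst '' GG} = 0 := by
    intro s
    refine measure_mono_null (t := ⋃ j, {t : ℝ | s • e1 + t • e2 ∈ G j}) ?_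
      (measure_iUnion_null fun j => hGn j s)
    rintro t ⟨z, hz, hzt⟩
    obtain ⟨j, hj, -⟩ := hGGm z hz
    rw [hzt] at hj
    exact mem_iUnion.2 ⟨j, hj⟩
  obtain ⟨F1, hF1s, hF1j, hF1m, hF1h, hF1G, hF1T⟩ := core hE hg hν' hamp hN hKN
    (fun x hx => by rw [hd x hx]; exact hfi x (hND hx))
    (fun x hx => by rw [hνν x (hKN' hx)]; exact hun.unit x (hKD hx))
    (fun x hx w => by
      rw [hνν x (hKN' hx), d1, hd x (hKN hx)]
      exact hun.orth x (hKD hx) w)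
    (fun x hx => by
      have h1 := hgam x hx
      simp only [gamN, d1, d2] at h1 ⊢
      rw [hd x (hKN hx), hdd x (hKN hx)]
      exact h1)
    (fun x hx => by
      have hxK := (hfr2 x hx).1
      intro c hc
      rw [hgN x hxK, hνν x (hKN' hxK)]
      exact hQ1 x hx c hc)
    hGGc hGGK hGGv hnull
    (fun z hz hu0 => by
      obtain ⟨j, hj, h2⟩ := hGGm z hz
      have hxK := hGGK z hz
      have h1 := hG2 j z.1 ⟨hj, hfront _ hxK hu0⟩
      rw [← h2] at h1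
      simp only [Q2] at h1 ⊢
      simp only [hgN z.1 hxK]
      exact h1)
    T hT
  -- the new map
  set F : P2 → P4 := fun x => f x + (F1 x - g x) with hFdef
  have hF1g : ∀ x, ¬ 0 < u x → F1 x - g x = 0 := fun x hx => by rw [(hF1j x hx).1, sub_self]
  have hFs : ContDiffOn ℝ ∞ F D := hf.add (hF1s.sub hg).contDiffOn
  have germF : ∀ x ∈ N, F =ᶠ[𝓝 x] F1 := fun x hx => by
    filter_upwards [hN.mem_nhds hx] with y hy
    simp only [hFdef, hgf y hy]
    abel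
  have germF' : ∀ x, x ∉ K → F =ᶠ[𝓝 x] f := fun x hx => by
    filter_upwards [hKc.isClosed.isOpen_compl.mem_nhds hx] with y hy
    have : ¬ 0 < u y := fun h => hy (hUK y h)
    simp only [hFdef, hF1g y this, add_zero]
  have hFmet : ∀ x ∈ D, ∀ v w : P2, met F x v w = met f x v w + amp u b x ^ 2 * (v 0 * w 0) := by
    intro x hx p q
    by_cases hxK : x ∈ K
    · rw [met_congr (germF x (hKN hxK)), hF1m x p q, met_congr (germ x (hKN hxK))]
    · have h0 : ¬ 0 < u x := fun h => hxK (hUK x h)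
      rw [met_congr (germF' x hxK), amp_zero h0]
      ring
  have hFi : ∀ x ∈ D, Function.Injective (fderiv ℝ F x) := fun x hx =>
    injective_of_met (sq_nonneg (amp u b x)) (hfi x hx) (hFmet x hx)
  have hjet : ∀ x ∈ D, ¬ 0 < u x → fderiv ℝ F x = fderiv ℝ f x ∧
      fderiv ℝ (fderiv ℝ F) x = fderiv ℝ (fderiv ℝ f) x := by
    intro x hx h0
    by_cases hxK : x ∈ K
    · have h1 := germF x (hKN hxK)
      obtain ⟨-, j1, j2⟩ := hF1j x h0
      refine ⟨?_, ?_⟩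
      · rw [h1.fderiv_eq, j1, hd x (hKN hxK)]
      · rw [h1.fderiv.fderiv_eq, j2, hdd x (hKN hxK)]
    · have h1 := germF' x hxK
      exact ⟨h1.fderiv_eq, h1.fderiv.fderiv_eq⟩
  have hFN : ∀ x ∈ K, ∀ p q, Crest.Agent.R216.hN F x p q = Crest.Agent.R216.hN F1 x p q :=
    fun x hx p q => hN_congr (germF x (hKN hx)) p q
  obtain ⟨νF, hνFs, hνFu, hνFe, hνFG, hνFT⟩ := exists_nuF (f := f) (ν := ν) (F := F) (u := u) hD hf
    hFs hν hun hamp.hu hKc hKD hFi hjet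
    (fun x hx => by rw [hFN x (hUK x hx)]; exact hF1h x hx)
    hQ1 hGGc hGGK
    (fun z hz h0 => by
      obtain ⟨j, hj, h2⟩ := hGGm z hz
      have := hG3 j z.1 ⟨hj, hfront _ (hGGK z hz) h0⟩
      rwa [← h2] at this)
    (fun z hz hz0 c hc => by
      rw [hFN _ (hGGK z hz), hFN _ (hGGK z hz)]
      exact hF1G z hz hz0 c hc)
    (T.image Prod.fst) (fun x hx => by
      obtain ⟨q, hq, rfl⟩ := Finset.mem_image.1 hx
      exact (hT q hq).1)
  refine ⟨F, νF, hFs, hνFs, hνFu, ?_, hFmet, ?_, ?_⟩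
  · intro x hx h0
    obtain ⟨j1, j2⟩ := hjet x hx h0
    exact ⟨by simp only [hFdef, hF1g x h0, add_zero], j1, j2, hνFe x hx h0⟩
  · intro j x hx
    exact hνFG (x, v j x) (mem_iUnion.2 ⟨j, x, hx, rfl⟩)
  · intro q hq
    have hxK := hUK _ (hT q hq).1
    have h1 := hF1T q hq
    have e : Crest.Agent.R216.hN F q.1 = Crest.Agent.R216.hN F1 q.1 := by
      funext p p'
      exact hFN q.1 hxK p p'
    rw [hνFT q.1 (Finset.mem_image.2 ⟨q, hq, rfl⟩), e]
    exact h1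

end Crest.Agent.R216.PSL.Asm

namespace Crest.Agent.R216.PSL

/-- the planar step lemma follows from Theorem E -/
theorem planarStep_of_theoremE (hE : TheoremE) : PlanarStep := Asm.planarStep_of_theoremE' hE

end Crest.Agent.R216.PSL
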