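import Crest.Agent.R216.PSLDefs

/-!
Row 216, PSL: auxiliary lemmas for the assembly (helper920).
-/

set_option autoImplicit false

noncomputable section

open scoped Manifold ContDiff Topology
open Set MeasureTheory

namespace Crest.Agent.R216.PSL.Asm

/-! ### cut-off extension -/

theorem exists_global {V : Type*} [NormedAddCommGroup V] [NormedSpace ℝ V] {D K : Set P2}
    (hD : IsOpen D) (hK : IsCompact K) (hKD : K ⊆ D) {g : P2 → V} (hg : ContDiffOn ℝ ∞ g D) :
    ∃ (N : Set P2) (g' : P2 → V), IsOpen N ∧ K ⊆ N ∧ N ⊆ D ∧ ContDiff ℝ ∞ g' ∧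
      ∀ x ∈ N, g' x = g x := by
  obtain ⟨χ, h0, h1, -⟩ := exists_contMDiffMap_zero_one_nhds_of_isClosed (n := ⊤) 𝓘(ℝ, P2)
    (s := Dᶜ) (t := K) hD.isClosed_compl hK.isClosed
    (by rw [Set.disjoint_compl_left_iff_subset]; exact hKD)
  have hχ : ContDiff ℝ ∞ (χ : P2 → ℝ) := χ.contMDiff.contDiff
  obtain ⟨N1, hN1, hKN1, h1'⟩ := (eventually_nhdsSet_iff_exists.1 h1)
  refine ⟨N1 ∩ D, fun x => χ x • g x, hN1.inter hD, subset_inter hKN1 hKD, inter_subset_right,
    ?_, ?_⟩
  · rw [contDiff_iff_contDiffAt]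
    intro x
    by_cases hx : x ∈ D
    · exact hχ.contDiffAt.smul (hg.contDiffAt (hD.mem_nhds hx))
    · have h2 : ∀ᶠ y in 𝓝 x, χ y = 0 := (eventually_nhdsSet_iff_forall.1 h0) x hx
      have h3 : (fun y => χ y • g y) =ᶠ[𝓝 x] fun _ => (0 : V) := by
        filter_upwards [h2] with y hy
        simp [hy]
      exact contDiffAt_const.congr_of_eventuallyEq h3
  · intro x hx
    simp [h1' x hx.1]

/-! ### amplitude -/

lemma contDiff_amp {u b : P2 → ℝ} (h : IsAmp u b) : ContDiff ℝ ∞ (amp u b) := by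
  have : ContDiff ℝ ∞ (fun x => expNegInvGlue (u x)) :=
    (expNegInvGlue.contDiff (n := ⊤)).comp h.hu
  exact this.mul h.hb

lemma amp_nonneg {u b : P2 → ℝ} (h : IsAmp u b) (x : P2) : 0 ≤ amp u b x :=
  mul_nonneg (expNegInvGlue.nonneg _) (h.pos x).le

lemma amp_pos {u b : P2 → ℝ} (h : IsAmp u b) {x : P2} (hx : 0 < u x) : 0 < amp u b x :=
  mul_pos (expNegInvGlue.pos_of_pos hx) (h.pos x)

lemma amp_zero {u b : P2 → ℝ} {x : P2} (hx : ¬ 0 < u x) : amp u b x = 0 := by
  simp [amp, expNegInvGlue.zero_of_nonpos (not_lt.1 hx)]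

lemma amp_eq_zero_iff {u b : P2 → ℝ} (h : IsAmp u b) {x : P2} : amp u b x = 0 ↔ ¬ 0 < u x := by
  refine ⟨fun h0 hx => ?_, amp_zero⟩
  exact (amp_pos h hx).ne' h0

/-- the first derivative of the amplitude vanishes where the amplitude does -/
lemma fderiv_amp_zero {u b : P2 → ℝ} (h : IsAmp u b) {x : P2} (hx : ¬ 0 < u x) :
    fderiv ℝ (amp u b) x = 0 := by
  have hmin : IsLocalMin (amp u b) x := by
    refine Filter.Eventually.of_forall fun y => ?_
    rw [amp_zero hx]
    exact amp_nonneg h y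
  exact hmin.fderiv_eq_zero

/-! ### coordinates -/

lemma P2_eq (v : P2) : v = v 0 • e1 + v 1 • e2 := by
  ext i
  fin_cases i <;> simp [e1, e2]

lemma e1_0 : e1 0 = 1 := by simp [e1]
lemma e1_1 : e1 1 = 0 := by simp [e1]
lemma e2_0 : e2 0 = 0 := by simp [e2]
lemma e2_1 : e2 1 = 1 := by simp [e2]

lemma d1_eq (F : P2 → P4) (x v : P2) : d1 F x v = v 0 • d1 F x e1 + v 1 • d1 F x e2 := by
  conv_lhs => rw [P2_eq v]
  simp [d1]

lemma d2_symm {F : P2 → P4} {x : P2} (hF : ContDiffAt ℝ 2 F x) (v w : P2) :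
    d2 F x v w = d2 F x w v := by
  have : IsSymmSndFDerivAt ℝ F x := hF.isSymmSndFDerivAt (by simp)
  exact this v w

lemma d2_eq {F : P2 → P4} {x : P2} (hF : ContDiffAt ℝ 2 F x) (v w : P2) :
    d2 F x v w = (v 0 * w 0) • d2 F x e1 e1 + (v 0 * w 1 + v 1 * w 0) • d2 F x e1 e2
      + (v 1 * w 1) • d2 F x e2 e2 := by
  have h21 : d2 F x e2 e1 = d2 F x e1 e2 := d2_symm hF _ _
  conv_lhs => rw [P2_eq v, P2_eq w]
  have : d2 F x (v 0 • e1 + v 1 • e2) (w 0 • e1 + w 1 • e2) =
      (v 0 * w 0) • d2 F x e1 e1 + (v 0 * w 1) • d2 F x e1 e2 + (v 1 * w 0) • d2 F x e2 e1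
      + (v 1 * w 1) • d2 F x e2 e2 := by
    simp only [d2, map_add, map_smul, _root_.add_apply,
      _root_.smul_apply, smul_add, smul_smul]
    ring_nf
    module
  rw [this, h21]
  module

lemma quad_eq {F : P2 → P4} {x : P2} (hF : ContDiffAt ℝ 2 F x) (v : P2) :
    d2 F x v v = quad (d2 F x e1 e1) (d2 F x e1 e2) (d2 F x e2 e2) v := by
  rw [d2_eq hF, quad, ← pow_two, ← pow_two]
  congr 3
  ring

/-! ### `nor` -/

lemma nor_add (A B X Y : P4) : nor A B (X + Y) = nor A B X + nor A B Y := by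
  simp only [nor, inner_add_left, add_mul, sub_eq_add_neg]
  module

lemma nor_smul (A B : P4) (c : ℝ) (X : P4) : nor A B (c • X) = c • nor A B X := by
  simp only [nor, real_inner_smul_left]
  module

lemma inner_nor_A {A B : P4} (h : gr A B ≠ 0) (X : P4) : inner ℝ (nor A B X) A = 0 := by
  have h' : inner ℝ A A * inner ℝ B B - inner ℝ A B ^ 2 ≠ 0 := h
  simp only [nor, inner_sub_left, inner_add_left, real_inner_smul_left, gr]
  rw [real_inner_comm A B]
  field_simp
  ring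

lemma inner_nor_B {A B : P4} (h : gr A B ≠ 0) (X : P4) : inner ℝ (nor A B X) B = 0 := by
  have h' : inner ℝ A A * inner ℝ B B - inner ℝ A B ^ 2 ≠ 0 := h
  simp only [nor, inner_sub_left, inner_add_left, real_inner_smul_left, gr]
  field_simp
  ring

lemma inner_nor_right {A B : P4} (h : gr A B ≠ 0) (X Y : P4) :
    inner ℝ (nor A B X) (nor A B Y) = inner ℝ (nor A B X) Y := by
  conv_lhs => rw [nor.eq_def A B Y]
  rw [inner_sub_right, inner_smul_right, inner_add_right, inner_smul_right, inner_smul_right,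
    inner_nor_A h, inner_nor_B h]
  simp

lemma continuousOn_gr {X : Type*} [TopologicalSpace X] {s : Set X} {A B : X → P4}
    (hA : ContinuousOn A s) (hB : ContinuousOn B s) : ContinuousOn (fun x => gr (A x) (B x)) s := by
  unfold gr
  fun_prop

lemma continuousOn_nor {X : Type*} [TopologicalSpace X] {s : Set X} {A B Y : X → P4}
    (hA : ContinuousOn A s) (hB : ContinuousOn B s) (hY : ContinuousOn Y s)
    (h : ∀ x ∈ s, gr (A x) (B x) ≠ 0) : ContinuousOn (fun x => nor (A x) (B x) (Y x)) s := by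
  have h1 : ContinuousOn (fun x => (gr (A x) (B x))⁻¹) s := (continuousOn_gr hA hB).inv₀ h
  unfold nor
  fun_prop

/-! ### a phase shift avoiding the turning phases -/

theorem exists_phase (n : ℕ) : ∃ c : ℝ, 0 < c ∧ ∀ y : Fin n → ℝ, ∃ t0 : ℝ,
    ∀ i, c ≤ |Real.sin (y i + t0)| := by
  classical
  -- candidates `k π / (n+1)`
  have hpos : ∀ m : ℕ, 0 < m → m < n + 1 → 0 < |Real.sin (m * Real.pi / (n + 1))| := by
    intro m hm hmn
    apply abs_pos.2
    apply ne_of_gt
    apply Real.sin_pos_of_pos_of_lt_pi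
    · have := Real.pi_pos
      positivity
    · rw [div_lt_iff₀ (by positivity)]
      have : (m : ℝ) < n + 1 := by exact_mod_cast hmn
      nlinarith [Real.pi_pos]
  obtain ⟨c, hc, hcm⟩ : ∃ c : ℝ, 0 < c ∧ ∀ m : ℕ, 0 < m → m < n + 1 →
      2 * c ≤ |Real.sin (m * Real.pi / (n + 1))| := by
    by_cases hne : (Finset.Ioo 0 (n+1)).Nonempty
    · obtain ⟨m0, hm0, hmin⟩ := Finset.exists_min_image (Finset.Ioo 0 (n+1))
        (fun m : ℕ => |Real.sin (m * Real.pi / (n + 1))|) hne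
      rw [Finset.mem_Ioo] at hm0
      refine ⟨|Real.sin (m0 * Real.pi / (n + 1))| / 2, half_pos (hpos m0 hm0.1 hm0.2), ?_⟩
      intro m h1 h2
      have := hmin m (Finset.mem_Ioo.2 ⟨h1, h2⟩)
      linarith
    · refine ⟨1, one_pos, fun m h1 h2 => ?_⟩
      exact absurd ⟨m, Finset.mem_Ioo.2 ⟨h1, h2⟩⟩ hne
  refine ⟨c, hc, fun y => ?_⟩
  by_contra hcon
  push Not at hcon
  choose g hg using hcon
  -- pigeonhole
  obtain ⟨k, hk, l, hl, hkl, hgkl⟩ := Finset.exists_ne_map_eq_of_card_lt_of_maps_to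
    (s := Finset.range (n + 1)) (t := (Finset.univ : Finset (Fin n)))
    (by simp) (f := fun k : ℕ => g (k * Real.pi / (n + 1))) (fun k _ => Finset.mem_univ _)
  wlog hlt : l < k generalizing k l
  · exact this l hl k hk hkl.symm hgkl.symm (lt_of_le_of_ne (not_lt.1 hlt) hkl)
  have h1 := hg (k * Real.pi / (n + 1))
  have h2 := hg (l * Real.pi / (n + 1))
  rw [hgkl] at h1
  set Y := y (g (l * Real.pi / (n + 1)))
  have h3 : |Real.sin (((k - l : ℕ) : ℝ) * Real.pi / (n + 1))| < 2 * c := by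
    have e : ((k - l : ℕ) : ℝ) * Real.pi / (n + 1) =
        (Y + k * Real.pi / (n + 1)) - (Y + l * Real.pi / (n + 1)) := by
      rw [Nat.cast_sub hlt.le]
      ring
    rw [e, Real.sin_sub]
    calc |Real.sin (Y + k * Real.pi / (n + 1)) * Real.cos (Y + l * Real.pi / (n + 1))
          - Real.cos (Y + k * Real.pi / (n + 1)) * Real.sin (Y + l * Real.pi / (n + 1))|
        ≤ |Real.sin (Y + k * Real.pi / (n + 1)) * Real.cos (Y + l * Real.pi / (n + 1))|
          + |Real.cos (Y + k * Real.pi / (n + 1)) * Real.sin (Y + l * Real.pi / (n + 1))| :=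
          abs_sub _ _
      _ ≤ |Real.sin (Y + k * Real.pi / (n + 1))| * 1 + 1 * |Real.sin (Y + l * Real.pi / (n + 1))| := by
          rw [abs_mul, abs_mul]
          gcongr
          · exact Real.abs_cos_le_one _
          · exact Real.abs_cos_le_one _
      _ < 2 * c := by linarith
  have h4 := hcm (k - l) (Nat.sub_pos_of_lt hlt)
    (lt_of_le_of_lt (Nat.sub_le _ _) (Finset.mem_range.1 hk))
  linarith

end Crest.Agent.R216.PSL.Asm
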