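import Crest.Agent.R216.PSLDefs

/-!
Row 216, PSL: FROZEN INTERFACE (statements with sorry). NEVER import this file in a proof file;
prove each lemma in the file named in the comment with exactly this statement.
-/

set_option autoImplicit false

noncomputable section

open scoped Manifold ContDiff Topology
open Set MeasureTheory

namespace Crest.Agent.R216.PSL

/-! ## PSLLin.lean (helper920) -/

lemma gr_pos {A B : P4} (h : LinearIndependent ℝ ![A, B]) : 0 < gr A B := sorry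

lemma orthP_eq_nor {A B : P4} (h : gr A B ≠ 0) (X : P4) :
    orthP (Submodule.span ℝ {A, B}) X = nor A B X := sorry

lemma hN_eq_nor {F : P2 → P4} {x : P2} (hinj : Function.Injective (fderiv ℝ F x)) (v w : P2) :
    hN F x v w = nor (d1 F x e1) (d1 F x e2) (d2 F x v w) := sorry

/-- in `ℝ⁴`, vectors orthogonal to three independent vectors are proportional -/
lemma exists_smul_of_perp {A B C X Y : P4} (h : LinearIndependent ℝ ![A, B, C])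
    (hX : inner ℝ X A = 0 ∧ inner ℝ X B = 0 ∧ inner ℝ X C = 0) (hX0 : X ≠ 0)
    (hY : inner ℝ Y A = 0 ∧ inner ℝ Y B = 0 ∧ inner ℝ Y C = 0) : ∃ c : ℝ, Y = c • X := sorry

/-! ## PSLLim.lean (helper920): the three compactness lemmas -/

/-- LL0: choice of the speed `L`. -/
theorem LL0 {K : Set P2} (hK : IsCompact K) {G : Set (P2 × P2)} (hG : IsCompact G)
    (hGK : ∀ z ∈ G, z.1 ∈ K) (hGv : ∀ z ∈ G, z.2 ≠ 0) {δ : ℝ} (hδ : 0 < δ)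
    {f2 f22 : P2 → P4} (hf2 : ContinuousOn f2 K) (hf22 : ContinuousOn f22 K)
    {W W2 Wϑ : P2 × ℝ × ℝ → P4}
    (hW : ContinuousOn W (K ×ˢ Icc 0 δ ×ˢ univ)) (hW2 : ContinuousOn W2 (K ×ˢ Icc 0 δ ×ˢ univ))
    (hWϑ : ContinuousOn Wϑ (K ×ˢ Icc 0 δ ×ˢ univ))
    (hper : ∀ x ∈ K, ∀ ϑ ∈ Icc 0 δ, ∀ t, W (x, ϑ, t + 2 * Real.pi) = W (x, ϑ, t) ∧
      W2 (x, ϑ, t + 2 * Real.pi) = W2 (x, ϑ, t) ∧ Wϑ (x, ϑ, t + 2 * Real.pi) = Wϑ (x, ϑ, t))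
    {κ a : P2 → ℝ} (hκ : ContinuousOn κ K) (ha : ContinuousOn a K)
    (hind : ∀ x ∈ K, ∀ ϑ ∈ Icc 0 δ, ∀ t, LinearIndependent ℝ ![W (x, ϑ, t), f2 x, f22 x])
    (hperp : ∀ x ∈ K, ∀ ϑ ∈ Icc 0 δ, ∀ t, inner ℝ (Wϑ (x, ϑ, t)) (W (x, ϑ, t)) = 0 ∧
      inner ℝ (Wϑ (x, ϑ, t)) (f2 x) = 0 ∧ inner ℝ (Wϑ (x, ϑ, t)) (f22 x) = 0)
    (hfast : ∀ x ∈ K, a x ≠ 0 → ∀ t, Real.sin t = 0 → Wϑ (x, 0, t) ≠ 0)
    (hbd : ∀ z ∈ G, a z.1 = 0 → ∀ t,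
      0 < κ z.1 * (z.2 0) ^ 2 * ‖nor (W (z.1, 0, t)) (f2 z.1) (f22 z.1)‖ ^ 2 +
        inner ℝ (nor (W (z.1, 0, t)) (f2 z.1) (z.2 0 • W2 (z.1, 0, t) + z.2 1 • f22 z.1))
          (nor (W (z.1, 0, t)) (f2 z.1) (f22 z.1)) ^ 2) :
    ∃ L0 : ℝ, 0 < L0 ∧ ∀ z ∈ G, ∀ t, (a z.1 = 0 ∨ Real.sin t = 0) →
      ∀ ϑ ∈ Icc 0 δ, ϑ ≤ 1 / L0 → ∀ s, L0 ≤ s →
      0 < κ z.1 * (z.2 0) ^ 2 + ‖nor (W (z.1, ϑ, t)) (f2 z.1)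
        (z.2 0 • (W2 (z.1, ϑ, t) + s • Wϑ (z.1, ϑ, t)) + z.2 1 • f22 z.1)‖ ^ 2 := sorry

/-- LL1: after `L` is chosen, closeness `η` suffices. -/
theorem LL1 {K : Set P2} (hK : IsCompact K) {G : Set (P2 × P2)} (hG : IsCompact G)
    (hGK : ∀ z ∈ G, z.1 ∈ K)
    {f2 f22 : P2 → P4} (hf2 : ContinuousOn f2 K) (hf22 : ContinuousOn f22 K)
    {w w2 wt : P2 × ℝ → P4} (hw : ContinuousOn w (K ×ˢ univ)) (hw2 : ContinuousOn w2 (K ×ˢ univ))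
    (hwt : ContinuousOn wt (K ×ˢ univ))
    (hper : ∀ x ∈ K, ∀ t, w (x, t + 2 * Real.pi) = w (x, t) ∧
      w2 (x, t + 2 * Real.pi) = w2 (x, t) ∧ wt (x, t + 2 * Real.pi) = wt (x, t))
    {κ : P2 → ℝ} (hκ : ContinuousOn κ K)
    (hind : ∀ x ∈ K, ∀ t, LinearIndependent ℝ ![w (x, t), f2 x, f22 x])
    (hperp : ∀ x ∈ K, ∀ t, inner ℝ (wt (x, t)) (w (x, t)) = 0 ∧
      inner ℝ (wt (x, t)) (f2 x) = 0 ∧ inner ℝ (wt (x, t)) (f22 x) = 0)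
    (hnd : ∀ z ∈ G, ∀ t, (z.2 0 = 0 ∨ wt (z.1, t) = 0) →
      0 < κ z.1 * (z.2 0) ^ 2 +
        ‖nor (w (z.1, t)) (f2 z.1) (z.2 0 • w2 (z.1, t) + z.2 1 • f22 z.1)‖ ^ 2) :
    ∃ η : ℝ, 0 < η ∧ ∀ z ∈ G, ∀ t, ∀ A B X11 X12 X22 : P4, ∀ ε, 0 < ε → ε < η →
      ‖A - w (z.1, t)‖ ≤ η → ‖B - f2 z.1‖ ≤ η → ‖X12 - w2 (z.1, t)‖ ≤ η →
      ‖X22 - f22 z.1‖ ≤ η → ‖ε • X11 - wt (z.1, t)‖ ≤ η →
      inner ℝ (nor A B X11) (nor A B X22) - inner ℝ (nor A B X12) (nor A B X12) = κ z.1 →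
      ∀ c : ℝ, 0 ≤ c → nor A B (quad X11 X12 X22 z.2) ≠ -(c • nor A B X22) := sorry

/-- LL1': the perturbed vectors stay independent. -/
theorem LLind {K : Set P2} (hK : IsCompact K)
    {f2 f22 : P2 → P4} (hf2 : ContinuousOn f2 K) (hf22 : ContinuousOn f22 K)
    {w : P2 × ℝ → P4} (hw : ContinuousOn w (K ×ˢ univ))
    (hper : ∀ x ∈ K, ∀ t, w (x, t + 2 * Real.pi) = w (x, t))
    (hind : ∀ x ∈ K, ∀ t, LinearIndependent ℝ ![w (x, t), f2 x, f22 x]) :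
    ∃ η : ℝ, 0 < η ∧ ∀ x ∈ K, ∀ t, ∀ A B X22 : P4,
      ‖A - w (x, t)‖ ≤ η → ‖B - f2 x‖ ≤ η → ‖X22 - f22 x‖ ≤ η →
      LinearIndependent ℝ ![A, B, X22] ∧ nor A B X22 ≠ 0 := sorry

/-- LL2: one crossing point with two directions. -/
theorem LL2 {f2 f22 : P4} {w w2 wt : ℝ → P4} (hw : Continuous w) (hw2 : Continuous w2)
    (hwt : Continuous wt)
    (hper : ∀ t, w (t + 2 * Real.pi) = w t ∧ w2 (t + 2 * Real.pi) = w2 t ∧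
      wt (t + 2 * Real.pi) = wt t) (κ : ℝ)
    (hind : ∀ t, LinearIndependent ℝ ![w t, f2, f22])
    (hperp : ∀ t, inner ℝ (wt t) (w t) = 0 ∧ inner ℝ (wt t) f2 = 0 ∧ inner ℝ (wt t) f22 = 0)
    {c3 : ℝ} (hc3 : 0 < c3) (hne : ∀ t, c3 ≤ |Real.sin t| → wt t ≠ 0)
    {v v' : P2} (hv : v 0 ≠ 0) (hv' : v' 0 ≠ 0) :
    ∃ η : ℝ, 0 < η ∧ ∀ t, c3 ≤ |Real.sin t| → ∀ A B X11 X12 X22 : P4, ∀ ε, 0 < ε → ε < η →
      ‖A - w t‖ ≤ η → ‖B - f2‖ ≤ η → ‖X12 - w2 t‖ ≤ η →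
      ‖X22 - f22‖ ≤ η → ‖ε • X11 - wt t‖ ≤ η →
      inner ℝ (nor A B X11) (nor A B X22) - inner ℝ (nor A B X12) (nor A B X12) = κ →
      ∀ h : P2 → P2 → P4,
        (∀ p q : P2, h p q = nor A B ((p 0 * q 0) • X11 + (p 0 * q 1 + p 1 * q 0) • X12
          + (p 1 * q 1) • X22)) →
        Q2 h v v' ∧ Q3 h (‖nor A B X22‖⁻¹ • nor A B X22) v v' := sorry

/-! ## PSLGauss.lean -/

/-- Theorema egregium: `KK` depends only on the metric. -/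
theorem KK_eq_of_met {F G : P2 → P4} {D : Set P2} (hD : IsOpen D) (hF : ContDiffOn ℝ ∞ F D)
    (hG : ContDiffOn ℝ ∞ G D) (hFi : ∀ x ∈ D, Function.Injective (fderiv ℝ F x))
    (hGi : ∀ x ∈ D, Function.Injective (fderiv ℝ G x))
    (hmet : ∀ x ∈ D, ∀ v w : P2, met F x v w = met G x v w) :
    ∀ x ∈ D, KK F x = KK G x := sorry

/-! ## PSLNu.lean : the new normal field -/

theorem exists_nuF {D : Set P2} {f ν F : P2 → P4} {u : P2 → ℝ} (hD : IsOpen D)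
    (hf : ContDiffOn ℝ ∞ f D) (hF : ContDiffOn ℝ ∞ F D) (hν : ContDiffOn ℝ ∞ ν D)
    (hun : IsUNormal f ν D) (hu : ContDiff ℝ ∞ u) (hc : IsCompact (closure {x : P2 | 0 < u x}))
    (hKD : closure {x : P2 | 0 < u x} ⊆ D)
    (hFi : ∀ x ∈ D, Function.Injective (fderiv ℝ F x))
    (hjet : ∀ x ∈ D, ¬ 0 < u x → fderiv ℝ F x = fderiv ℝ f x ∧
        fderiv ℝ (fderiv ℝ F) x = fderiv ℝ (fderiv ℝ f) x)
    (h22 : ∀ x, 0 < u x → hN F x e2 e2 ≠ 0)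
    (hQ1 : ∀ x ∈ frontier {x : P2 | 0 < u x}, Q1 (hN f x) (ν x) e2)
    {G : Set (P2 × P2)} (hG : IsCompact G) (hGK : ∀ z ∈ G, z.1 ∈ closure {x : P2 | 0 < u x})
    (hQ3 : ∀ z ∈ G, ¬ 0 < u z.1 → Q3 (hN f z.1) (ν z.1) z.2 e2)
    (hGF : ∀ z ∈ G, 0 < u z.1 → ∀ c : ℝ, 0 ≤ c →
      hN F z.1 z.2 z.2 ≠ -(c • hN F z.1 e2 e2))
    (T : Finset P2) (hT : ∀ x ∈ T, 0 < u x) :
    ∃ νF : P2 → P4, ContDiffOn ℝ ∞ νF D ∧ IsUNormal F νF D ∧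
      (∀ x ∈ D, ¬ 0 < u x → νF x = ν x) ∧
      (∀ z ∈ G, Q1 (hN F z.1) (νF z.1) z.2) ∧
      (∀ x ∈ T, νF x = ‖hN F x e2 e2‖⁻¹ • hN F x e2 e2) := sorry

/-! ## PSLLoop.lean : loops from the unit normal field (uses the Cayley loop `om` of helper342) -/

theorem exists_RLoop {f ν : P2 → P4} {a : P2 → ℝ} {K : Set P2} (hK : IsCompact K)
    (hf : ContDiff ℝ ∞ f) (hν : ContDiff ℝ ∞ ν) (ha : ContDiff ℝ ∞ a) (ha0 : ∀ x ∈ K, 0 ≤ a x)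
    (hfi : ∀ x ∈ K, Function.Injective (fderiv ℝ f x))
    (hν1 : ∀ x ∈ K, ‖ν x‖ = 1) (hν2 : ∀ x ∈ K, ∀ v, inner ℝ (ν x) (d1 f x v) = 0)
    (hgam : ∀ x ∈ K, gamN f x ≠ 0)
    (hQ1 : ∀ x ∈ K, a x = 0 → Q1 (hN f x) (ν x) e2) :
    ∃ (O : Set (P2 × ℝ × ℝ)) (W : P2 × ℝ × ℝ → ℝ → P4), RLoop f a K O W := sorry

/-! ## PSLThin.lean (helper609) -/

theorem exists_thin {Γ : Set P2} (hΓ : IsCompact Γ)
    (hs : ∀ s : ℝ, volume {t : ℝ | s • e1 + t • e2 ∈ Γ} = 0) {η L : ℝ} (hη : 0 < η) :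
    ∃ θ : P2 → ℝ, ContDiff ℝ ∞ θ ∧ (∀ x, 0 ≤ θ x ∧ θ x ≤ η) ∧
      ∀ x ∈ Γ, L ≤ fderiv ℝ θ x e2 := sorry

/-! ## PSL.lean (helper920): final assembly -/

theorem planarStep_of_theoremE (hE : TheoremE) : PlanarStep := sorry

end Crest.Agent.R216.PSL
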