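import Crest.Agent.R216.PSLDefs

/-!
Row 216, PSL-1: linear algebra in `ℝ⁴`.
-/

set_option autoImplicit false

noncomputable section

open scoped Manifold ContDiff Topology
open Set MeasureTheory

namespace Crest.Agent.R216.PSL

lemma gr_nonneg (A B : P4) : 0 ≤ gr A B := by
  have := real_inner_mul_inner_self_le A B
  rw [gr]; nlinarith

lemma gr_pos {A B : P4} (h : LinearIndependent ℝ ![A, B]) : 0 < gr A B := by
  have hA : A ≠ 0 := h.ne_zero 0
  have hB : B ≠ 0 := h.ne_zero 1
  refine lt_of_le_of_ne (gr_nonneg A B) ?_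
  intro h0
  rw [LinearIndependent.pair_iff' hA] at h
  apply h (inner ℝ A B / inner ℝ A A)
  have hAA : inner ℝ A A ≠ (0 : ℝ) := inner_self_ne_zero.mpr hA
  rw [← sub_eq_zero, ← inner_self_eq_zero (𝕜 := ℝ)]
  simp only [inner_sub_left, inner_sub_right, inner_smul_left, inner_smul_right, RCLike.conj_to_real]
  rw [real_inner_comm A B]
  field_simp
  rw [gr] at h0
  linarith

lemma inner_nor_left {A B : P4} (h : gr A B ≠ 0) (X : P4) : inner ℝ (nor A B X) A = (0 : ℝ) := by
  rw [nor]
  simp only [inner_sub_left, inner_add_left, inner_smul_left, RCLike.conj_to_real]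
  rw [real_inner_comm A B]
  field_simp
  rw [gr]; ring

lemma inner_nor_right {A B : P4} (h : gr A B ≠ 0) (X : P4) : inner ℝ (nor A B X) B = (0 : ℝ) := by
  rw [nor]
  simp only [inner_sub_left, inner_add_left, inner_smul_left, RCLike.conj_to_real]
  field_simp
  rw [gr]; ring

lemma sub_nor_mem (A B X : P4) : X - nor A B X ∈ Submodule.span ℝ {A, B} := by
  rw [nor, sub_sub_cancel]
  refine Submodule.smul_mem _ _ (Submodule.add_mem _ (Submodule.smul_mem _ _ ?_)
    (Submodule.smul_mem _ _ ?_))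
  · exact Submodule.subset_span (by simp)
  · exact Submodule.subset_span (by simp)

lemma orthP_eq_nor {A B : P4} (h : gr A B ≠ 0) (X : P4) :
    orthP (Submodule.span ℝ {A, B}) X = nor A B X := by
  refine orthP_eq ?_ (sub_nor_mem A B X)
  rw [Submodule.mem_orthogonal']
  intro u hu
  rw [Submodule.mem_span_pair] at hu
  obtain ⟨a, b, rfl⟩ := hu
  rw [inner_add_right, inner_smul_right, inner_smul_right, inner_nor_left h, inner_nor_right h]
  ring

lemma P2_decomp (v : P2) : v = v 0 • e1 + v 1 • e2 := by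
  ext i
  fin_cases i <;> simp [e1, e2]

lemma d1_eq (F : P2 → P4) (x v : P2) : d1 F x v = v 0 • d1 F x e1 + v 1 • d1 F x e2 := by
  unfold d1
  conv_lhs => rw [P2_decomp v]
  rw [map_add, map_smul, map_smul]

lemma e_indep : LinearIndependent ℝ ![e1, e2] := by
  rw [LinearIndependent.pair_iff]
  intro s t h
  constructor
  · have := congrArg (fun v : P2 => v 0) h
    simpa [e1, e2] using this
  · have := congrArg (fun v : P2 => v 1) h
    simpa [e1, e2] using this

lemma d1_indep {F : P2 → P4} {x : P2} (hinj : Function.Injective (fderiv ℝ F x)) :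
    LinearIndependent ℝ ![d1 F x e1, d1 F x e2] := by
  rw [LinearIndependent.pair_iff]
  intro s t h
  have h1 : fderiv ℝ F x (s • e1 + t • e2) = 0 := by
    rw [map_add, map_smul, map_smul]; exact h
  have h2 : s • e1 + t • e2 = 0 := hinj (by rw [h1, map_zero])
  exact (LinearIndependent.pair_iff.mp e_indep) s t h2

lemma gr_d1_pos {F : P2 → P4} {x : P2} (hinj : Function.Injective (fderiv ℝ F x)) :
    0 < gr (d1 F x e1) (d1 F x e2) := gr_pos (d1_indep hinj)

lemma tanSp_eq (F : P2 → P4) (x : P2) :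
    tanSp F x = Submodule.span ℝ {d1 F x e1, d1 F x e2} := by
  ext z
  rw [tanSp, LinearMap.mem_range, Submodule.mem_span_pair]
  constructor
  · rintro ⟨v, rfl⟩
    exact ⟨v 0, v 1, (d1_eq F x v).symm⟩
  · rintro ⟨a, b, rfl⟩
    refine ⟨a • e1 + b • e2, ?_⟩
    rw [map_add, map_smul, map_smul]; rfl

lemma hN_eq_nor {F : P2 → P4} {x : P2} (hinj : Function.Injective (fderiv ℝ F x)) (v w : P2) :
    hN F x v w = nor (d1 F x e1) (d1 F x e2) (d2 F x v w) := by
  rw [hN, tanSp_eq, orthP_eq_nor (gr_d1_pos hinj).ne']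

/-- in `ℝ⁴`, vectors orthogonal to three independent vectors are proportional -/
lemma exists_smul_of_perp {A B C X Y : P4} (h : LinearIndependent ℝ ![A, B, C])
    (hX : inner ℝ X A = 0 ∧ inner ℝ X B = 0 ∧ inner ℝ X C = 0) (hX0 : X ≠ 0)
    (hY : inner ℝ Y A = 0 ∧ inner ℝ Y B = 0 ∧ inner ℝ Y C = 0) : ∃ c : ℝ, Y = c • X := by
  set K : Submodule ℝ P4 := Submodule.span ℝ (Set.range ![A, B, C]) with hK
  have h1 : Module.finrank ℝ K = 3 := by
    rw [hK, finrank_span_eq_card h]; simp
  have h2 : Module.finrank ℝ Kᗮ = 1 := by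
    have := Submodule.finrank_add_finrank_orthogonal K
    rw [h1, finrank_euclideanSpace, Fintype.card_fin] at this
    omega
  have hmem : ∀ Z : P4, (inner ℝ Z A = 0 ∧ inner ℝ Z B = 0 ∧ inner ℝ Z C = 0) → Z ∈ Kᗮ := by
    intro Z hZ
    rw [Submodule.mem_orthogonal']
    intro u hu
    rw [hK] at hu
    refine Submodule.span_induction (p := fun u _ => inner ℝ Z u = (0 : ℝ)) ?_ ?_ ?_ ?_ hu
    · rintro _ ⟨i, rfl⟩
      fin_cases i
      · exact hZ.1
      · exact hZ.2.1
      · exact hZ.2.2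
    · exact inner_zero_right _
    · intro a b _ _ ha hb
      rw [inner_add_right, ha, hb, add_zero]
    · intro c a _ ha
      rw [inner_smul_right, ha, mul_zero]
  have hX' : (⟨X, hmem X hX⟩ : Kᗮ) ≠ 0 := by
    intro h0
    exact hX0 (congrArg Subtype.val h0)
  obtain ⟨c, hc⟩ := (finrank_eq_one_iff_of_nonzero' (⟨X, hmem X hX⟩ : Kᗮ) hX').mp h2 ⟨Y, hmem Y hY⟩
  exact ⟨c, (congrArg Subtype.val hc).symm⟩

end Crest.Agent.R216.PSL
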