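import Crest.Agent.R216.PSLRot
import Crest.Agent.R216.PSLLin

/-!
Row 216, PSL: the new normal field (helper920).
-/

set_option autoImplicit false

noncomputable section

open scoped Manifold ContDiff Topology
open Set MeasureTheory

namespace Crest.Agent.R216.PSL.Asm

namespace Nu

/-- a property which holds near the zero level on a compact set holds on a small level set -/
lemma exists_level {X : Type*} [TopologicalSpace X] [T2Space X] {G : Set X} (hG : IsCompact G)
    {u : X → ℝ} (hu : Continuous u) {P : X → Prop}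
    (hP : ∀ z ∈ G, ¬ 0 < u z → ∀ᶠ z' in 𝓝[G] z, P z') :
    ∃ s : ℝ, 0 < s ∧ ∀ z ∈ G, u z ≤ s → P z := by
  set B : Set X := {z | z ∈ G ∧ ¬ P z} with hB
  have hBG : closure B ⊆ G := closure_minimal (fun z hz => hz.1) hG.isClosed
  have hBc : IsCompact (closure B) := hG.of_isClosed_subset isClosed_closure hBG
  have hpos : ∀ z ∈ closure B, 0 < u z := by
    intro z hz
    by_contra h0
    have h1 := hP z (hBG hz) h0
    have h2 : ∃ᶠ z' in 𝓝 z, z' ∈ B := mem_closure_iff_frequently.1 hz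
    rw [eventually_nhdsWithin_iff] at h1
    obtain ⟨z', hz', h3⟩ := (h2.and_eventually h1).exists
    exact hz'.2 (h3 hz'.1)
  rcases (closure B).eq_empty_or_nonempty with he | hne
  · refine ⟨1, one_pos, fun z hz _ => ?_⟩
    by_contra hPz
    have : z ∈ closure B := subset_closure ⟨hz, hPz⟩
    rw [he] at this
    exact this
  · obtain ⟨z0, hz0, hmin⟩ := hBc.exists_isMinOn hne hu.continuousOn
    refine ⟨u z0 / 2, half_pos (hpos z0 hz0), fun z hz hle => ?_⟩
    by_contra hPz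
    have h1 : u z0 ≤ u z := hmin (subset_closure (⟨hz, hPz⟩ : z ∈ B))
    have h2 := hpos z0 hz0
    linarith

lemma contDiffOn_nor {s : Set P2} {A B Y : P2 → P4} (hA : ContDiffOn ℝ ∞ A s)
    (hB : ContDiffOn ℝ ∞ B s) (hY : ContDiffOn ℝ ∞ Y s) (h : ∀ x ∈ s, gr (A x) (B x) ≠ 0) :
    ContDiffOn ℝ ∞ (fun x => nor (A x) (B x) (Y x)) s := by
  have h0 : ContDiffOn ℝ ∞ (fun x => gr (A x) (B x)) s := by
    unfold gr
    exact ((hA.inner ℝ hA).mul (hB.inner ℝ hB)).sub ((hA.inner ℝ hB).pow 2)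
  have h1 : ContDiffOn ℝ ∞ (fun x => (gr (A x) (B x))⁻¹) s := h0.inv h
  unfold nor
  refine hY.sub (h1.smul ?_)
  refine ContDiffOn.add ?_ ?_
  · exact (((hY.inner ℝ hA).mul (hB.inner ℝ hB)).sub ((hY.inner ℝ hB).mul (hA.inner ℝ hB))).smul hA
  · exact (((hY.inner ℝ hB).mul (hA.inner ℝ hA)).sub ((hY.inner ℝ hA).mul (hA.inner ℝ hB))).smul hB

lemma nor_eq_self {A B X : P4} (h1 : inner ℝ X A = 0) (h2 : inner ℝ X B = 0) :
    nor A B X = X := by
  simp [nor, h1, h2]

lemma exists_pos_pairing {ν n : P4} (hν : ‖ν‖ = 1) (h : ∀ c : ℝ, 0 ≤ c → n ≠ -(c • ν)) :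
    ∃ ζ : P4, 0 < inner ℝ ζ ν ∧ 0 < inner ℝ ζ n := by
  have hn : n ≠ 0 := by simpa using h 0 le_rfl
  have hn' : 0 < ‖n‖ := norm_pos_iff.2 hn
  have hνν : inner ℝ ν ν = 1 := by rw [real_inner_self_eq_norm_sq, hν]; norm_num
  have hnn : inner ℝ n n = ‖n‖ ^ 2 := real_inner_self_eq_norm_sq n
  have hkey : 0 < ‖n‖ + inner ℝ ν n := by
    by_contra hcon
    push Not at hcon
    apply h ‖n‖ hn'.le
    have h2 : ‖n + ‖n‖ • ν‖ ^ 2 ≤ 0 := by
      rw [← real_inner_self_eq_norm_sq, inner_add_left, inner_add_right, inner_add_right,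
        real_inner_smul_left, real_inner_smul_left, inner_smul_right, inner_smul_right, hνν, hnn,
        real_inner_comm ν n]
      nlinarith
    have h3 : ‖n + ‖n‖ • ν‖ = 0 := by
      have := sq_nonneg ‖n + ‖n‖ • ν‖
      exact pow_eq_zero_iff (two_ne_zero) |>.1 (le_antisymm h2 this)
    rw [eq_neg_iff_add_eq_zero]
    exact norm_eq_zero.1 h3
  refine ⟨‖n‖ • ν + n, ?_, ?_⟩
  · rw [inner_add_left, real_inner_smul_left, hνν, real_inner_comm ν n]
    linarith
  · rw [inner_add_left, real_inner_smul_left, hnn]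
    nlinarith

end Nu

open Nu

theorem exists_nuF {D : Set P2} {f ν F : P2 → P4} {u : P2 → ℝ} (hD : IsOpen D)
    (hf : ContDiffOn ℝ ∞ f D) (hF : ContDiffOn ℝ ∞ F D) (hν : ContDiffOn ℝ ∞ ν D)
    (hun : IsUNormal f ν D) (hu : ContDiff ℝ ∞ u) (hc : IsCompact (closure {x : P2 | 0 < u x}))
    (hKD : closure {x : P2 | 0 < u x} ⊆ D)
    (hFi : ∀ x ∈ D, Function.Injective (fderiv ℝ F x))
    (hjet : ∀ x ∈ D, ¬ 0 < u x → fderiv ℝ F x = fderiv ℝ f x ∧
        fderiv ℝ (fderiv ℝ F) x = fderiv ℝ (fderiv ℝ f) x)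
    (h22 : ∀ x, 0 < u x → hN F x e2 e2 ≠ 0)
    (hQ1 : ∀ x ∈ frontier {x : P2 | 0 < u x}, Q1 (hN f x) (ν x) e2)
    {G : Set (P2 × P2)} (hG : IsCompact G) (hGK : ∀ z ∈ G, z.1 ∈ closure {x : P2 | 0 < u x})
    (hQ3 : ∀ z ∈ G, ¬ 0 < u z.1 → Q3 (hN f z.1) (ν z.1) z.2 e2)
    (hGF : ∀ z ∈ G, 0 < u z.1 → ∀ c : ℝ, 0 ≤ c →
      hN F z.1 z.2 z.2 ≠ -(c • hN F z.1 e2 e2))
    (T : Finset P2) (hT : ∀ x ∈ T, 0 < u x) :
    ∃ νF : P2 → P4, ContDiffOn ℝ ∞ νF D ∧ IsUNormal F νF D ∧
      (∀ x ∈ D, ¬ 0 < u x → νF x = ν x) ∧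
      (∀ z ∈ G, Q1 (hN F z.1) (νF z.1) z.2) ∧
      (∀ x ∈ T, νF x = ‖hN F x e2 e2‖⁻¹ • hN F x e2 e2) := by
  classical
  set K : Set P2 := closure {x : P2 | 0 < u x} with hKdef
  have hopenU : IsOpen {x : P2 | 0 < u x} := isOpen_lt continuous_const hu.continuous
  have hUK : ∀ x, 0 < u x → x ∈ K := fun x hx => subset_closure hx
  have hfront : ∀ x ∈ K, ¬ 0 < u x → x ∈ frontier {x : P2 | 0 < u x} := by
    intro x hx hx0
    rw [hopenU.frontier_eq]
    exact ⟨hx, hx0⟩
  have hgr : ∀ x ∈ D, gr (d1 F x e1) (d1 F x e2) ≠ 0 := by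
    intro x hx
    have h : LinearIndependent ℝ ![d1 F x e1, d1 F x e2] := by
      rw [LinearIndependent.pair_iff]
      intro s t hst
      have h1 : fderiv ℝ F x (s • e1 + t • e2) = 0 := by simpa [d1] using hst
      have h2 : s • e1 + t • e2 = 0 := by
        apply hFi x hx
        rw [h1, map_zero]
      constructor
      · have := congrArg (fun v : P2 => v 0) h2
        simpa [e1, e2] using this
      · have := congrArg (fun v : P2 => v 1) h2
        simpa [e1, e2] using this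
    exact (gr_pos h).ne'
  -- derivatives are smooth
  have hdF : ContDiffOn ℝ ∞ (fderiv ℝ F) D := hF.fderiv_of_isOpen hD (by simp)
  have hddF : ContDiffOn ℝ ∞ (fderiv ℝ (fderiv ℝ F)) D := hdF.fderiv_of_isOpen hD (by simp)
  have hd1 : ∀ v, ContDiffOn ℝ ∞ (fun x => d1 F x v) D := fun v => hdF.clm_apply contDiffOn_const
  have hd2 : ∀ v w, ContDiffOn ℝ ∞ (fun x => d2 F x v w) D :=
    fun v w => (hddF.clm_apply contDiffOn_const).clm_apply contDiffOn_const
  set m : P2 → P4 := fun x => nor (d1 F x e1) (d1 F x e2) (ν x) with hm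
  set n : P2 → P4 := fun x => nor (d1 F x e1) (d1 F x e2) (d2 F x e2 e2) with hn
  have hms : ContDiffOn ℝ ∞ m D := contDiffOn_nor (hd1 e1) (hd1 e2) hν hgr
  have hns : ContDiffOn ℝ ∞ n D := contDiffOn_nor (hd1 e1) (hd1 e2) (hd2 e2 e2) hgr
  have hnN : ∀ x ∈ D, n x = hN F x e2 e2 := fun x hx => (hN_eq_nor (hFi x hx) _ _).symm
  have hmν : ∀ x ∈ D, ¬ 0 < u x → m x = ν x := by
    intro x hx h0
    have h1 := (hjet x hx h0).1
    apply nor_eq_self
    · simp only [d1, h1]; exact hun.orth x hx e1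
    · simp only [d1, h1]; exact hun.orth x hx e2
  have hNf : ∀ x ∈ D, ¬ 0 < u x → ∀ p q, hN F x p q = hN f x p q := by
    intro x hx h0 p q
    obtain ⟨h1, h2⟩ := hjet x hx h0
    simp only [hN, tanSp, d2, h1, h2]
  -- zone 1
  obtain ⟨s1, hs1, hz1⟩ := exists_level hc hu.continuous
    (P := fun x => ∀ l : ℝ, 0 ≤ l → l ≤ 1 → (1 - l) • m x + l • n x ≠ 0) (by
      intro x hx h0
      have hxD := hKD hx
      obtain ⟨ζ, hζ1, hζ2⟩ := exists_pos_pairing (hun.unit x hxD) (hQ1 x (hfront x hx h0))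
      rw [← hNf x hxD h0, ← hnN x hxD] at hζ2
      rw [← hmν x hxD h0] at hζ1
      have c1 : ∀ᶠ y in 𝓝 x, 0 < inner ℝ ζ (m y) := by
        have : ContinuousAt (fun y => inner ℝ ζ (m y)) x :=
          continuousAt_const.inner (hms.continuousOn.continuousAt (hD.mem_nhds hxD))
        exact this.eventually (lt_mem_nhds hζ1)
      have c2 : ∀ᶠ y in 𝓝 x, 0 < inner ℝ ζ (n y) := by
        have : ContinuousAt (fun y => inner ℝ ζ (n y)) x :=
          continuousAt_const.inner (hns.continuousOn.continuousAt (hD.mem_nhds hxD))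
        exact this.eventually (lt_mem_nhds hζ2)
      refine Filter.Eventually.filter_mono nhdsWithin_le_nhds ?_
      filter_upwards [c1, c2] with y h1 h2 l hl0 hl1 heq
      have h3 : inner ℝ ζ ((1 - l) • m y + l • n y) = 0 := by rw [heq, inner_zero_right]
      rw [inner_add_right, inner_smul_right, inner_smul_right] at h3
      rcases eq_or_lt_of_le hl0 with h | h
      · subst h; linarith
      · have := mul_pos h h2
        have := mul_nonneg (sub_nonneg.2 hl1) h1.le
        linarith)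
  -- zone 2
  have hFN2 : ContinuousOn (fun z : P2 × P2 => hN F z.1 z.2 z.2) (D ×ˢ univ) := by
    have h1 : ContinuousOn (fun z : P2 × P2 => nor (d1 F z.1 e1) (d1 F z.1 e2) (d2 F z.1 z.2 z.2))
        (D ×ˢ univ) := by
      have hfst : MapsTo (Prod.fst : P2 × P2 → P2) (D ×ˢ univ) D := fun z hz => hz.1
      refine continuousOn_nor ?_ ?_ ?_ ?_
      · exact (hd1 e1).continuousOn.comp continuousOn_fst hfst
      · exact (hd1 e2).continuousOn.comp continuousOn_fst hfst
      · exact ((hddF.continuousOn.comp continuousOn_fst hfst).clm_apply continuousOn_snd).clm_apply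
          continuousOn_snd
      · exact fun z hz => hgr z.1 hz.1
    refine h1.congr ?_
    intro z hz
    exact hN_eq_nor (hFi z.1 hz.1) _ _
  obtain ⟨s2, hs2, hz2⟩ := exists_level hG (u := fun z : P2 × P2 => u z.1)
    (hu.continuous.comp continuous_fst)
    (P := fun z => ∀ l : ℝ, 0 ≤ l → l ≤ 1 → ∀ c : ℝ, 0 ≤ c →
      hN F z.1 z.2 z.2 ≠ -(c • ((1 - l) • m z.1 + l • n z.1))) (by
      intro z hz h0
      have hx := hGK z hz
      have hxD := hKD hx
      obtain ⟨ζ, hζ1, hζ2, hζ3⟩ := hQ3 z hz h0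
      rw [← hNf z.1 hxD h0] at hζ2 hζ3
      rw [← hnN z.1 hxD] at hζ3
      rw [← hmν z.1 hxD h0] at hζ1
      have c1 : ∀ᶠ y in 𝓝 z, 0 < inner ℝ ζ (m y.1) := by
        have : ContinuousAt (fun y : P2 × P2 => inner ℝ ζ (m y.1)) z :=
          continuousAt_const.inner
            (ContinuousAt.comp (g := m) (hms.continuousOn.continuousAt (hD.mem_nhds hxD))
              continuousAt_fst)
        exact this.eventually (lt_mem_nhds hζ1)
      have c2 : ∀ᶠ y in 𝓝 z, 0 < inner ℝ ζ (n y.1) := by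
        have : ContinuousAt (fun y : P2 × P2 => inner ℝ ζ (n y.1)) z :=
          continuousAt_const.inner
            (ContinuousAt.comp (g := n) (hns.continuousOn.continuousAt (hD.mem_nhds hxD))
              continuousAt_fst)
        exact this.eventually (lt_mem_nhds hζ3)
      have c3 : ∀ᶠ y in 𝓝 z, 0 < inner ℝ ζ (hN F y.1 y.2 y.2) := by
        have : ContinuousAt (fun y : P2 × P2 => inner ℝ ζ (hN F y.1 y.2 y.2)) z :=
          continuousAt_const.inner (hFN2.continuousAt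
            ((hD.prod isOpen_univ).mem_nhds ⟨hxD, mem_univ _⟩))
        exact this.eventually (lt_mem_nhds hζ2)
      refine Filter.Eventually.filter_mono nhdsWithin_le_nhds ?_
      filter_upwards [c1, c2, c3] with y h1 h2 h3 l hl0 hl1 c hc0 heq
      rw [heq, inner_neg_right, inner_smul_right, inner_add_right, inner_smul_right,
        inner_smul_right] at h3
      have h4 := mul_nonneg hl0 h2.le
      have h5 := mul_nonneg (sub_nonneg.2 hl1) h1.le
      have h6 := mul_nonneg hc0 (add_nonneg h5 h4)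
      linarith)
  -- level below T
  obtain ⟨s3, hs3, hz3⟩ : ∃ s : ℝ, 0 < s ∧ ∀ x ∈ T, s < u x := by
    by_cases hne : T.Nonempty
    · obtain ⟨x0, hx0, hmin⟩ := Finset.exists_min_image T u hne
      refine ⟨u x0 / 2, half_pos (hT x0 hx0), fun x hx => ?_⟩
      have h1 := hmin x hx
      have h2 := hT x0 hx0
      linarith
    · refine ⟨1, one_pos, fun x hx => absurd ⟨x, hx⟩ hne⟩
  set s := min (min s1 s2) s3 with hs
  have hspos : 0 < s := lt_min (lt_min hs1 hs2) hs3
  have hss1 : s ≤ s1 := (min_le_left _ _).trans (min_le_left _ _)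
  have hss2 : s ≤ s2 := (min_le_left _ _).trans (min_le_right _ _)
  have hss3 : s ≤ s3 := min_le_right _ _
  set χ : P2 → ℝ := fun x => Real.smoothTransition (2 * u x / s - 1) with hχ
  have hχs : ContDiff ℝ ∞ χ := by
    have h1 : ContDiff ℝ ∞ (fun x => 2 * u x / s - 1) := by fun_prop
    exact (Real.smoothTransition.contDiff (n := ⊤)).comp h1
  have hχ01 : ∀ x, 0 ≤ χ x ∧ χ x ≤ 1 := fun x =>
    ⟨Real.smoothTransition.nonneg _, Real.smoothTransition.le_one _⟩
  have hχ0 : ∀ x, ¬ 0 < u x → χ x = 0 := by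
    intro x hx
    apply Real.smoothTransition.zero_of_nonpos
    have : 2 * u x / s ≤ 0 := div_nonpos_of_nonpos_of_nonneg (by linarith [not_lt.1 hx]) hspos.le
    linarith
  have hχ1 : ∀ x, s ≤ u x → χ x = 1 := by
    intro x hx
    apply Real.smoothTransition.one_of_one_le
    have : 2 ≤ 2 * u x / s := by
      rw [le_div_iff₀ hspos]
      linarith
    linarith
  set g : P2 → P4 := fun x => (1 - χ x) • m x + χ x • n x with hg
  have hgs : ContDiffOn ℝ ∞ g D :=
    ((contDiff_const.sub hχs).contDiffOn.smul hms).add (hχs.contDiffOn.smul hns)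
  have hg0 : ∀ x ∈ D, ¬ 0 < u x → g x = ν x := by
    intro x hx h0
    simp only [hg, hχ0 x h0, sub_zero, one_smul, zero_smul, add_zero]
    exact hmν x hx h0
  have hg1 : ∀ x ∈ D, s ≤ u x → g x = hN F x e2 e2 := by
    intro x hx h1
    simp only [hg, hχ1 x h1, sub_self, one_smul, zero_smul, zero_add]
    exact hnN x hx
  have hgne : ∀ x ∈ D, g x ≠ 0 := by
    intro x hx
    by_cases h0 : 0 < u x
    · by_cases h1 : u x ≤ s
      · exact hz1 x (hUK x h0) (h1.trans hss1) (χ x) (hχ01 x).1 (hχ01 x).2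
      · rw [hg1 x hx (not_le.1 h1).le]
        exact h22 x h0
    · rw [hg0 x hx h0]
      intro h
      have := hun.unit x hx
      rw [h, norm_zero] at this
      norm_num at this
  refine ⟨fun x => ‖g x‖⁻¹ • g x, ?_, ?_, ?_, ?_, ?_⟩
  · have h1 : ContDiffOn ℝ ∞ (fun x => ‖g x‖) D := hgs.norm ℝ hgne
    exact (h1.inv (fun x hx => norm_ne_zero_iff.2 (hgne x hx))).smul hgs
  · refine ⟨fun x hx => ?_, fun x hx v => ?_⟩
    · rw [norm_smul, norm_inv, norm_norm, inv_mul_cancel₀ (norm_ne_zero_iff.2 (hgne x hx))]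
    · have hA : inner ℝ (g x) (d1 F x e1) = 0 := by
        simp only [hg, inner_add_left, real_inner_smul_left, hm, hn]
        rw [inner_nor_A (hgr x hx), inner_nor_A (hgr x hx)]
        ring
      have hB : inner ℝ (g x) (d1 F x e2) = 0 := by
        simp only [hg, inner_add_left, real_inner_smul_left, hm, hn]
        rw [inner_nor_B (hgr x hx), inner_nor_B (hgr x hx)]
        ring
      rw [d1_eq F x v, real_inner_smul_left, inner_add_right, inner_smul_right, inner_smul_right,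
        hA, hB]
      ring
  · intro x hx h0
    simp only [hg0 x hx h0, hun.unit x hx, inv_one, one_smul]
  · intro z hz c hc0
    have hx := hGK z hz
    have hxD := hKD hx
    have hpos : 0 < ‖g z.1‖ := norm_pos_iff.2 (hgne _ hxD)
    rw [show -(c • (‖g z.1‖⁻¹ • g z.1)) = -((c * ‖g z.1‖⁻¹) • g z.1) by rw [smul_smul]]
    have hc' : 0 ≤ c * ‖g z.1‖⁻¹ := by positivity
    by_cases h0 : 0 < u z.1
    · by_cases h1 : u z.1 ≤ s
      · exact hz2 z hz (h1.trans hss2) (χ z.1) (hχ01 _).1 (hχ01 _).2 _ hc'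
      · rw [hg1 z.1 hxD (not_le.1 h1).le] at hc' ⊢
        exact hGF z hz h0 _ hc'
    · have h2 := hz2 z hz ((not_lt.1 h0).trans hs2.le) 0 le_rfl zero_le_one _ hc'
      rw [hg0 _ hxD h0] at h2 ⊢
      simpa [hmν _ hxD h0] using h2
  · intro x hx
    have hxD := hKD (hUK x (hT x hx))
    simp only [hg1 x hxD (hss3.trans (hz3 x hx).le)]

end Crest.Agent.R216.PSL.Asm
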