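import Crest.Agent.R216.PSLAux

/-!
Row 216, PSL: facts on rotated loop families (helper920).
-/

set_option autoImplicit false

noncomputable section

open scoped Manifold ContDiff Topology
open Set MeasureTheory

namespace Crest.Agent.R216.PSL.Asm

lemma cd2 {f : P2 → P4} (hf : ContDiff ℝ ∞ f) (x : P2) : ContDiffAt ℝ 2 f x :=
  (hf.of_le (WithTop.coe_le_coe.2 le_top)).contDiffAt

/-! ### two facts on curves -/

lemma inner_deriv_zero {g : ℝ → P4} {s : ℝ} {V : P4} {c : ℝ} (hg : DifferentiableAt ℝ g s)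
    (h : ∀ᶠ s' in 𝓝 s, inner ℝ (g s') V = c) : inner ℝ (deriv g s) V = 0 := by
  have h1 : HasDerivAt (fun s' => inner ℝ (g s') V) (inner ℝ (g s) (0 : P4) + inner ℝ (deriv g s) V) s :=
    hg.hasDerivAt.inner ℝ (hasDerivAt_const s V)
  have h2 : HasDerivAt (fun s' => inner ℝ (g s') V) 0 s :=
    (hasDerivAt_const s c).congr_of_eventuallyEq h
  have := h1.unique h2
  simpa using this

lemma inner_deriv_self_zero {g : ℝ → P4} {s : ℝ} {c : ℝ} (hg : DifferentiableAt ℝ g s)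
    (h : ∀ᶠ s' in 𝓝 s, inner ℝ (g s') (g s') = c) : inner ℝ (deriv g s) (g s) = 0 := by
  have h1 : HasDerivAt (fun s' => inner ℝ (g s') (g s'))
      (inner ℝ (g s) (deriv g s) + inner ℝ (deriv g s) (g s)) s :=
    hg.hasDerivAt.inner ℝ hg.hasDerivAt
  have h2 : HasDerivAt (fun s' => inner ℝ (g s') (g s')) 0 s :=
    (hasDerivAt_const s c).congr_of_eventuallyEq h
  have h3 := h1.unique h2
  rw [real_inner_comm (deriv g s) (g s)] at h3
  linarith

/-- a continuous loop on the sphere of radius `|m|` whose mean is `m` is constant -/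
lemma loop_const {g : ℝ → P4} {m : P4} (hg : Continuous g)
    (hper : ∀ t, g (t + 2 * Real.pi) = g t)
    (hmean : ∫ t in (0:ℝ)..(2 * Real.pi), g t = (2 * Real.pi) • m)
    (hnorm : ∀ t, inner ℝ (g t) (g t) = inner ℝ m m) (t : ℝ) : g t = m := by
  have hpi := Real.pi_pos
  have h2pi : (0:ℝ) < 2 * Real.pi := by positivity
  have hint : ∫ t in (0:ℝ)..(2 * Real.pi), inner ℝ m (g t) = ∫ t in (0:ℝ)..(2 * Real.pi), inner ℝ m m := by
    have h1 : ∫ t in (0:ℝ)..(2 * Real.pi), inner ℝ m (g t) =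
        inner ℝ m (∫ t in (0:ℝ)..(2 * Real.pi), g t) := by
      have := (innerSL ℝ m).intervalIntegral_comp_comm (hg.intervalIntegrable (μ := volume) 0 (2 * Real.pi))
      simpa using this
    rw [h1, hmean, inner_smul_right, intervalIntegral.integral_const]
    simp
  have hle : ∀ t, inner ℝ m (g t) ≤ inner ℝ m m := by
    intro t
    have h := real_inner_le_norm m (g t)
    have h' : ‖g t‖ = ‖m‖ := by
      have := hnorm t
      rw [real_inner_self_eq_norm_sq, real_inner_self_eq_norm_sq] at this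
      exact (sq_eq_sq₀ (norm_nonneg _) (norm_nonneg _)).1 this
    rw [h'] at h
    rw [real_inner_self_eq_norm_sq]
    linarith [sq (‖m‖)]
  have hkey : ∀ t ∈ Icc (0:ℝ) (2 * Real.pi), g t = m := by
    intro t ht
    by_contra hne
    have hlt : inner ℝ m (g t) < inner ℝ m m := by
      have h1 : 0 < ‖g t - m‖ ^ 2 := by
        have := norm_pos_iff.2 (sub_ne_zero.2 hne)
        positivity
      have h2 : ‖g t - m‖ ^ 2 = inner ℝ (g t) (g t) - 2 * inner ℝ m (g t) + inner ℝ m m := by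
        rw [← real_inner_self_eq_norm_sq, inner_sub_left, inner_sub_right, inner_sub_right,
          real_inner_comm m (g t)]
        ring
      rw [h2, hnorm t] at h1
      linarith
    have := intervalIntegral.integral_lt_integral_of_continuousOn_of_le_of_exists_lt
      (f := fun t => inner ℝ m (g t)) (g := fun _ => inner ℝ m m) h2pi
      (by fun_prop) (by fun_prop) (fun x _ => hle x) ⟨t, ht, hlt⟩
    rw [hint] at this
    exact lt_irrefl _ this
  have hper' : Function.Periodic g (2 * Real.pi) := hper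
  obtain ⟨s, hs, hgs⟩ := hper'.exists_mem_Ico₀ h2pi t
  rw [hgs]
  exact hkey s ⟨hs.1, hs.2.le⟩

/-! ### linear algebra -/

/-- on the loops, `w`, `f₂`, `f₂₂` are independent -/
lemma indep_of_circle {w A B C : P4} {s : ℝ} (hBC : LinearIndependent ℝ ![B, C])
    (h2 : inner ℝ w B = inner ℝ A B) (h22 : inner ℝ w C = inner ℝ A C)
    (hn : inner ℝ w w = inner ℝ A A + s ^ 2)
    (h0 : s = 0 → LinearIndependent ℝ ![A, B, C]) : LinearIndependent ℝ ![w, B, C] := by
  rw [show (![w, B, C] : Fin 3 → P4) = Fin.cons w ![B, C] from rfl, linearIndependent_finCons]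
  refine ⟨hBC, ?_⟩
  intro hw
  have hspan : Submodule.span ℝ (Set.range ![B, C]) = Submodule.span ℝ {B, C} := by
    congr 1
    ext x
    simp [Matrix.range_cons, Matrix.range_empty, or_comm]
  rw [hspan] at hw
  obtain ⟨p, q, hpq⟩ := Submodule.mem_span_pair.1 hw
  have h3 : inner ℝ (A - w) w = 0 := by
    rw [← hpq, inner_add_right, inner_smul_right, inner_smul_right, inner_sub_left,
      inner_sub_left, hpq, h2, h22]
    ring
  have h4 : inner ℝ (A - w) (A - w) = - s ^ 2 := by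
    have e1 : inner ℝ (A - w) (A - w) = inner ℝ A A - inner ℝ w w - 2 * inner ℝ (A - w) w := by
      simp only [inner_sub_left, inner_sub_right, real_inner_comm w A]
      ring
    rw [e1, h3, hn]
    ring
  have h5 : 0 ≤ inner ℝ (A - w) (A - w) := real_inner_self_nonneg
  have hs : s = 0 := by nlinarith
  have h6 : A - w = 0 := by
    apply inner_self_eq_zero (𝕜 := ℝ).1
    rw [h4, hs]
    ring
  have h7 : A = w := sub_eq_zero.1 h6
  have h8 := h0 hs
  rw [show (![A, B, C] : Fin 3 → P4) = Fin.cons A ![B, C] from rfl,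
    linearIndependent_finCons] at h8
  apply h8.2
  rw [hspan, h7]
  exact hw

lemma indep_f2_f22 {A B C : P4} (hAB : LinearIndependent ℝ ![A, B])
    (hg : inner ℝ C A * inner ℝ B B - inner ℝ C B * inner ℝ A B ≠ 0) :
    LinearIndependent ℝ ![B, C] := by
  rw [LinearIndependent.pair_iff]
  intro s t hst
  have hB : B ≠ 0 := by
    intro h
    have := hAB.ne_zero 1
    simp [h] at this
  by_cases ht : t = 0
  · subst ht
    simp only [zero_smul, add_zero] at hst
    exact ⟨(smul_eq_zero.1 hst).resolve_right hB, rfl⟩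
  · exfalso
    apply hg
    have hC : C = (-(t⁻¹ * s)) • B := by
      have : t • C = -(s • B) := by
        rw [eq_neg_iff_add_eq_zero, add_comm]
        exact hst
      calc C = t⁻¹ • (t • C) := by rw [smul_smul, inv_mul_cancel₀ ht, one_smul]
        _ = _ := by rw [this]; module
    rw [hC, real_inner_smul_left, real_inner_smul_left, real_inner_comm A B]
    ring


/-! ### calculus of a rotated loop family along the amplitude -/

section rot
variable {f : P2 → P4} {a : P2 → ℝ} {K : Set P2} {O : Set (P2 × ℝ × ℝ)}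
  {W : P2 × ℝ × ℝ → ℝ → P4}

/-- the loop family evaluated along the amplitude `a` -/
def Phi (a : P2 → ℝ) (W : P2 × ℝ × ℝ → ℝ → P4) : P2 × ℝ × ℝ → P4 :=
  fun z => W (z.1, a z.1, z.2.1) z.2.2

/-- its domain -/
def domPhi (a : P2 → ℝ) (O : Set (P2 × ℝ × ℝ)) : Set (P2 × ℝ × ℝ) :=
  {z | (z.1, a z.1, z.2.1) ∈ O}

lemma isOpen_domPhi (hO : IsOpen O) (ha : ContDiff ℝ ∞ a) : IsOpen (domPhi a O) := by
  have : Continuous fun z : P2 × ℝ × ℝ => (z.1, a z.1, z.2.1) := by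
    have := ha.continuous
    fun_prop
  exact hO.preimage this

lemma contDiffOn_Phi (h : RLoop f a K O W) (ha : ContDiff ℝ ∞ a) :
    ContDiffOn ℝ ∞ (Phi a W) (domPhi a O) := by
  have h1 : ContDiff ℝ ∞ (fun z : P2 × ℝ × ℝ => (((z.1, a z.1, z.2.1) : P2 × ℝ × ℝ), z.2.2)) := by
    fun_prop
  exact h.smooth.comp h1.contDiffOn (fun z hz => ⟨hz, mem_univ _⟩)

lemma hasFDerivAt_Phi (h : RLoop f a K O W) (ha : ContDiff ℝ ∞ a) {z : P2 × ℝ × ℝ}
    (hz : z ∈ domPhi a O) : HasFDerivAt (Phi a W) (fderiv ℝ (Phi a W) z) z := by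
  have h1 := (contDiffOn_Phi h ha).contDiffAt ((isOpen_domPhi h.isOpen ha).mem_nhds hz)
  exact (h1.differentiableAt (by simp)).hasFDerivAt

/-- partial derivative in `x₂` at fixed `ϑ` -/
def Phi2 (a : P2 → ℝ) (W : P2 × ℝ × ℝ → ℝ → P4) : P2 × ℝ × ℝ → P4 :=
  fun z => fderiv ℝ (Phi a W) z (e2, 0, 0)
/-- partial derivative in `ϑ` -/
def PhiT (a : P2 → ℝ) (W : P2 × ℝ × ℝ → ℝ → P4) : P2 × ℝ × ℝ → P4 :=
  fun z => fderiv ℝ (Phi a W) z (0, 1, 0)
/-- partial derivative in `t` -/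
def Phit (a : P2 → ℝ) (W : P2 × ℝ × ℝ → ℝ → P4) : P2 × ℝ × ℝ → P4 :=
  fun z => fderiv ℝ (Phi a W) z (0, 0, 1)

lemma continuousOn_fderiv_Phi (h : RLoop f a K O W) (ha : ContDiff ℝ ∞ a) (v : P2 × ℝ × ℝ) :
    ContinuousOn (fun z => fderiv ℝ (Phi a W) z v) (domPhi a O) := by
  have h1 := (contDiffOn_Phi h ha).continuousOn_fderiv_of_isOpen (isOpen_domPhi h.isOpen ha)
    (by simp)
  exact h1.clm_apply continuousOn_const

lemma deriv_theta (h : RLoop f a K O W) (ha : ContDiff ℝ ∞ a) {x : P2} {ϑ t : ℝ}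
    (hz : (x, ϑ, t) ∈ domPhi a O) :
    HasDerivAt (fun s : ℝ => W (x, a x, s) t) (PhiT a W (x, ϑ, t)) ϑ := by
  have h1 := hasFDerivAt_Phi h ha hz
  have h2 : HasDerivAt (fun s : ℝ => ((x, s, t) : P2 × ℝ × ℝ)) (0, 1, 0) ϑ :=
    (hasDerivAt_const ϑ x).prodMk ((hasDerivAt_id ϑ).prodMk (hasDerivAt_const ϑ t))
  exact h1.comp_hasDerivAt ϑ h2

lemma deriv_time (h : RLoop f a K O W) (ha : ContDiff ℝ ∞ a) {x : P2} {ϑ t : ℝ}
    (hz : (x, ϑ, t) ∈ domPhi a O) :
    HasDerivAt (fun s : ℝ => W (x, a x, ϑ) s) (Phit a W (x, ϑ, t)) t := by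
  have h1 := hasFDerivAt_Phi h ha hz
  have h2 : HasDerivAt (fun s : ℝ => ((x, ϑ, s) : P2 × ℝ × ℝ)) (0, 0, 1) t :=
    (hasDerivAt_const t x).prodMk ((hasDerivAt_const t ϑ).prodMk (hasDerivAt_id t))
  exact h1.comp_hasDerivAt t h2

/-- derivative along a rotation function `θ` -/
lemma fderiv_along (h : RLoop f a K O W) (ha : ContDiff ℝ ∞ a) {θ : P2 → ℝ}
    (hθ : ContDiff ℝ ∞ θ) {x : P2} {t : ℝ} (hz : (x, θ x, t) ∈ domPhi a O) :
    fderiv ℝ (fun y => W (y, a y, θ y) t) x e2 =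
      Phi2 a W (x, θ x, t) + (fderiv ℝ θ x e2) • PhiT a W (x, θ x, t) := by
  have h1 := hasFDerivAt_Phi h ha hz
  have hθx : HasFDerivAt θ (fderiv ℝ θ x) x :=
    (hθ.differentiable (by simp) x).hasFDerivAt
  have h2 : HasFDerivAt (fun y : P2 => ((y, θ y, t) : P2 × ℝ × ℝ))
      ((ContinuousLinearMap.id ℝ P2).prod ((fderiv ℝ θ x).prod 0)) x :=
    (hasFDerivAt_id x).prodMk (hθx.prodMk (hasFDerivAt_const t x))
  have h3 := (h1.comp x h2).fderiv
  have h4 : (Phi a W ∘ fun y : P2 => ((y, θ y, t) : P2 × ℝ × ℝ)) =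
      fun y => W (y, a y, θ y) t := rfl
  rw [h4] at h3
  rw [h3]
  simp only [ContinuousLinearMap.comp_apply, ContinuousLinearMap.prod_apply,
    ContinuousLinearMap.id_apply, _root_.zero_apply, Phi2, PhiT]
  have h5 : ((e2, (fderiv ℝ θ x) e2, (0:ℝ)) : P2 × ℝ × ℝ) =
      (e2, 0, 0) + (fderiv ℝ θ x e2) • ((0, 1, 0) : P2 × ℝ × ℝ) := by
    ext <;> simp
  rw [h5, map_add, map_smul]

/-- where `a = 0` the loops are constant -/
lemma W_const (h : RLoop f a K O W) {z : P2 × ℝ × ℝ} (hz : z ∈ O) (h0 : z.2.1 = 0) (t : ℝ) :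
    W z t = d1 f z.1 e1 := by
  have hc : Continuous (W z) := by
    have h1 : ContinuousOn (fun y : (P2 × ℝ × ℝ) × ℝ => W y.1 y.2) (O ×ˢ univ) :=
      h.smooth.continuousOn
    have h2 : ContinuousOn (fun s : ℝ => W z s) univ :=
      h1.comp (f := fun s : ℝ => ((z, s) : (P2 × ℝ × ℝ) × ℝ)) (by fun_prop)
        (fun s _ => ⟨hz, mem_univ _⟩)
    simpa [continuousOn_univ] using h2
  refine loop_const hc (h.per z hz) (h.mean z hz) ?_ t
  intro s
  rw [h.norm z hz s, h0]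
  ring

/-- the `x₂` derivative of the loops where `a = 0` -/
lemma Phi2_bd (h : RLoop f a K O W) (hf : ContDiff ℝ ∞ f) (ha : ContDiff ℝ ∞ a) {x : P2} {t : ℝ}
    (hz : (x, (0:ℝ), t) ∈ domPhi a O) (h0 : a x = 0) (hda : fderiv ℝ a x = 0) :
    Phi2 a W (x, 0, t) = d2 f x e2 e1 := by
  have hzO : (x, (0:ℝ), (0:ℝ)) ∈ O := by
    have := hz
    simp only [domPhi, mem_ofPred_eq, h0] at this
    exact this
  -- the map `g (y, α) = W (y, α, 0) t`
  have hg : HasFDerivAt (fun q : (P2 × ℝ × ℝ) × ℝ => W q.1 q.2)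
      (fderiv ℝ (fun q : (P2 × ℝ × ℝ) × ℝ => W q.1 q.2) ((x, 0, 0), t)) ((x, 0, 0), t) := by
    have h1 := h.smooth.contDiffAt
      ((h.isOpen.prod isOpen_univ).mem_nhds (⟨hzO, mem_univ _⟩ : (((x, (0:ℝ), (0:ℝ)), t) :
        (P2 × ℝ × ℝ) × ℝ) ∈ O ×ˢ univ))
    exact (h1.differentiableAt (by simp)).hasFDerivAt
  set L := fderiv ℝ (fun q : (P2 × ℝ × ℝ) × ℝ => W q.1 q.2) ((x, 0, 0), t) with hL
  -- along `a`
  have hax : HasFDerivAt a (0 : P2 →L[ℝ] ℝ) x := by
    have := (ha.differentiable (by simp) x).hasFDerivAt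
    rwa [hda] at this
  have h2 : HasFDerivAt (fun y : P2 => (((y, a y, (0:ℝ)), t) : (P2 × ℝ × ℝ) × ℝ))
      (((ContinuousLinearMap.id ℝ P2).prod ((0 : P2 →L[ℝ] ℝ).prod 0)).prod 0) x :=
    ((hasFDerivAt_id x).prodMk (hax.prodMk (hasFDerivAt_const 0 x))).prodMk (hasFDerivAt_const t x)
  have hg' : HasFDerivAt (fun q : (P2 × ℝ × ℝ) × ℝ => W q.1 q.2) L
      ((fun y : P2 => (((y, a y, (0:ℝ)), t) : (P2 × ℝ × ℝ) × ℝ)) x) := by
    simpa [h0] using hg
  have h3 := hg'.comp x h2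
  -- along `0`
  have h4 : HasFDerivAt (fun y : P2 => (((y, (0:ℝ), (0:ℝ)), t) : (P2 × ℝ × ℝ) × ℝ))
      (((ContinuousLinearMap.id ℝ P2).prod ((0 : P2 →L[ℝ] ℝ).prod 0)).prod 0) x :=
    ((hasFDerivAt_id x).prodMk ((hasFDerivAt_const 0 x).prodMk (hasFDerivAt_const 0 x))).prodMk
      (hasFDerivAt_const t x)
  have h5 := hg.comp x h4
  -- near `x` the second function is `f₁`
  have h6 : ((fun q : (P2 × ℝ × ℝ) × ℝ => W q.1 q.2) ∘
      (fun y : P2 => (((y, (0:ℝ), (0:ℝ)), t) : (P2 × ℝ × ℝ) × ℝ))) =ᶠ[𝓝 x]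
      fun y => d1 f y e1 := by
    have : ∀ᶠ y in 𝓝 x, ((y, (0:ℝ), (0:ℝ)) : P2 × ℝ × ℝ) ∈ O := by
      have hcont : Continuous fun y : P2 => ((y, (0:ℝ), (0:ℝ)) : P2 × ℝ × ℝ) := by fun_prop
      exact hcont.continuousAt.preimage_mem_nhds (h.isOpen.mem_nhds hzO)
    filter_upwards [this] with y hy
    exact W_const h hy rfl t
  have h7 : HasFDerivAt (fun y => d1 f y e1)
      (L.comp (((ContinuousLinearMap.id ℝ P2).prod ((0 : P2 →L[ℝ] ℝ).prod 0)).prod 0)) x :=
    h5.congr_of_eventuallyEq h6.symm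
  have h8 : HasFDerivAt (fun y => d1 f y e1) ((fderiv ℝ (fderiv ℝ f) x).flip e1) x := by
    have hdf : DifferentiableAt ℝ (fderiv ℝ f) x :=
      ((cd2 hf x).fderiv_right (m := 1) (by norm_num)).differentiableAt (by norm_num)
    have := hdf.hasFDerivAt.clm_apply (hasFDerivAt_const e1 x)
    simpa [d1] using this
  have h9 := h7.unique h8
  -- assemble
  have h10 : fderiv ℝ (fun y => W (y, a y, 0) t) x e2 = Phi2 a W (x, 0, t) := by
    have := fderiv_along h ha (θ := fun _ => 0) contDiff_const (x := x) (t := t) hz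
    simpa using this
  rw [← h10]
  have h11 : fderiv ℝ (fun y => W (y, a y, 0) t) x =
      L.comp (((ContinuousLinearMap.id ℝ P2).prod ((0 : P2 →L[ℝ] ℝ).prod 0)).prod 0) := h3.fderiv
  rw [h11, h9]
  simp [d2]

end rot

end Crest.Agent.R216.PSL.Asm
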