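import Mathlib

set_option autoImplicit false
open Real Polynomial
open scoped ContDiff

/-! Row 216, Theorem E, section 3: one-variable profile functions and their
logarithmic-derivative bounds. -/

namespace Crest.Agent.R216.Prof

noncomputable section

/-- Polynomials with `(expNegInvGlue)^(k) (x) = P_k(1/x) expNegInvGlue x`. -/
def eP : ℕ → ℝ[X]
  | 0 => 1
  | k + 1 => X ^ 2 * (eP k - derivative (R := ℝ) (eP k))

theorem iteratedDeriv_glue (k : ℕ) :
    iteratedDeriv k expNegInvGlue = fun x => (eP k).eval x⁻¹ * expNegInvGlue x := by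
  induction k with
  | zero => ext x; simp [eP]
  | succ k ih =>
    rw [iteratedDeriv_succ, ih]
    ext x
    rw [(expNegInvGlue.hasDerivAt_polynomial_eval_inv_mul (eP k) x).deriv]
    rfl

theorem natDegree_eP (k : ℕ) : (eP k).natDegree ≤ 2 * k := by
  induction k with
  | zero => simp [eP]
  | succ k ih =>
    have h1 : (eP k - derivative (R := ℝ) (eP k)).natDegree ≤ 2 * k := by
      refine (natDegree_sub_le _ _).trans (max_le ih ?_)
      exact (natDegree_derivative_le _).trans (by omega)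
    calc (eP (k + 1)).natDegree ≤ (X ^ 2 : ℝ[X]).natDegree
          + (eP k - derivative (R := ℝ) (eP k)).natDegree := natDegree_mul_le
      _ ≤ 2 + 2 * k := by rw [natDegree_X_pow]; omega
      _ = 2 * (k + 1) := by ring

theorem abs_eval_le (p : ℝ[X]) (n : ℕ) (hn : p.natDegree ≤ n) :
    ∃ C : ℝ, 0 ≤ C ∧ ∀ M z : ℝ, 1 ≤ M → |z| ≤ M → |p.eval z| ≤ C * M ^ n := by
  refine ⟨∑ i ∈ Finset.range (n + 1), |p.coeff i|, Finset.sum_nonneg fun i _ => abs_nonneg _, ?_⟩
  intro M z hM hz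
  rw [eval_eq_sum_range' (show p.natDegree < n + 1 by omega), Finset.sum_mul]
  refine (Finset.abs_sum_le_sum_abs _ _).trans (Finset.sum_le_sum fun i hi => ?_)
  rw [abs_mul, abs_pow]
  have hi' : i ≤ n := by simpa [Nat.lt_succ_iff] using hi
  refine mul_le_mul_of_nonneg_left ?_ (abs_nonneg _)
  calc |z| ^ i ≤ M ^ i := pow_le_pow_left₀ (abs_nonneg _) hz i
    _ ≤ M ^ n := pow_le_pow_right₀ hM hi'

/-- Logarithmic-derivative bounds of `exp(-1/x)` on `x ≥ 1/M`. -/
theorem glue_bound (k : ℕ) : ∃ C : ℝ, 0 ≤ C ∧ ∀ M x : ℝ, 1 ≤ M → M⁻¹ ≤ x →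
    |iteratedDeriv k expNegInvGlue x| ≤ C * M ^ (2 * k) * expNegInvGlue x := by
  obtain ⟨C, hC, h⟩ := abs_eval_le (eP k) (2 * k) (natDegree_eP k)
  refine ⟨C, hC, fun M x hM hx => ?_⟩
  have hM0 : 0 < M := by linarith
  have hx0 : 0 < x := lt_of_lt_of_le (inv_pos.2 hM0) hx
  rw [iteratedDeriv_glue]
  simp only [abs_mul, abs_of_nonneg (expNegInvGlue.nonneg x)]
  refine mul_le_mul_of_nonneg_right (h M _ hM ?_) (expNegInvGlue.nonneg x)
  rw [abs_of_nonneg (inv_nonneg.2 hx0.le)]
  exact inv_le_of_inv_le₀ hM0 hx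

theorem glue_eq {x : ℝ} (hx : 0 < x) : expNegInvGlue x = Real.exp (-x⁻¹) := by
  simp [expNegInvGlue, not_le.2 hx]

theorem glue_le_one (x : ℝ) : expNegInvGlue x ≤ 1 := by
  rcases le_or_gt x 0 with h | h
  · rw [expNegInvGlue.zero_of_nonpos h]; exact zero_le_one
  · rw [glue_eq h]; exact Real.exp_le_one_iff.2 (by simpa using inv_nonneg.2 h.le)

theorem pow_mul_exp_bound (n : ℕ) : ∃ C : ℝ, 0 ≤ C ∧ ∀ z : ℝ, 0 ≤ z →
    (1 + z) ^ n * Real.exp (-z) ≤ C * Real.exp (-z / 2) := by
  refine ⟨n.factorial * 2 ^ n * Real.exp (1 / 2), by positivity, fun z hz => ?_⟩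
  have h1 : (1 + z) ^ n ≤ n.factorial * 2 ^ n * Real.exp ((1 + z) / 2) := by
    have h2 := Real.pow_div_factorial_le_exp ((1 + z) / 2) (by positivity) n
    rw [div_le_iff₀ (by positivity), div_pow, div_le_iff₀ (by positivity)] at h2
    calc (1 + z) ^ n ≤ Real.exp ((1 + z) / 2) * ↑n.factorial * 2 ^ n := h2
      _ = _ := by ring
  calc (1 + z) ^ n * Real.exp (-z)
      ≤ (n.factorial * 2 ^ n * Real.exp ((1 + z) / 2)) * Real.exp (-z) :=
        mul_le_mul_of_nonneg_right h1 (Real.exp_pos _).le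
    _ = n.factorial * 2 ^ n * Real.exp (1 / 2) * Real.exp (-z / 2) := by
        rw [mul_assoc, mul_assoc _ (Real.exp (1 / 2)), ← Real.exp_add, ← Real.exp_add]
        congr 2; ring

/-- Global bounds of the derivatives of `exp(-1/x)` with an exponentially small loss. -/
theorem glue_bound' (k : ℕ) : ∃ C : ℝ, 0 ≤ C ∧ ∀ L x : ℝ, 1 ≤ L →
    |iteratedDeriv k expNegInvGlue x| ≤ C * L ^ (2 * k) * (expNegInvGlue x + Real.exp (-L)) := by
  obtain ⟨C, hC, h⟩ := abs_eval_le (eP k) (2 * k) (natDegree_eP k)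
  obtain ⟨C', hC', h'⟩ := pow_mul_exp_bound (2 * k)
  refine ⟨C * (2 ^ (2 * k)) + C * C', by positivity, fun L x hL => ?_⟩
  have hL0 : 0 < L := by linarith
  have hL1 : (1 : ℝ) ≤ L ^ (2 * k) := one_le_pow₀ hL
  have he := expNegInvGlue.nonneg x
  have hx1 := (Real.exp_pos (-L)).le
  rw [iteratedDeriv_glue]
  simp only
  rcases le_or_gt x 0 with hx | hx
  · rw [expNegInvGlue.zero_of_nonpos hx]
    simp only [mul_zero, abs_zero, zero_add]
    positivity
  have hz : 0 < x⁻¹ := inv_pos.2 hx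
  rw [abs_mul, abs_of_nonneg he]
  rcases le_or_gt x⁻¹ (2 * L) with hz2 | hz2
  · have h1 := h (2 * L) x⁻¹ (by linarith) (by rwa [abs_of_pos hz])
    calc |(eP k).eval x⁻¹| * expNegInvGlue x ≤ C * (2 * L) ^ (2 * k) * expNegInvGlue x :=
          mul_le_mul_of_nonneg_right h1 he
      _ = C * 2 ^ (2 * k) * L ^ (2 * k) * expNegInvGlue x := by rw [mul_pow]; ring
      _ ≤ (C * (2 ^ (2 * k)) + C * C') * L ^ (2 * k) * (expNegInvGlue x + Real.exp (-L)) := by
          have : 0 ≤ C * C' * L ^ (2 * k) := by positivity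
          have h3 : 0 ≤ C * 2 ^ (2 * k) * L ^ (2 * k) := by positivity
          nlinarith [mul_nonneg this he, mul_nonneg this hx1, mul_nonneg h3 hx1]
  · have h1 := h (1 + x⁻¹) x⁻¹ (by linarith) (by rw [abs_of_pos hz]; linarith)
    have h2 := h' x⁻¹ hz.le
    calc |(eP k).eval x⁻¹| * expNegInvGlue x ≤ C * (1 + x⁻¹) ^ (2 * k) * expNegInvGlue x :=
          mul_le_mul_of_nonneg_right h1 he
      _ = C * ((1 + x⁻¹) ^ (2 * k) * Real.exp (-x⁻¹)) := by rw [glue_eq hx]; ring
      _ ≤ C * (C' * Real.exp (-x⁻¹ / 2)) := mul_le_mul_of_nonneg_left h2 hC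
      _ ≤ C * (C' * Real.exp (-L)) := by
          refine mul_le_mul_of_nonneg_left (mul_le_mul_of_nonneg_left ?_ hC') hC
          exact Real.exp_le_exp.2 (by linarith)
      _ ≤ (C * (2 ^ (2 * k)) + C * C') * L ^ (2 * k) * (expNegInvGlue x + Real.exp (-L)) := by
          have h3 : 0 ≤ C * C' * Real.exp (-L) := by positivity
          have h4 : 0 ≤ C * 2 ^ (2 * k) * L ^ (2 * k) * (expNegInvGlue x + Real.exp (-L)) := by
            positivity
          have h5 : 0 ≤ C * C' * L ^ (2 * k) * expNegInvGlue x := by positivity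
          nlinarith [mul_le_mul_of_nonneg_left hL1 h3]

/-- Leibniz bound in one variable. -/
theorem abs_iteratedDeriv_mul_le {f g : ℝ → ℝ} (hf : ContDiff ℝ ∞ f) (hg : ContDiff ℝ ∞ g)
    (k : ℕ) (x : ℝ) :
    |iteratedDeriv k (fun y => f y * g y) x| ≤
      ∑ i ∈ Finset.range (k + 1), (k.choose i : ℝ) * |iteratedDeriv i f x| *
        |iteratedDeriv (k - i) g x| := by
  have h := norm_iteratedFDeriv_mul_le (𝕜 := ℝ) hf hg x (n := k) (by exact_mod_cast le_top)
  simpa only [norm_iteratedFDeriv_eq_norm_iteratedDeriv, Real.norm_eq_abs] using h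

theorem exists_bound_Icc {f : ℝ → ℝ} (hf : ContDiff ℝ ∞ f) (k : ℕ) (a b : ℝ) :
    ∃ C : ℝ, 0 ≤ C ∧ ∀ x ∈ Set.Icc a b, |iteratedDeriv k f x| ≤ C := by
  have hc : Continuous (iteratedDeriv k f) := hf.continuous_iteratedDeriv k (by exact_mod_cast le_top)
  obtain ⟨C, hC⟩ := (isCompact_Icc (a := a) (b := b)).exists_bound_of_continuousOn hc.continuousOn
  exact ⟨max C 0, le_max_right _ _, fun x hx => (hC x hx).trans (le_max_left _ _)⟩

/-- Products `e · R` with `R` smooth and positive on `[0,1]`. -/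
theorem glue_mul_bound {R : ℝ → ℝ} (hR : ContDiff ℝ ∞ R) (hpos : ∀ x ∈ Set.Icc (0:ℝ) 1, 0 < R x)
    (k : ℕ) : ∃ C : ℝ, 0 ≤ C ∧ ∀ M x : ℝ, 1 ≤ M → M⁻¹ ≤ x → x ≤ 1 →
      |iteratedDeriv k (fun y => expNegInvGlue y * R y) x| ≤
        C * M ^ (2 * k) * (expNegInvGlue x * R x) := by
  obtain ⟨x0, hx0, hmin⟩ := (isCompact_Icc (a := (0:ℝ)) (b := 1)).exists_isMinOn
    (Set.nonempty_Icc.2 zero_le_one) hR.continuous.continuousOn
  have hc0 := hpos x0 hx0
  choose C hC0 hC using glue_bound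
  choose D hD0 hD using fun j => exists_bound_Icc hR j 0 1
  refine ⟨(∑ i ∈ Finset.range (k + 1), (k.choose i : ℝ) * C i * D (k - i)) / R x0, by
    have : 0 ≤ ∑ i ∈ Finset.range (k + 1), (k.choose i : ℝ) * C i * D (k - i) :=
      Finset.sum_nonneg fun i _ => mul_nonneg (mul_nonneg (Nat.cast_nonneg _) (hC0 i)) (hD0 _)
    positivity, fun M x hM hx hx1 => ?_⟩
  have hM0 : 0 < M := by linarith
  have hx0' : 0 ≤ x := (inv_pos.2 hM0).le.trans hx
  have hxI : x ∈ Set.Icc (0:ℝ) 1 := ⟨hx0', hx1⟩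
  have he := expNegInvGlue.nonneg x
  have hRx : R x0 ≤ R x := hmin hxI
  refine (abs_iteratedDeriv_mul_le expNegInvGlue.contDiff hR k x).trans ?_
  have h1 : ∑ i ∈ Finset.range (k + 1), (k.choose i : ℝ) * |iteratedDeriv i expNegInvGlue x| *
        |iteratedDeriv (k - i) R x| ≤
      ∑ i ∈ Finset.range (k + 1), ((k.choose i : ℝ) * C i * D (k - i)) *
        (M ^ (2 * k) * expNegInvGlue x) := by
    refine Finset.sum_le_sum fun i hi => ?_
    have hik : i ≤ k := by simpa [Nat.lt_succ_iff] using hi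
    have h2 := hC i M x hM hx
    have h3 := hD (k - i) x hxI
    have h4 : M ^ (2 * i) ≤ M ^ (2 * k) := pow_le_pow_right₀ hM (by omega)
    have h5 : |iteratedDeriv i expNegInvGlue x| ≤ C i * (M ^ (2 * k) * expNegInvGlue x) := by
      refine h2.trans ?_
      rw [mul_assoc]
      exact mul_le_mul_of_nonneg_left (mul_le_mul_of_nonneg_right h4 he) (hC0 i)
    calc (k.choose i : ℝ) * |iteratedDeriv i expNegInvGlue x| * |iteratedDeriv (k - i) R x|
        ≤ (k.choose i : ℝ) * (C i * (M ^ (2 * k) * expNegInvGlue x)) * D (k - i) := by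
          refine mul_le_mul (mul_le_mul_of_nonneg_left h5 (Nat.cast_nonneg _)) h3
            (abs_nonneg _) ?_
          exact mul_nonneg (Nat.cast_nonneg _) (mul_nonneg (hC0 i) (by positivity))
      _ = _ := by ring
  refine h1.trans ?_
  rw [← Finset.sum_mul, div_mul_eq_mul_div, div_mul_eq_mul_div, le_div_iff₀ hc0]
  have hS : 0 ≤ ∑ i ∈ Finset.range (k + 1), (k.choose i : ℝ) * C i * D (k - i) :=
      Finset.sum_nonneg fun i _ => mul_nonneg (mul_nonneg (Nat.cast_nonneg _) (hC0 i)) (hD0 _)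
  have h6 : 0 ≤ (∑ i ∈ Finset.range (k + 1), (k.choose i : ℝ) * C i * D (k - i)) *
      (M ^ (2 * k) * expNegInvGlue x) := by positivity
  calc _ ≤ (∑ i ∈ Finset.range (k + 1), (k.choose i : ℝ) * C i * D (k - i)) *
      (M ^ (2 * k) * expNegInvGlue x) * R x := mul_le_mul_of_nonneg_left hRx h6
    _ = _ := by ring

theorem glue_mul_bound' {R : ℝ → ℝ} (hR : ContDiff ℝ ∞ R) (hpos : ∀ x ∈ Set.Icc (0:ℝ) 1, 0 < R x)
    (k : ℕ) : ∃ C : ℝ, 0 ≤ C ∧ ∀ L x : ℝ, 1 ≤ L → 0 ≤ x → x ≤ 1 →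
      |iteratedDeriv k (fun y => expNegInvGlue y * R y) x| ≤
        C * L ^ (2 * k) * (expNegInvGlue x * R x + Real.exp (-L)) := by
  obtain ⟨x0, hx0, hmin⟩ := (isCompact_Icc (a := (0:ℝ)) (b := 1)).exists_isMinOn
    (Set.nonempty_Icc.2 zero_le_one) hR.continuous.continuousOn
  have hc0 := hpos x0 hx0
  choose C hC0 hC using glue_bound'
  choose D hD0 hD using fun j => exists_bound_Icc hR j 0 1
  have hS : 0 ≤ ∑ i ∈ Finset.range (k + 1), (k.choose i : ℝ) * C i * D (k - i) :=
      Finset.sum_nonneg fun i _ => mul_nonneg (mul_nonneg (Nat.cast_nonneg _) (hC0 i)) (hD0 _)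
  refine ⟨(∑ i ∈ Finset.range (k + 1), (k.choose i : ℝ) * C i * D (k - i)) *
    (1 + (R x0)⁻¹), by positivity, fun L x hM hx0' hx1 => ?_⟩
  have hL0 : 0 < L := by linarith
  have hxI : x ∈ Set.Icc (0:ℝ) 1 := ⟨hx0', hx1⟩
  have he := expNegInvGlue.nonneg x
  have hRx : R x0 ≤ R x := hmin hxI
  have hE := (Real.exp_pos (-L)).le
  refine (abs_iteratedDeriv_mul_le expNegInvGlue.contDiff hR k x).trans ?_
  have h1 : ∑ i ∈ Finset.range (k + 1), (k.choose i : ℝ) * |iteratedDeriv i expNegInvGlue x| *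
        |iteratedDeriv (k - i) R x| ≤
      ∑ i ∈ Finset.range (k + 1), ((k.choose i : ℝ) * C i * D (k - i)) *
        (L ^ (2 * k) * (expNegInvGlue x + Real.exp (-L))) := by
    refine Finset.sum_le_sum fun i hi => ?_
    have hik : i ≤ k := by simpa [Nat.lt_succ_iff] using hi
    have h2 := hC i L x hM
    have h3 := hD (k - i) x hxI
    have h4 : L ^ (2 * i) ≤ L ^ (2 * k) := pow_le_pow_right₀ hM (by omega)
    have h5 : |iteratedDeriv i expNegInvGlue x| ≤
        C i * (L ^ (2 * k) * (expNegInvGlue x + Real.exp (-L))) := by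
      refine h2.trans ?_
      rw [mul_assoc]
      exact mul_le_mul_of_nonneg_left (mul_le_mul_of_nonneg_right h4 (by positivity)) (hC0 i)
    calc (k.choose i : ℝ) * |iteratedDeriv i expNegInvGlue x| * |iteratedDeriv (k - i) R x|
        ≤ (k.choose i : ℝ) * (C i * (L ^ (2 * k) * (expNegInvGlue x + Real.exp (-L)))) *
            D (k - i) := by
          refine mul_le_mul (mul_le_mul_of_nonneg_left h5 (Nat.cast_nonneg _)) h3
            (abs_nonneg _) ?_
          exact mul_nonneg (Nat.cast_nonneg _) (mul_nonneg (hC0 i) (by positivity))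
      _ = _ := by ring
  refine h1.trans ?_
  rw [← Finset.sum_mul]
  have h7 : expNegInvGlue x + Real.exp (-L) ≤
      (1 + (R x0)⁻¹) * (expNegInvGlue x * R x + Real.exp (-L)) := by
    have h8 : expNegInvGlue x ≤ (R x0)⁻¹ * (expNegInvGlue x * R x) := by
      rw [← div_eq_inv_mul, le_div_iff₀ hc0]
      exact mul_le_mul_of_nonneg_left hRx he
    have h9 : 0 ≤ expNegInvGlue x * R x := mul_nonneg he (hc0.le.trans hRx)
    have h10 : 0 ≤ (R x0)⁻¹ * Real.exp (-L) := by positivity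
    nlinarith
  calc _ ≤ (∑ i ∈ Finset.range (k + 1), (k.choose i : ℝ) * C i * D (k - i)) *
      (L ^ (2 * k) * ((1 + (R x0)⁻¹) * (expNegInvGlue x * R x + Real.exp (-L)))) := by
        refine mul_le_mul_of_nonneg_left (mul_le_mul_of_nonneg_left h7 (by positivity)) hS
    _ = _ := by ring

/-- `ρ = 1/(e(x)+e(1-x))`. -/
def rho (x : ℝ) : ℝ := (expNegInvGlue x + expNegInvGlue (1 - x))⁻¹

theorem rho_pos (x : ℝ) : 0 < rho x := inv_pos.2 (Real.smoothTransition.pos_denom x)

theorem contDiff_rho : ContDiff ℝ ∞ rho := by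
  unfold rho
  refine ContDiff.inv ?_ fun x => (Real.smoothTransition.pos_denom x).ne'
  exact expNegInvGlue.contDiff.add (expNegInvGlue.contDiff.comp (contDiff_const.sub contDiff_id))

theorem st_eq (x : ℝ) : smoothTransition x = expNegInvGlue x * rho x := by
  rw [smoothTransition, rho, div_eq_mul_inv]

theorem st_symm (x : ℝ) : smoothTransition (1 - x) = 1 - smoothTransition x := by
  have h := (Real.smoothTransition.pos_denom x).ne'
  rw [smoothTransition, smoothTransition, sub_sub_cancel, eq_sub_iff_add_eq, add_comm (expNegInvGlue (1-x)),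
    ← add_div, add_comm (expNegInvGlue (1 - x)), div_self h]

theorem iteratedDeriv_eq_zero_of_one_lt {f : ℝ → ℝ} {c : ℝ} (hf : ∀ x, 1 ≤ x → f x = c)
    {k : ℕ} (hk : 0 < k) {x : ℝ} (hx : 1 < x) : iteratedDeriv k f x = 0 := by
  have h : f =ᶠ[nhds x] fun _ => c := by
    filter_upwards [lt_mem_nhds hx] with y hy using hf y hy.le
  rw [h.iteratedDeriv_eq k, iteratedDeriv_const, if_neg hk.ne']

theorem iteratedDeriv_eq_zero_of_neg {f : ℝ → ℝ} (hf : ∀ x, x ≤ 0 → f x = 0)
    (k : ℕ) {x : ℝ} (hx : x < 0) : iteratedDeriv k f x = 0 := by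
  have h : f =ᶠ[nhds x] fun _ => 0 := by
    filter_upwards [gt_mem_nhds hx] with y hy using hf y hy.le
  rw [h.iteratedDeriv_eq k, iteratedDeriv_const]
  simp

/-- Logarithmic-derivative bounds of the smooth transition on `s ≥ 1/K`. -/
theorem st_bound (k : ℕ) : ∃ C : ℝ, 0 ≤ C ∧ ∀ K s : ℝ, 1 ≤ K → K⁻¹ ≤ s →
    |iteratedDeriv k smoothTransition s| ≤ C * K ^ (2 * k) * smoothTransition s := by
  obtain ⟨C, hC, h⟩ := glue_mul_bound contDiff_rho (fun x _ => rho_pos x) k
  refine ⟨C + 1, by positivity, fun K s hK hs => ?_⟩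
  have hst := smoothTransition.nonneg s
  have hK1 : (1:ℝ) ≤ K ^ (2 * k) := one_le_pow₀ hK
  have hK0 : 0 < K := by linarith
  rcases le_or_gt s 1 with h1 | h1
  · have h2 := h K s hK hs h1
    have h3 : smoothTransition = fun y => expNegInvGlue y * rho y := funext st_eq
    rw [← h3, ← st_eq] at h2
    refine h2.trans ?_
    refine mul_le_mul_of_nonneg_right (mul_le_mul_of_nonneg_right (by linarith) (by positivity)) hst
  · rcases Nat.eq_zero_or_pos k with rfl | hk
    · simp only [iteratedDeriv_zero, mul_zero, pow_zero, mul_one, abs_of_nonneg hst]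
      nlinarith
    · rw [iteratedDeriv_eq_zero_of_one_lt (fun x hx => smoothTransition.one_of_one_le hx) hk h1,
        abs_zero]
      positivity

/-- The complementary profile `g = 1 - (1 - st)^2`. -/
def gst (x : ℝ) : ℝ := smoothTransition x * (2 - smoothTransition x)

theorem gst_eq (x : ℝ) : gst x = expNegInvGlue x * (rho x * (2 - smoothTransition x)) := by
  rw [gst]; nth_rewrite 1 [st_eq]; ring

theorem gst_eq' (x : ℝ) : gst (1 - x) = 1 - smoothTransition x ^ 2 := by
  rw [gst, st_symm]; ring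

theorem gst_nonneg (x : ℝ) : 0 ≤ gst x :=
  mul_nonneg (smoothTransition.nonneg x) (by linarith [smoothTransition.le_one x])

theorem gst_le_one (x : ℝ) : gst x ≤ 1 := by
  unfold gst; nlinarith [sq_nonneg (1 - smoothTransition x)]

theorem contDiff_gst : ContDiff ℝ ∞ gst :=
  smoothTransition.contDiff.mul (contDiff_const.sub smoothTransition.contDiff)

/-- Global bounds of the derivatives of `g` with exponentially small loss. -/
theorem gst_bound (k : ℕ) : ∃ C : ℝ, 0 ≤ C ∧ ∀ L x : ℝ, 1 ≤ L →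
    |iteratedDeriv k gst x| ≤ C * L ^ (2 * k) * (gst x + Real.exp (-L)) := by
  obtain ⟨C, hC, h⟩ := glue_mul_bound' (R := fun x => rho x * (2 - smoothTransition x))
    (contDiff_rho.mul (contDiff_const.sub smoothTransition.contDiff))
    (fun x _ => mul_pos (rho_pos x) (by linarith [smoothTransition.le_one x])) k
  refine ⟨C + 1, by positivity, fun L x hL => ?_⟩
  have hg := gst_nonneg x
  have hL1 : (1:ℝ) ≤ L ^ (2 * k) := one_le_pow₀ hL
  have hL0 : 0 < L := by linarith
  have hE := (Real.exp_pos (-L)).le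
  rcases lt_or_ge x 0 with h0 | h0
  · rw [iteratedDeriv_eq_zero_of_neg (fun y hy => by
      rw [gst, smoothTransition.zero_of_nonpos hy, zero_mul]) k h0, abs_zero]
    positivity
  rcases le_or_gt x 1 with h1 | h1
  · have h2 := h L x hL h0 h1
    have h3 : gst = fun y => expNegInvGlue y * (rho y * (2 - smoothTransition y)) := funext gst_eq
    rw [← h3, ← gst_eq] at h2
    refine h2.trans ?_
    refine mul_le_mul_of_nonneg_right (mul_le_mul_of_nonneg_right (by linarith) (by positivity))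
      (by positivity)
  · rcases Nat.eq_zero_or_pos k with rfl | hk
    · simp only [iteratedDeriv_zero, mul_zero, pow_zero, mul_one, abs_of_nonneg hg]
      nlinarith [mul_nonneg hC hg, mul_nonneg hC hE]
    · rw [iteratedDeriv_eq_zero_of_one_lt (c := 1) (fun y hy => by
        rw [gst, smoothTransition.one_of_one_le hy]; norm_num) hk h1, abs_zero]
      positivity

end

end Crest.Agent.R216.Prof
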