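import Mathlib

/-!
Row 216, module SMOOTH: averaging operators at scale `t` on a finite dimensional space.
-/

set_option autoImplicit false

open scoped ContDiff Convolution
open MeasureTheory Set Metric

namespace Crest.Agent.R216.Smooth

variable {V : Type*} [NormedAddCommGroup V] [NormedSpace ℝ V] [FiniteDimensional ℝ V]
  [MeasureSpace V] [BorelSpace V] [(volume : Measure V).IsAddHaarMeasure]
variable {F : Type*} [NormedAddCommGroup F] [NormedSpace ℝ F]
variable {G : Type*} [NormedAddCommGroup G] [NormedSpace ℝ G]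

/-- A smooth kernel supported in the closed unit ball. -/
structure IsKer (k : V → ℝ) : Prop where
  smooth : ContDiff ℝ ∞ k
  supp : ∀ y, 1 < ‖y‖ → k y = 0

/-- Averaging with kernel `k` at scale `t`. -/
noncomputable def T (k : V → ℝ) (t : ℝ) (g : V → F) (x : V) : F := ∫ y, k y • g (x - t • y)

example : (volume : Measure V).IsNegInvariant := inferInstance

namespace IsKer
variable {k : V → ℝ} (hk : IsKer k)
include hk

omit [FiniteDimensional ℝ V] [MeasureSpace V] [BorelSpace V]
  [(volume : Measure V).IsAddHaarMeasure] in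
theorem cont : Continuous k := hk.smooth.continuous

omit [MeasureSpace V] [BorelSpace V] [(volume : Measure V).IsAddHaarMeasure] in
theorem compact : HasCompactSupport k := by
  apply HasCompactSupport.intro (isCompact_closedBall (0 : V) 1)
  intro x hx
  apply hk.supp
  simpa using hx

theorem integrable : Integrable k := hk.cont.integrable_of_hasCompactSupport hk.compact

omit [MeasureSpace V] [BorelSpace V] [(volume : Measure V).IsAddHaarMeasure]
  [FiniteDimensional ℝ V] in
theorem fderiv_apply (v : V) : IsKer (fun y => fderiv ℝ k y v) := by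
  refine ⟨?_, ?_⟩
  · have h1 : ContDiff ℝ ∞ (fderiv ℝ k) := hk.smooth.fderiv_right (m := ∞) (by simp)
    exact h1.clm_apply contDiff_const
  · intro y hy
    have h2 : ∀ᶠ z in nhds y, k z = 0 := by
      have : {z : V | 1 < ‖z‖} ∈ nhds y := (isOpen_lt continuous_const continuous_norm).mem_nhds hy
      filter_upwards [this] with z hz using hk.supp z hz
    have h3 : fderiv ℝ k y = 0 := by
      have : k =ᶠ[nhds y] fun _ => (0 : ℝ) := h2
      rw [this.fderiv_eq]; simp
    simp [h3]

end IsKer

/-! ### basic properties -/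

section basic
variable {k : V → ℝ} (hk : IsKer k)
include hk

theorem integrable_T {g : V → F} (hg : Continuous g) (t : ℝ) (x : V) :
    Integrable (fun y => k y • g (x - t • y)) := by
  apply Continuous.integrable_of_hasCompactSupport
  · exact hk.cont.smul (hg.comp (by fun_prop))
  · exact hk.compact.smul_right

theorem T_clm {g : V → F} (hg : Continuous g) (t : ℝ) (L : F →L[ℝ] G) [CompleteSpace F]
    [CompleteSpace G] (x : V) :
    T k t (fun z => L (g z)) x = L (T k t g x) := by
  unfold T
  rw [← L.integral_comp_comm (integrable_T hk hg t x)]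
  simp

theorem T_add {g h : V → F} (hg : Continuous g) (hh : Continuous h) (t : ℝ) (x : V) :
    T k t (fun z => g z + h z) x = T k t g x + T k t h x := by
  unfold T
  rw [← integral_add (integrable_T hk hg t x) (integrable_T hk hh t x)]
  simp [smul_add]

theorem T_sub {g h : V → F} (hg : Continuous g) (hh : Continuous h) (t : ℝ) (x : V) :
    T k t (fun z => g z - h z) x = T k t g x - T k t h x := by
  unfold T
  rw [← integral_sub (integrable_T hk hg t x) (integrable_T hk hh t x)]
  simp [smul_sub]

omit hk [FiniteDimensional ℝ V] [BorelSpace V] [(volume : Measure V).IsAddHaarMeasure] in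
theorem T_const_smul {g : V → F} (c : ℝ) (t : ℝ) (x : V) :
    T k t (fun z => c • g z) x = c • T k t g x := by
  unfold T
  rw [← integral_smul]
  simp [smul_smul, mul_comm]

/-- sup bound. -/
theorem norm_T_le {g : V → F} {t : ℝ} (ht : 0 ≤ t) {x : V} {M : ℝ}
    (hM : ∀ z ∈ closedBall x t, ‖g z‖ ≤ M) : ‖T k t g x‖ ≤ (∫ y, ‖k y‖) * M := by
  unfold T
  rw [← integral_mul_const]
  apply norm_integral_le_of_norm_le (hk.integrable.norm.mul_const M)
  refine Filter.Eventually.of_forall fun y => ?_
  rw [norm_smul]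
  by_cases hy : 1 < ‖y‖
  · simp [hk.supp y hy]
  · apply mul_le_mul_of_nonneg_left _ (norm_nonneg _)
    apply hM
    simp only [mem_closedBall, dist_eq_norm]
    have : x - t • y - x = -(t • y) := by abel
    rw [this, norm_neg, norm_smul, Real.norm_of_nonneg ht]
    push Not at hy
    nlinarith

omit hk [FiniteDimensional ℝ V] [BorelSpace V] [(volume : Measure V).IsAddHaarMeasure] in
theorem T_scale {g : V → F} {t : ℝ} (ht : t ≠ 0) (x : V) :
    T k t g x = T k 1 (fun z => g (t • z)) (t⁻¹ • x) := by
  unfold T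
  congr 1
  ext y
  have : t • (t⁻¹ • x - (1 : ℝ) • y) = x - t • y := by
    rw [smul_sub, smul_smul, mul_inv_cancel₀ ht, one_smul, one_smul]
  simp only [this]

omit hk [FiniteDimensional ℝ V] [BorelSpace V] [(volume : Measure V).IsAddHaarMeasure] in
theorem T_one {g : V → F} : T k 1 g = (k ⋆[ContinuousLinearMap.lsmul ℝ ℝ, volume] g) := by
  ext x
  simp [T, convolution]

theorem contDiff_T_one [CompleteSpace F] {g : V → F} (hg : Continuous g) :
    ContDiff ℝ ∞ (T k 1 g) := by
  rw [T_one]
  exact hk.compact.contDiff_convolution_left _ hk.smooth hg.locallyIntegrable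

theorem contDiff_T [CompleteSpace F] {g : V → F} (hg : Continuous g) {t : ℝ} (ht : t ≠ 0) :
    ContDiff ℝ ∞ (T k t g) := by
  have : T k t g = fun x => T k 1 (fun z => g (t • z)) (t⁻¹ • x) := by
    ext x; exact T_scale ht x
  rw [this]
  exact (contDiff_T_one hk (hg.comp (by fun_prop))).comp (by fun_prop)

/-- derivative falls on `g`. -/
theorem hasFDerivAt_T [CompleteSpace F] {g : V → F} (hg : ContDiff ℝ 1 g) (t : ℝ) (x : V) :
    HasFDerivAt (T k t g) (T k t (fderiv ℝ g) x) x := by
  have hgc : Continuous (fderiv ℝ g) := hg.continuous_fderiv (by simp)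
  obtain ⟨C, hC⟩ := (isCompact_closedBall x (1 + |t|)).exists_bound_of_continuousOn hgc.continuousOn
  unfold T
  refine hasFDerivAt_integral_of_dominated_of_fderiv_le (bound := fun y => ‖k y‖ * C)
    (F' := fun z y => k y • fderiv ℝ g (z - t • y)) (ball_mem_nhds x one_pos) ?_ ?_ ?_ ?_ ?_ ?_
  · refine Filter.Eventually.of_forall fun z => ?_
    exact (integrable_T hk hg.continuous t z).aestronglyMeasurable
  · exact integrable_T hk hg.continuous t x
  · exact (integrable_T hk hgc t x).aestronglyMeasurable
  · refine Filter.Eventually.of_forall fun y z hz => ?_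
    rw [norm_smul]
    by_cases hy : 1 < ‖y‖
    · simp [hk.supp y hy]
    · apply mul_le_mul_of_nonneg_left _ (norm_nonneg _)
      apply hC
      push Not at hy
      simp only [mem_closedBall, dist_eq_norm]
      have h1 : z - t • y - x = (z - x) - t • y := by abel
      have h2 : ‖z - x‖ < 1 := by simpa [dist_eq_norm] using hz
      calc ‖z - t • y - x‖ = ‖(z - x) - t • y‖ := by rw [h1]
        _ ≤ ‖z - x‖ + ‖t • y‖ := norm_sub_le _ _
        _ ≤ 1 + |t| := by
          rw [norm_smul, Real.norm_eq_abs]
          nlinarith [abs_nonneg t, norm_nonneg y]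
  · exact hk.integrable.norm.mul_const C
  · refine Filter.Eventually.of_forall fun y z _ => ?_
    have h1 : HasFDerivAt g (fderiv ℝ g (z - t • y)) (z - t • y) :=
      (hg.differentiable (by simp) _).hasFDerivAt
    have h2 : HasFDerivAt (fun z : V => z - t • y) (ContinuousLinearMap.id ℝ V) z :=
      (hasFDerivAt_id z).sub_const _
    have h3 := h1.comp z h2
    simp only [ContinuousLinearMap.comp_id] at h3
    exact h3.const_smul (k y)

theorem fderiv_T [CompleteSpace F] {g : V → F} (hg : ContDiff ℝ 1 g) (t : ℝ) (x : V) :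
    fderiv ℝ (T k t g) x = T k t (fderiv ℝ g) x := (hasFDerivAt_T hk hg t x).fderiv

end basic

/-! ### derivative bounds, derivative falls on the kernel -/

section kernel

/-- a fixed basis -/
noncomputable def bas (V : Type*) [NormedAddCommGroup V] [NormedSpace ℝ V] [FiniteDimensional ℝ V] :
    Module.Basis (Fin (Module.finrank ℝ V)) ℝ V := Module.finBasis ℝ V

/-- coordinate functional -/
noncomputable def co (i : Fin (Module.finrank ℝ V)) : V →L[ℝ] ℝ :=
  LinearMap.toContinuousLinearMap ((bas V).coord i)

omit [MeasureSpace V] [BorelSpace V] [(volume : Measure V).IsAddHaarMeasure] in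
theorem sum_co (v : V) : ∑ i, co i v • bas V i = v := by
  simp [co]

variable {k : V → ℝ} (hk : IsKer k)

/-- directional derivative of the kernel in the `i`-th basis direction -/
noncomputable def dk (k : V → ℝ) (i : Fin (Module.finrank ℝ V)) : V → ℝ :=
  fun y => fderiv ℝ k y (bas V i)

omit [MeasureSpace V] [BorelSpace V] [(volume : Measure V).IsAddHaarMeasure] in
include hk in
theorem isKer_dk (i : Fin (Module.finrank ℝ V)) : IsKer (dk k i) := hk.fderiv_apply _

/-- The constants. -/
noncomputable def cst : ℕ → (V → ℝ) → ℝ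
  | 0, k => ∫ y, ‖k y‖
  | (j+1), k => ∑ i, ‖(co i : V →L[ℝ] ℝ)‖ * cst j (dk k i)

omit [BorelSpace V] [(volume : Measure V).IsAddHaarMeasure] in
theorem cst_nonneg (j : ℕ) (k : V → ℝ) : 0 ≤ cst j k := by
  induction j generalizing k with
  | zero => exact integral_nonneg fun _ => norm_nonneg _
  | succ j ih => exact Finset.sum_nonneg fun i _ => mul_nonneg (norm_nonneg _) (ih _)

include hk in
theorem fderiv_T_one_apply [CompleteSpace F] {g : V → F} (hg : Continuous g) (x v : V) :
    fderiv ℝ (T k 1 g) x v = T (fun y => fderiv ℝ k y v) 1 g x := by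
  have h1 : HasFDerivAt (T k 1 g)
      ((fderiv ℝ k ⋆[(ContinuousLinearMap.lsmul ℝ ℝ).precompL V, volume] g) x) x := by
    rw [T_one]
    exact hk.compact.hasFDerivAt_convolution_left _ (hk.smooth.of_le (by simp))
      hg.locallyIntegrable x
  rw [h1.fderiv]
  unfold convolution
  have hcont : Continuous (fderiv ℝ k) := hk.smooth.continuous_fderiv (by simp)
  have hsupp : HasCompactSupport (fderiv ℝ k) := hk.compact.fderiv ℝ
  rw [ContinuousLinearMap.integral_apply]
  · unfold T
    congr 1
    ext y
    simp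
  · apply Continuous.integrable_of_hasCompactSupport
    · have : Continuous (fun p : (V →L[ℝ] ℝ) × F =>
          ((ContinuousLinearMap.lsmul ℝ ℝ : ℝ →L[ℝ] F →L[ℝ] F).precompL V) p.1 p.2) :=
        ContinuousLinearMap.continuous₂ _
      exact this.comp (hcont.prodMk (hg.comp (by fun_prop)))
    · apply hsupp.mono'
      intro y hy
      apply subset_tsupport
      intro h0
      apply hy
      simp [h0]

include hk in
theorem fderiv_T_apply [CompleteSpace F] {g : V → F} (hg : Continuous g) {t : ℝ} (ht : t ≠ 0)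
    (x v : V) :
    fderiv ℝ (T k t g) x v = t⁻¹ • T (fun y => fderiv ℝ k y v) t g x := by
  have h0 : T k t g = fun x => T k 1 (fun z => g (t • z)) (t⁻¹ • x) := by
    ext x; exact T_scale ht x
  have hgt : Continuous fun z => g (t • z) := hg.comp (by fun_prop)
  have hd : DifferentiableAt ℝ (T k 1 (fun z => g (t • z))) (t⁻¹ • x) :=
    ((contDiff_T_one hk hgt).differentiable (by simp)) _
  rw [h0]
  have h1 : HasFDerivAt (fun x : V => t⁻¹ • x) (t⁻¹ • ContinuousLinearMap.id ℝ V) x :=
    (hasFDerivAt_id x).const_smul t⁻¹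
  have h2 := (hd.hasFDerivAt.comp x h1).fderiv
  simp only [Function.comp_def] at h2
  rw [h2]
  simp only [ContinuousLinearMap.comp_apply, _root_.smul_apply,
    ContinuousLinearMap.id_apply, map_smul]
  rw [fderiv_T_one_apply hk hgt, ← T_scale ht x]

include hk in
theorem fderiv_T_eq_sum [CompleteSpace F] {g : V → F} (hg : Continuous g) {t : ℝ} (ht : t ≠ 0)
    (x : V) :
    fderiv ℝ (T k t g) x = ∑ i, t⁻¹ • (co i).smulRight (T (dk k i) t g x) := by
  ext v
  conv_lhs => rw [← sum_co v]
  rw [map_sum]
  simp only [_root_.sum_apply, _root_.smul_apply,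
    ContinuousLinearMap.smulRight_apply, map_smul]
  refine Finset.sum_congr rfl fun i _ => ?_
  rw [fderiv_T_apply hk hg ht, smul_comm]
  rfl

include hk in
theorem norm_iteratedFDeriv_T_le [CompleteSpace F] {g : V → F} (hg : Continuous g) {t : ℝ}
    (ht : 0 < t) {x : V} {M : ℝ} (hM : ∀ z ∈ closedBall x t, ‖g z‖ ≤ M) (j : ℕ) :
    ‖iteratedFDeriv ℝ j (T k t g) x‖ ≤ cst j k * (t⁻¹) ^ j * M := by
  induction j generalizing k with
  | zero =>
    simp only [norm_iteratedFDeriv_zero, pow_zero, mul_one]
    exact norm_T_le hk ht.le hM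
  | succ j ih =>
    rw [← norm_iteratedFDeriv_fderiv]
    have h0 : fderiv ℝ (T k t g) = fun x => ∑ i, t⁻¹ • (co i).smulRight (T (dk k i) t g x) := by
      ext1 x; exact fderiv_T_eq_sum hk hg ht.ne' x
    rw [h0]
    have hM0 : 0 ≤ M := (norm_nonneg _).trans (hM x (mem_closedBall_self ht.le))
    have hsm : ∀ i, ContDiff ℝ ∞ (T (dk k i) t g) := fun i => contDiff_T (isKer_dk hk i) hg ht.ne'
    let Φ : Fin (Module.finrank ℝ V) → (F →L[ℝ] (V →L[ℝ] F)) := fun i =>
      t⁻¹ • ContinuousLinearMap.smulRightL ℝ V F (co i)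
    have h1 : (fun x => ∑ i, t⁻¹ • (co i).smulRight (T (dk k i) t g x)) =
        fun x => ∑ i, (Φ i ∘ (T (dk k i) t g)) x := by
      ext x v
      simp [Φ]
    rw [h1]
    have h2 : iteratedFDeriv ℝ j (fun x => ∑ i, (Φ i ∘ (T (dk k i) t g)) x) x =
        ∑ i, iteratedFDeriv ℝ j (Φ i ∘ (T (dk k i) t g)) x := by
      have := iteratedFDeriv_sum (𝕜 := ℝ) (i := j) (u := Finset.univ)
        (f := fun i => (Φ i ∘ (T (dk k i) t g)))
        (fun i _ => ((Φ i).contDiff.comp ((hsm i).of_le (by exact_mod_cast le_top))))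
      rw [this]
      simp
    rw [h2]
    calc ‖∑ i, iteratedFDeriv ℝ j (Φ i ∘ (T (dk k i) t g)) x‖
        ≤ ∑ i, ‖iteratedFDeriv ℝ j (Φ i ∘ (T (dk k i) t g)) x‖ := norm_sum_le _ _
      _ ≤ ∑ i, (t⁻¹ * ‖(co i : V →L[ℝ] ℝ)‖) * (cst j (dk k i) * (t⁻¹) ^ j * M) := by
        refine Finset.sum_le_sum fun i _ => ?_
        rw [ContinuousLinearMap.iteratedFDeriv_comp_left (Φ i)
          (((hsm i).of_le (by exact_mod_cast le_top)).contDiffAt) le_rfl]
        refine (ContinuousLinearMap.norm_compContinuousMultilinearMap_le _ _).trans ?_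
        apply mul_le_mul _ (ih (isKer_dk hk i)) (norm_nonneg _) (by positivity)
        simp only [Φ]
        rw [norm_smul, Real.norm_of_nonneg (by positivity : (0:ℝ) ≤ t⁻¹)]
        apply mul_le_mul_of_nonneg_left _ (by positivity)
        apply ContinuousLinearMap.opNorm_le_bound _ (norm_nonneg _)
        intro w
        simp [ContinuousLinearMap.norm_smulRight_apply]
      _ = cst (j+1) k * (t⁻¹) ^ (j+1) * M := by
        simp only [cst, Finset.sum_mul]
        refine Finset.sum_congr rfl fun i _ => ?_
        ring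

end kernel

end Crest.Agent.R216.Smooth
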