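import Crest.Agent.R216.StageA

/-!
# Row 216, Theorem E, module STAGE: the smoothed error tensor is in `B(a² η⁴⁸)`.
-/

set_option linter.unusedSectionVars false

open Set Topology MeasureTheory Metric
open scoped ContDiff

namespace Crest.Agent.R216.TE
namespace SPar
variable {P : SPar}

lemma exp_l (i : P.Idx) (n : ℕ) : Real.exp (-(n * i.l)) = (i.L ^ (n * (400 * P.k)))⁻¹ := by
  rw [Idx.l_eq, Real.exp_neg]
  congr 1
  rw [show (n:ℝ) * (((400 * P.k : ℕ) : ℝ) * Real.log i.L) =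
    ((n * (400 * P.k) : ℕ) : ℝ) * Real.log i.L by push_cast; ring]
  rw [← Real.log_pow, Real.exp_log (pow_pos (Idx.L_pos i) _)]

lemma exp_l' (i : P.Idx) (n : ℕ) :
    Real.exp (-(n * i.l')) = (i.L ^ (n * (400 * i.k' * 800)))⁻¹ := by
  rw [Idx.l'_eq, Real.exp_neg]
  congr 1
  rw [show (n:ℝ) * (((400 * i.k' * 800 : ℕ) : ℝ) * Real.log i.L) =
    ((n * (400 * i.k' * 800) : ℕ) : ℝ) * Real.log i.L by push_cast; ring]
  rw [← Real.log_pow, Real.exp_log (pow_pos (Idx.L_pos i) _)]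

/-- lower bound of the amplitude on a slightly larger set -/
lemma le_a' (P : SPar) : ∃ c, 0 < c ∧ ∀ i : P.Idx, ∀ x ∈ P.S.W, 1 ≤ 3 * i.l * P.S.u x →
    c * Real.exp (-(4 * i.l)) ≤ i.a x := by
  obtain ⟨c, hc, h⟩ := P.exists_β_low
  refine ⟨c / 2, by positivity, fun i x hx hu => ?_⟩
  unfold Idx.a amp
  have hl := Idx.l_pos i
  have hl' := Idx.l'_ge_l i
  have hu0 : 0 < P.S.u x := by
    by_contra hc
    have : i.l * P.S.u x ≤ 0 := mul_nonpos_of_nonneg_of_nonpos hl.le (not_lt.1 hc)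
    nlinarith
  have h1 : Real.smoothTransition (2 * i.l' * P.S.u x - 1) = 1 := by
    refine Real.smoothTransition.one_of_one_le ?_
    nlinarith [mul_le_mul_of_nonneg_right hl' hu0.le]
  have h2 : Real.exp (-(3 * i.l)) ≤ expNegInvGlue (P.S.u x) := by
    rw [Prof.glue_eq hu0]
    refine Real.exp_le_exp.2 (neg_le_neg ?_)
    rw [← one_div, div_le_iff₀ hu0]; linarith
  have h3 : Real.exp (-i.l) / 2 ≤ Real.sqrt (Prof.qq i.l i.l' (P.S.u x)) := by
    refine Real.le_sqrt_of_sq_le ?_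
    refine le_trans ?_ (Prof.qq_lower (Idx.adm i) (P.S.u x))
    rw [div_pow, ← Real.exp_nat_mul]
    have e : ((2:ℕ):ℝ) * -i.l = -(2 * i.l) := by push_cast; ring
    rw [e]
    have := Real.exp_pos (-(2 * i.l))
    linarith
  have h4 : Real.exp (-(4 * i.l)) / 2 ≤ Prof.alph i.l i.l' (P.S.u x) := by
    rw [Prof.alph, h1, one_mul]
    calc Real.exp (-(4 * i.l)) / 2 = Real.exp (-(3 * i.l)) * (Real.exp (-i.l) / 2) := by
          rw [show -(4 * i.l) = -(3 * i.l) + -i.l by ring, Real.exp_add]; ring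
      _ ≤ _ := mul_le_mul h2 h3 (by positivity) (expNegInvGlue.nonneg _)
  calc c / 2 * Real.exp (-(4 * i.l)) = (Real.exp (-(4 * i.l)) / 2) * c := by ring
    _ ≤ _ := mul_le_mul h4 (h x hx) hc.le (Prof.alph_nonneg _ _ _)

/-- largeness condition used for the supports -/
def Large1 (P : SPar) : Prop := ∀ i : P.Idx, ∀ x ∈ P.S.W, ∀ z ∈ closedBall x (P.K * (i.L ^ 2)⁻¹),
  1 ≤ 2 * i.l * P.S.u z → 1 ≤ 3 * i.l * P.S.u x

/-- the smoothed error tensor is in the class required by the engine -/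
lemma G_class (P : SPar) (hL : P.Large1) (R : P.Idx → X2 → ℝ) (hc : ∀ i, Continuous (R i))
    (hb : ∀ i x, |R i x| ≤ Real.exp (-(12 * i.l)))
    (h0 : ∀ i x, 2 * i.l * P.S.u x < 1 → R i x = 0) :
    P.efam.toFam.B (P.efam.W 2 48 0) (fun i : P.Idx => lift (Smooth.P P.K (i.L ^ 2)⁻¹ (R i))) := by
  obtain ⟨c, hcp, hlow⟩ := P.le_a'
  refine Fam.B_lift_of_iterated (𝓕 := P.efam.toFam)
    (fun i => Smooth.contDiff_P_top (Idx.t_pos i) P.K (hc i)) (fun j => ?_)
  have hcP := Smooth.cP_nonneg (V := X2) P.K j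
  refine ⟨(Smooth.cP X2 P.K j + 1) * (c ^ 2)⁻¹, by positivity, fun (i : P.Idx) x hx => ?_⟩
  have hLp := Idx.L_pos i
  have hL1 := Idx.L_one i
  have hxW := Idx.D_sub_W i hx
  have hap := Idx.a_pos i hx
  show _ ≤ _ * ((i.L ^ 2) ^ j * (P.efam.W 2 48 0 i x))
  have hW : P.efam.W 2 48 0 i x = i.a x ^ 2 * (i.L ^ 960)⁻¹ := by
    show i.a x ^ 2 * ((i.L ^ 20)⁻¹) ^ 48 * (i.L ^ 2) ^ 0 = _
    rw [pow_zero, mul_one, inv_pow, ← pow_mul]
  rw [hW]
  -- the bound of `R` on the ball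
  have key : ∀ z ∈ closedBall x (P.K * (i.L ^ 2)⁻¹),
      |R i z| ≤ (c ^ 2)⁻¹ * (i.a x ^ 2 * (i.L ^ 960)⁻¹) := by
    intro z hz
    rcases lt_or_ge (2 * i.l * P.S.u z) 1 with hu | hu
    · rw [h0 i z hu, abs_zero]; positivity
    · have h1 := hL i x hxW z hz hu
      have h2 := hlow i x hxW h1
      have h3 : c ^ 2 * Real.exp (-(8 * i.l)) ≤ i.a x ^ 2 := by
        have : (c * Real.exp (-(4 * i.l))) ^ 2 ≤ i.a x ^ 2 :=
          pow_le_pow_left₀ (by positivity) h2 2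
        rw [mul_pow, ← Real.exp_nat_mul] at this
        convert this using 3
        push_cast; ring
      have h4 : Real.exp (-(4 * i.l)) ≤ (i.L ^ 960)⁻¹ := by
        have := exp_l i 4
        push_cast at this
        rw [this]
        apply inv_anti₀ (pow_pos hLp _)
        apply pow_le_pow_right₀ hL1
        have := P.hk
        omega
      have h5 : Real.exp (-(12 * i.l)) = Real.exp (-(8 * i.l)) * Real.exp (-(4 * i.l)) := by
        rw [← Real.exp_add]; congr 1; ring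
      calc |R i z| ≤ Real.exp (-(12 * i.l)) := hb i z
        _ = Real.exp (-(8 * i.l)) * Real.exp (-(4 * i.l)) := h5
        _ ≤ ((c ^ 2)⁻¹ * i.a x ^ 2) * (i.L ^ 960)⁻¹ := by
            refine mul_le_mul ?_ h4 (Real.exp_pos _).le (by positivity)
            rw [← div_eq_inv_mul, le_div_iff₀ (by positivity), mul_comm]
            exact h3
        _ = _ := by ring
  have h0 := Smooth.norm_iteratedFDeriv_P_le (Idx.t_pos i) P.K 0 j
    (g := R i) (contDiff_zero.2 (hc i)) (x := x)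
    (M := (c ^ 2)⁻¹ * (i.a x ^ 2 * (i.L ^ 960)⁻¹)) (fun z hz => by
      rw [norm_iteratedFDeriv_zero, Real.norm_eq_abs]; exact key z hz)
  rw [zero_add] at h0
  refine h0.trans ?_
  rw [inv_inv]
  have : Smooth.cP X2 P.K j * (i.L ^ 2) ^ j * ((c ^ 2)⁻¹ * (i.a x ^ 2 * (i.L ^ 960)⁻¹)) ≤
      (Smooth.cP X2 P.K j + 1) * (i.L ^ 2) ^ j * ((c ^ 2)⁻¹ * (i.a x ^ 2 * (i.L ^ 960)⁻¹)) := by
    gcongr; linarith
  refine this.trans (le_of_eq ?_)
  ring

/-- `Large1` holds for large `T` -/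
lemma large1_of (P : SPar) : ∃ T0 : ℝ, ∀ i : P.Idx, T0 ≤ i.L → ∀ x ∈ P.S.W,
    ∀ z ∈ closedBall x (P.K * (i.L ^ 2)⁻¹), 1 ≤ 2 * i.l * P.S.u z → 1 ≤ 3 * i.l * P.S.u x := by
  -- Lipschitz bound of `u` on `N`
  obtain ⟨C, hC⟩ := P.S.hN.exists_bound_of_continuousOn
    ((P.S.h.hu.continuous_fderiv (by simp)).continuousOn)
  have hlog : Filter.Tendsto (fun L : ℝ => Real.log L / L) Filter.atTop (𝓝 0) := by
    have := Real.isLittleO_log_id_atTop.tendsto_div_nhds_zero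
    simpa using this
  set A : ℝ := 6 * (400 * P.k) * (|C| + 1) * P.K + 1 with hA
  have hA0 : 0 < A := by positivity
  have hev : ∀ᶠ L : ℝ in Filter.atTop, Real.log L / L ≤ A⁻¹ :=
    (hlog.eventually_le_const (show (0:ℝ) < A⁻¹ by positivity))
  obtain ⟨T0, hT0⟩ := Filter.eventually_atTop.1 hev
  refine ⟨T0, fun i hi x hx z hz hu => ?_⟩
  have hLp := Idx.L_pos i
  have hL1 := Idx.L_one i
  have h1 := hT0 i.L hi
  rw [div_le_iff₀ hLp, ← div_eq_inv_mul, le_div_iff₀ hA0] at h1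
  have hsub := Idx.ball_sub i hx
  -- mean value
  have hmv : |P.S.u z - P.S.u x| ≤ (|C| + 1) * (P.K * (i.L ^ 2)⁻¹) := by
    have hconv : Convex ℝ (closedBall x (P.K * (i.L ^ 2)⁻¹)) := convex_closedBall _ _
    have := hconv.norm_image_sub_le_of_norm_fderiv_le (𝕜 := ℝ) (f := P.S.u) (C := |C| + 1)
      (fun y _ => (P.S.h.hu.differentiable (by simp)) y)
      (fun y hy => (hC y (hsub hy)).trans (by have := le_abs_self C; linarith))
      (mem_closedBall_self (by positivity)) hz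
    rw [Real.norm_eq_abs] at this
    refine this.trans ?_
    have hd : ‖z - x‖ ≤ P.K * (i.L ^ 2)⁻¹ := by
      rw [← dist_eq_norm]; exact hz
    exact mul_le_mul_of_nonneg_left hd (by positivity)
  have h2 : P.S.u z - P.S.u x ≤ (|C| + 1) * (P.K * (i.L ^ 2)⁻¹) := (le_abs_self _).trans hmv
  have hl := Idx.l_pos i
  -- `6 l (|C|+1) K / L² ≤ 1`
  have h3 : 6 * i.l * ((|C| + 1) * (P.K * (i.L ^ 2)⁻¹)) ≤ 1 := by
    have e : 6 * i.l * ((|C| + 1) * (P.K * (i.L ^ 2)⁻¹)) =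
        (Real.log i.L * (6 * (400 * P.k) * (|C| + 1) * P.K)) * (i.L ^ 2)⁻¹ := by
      rw [Idx.l_eq]; push_cast; ring
    rw [e]
    have h4 : Real.log i.L * (6 * (400 * P.k) * (|C| + 1) * P.K) ≤ i.L := by
      refine le_trans ?_ h1
      apply mul_le_mul_of_nonneg_left _ (Idx.log_pos' i).le
      rw [hA]; linarith
    calc _ ≤ i.L * (i.L ^ 2)⁻¹ := mul_le_mul_of_nonneg_right h4 (by positivity)
      _ = (i.L)⁻¹ := by field_simp
      _ ≤ 1 := inv_le_one_of_one_le₀ hL1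
  nlinarith [mul_le_mul_of_nonneg_left h2 (show 0 ≤ 6 * i.l by positivity)]

end SPar
end Crest.Agent.R216.TE
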