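import Crest.Agent.R216.StageA
import Crest.Agent.R216.StageG

/-!
# Row 216, Theorem E, module STAGE, piece T4: the error budget.
-/

set_option linter.unusedSectionVars false

open Set Topology MeasureTheory Metric
open scoped ContDiff

namespace Crest.Agent.R216.TE
namespace SPar
variable {P : SPar}

/-- `L⁻ᴺ ≤ exp (-12 l')`, `N = 3840000 (k+1)` -/
lemma Idx.inv_pow_le (i : P.Idx) :
    (i.L ^ (3840000 * (P.k + 1)))⁻¹ ≤ Real.exp (-(12 * i.l')) := by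
  have h := exp_l' i 12
  push_cast at h
  rw [h]
  apply inv_anti₀ (pow_pos i.L_pos _)
  apply pow_le_pow_right₀ i.L_one
  have := i.k'_le
  omega

lemma Idx.exp14 (i : P.Idx) :
    Real.exp (-(14 * i.l')) ≤ (i.L)⁻¹ * Real.exp (-(12 * i.l')) := by
  have h1 : Real.exp (-(14 * i.l')) = Real.exp (-(2 * i.l')) * Real.exp (-(12 * i.l')) := by
    rw [← Real.exp_add]; congr 1; ring
  rw [h1]
  apply mul_le_mul_of_nonneg_right _ (Real.exp_pos _).le
  have h2 := exp_l' i 2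
  push_cast at h2
  rw [h2]
  apply inv_anti₀ i.L_pos
  calc i.L = i.L ^ 1 := (pow_one _).symm
    _ ≤ _ := by
      apply pow_le_pow_right₀ i.L_one
      have := i.one_le_k'
      omega

/-- **the error budget** -/
theorem budget (P : SPar) (C : ℝ) : ∃ T1 : ℝ, ∀ i : P.Idx, T1 ≤ i.L →
    C * (i.L ^ 20)⁻¹ ^ (15 + 192000 * (P.k + 1)) + C * Real.exp (-(14 * i.l')) +
      C * (i.L ^ 4 * (i.L)⁻¹ ^ (3840000 * (P.k + 1) + 6)) ≤ Real.exp (-(12 * i.l')) := by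
  refine ⟨3 * |C| + 1, fun i hi => ?_⟩
  have hL := i.L_pos
  have hL1 := i.L_one
  set D := Real.exp (-(12 * i.l')) with hD
  have hD0 : 0 < D := Real.exp_pos _
  have hinv : (0:ℝ) < (i.L)⁻¹ := inv_pos.2 hL
  have h0 := i.inv_pow_le
  rw [← hD] at h0
  -- the three terms
  have h1 : (i.L ^ 20)⁻¹ ^ (15 + 192000 * (P.k + 1)) ≤ (i.L)⁻¹ * D := by
    have e : (i.L ^ 20)⁻¹ ^ (15 + 192000 * (P.k + 1)) =
        (i.L ^ 300)⁻¹ * (i.L ^ (3840000 * (P.k + 1)))⁻¹ := by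
      rw [inv_pow, ← pow_mul, show 20 * (15 + 192000 * (P.k + 1)) = 300 + 3840000 * (P.k + 1) by
        ring, pow_add, mul_inv]
    rw [e]
    refine mul_le_mul ?_ h0 (by positivity) hinv.le
    apply inv_anti₀ hL
    exact le_self_pow₀ hL1 (by norm_num)
  have h2 : Real.exp (-(14 * i.l')) ≤ (i.L)⁻¹ * D := i.exp14
  have h3 : i.L ^ 4 * (i.L)⁻¹ ^ (3840000 * (P.k + 1) + 6) ≤ (i.L)⁻¹ * D := by
    have e : i.L ^ 4 * (i.L)⁻¹ ^ (3840000 * (P.k + 1) + 6) =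
        (i.L ^ 2)⁻¹ * (i.L ^ (3840000 * (P.k + 1)))⁻¹ := by
      generalize 3840000 * (P.k + 1) = N
      rw [inv_pow, pow_add, mul_inv]
      field_simp
    rw [e]
    refine mul_le_mul ?_ h0 (by positivity) hinv.le
    apply inv_anti₀ hL
    exact le_self_pow₀ hL1 (by norm_num)
  have key : ∀ a : ℝ, 0 ≤ a → a ≤ (i.L)⁻¹ * D → C * a ≤ |C| * ((i.L)⁻¹ * D) := by
    intro a ha hab
    calc C * a ≤ |C| * a := mul_le_mul_of_nonneg_right (le_abs_self C) ha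
      _ ≤ _ := mul_le_mul_of_nonneg_left hab (abs_nonneg C)
  have k1 := key _ (by positivity) h1
  have k2 := key _ (Real.exp_pos _).le h2
  have k3 := key _ (by positivity) h3
  have h4 : 3 * |C| * (i.L)⁻¹ ≤ 1 := by
    rw [← div_eq_mul_inv, div_le_one hL]; linarith
  calc _ ≤ |C| * ((i.L)⁻¹ * D) + |C| * ((i.L)⁻¹ * D) + |C| * ((i.L)⁻¹ * D) := by linarith
    _ = (3 * |C| * (i.L)⁻¹) * D := by ring
    _ ≤ 1 * D := mul_le_mul_of_nonneg_right h4 hD0.le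
    _ = D := one_mul _

end SPar
end Crest.Agent.R216.TE
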