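import Crest.Agent.R216.Conv
import Crest.Agent.R216.LoopDefs
import Crest.Agent.R216.Prof3
import Crest.Agent.R216.EngExp
import Crest.Agent.R216.EFinDefs

/-!
# Row 216, Theorem E, module STAGE: definitions.
Scales: `Λ = L²`, `η = L⁻²⁰`, `ε = L⁻³²⁰`, next `L' = L^{2q}`, `q = 400`, errors `≤ δ¹²`,
`δ = L^{-qk}`; `ℒ = lam q k L = log (1/δ)`, `ℒ' = lam q k' L'`.
-/

set_option linter.unusedSectionVars false

open Set Topology MeasureTheory Metric
open scoped ContDiff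

namespace Crest.Agent.R216.TE

/-! ### engine data with the micro loops (frame `b = p/|p|`) -/

/-- `b = p/|p|`, `p` = projection of `f₁` to `{f₂,f₂₂}ᗮ` -/
noncomputable def mb (f : X2 → E4) (x : X2) : E4 :=
  ‖ppr (d1 f x) (d2 f x) (d2 (d2 f) x)‖⁻¹ • ppr (d1 f x) (d2 f x) (d2 (d2 f) x)

/-- engine data with the micro loops -/
noncomputable def microData (𝓔 : EFam) (f : 𝓔.I → X2 → E4) (G11 G12 G22 : 𝓔.I → X2 → ℝ) :
    EData 𝓔 where
  f := f
  b1 := fun i => mb (f i)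
  b2 := fun i x => Jrot (d2 (f i) x) (d2 (d2 (f i)) x) (mb (f i) x)
  Wl := fun i z => loopW (d1 (f i) z.1) (d2 (f i) z.1) (d2 (d2 (f i)) z.1) (mb (f i) z.1)
    (𝓔.a i z.1) z.2
  G11 := G11
  G12 := G12
  G22 := G22

/-- fixed data of Theorem E -/
structure SData where
  f0 : X2 → E4
  u : X2 → ℝ
  β : X2 → ℝ
  N : Set X2
  hf0 : ContDiff ℝ ∞ f0
  h : AmpHyp u β
  hN : IsCompact N
  sub : closure {x | 0 < u x} ⊆ interior N

namespace SData
variable (S : SData)

/-- closed support -/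
def W : Set X2 := closure {x | 0 < S.u x}
/-- full amplitude -/
noncomputable def A : X2 → ℝ := ampX S.u S.β

lemma hW : IsCompact S.W := S.h.cpt

/-- `N` contains a uniform neighbourhood of `W` -/
lemma exists_r : ∃ r, 0 < r ∧ ∀ x ∈ S.W, closedBall x r ⊆ S.N := by
  obtain ⟨δ, hδ, h⟩ := S.hW.exists_cthickening_subset_open isOpen_interior S.sub
  refine ⟨δ, hδ, fun x hx => ?_⟩
  exact (closedBall_subset_cthickening hx δ).trans (h.trans interior_subset)

end SData

/-- numerical parameters of the stage -/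
def qS : ℕ := 400
def mS : ℕ := 12

/-- parameters fixed for one universal family -/
structure SPar where
  S : SData
  c0 : ℝ
  B0 : ℝ
  c0pos : 0 < c0
  B0pos : 0 < B0
  k : ℕ
  hk : 1 ≤ k
  /-- order of smoothing -/
  K : ℕ
  /-- threshold -/
  T : ℝ
  hT : 2 ≤ T
  /-- the smoothing radius stays inside `N` -/
  hr : ∀ x ∈ S.W, closedBall x (K * (T ^ 2)⁻¹) ⊆ S.N

namespace SPar

/-- all admissible inputs of a stage -/
structure Idx (P : SPar) : Type where
  L : ℝ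
  hL : P.T ≤ L
  k' : ℕ
  hk' : k' = P.k ∨ k' = P.k + 1
  f : X2 → E4
  hf : ContDiff ℝ ∞ f
  G : GC P.c0 P.B0 P.S.N P.S.W f
  st : StC qS mS P.S.f0 P.S.u P.S.A P.k L f
  bd : ∀ j : ℕ, 1 ≤ j → j ≤ P.K + 4 → ∀ x ∈ P.S.N, ‖iteratedFDeriv ℝ j f x‖ ≤ L ^ j

variable {P : SPar}

namespace Idx
variable (i : P.Idx)

lemma L_two : 2 ≤ i.L := P.hT.trans i.hL
lemma L_pos : 0 < i.L := by have := i.L_two; linarith
lemma L_one : 1 ≤ i.L := by have := i.L_two; linarith

lemma ball_sub {x : X2} (hx : x ∈ P.S.W) : closedBall x (P.K * (i.L ^ 2)⁻¹) ⊆ P.S.N := by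
  refine (closedBall_subset_closedBall ?_).trans (P.hr x hx)
  have h1 := P.hT
  have h2 := i.hL
  have : (i.L ^ 2)⁻¹ ≤ (P.T ^ 2)⁻¹ := by
    apply inv_anti₀ (by positivity)
    exact pow_le_pow_left₀ (by linarith) h2 2
  exact mul_le_mul_of_nonneg_left this (Nat.cast_nonneg _)

/-- `log (1/δ)` -/
noncomputable def l : ℝ := lam qS P.k i.L
/-- `log (1/δ')` -/
noncomputable def l' : ℝ := lam qS i.k' (i.L ^ (2 * qS))
/-- cut-off parameter: outside `{2 ℒ' u - 1 > 1/Kc}` the amplitude is `≤ C δ'^14` -/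
noncomputable def Kc : ℝ := 14 * i.l'
/-- domain of the engine -/
def D : Set X2 := profDom P.S.u i.l' (2 * i.Kc)
/-- amplitude of the stage -/
noncomputable def a : X2 → ℝ := amp P.S.u P.S.β i.l i.l'
/-- smoothed map -/
noncomputable def ft : X2 → E4 := Smooth.P P.K (i.L ^ 2)⁻¹ i.f

/-- the errors `T - f^*e` of the input -/
noncomputable def R11 (x : X2) : ℝ :=
  inner ℝ (d1 P.S.f0 x) (d1 P.S.f0 x) + P.S.A x ^ 2 * (1 - Prof.kap i.l (P.S.u x))
    - inner ℝ (d1 i.f x) (d1 i.f x)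
noncomputable def R12 (x : X2) : ℝ :=
  inner ℝ (d1 P.S.f0 x) (d2 P.S.f0 x) - inner ℝ (d1 i.f x) (d2 i.f x)
noncomputable def R22 (x : X2) : ℝ :=
  inner ℝ (d2 P.S.f0 x) (d2 P.S.f0 x) - inner ℝ (d2 i.f x) (d2 i.f x)

end Idx

/-- the family of domains -/
noncomputable def fam (P : SPar) : Fam where
  I := P.Idx
  D := fun i => i.D
  isOpen := fun i => by
    have : Continuous P.S.u := P.S.h.hu.continuous
    exact isOpen_lt continuous_const (by fun_prop)
  Lam := fun i => i.L ^ 2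
  one_le := fun i => one_le_pow₀ i.L_one

end SPar

end Crest.Agent.R216.TE
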