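import Crest.Agent.R216.StageClose

/-!
# Row 216, Theorem E, module STAGE, part S4 (helper534): the errors of the input:
smoothness, size, support and derivative bounds of `R11, R12, R22`.
-/

set_option linter.unusedSectionVars false

open Set Topology MeasureTheory Metric
open scoped ContDiff

namespace Crest.Agent.R216.TE

namespace SPar
variable (P : SPar)

/-- derivative bounds `‖D^j g_i‖ ≤ C L^{j+s}` on `N` for `j ≤ J` -/
def GBd {V : Type*} [NormedAddCommGroup V] [NormedSpace ℝ V] (s J : ℕ) (g : P.Idx → X2 → V) :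
    Prop :=
  ∀ j ≤ J, ∃ C, 0 ≤ C ∧ ∀ i : P.Idx, ∀ x ∈ P.S.N, ‖iteratedFDeriv ℝ j (g i) x‖ ≤ C * i.L ^ (j + s)

variable {P}
variable {V V' V'' : Type*} [NormedAddCommGroup V] [NormedSpace ℝ V]
  [NormedAddCommGroup V'] [NormedSpace ℝ V'] [NormedAddCommGroup V''] [NormedSpace ℝ V'']

lemma GBd.mono {s s' J J' : ℕ} {g : P.Idx → X2 → V} (h : P.GBd s J g) (hs : s ≤ s')
    (hJ : J' ≤ J) : P.GBd s' J' g := by
  intro j hj
  obtain ⟨C, hC, h⟩ := h j (hj.trans hJ)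
  refine ⟨C, hC, fun i x hx => (h i x hx).trans ?_⟩
  exact mul_le_mul_of_nonneg_left (pow_le_pow_right₀ i.L_one (by omega)) hC

lemma GBd.fixed {g : X2 → V} (hg : ContDiff ℝ ∞ g) (J : ℕ) : P.GBd 0 J (fun _ => g) := by
  intro j _
  obtain ⟨C, hC⟩ := P.S.hN.exists_bound_of_continuousOn
    ((hg.continuous_iteratedFDeriv (m := j) (by exact_mod_cast le_top)).continuousOn)
  refine ⟨|C|, abs_nonneg _, fun i x hx => ?_⟩
  have h1 : (1:ℝ) ≤ i.L ^ (j + 0) := one_le_pow₀ i.L_one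
  have h2 := hC x hx
  have h3 := le_abs_self C
  nlinarith [abs_nonneg C]

lemma GBd.add {s J : ℕ} {g h : P.Idx → X2 → V} (hg : P.GBd s J g) (hh : P.GBd s J h)
    (sg : ∀ i, ContDiff ℝ ∞ (g i)) (sh : ∀ i, ContDiff ℝ ∞ (h i)) :
    P.GBd s J (fun i x => g i x + h i x) := by
  intro j hj
  obtain ⟨C, hC, h1⟩ := hg j hj
  obtain ⟨C', hC', h2⟩ := hh j hj
  refine ⟨C + C', by positivity, fun i x hx => ?_⟩
  show ‖iteratedFDeriv ℝ j (g i + h i) x‖ ≤ _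
  rw [iteratedFDeriv_add_apply ((sg i).of_le (by exact_mod_cast le_top)).contDiffAt
    ((sh i).of_le (by exact_mod_cast le_top)).contDiffAt]
  refine (norm_add_le _ _).trans ?_
  have := h1 i x hx
  have := h2 i x hx
  linarith

lemma GBd.neg {s J : ℕ} {g : P.Idx → X2 → V} (hg : P.GBd s J g) :
    P.GBd s J (fun i x => - g i x) := by
  intro j hj
  obtain ⟨C, hC, h1⟩ := hg j hj
  refine ⟨C, hC, fun i x hx => ?_⟩
  show ‖iteratedFDeriv ℝ j (- g i) x‖ ≤ _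
  rw [iteratedFDeriv_neg_apply, norm_neg]
  exact h1 i x hx

lemma GBd.sub {s J : ℕ} {g h : P.Idx → X2 → V} (hg : P.GBd s J g) (hh : P.GBd s J h)
    (sg : ∀ i, ContDiff ℝ ∞ (g i)) (sh : ∀ i, ContDiff ℝ ∞ (h i)) :
    P.GBd s J (fun i x => g i x - h i x) := by
  have := hg.add hh.neg sg (fun i => (sh i).neg)
  simpa only [sub_eq_add_neg] using this

lemma GBd.bilin (B : V →L[ℝ] V' →L[ℝ] V'') (hB : ‖B‖ ≤ 1) {s s' J : ℕ} {g : P.Idx → X2 → V}
    {h : P.Idx → X2 → V'} (hg : P.GBd s J g) (hh : P.GBd s' J h)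
    (sg : ∀ i, ContDiff ℝ ∞ (g i)) (sh : ∀ i, ContDiff ℝ ∞ (h i)) :
    P.GBd (s + s') J (fun i x => B (g i x) (h i x)) := by
  intro j hj
  choose! C hC h1 using hg
  choose! C' hC' h2 using hh
  refine ⟨∑ a ∈ Finset.range (j + 1), (j.choose a : ℝ) * C a * C' (j - a),
    Finset.sum_nonneg (fun a ha => ?_), fun i x hx => ?_⟩
  · have ha' : a ≤ J := by have := Finset.mem_range.1 ha; omega
    have h3 := hC a ha'
    have h4 := hC' (j - a) (by omega)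
    positivity
  · refine (B.norm_iteratedFDeriv_le_of_bilinear_of_le_one (sg i) (sh i) x
      (by exact_mod_cast le_top) hB).trans ?_
    rw [Finset.sum_mul]
    refine Finset.sum_le_sum (fun a ha => ?_)
    have haj : a ≤ j := by have := Finset.mem_range.1 ha; omega
    have h3 := h1 a (haj.trans hj) i x hx
    have h4 := h2 (j - a) (by omega) i x hx
    have h5 := hC a (haj.trans hj)
    have h6 := hC' (j - a) (by omega)
    have hL := i.L_pos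
    calc (j.choose a : ℝ) * ‖iteratedFDeriv ℝ a (g i) x‖ * ‖iteratedFDeriv ℝ (j - a) (h i) x‖
        ≤ (j.choose a : ℝ) * (C a * i.L ^ (a + s)) * (C' (j - a) * i.L ^ (j - a + s')) := by
          gcongr
      _ = (j.choose a : ℝ) * C a * C' (j - a) * (i.L ^ (a + s) * i.L ^ (j - a + s')) := by ring
      _ = _ := by
          rw [← pow_add]
          congr 2
          omega

lemma GBd.mul {s s' J : ℕ} {g h : P.Idx → X2 → ℝ} (hg : P.GBd s J g) (hh : P.GBd s' J h)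
    (sg : ∀ i, ContDiff ℝ ∞ (g i)) (sh : ∀ i, ContDiff ℝ ∞ (h i)) :
    P.GBd (s + s') J (fun i x => g i x * h i x) :=
  GBd.bilin (ContinuousLinearMap.mul ℝ ℝ) (ContinuousLinearMap.opNorm_mul_le ℝ ℝ) hg hh sg sh

lemma GBd.inner {s s' J : ℕ} {g h : P.Idx → X2 → E4} (hg : P.GBd s J g) (hh : P.GBd s' J h)
    (sg : ∀ i, ContDiff ℝ ∞ (g i)) (sh : ∀ i, ContDiff ℝ ∞ (h i)) :
    P.GBd (s + s') J (fun i x => (inner ℝ (g i x) (h i x) : ℝ)) := by
  have hB : ‖(innerSL ℝ : E4 →L[ℝ] E4 →L[ℝ] ℝ)‖ ≤ 1 := norm_innerSL_le ℝ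
  exact GBd.bilin (innerSL ℝ : E4 →L[ℝ] E4 →L[ℝ] ℝ) hB hg hh sg sh

lemma GBd_d1f : P.GBd 1 (P.K + 3) (fun i => d1 i.f) := by
  intro j hj
  refine ⟨1, zero_le_one, fun i x hx => ?_⟩
  rw [one_mul]
  exact (SClose.norm_iteratedFDeriv_d1_le i.hf j x).trans (i.bd (j + 1) (by omega) (by omega) x hx)

lemma GBd_d2f : P.GBd 1 (P.K + 3) (fun i => d2 i.f) := by
  intro j hj
  refine ⟨1, zero_le_one, fun i x hx => ?_⟩
  rw [one_mul]
  exact (SClose.norm_iteratedFDeriv_d2_le i.hf j x).trans (i.bd (j + 1) (by omega) (by omega) x hx)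

/-- `l ≤ 400 k L` -/
lemma Idx.l_le_kL (i : P.Idx) : i.l ≤ (400 * P.k : ℕ) * i.L := by
  have h : Real.log i.L ≤ i.L := Real.log_le_self i.L_pos.le
  exact mul_le_mul_of_nonneg_left h (Nat.cast_nonneg _)

lemma Idx.l_nonneg (i : P.Idx) : 0 ≤ i.l := lam_nonneg _ _ i.L_one

/-- composition of a fixed function of one variable, all of whose derivatives are bounded, with
`2 l u - 1` -/
lemma GBd.comp_st {s : ℝ → ℝ} (hs : ContDiff ℝ ∞ s)
    (hb : ∀ k : ℕ, ∃ C : ℝ, 0 ≤ C ∧ ∀ x, |iteratedDeriv k s x| ≤ C) (J : ℕ) :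
    P.GBd 0 J (fun i x => s (2 * i.l * P.S.u x - 1)) := by
  intro j _
  choose Cs hCs hCs' using hb
  -- bounds of the derivatives of `u`
  have hu : ∀ k : ℕ, ∃ C : ℝ, 0 ≤ C ∧ ∀ x ∈ P.S.N, ‖iteratedFDeriv ℝ k P.S.u x‖ ≤ C := by
    intro k
    obtain ⟨C, hC⟩ := P.S.hN.exists_bound_of_continuousOn
      ((P.S.h.hu.continuous_iteratedFDeriv (m := k) (by exact_mod_cast le_top)).continuousOn)
    exact ⟨|C|, abs_nonneg _, fun x hx => (hC x hx).trans (le_abs_self _)⟩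
  choose Cu hCu hCu' using hu
  set M : ℝ := ∑ k ∈ Finset.range (j + 1), Cs k with hM
  have hMk : ∀ k ≤ j, Cs k ≤ M := fun k hk =>
    Finset.single_le_sum (f := Cs) (fun k _ => hCs k) (Finset.mem_range.2 (by omega))
  set U : ℝ := 1 + 2 * (400 * P.k : ℕ) * ∑ k ∈ Finset.range (j + 1), Cu k with hU
  have hsum : 0 ≤ ∑ k ∈ Finset.range (j + 1), Cu k := Finset.sum_nonneg (fun k _ => hCu k)
  have hU1 : 1 ≤ U := by
    rw [hU]
    have : 0 ≤ 2 * ((400 * P.k : ℕ) : ℝ) * ∑ k ∈ Finset.range (j + 1), Cu k := by positivity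
    linarith
  have hUk : ∀ k ≤ j, 2 * ((400 * P.k : ℕ) : ℝ) * Cu k ≤ U := by
    intro k hk
    have h1 : Cu k ≤ ∑ k ∈ Finset.range (j + 1), Cu k :=
      Finset.single_le_sum (f := Cu) (fun k _ => hCu k) (Finset.mem_range.2 (by omega))
    rw [hU]
    have : 2 * ((400 * P.k : ℕ) : ℝ) * Cu k ≤
        2 * ((400 * P.k : ℕ) : ℝ) * ∑ k ∈ Finset.range (j + 1), Cu k :=
      mul_le_mul_of_nonneg_left h1 (by positivity)
    linarith
  have hM0 : 0 ≤ M := Finset.sum_nonneg (fun k _ => hCs k)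
  refine ⟨(j.factorial : ℝ) * M * U ^ j, by positivity, fun i x hx => ?_⟩
  have hφ : ContDiff ℝ ∞ (fun x => 2 * i.l * P.S.u x - 1) :=
    (contDiff_const.mul P.S.h.hu).sub contDiff_const
  have hL := i.L_pos
  have hL1 := i.L_one
  have key := norm_iteratedFDeriv_comp_le (g := s) (f := fun x => 2 * i.l * P.S.u x - 1) (n := j)
    hs hφ (by exact_mod_cast le_top) x (C := M) (D := U * i.L)
    (fun k hk => by
      rw [norm_iteratedFDeriv_eq_norm_iteratedDeriv, Real.norm_eq_abs]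
      exact (hCs' k _).trans (hMk k hk))
    (fun k hk1 hk => by
      have e : (fun x => 2 * i.l * P.S.u x - 1) =
          ((2 * i.l) • P.S.u) - (fun _ => (1:ℝ)) := by
        funext y; simp [smul_eq_mul]
      have hsm : ContDiff ℝ ∞ ((2 * i.l) • P.S.u) := P.S.h.hu.const_smul (2 * i.l)
      rw [e, iteratedFDeriv_sub_apply (hsm.of_le (by exact_mod_cast le_top)).contDiffAt
        contDiff_const.contDiffAt, iteratedFDeriv_const_of_ne (by omega), Pi.zero_apply, sub_zero,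
        iteratedFDeriv_const_smul_apply
          (P.S.h.hu.of_le (by exact_mod_cast le_top)).contDiffAt, norm_smul, Real.norm_eq_abs,
        abs_of_nonneg (by have := i.l_nonneg; positivity)]
      have h1 := hCu' k x hx
      have h2 := i.l_le_kL
      have h3 := i.l_nonneg
      calc 2 * i.l * ‖iteratedFDeriv ℝ k P.S.u x‖ ≤ 2 * ((400 * P.k : ℕ) * i.L) * Cu k := by
            gcongr
            
        _ = (2 * ((400 * P.k : ℕ) : ℝ) * Cu k) * i.L := by ring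
        _ ≤ U * i.L := mul_le_mul_of_nonneg_right (hUk k hk) hL.le
        _ ≤ (U * i.L) ^ k := le_self_pow₀ (by nlinarith) (by omega))
  refine key.trans (le_of_eq ?_)
  rw [mul_pow, add_zero]; ring

/-- smoothness of the profile part -/
lemma Idx.prof_smooth (i : P.Idx) :
    ContDiff ℝ ∞ (fun x => P.S.A x ^ 2 * (1 - Prof.kap i.l (P.S.u x))) := by
  have hA : ContDiff ℝ ∞ P.S.A := by
    unfold SData.A ampX
    exact (expNegInvGlue.contDiff.comp P.S.h.hu).mul P.S.h.hβ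
  exact (hA.pow 2).mul (contDiff_const.sub ((Prof.contDiff_kap i.l).comp P.S.h.hu))

lemma GBd_prof (J : ℕ) :
    P.GBd 0 J (fun i x => P.S.A x ^ 2 * (1 - Prof.kap i.l (P.S.u x))) := by
  have hA : ContDiff ℝ ∞ P.S.A := by
    unfold SData.A ampX
    exact (expNegInvGlue.contDiff.comp P.S.h.hu).mul P.S.h.hβ
  have hφ : ∀ i : P.Idx, ContDiff ℝ ∞ (fun x => 2 * i.l * P.S.u x - 1) := fun i =>
    (contDiff_const.mul P.S.h.hu).sub contDiff_const
  have hst : ∀ i : P.Idx, ContDiff ℝ ∞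
      (fun x => Real.smoothTransition (2 * i.l * P.S.u x - 1)) := fun i =>
    Real.smoothTransition.contDiff.comp (hφ i)
  have h1 : P.GBd 0 J (fun i x => Real.smoothTransition (2 * i.l * P.S.u x - 1)) :=
    GBd.comp_st Real.smoothTransition.contDiff Prof.st_bdd J
  have h2 : P.GBd 0 J (fun i x => P.S.A x * Real.smoothTransition (2 * i.l * P.S.u x - 1)) :=
    (GBd.fixed hA J).mul h1 (fun _ => hA) hst
  have s2 : ∀ i : P.Idx, ContDiff ℝ ∞
      (fun x => P.S.A x * Real.smoothTransition (2 * i.l * P.S.u x - 1)) := fun i =>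
    hA.mul (hst i)
  have h3 := h2.mul h2 s2 s2
  intro j hj
  obtain ⟨C, hC, h⟩ := h3 j hj
  refine ⟨C, hC, fun i x hx => ?_⟩
  have e : (fun x => P.S.A x ^ 2 * (1 - Prof.kap i.l (P.S.u x))) =
      (1 - Real.exp (-(2 * i.l))) • (fun x =>
        (P.S.A x * Real.smoothTransition (2 * i.l * P.S.u x - 1)) *
        (P.S.A x * Real.smoothTransition (2 * i.l * P.S.u x - 1))) := by
    funext y
    simp only [Prof.kap, Pi.smul_apply, smul_eq_mul]
    ring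
  show ‖iteratedFDeriv ℝ j (fun x => P.S.A x ^ 2 * (1 - Prof.kap i.l (P.S.u x))) x‖ ≤ _
  rw [e, iteratedFDeriv_const_smul_apply
    (((s2 i).mul (s2 i)).of_le (by exact_mod_cast le_top)).contDiffAt, norm_smul,
    Real.norm_eq_abs]
  have h4 := Prof.one_sub_exp_nonneg i.l_nonneg
  rw [abs_of_nonneg h4]
  have h5 := Real.exp_pos (-(2 * i.l))
  have h6 := h i x hx
  calc _ ≤ 1 * ‖iteratedFDeriv ℝ j (fun x =>
        (P.S.A x * Real.smoothTransition (2 * i.l * P.S.u x - 1)) *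
        (P.S.A x * Real.smoothTransition (2 * i.l * P.S.u x - 1))) x‖ := by
        apply mul_le_mul_of_nonneg_right _ (norm_nonneg _)
        linarith
    _ ≤ _ := by rw [one_mul]; exact h6

namespace Idx
variable (i : P.Idx)

/-! ### smoothness -/

lemma ip_smooth {g h : X2 → E4} (hg : ContDiff ℝ ∞ g) (hh : ContDiff ℝ ∞ h) :
    ContDiff ℝ ∞ (fun x => (inner ℝ (g x) (h x) : ℝ)) := hg.inner ℝ hh

lemma d1f0_smooth : ContDiff ℝ ∞ (d1 P.S.f0) := SClose.contDiff_d1 P.S.hf0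
lemma d2f0_smooth : ContDiff ℝ ∞ (d2 P.S.f0) := SClose.contDiff_d2 P.S.hf0
lemma d1f_smooth : ContDiff ℝ ∞ (d1 i.f) := SClose.contDiff_d1 i.hf
lemma d2f_smooth : ContDiff ℝ ∞ (d2 i.f) := SClose.contDiff_d2 i.hf

theorem R11_smooth : ContDiff ℝ ∞ i.R11 :=
  ((ip_smooth d1f0_smooth d1f0_smooth).add i.prof_smooth).sub
    (ip_smooth i.d1f_smooth i.d1f_smooth)

theorem R12_smooth : ContDiff ℝ ∞ i.R12 :=
  (ip_smooth d1f0_smooth d2f0_smooth).sub (ip_smooth i.d1f_smooth i.d2f_smooth)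

theorem R22_smooth : ContDiff ℝ ∞ i.R22 :=
  (ip_smooth d2f0_smooth d2f0_smooth).sub (ip_smooth i.d2f_smooth i.d2f_smooth)

/-! ### size -/

theorem R11_abs (x : X2) : |i.R11 x| ≤ Real.exp (-(12 * i.l)) := by
  have h := i.st.e11 x
  rw [abs_sub_comm] at h
  have e : (mS : ℝ) = 12 := by norm_num [mS]
  rw [e] at h
  exact h

theorem R12_abs (x : X2) : |i.R12 x| ≤ Real.exp (-(12 * i.l)) := by
  have h := i.st.e12 x
  rw [abs_sub_comm] at h
  have e : (mS : ℝ) = 12 := by norm_num [mS]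
  rw [e] at h
  exact h

theorem R22_abs (x : X2) : |i.R22 x| ≤ Real.exp (-(12 * i.l)) := by
  have h := i.st.e22 x
  rw [abs_sub_comm] at h
  have e : (mS : ℝ) = 12 := by norm_num [mS]
  rw [e] at h
  exact h

theorem R11_le (x : X2) : |i.R11 x| ≤ Real.exp (-(12 * i.l)) := i.R11_abs x
theorem R12_le (x : X2) : |i.R12 x| ≤ Real.exp (-(12 * i.l)) := i.R12_abs x
theorem R22_le (x : X2) : |i.R22 x| ≤ Real.exp (-(12 * i.l)) := i.R22_abs x

/-! ### support -/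

lemma f_eventuallyEq {x : X2} (hx : 2 * i.l * P.S.u x < 1) : i.f =ᶠ[𝓝 x] P.S.f0 := by
  have hc : Continuous (fun x => 2 * i.l * P.S.u x) :=
    continuous_const.mul P.S.h.hu.continuous
  filter_upwards [(isOpen_lt hc continuous_const).mem_nhds hx] with y hy
  exact i.st.eq0 y (le_of_lt hy)

theorem eq_near {x : X2} (h : 2 * i.l * P.S.u x < 1) : i.f =ᶠ[𝓝 x] P.S.f0 :=
  i.f_eventuallyEq h

theorem R11_zero {x : X2} (hx : 2 * i.l * P.S.u x < 1) : i.R11 x = 0 := by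
  have h := i.f_eventuallyEq hx
  have h1 : d1 i.f x = d1 P.S.f0 x := by unfold d1; rw [h.fderiv_eq]
  unfold R11
  rw [h1, Prof.kap_eq_one hx.le]
  ring

theorem R12_zero {x : X2} (hx : 2 * i.l * P.S.u x < 1) : i.R12 x = 0 := by
  have h := i.f_eventuallyEq hx
  have h1 : d1 i.f x = d1 P.S.f0 x := by unfold d1; rw [h.fderiv_eq]
  have h2 : d2 i.f x = d2 P.S.f0 x := by unfold d2; rw [h.fderiv_eq]
  unfold R12
  rw [h1, h2, sub_self]

theorem R22_zero {x : X2} (hx : 2 * i.l * P.S.u x < 1) : i.R22 x = 0 := by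
  have h := i.f_eventuallyEq hx
  have h2 : d2 i.f x = d2 P.S.f0 x := by unfold d2; rw [h.fderiv_eq]
  unfold R22
  rw [h2, sub_self]

end Idx

/-! ### derivative bounds -/

variable (P)

theorem GBd_R11 : P.GBd 2 (P.K + 3) (fun i => i.R11) := by
  have s0 : ContDiff ℝ ∞ (fun x => (inner ℝ (d1 P.S.f0 x) (d1 P.S.f0 x) : ℝ)) :=
    Idx.ip_smooth Idx.d1f0_smooth Idx.d1f0_smooth
  have h1 : P.GBd 0 (P.K + 3) (fun (_ : P.Idx) x => (inner ℝ (d1 P.S.f0 x) (d1 P.S.f0 x) : ℝ)) :=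
    GBd.fixed s0 _
  have h2 := h1.add (GBd_prof (P.K + 3)) (fun _ => s0) (fun i => i.prof_smooth)
  have h3 := (GBd_d1f (P := P)).inner GBd_d1f (fun i => i.d1f_smooth) (fun i => i.d1f_smooth)
  exact (h2.mono (by omega) le_rfl).sub h3 (fun i => s0.add i.prof_smooth)
    (fun i => Idx.ip_smooth i.d1f_smooth i.d1f_smooth)

theorem GBd_R12 : P.GBd 2 (P.K + 3) (fun i => i.R12) := by
  have s0 : ContDiff ℝ ∞ (fun x => (inner ℝ (d1 P.S.f0 x) (d2 P.S.f0 x) : ℝ)) :=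
    Idx.ip_smooth Idx.d1f0_smooth Idx.d2f0_smooth
  have h1 : P.GBd 0 (P.K + 3) (fun (_ : P.Idx) x => (inner ℝ (d1 P.S.f0 x) (d2 P.S.f0 x) : ℝ)) :=
    GBd.fixed s0 _
  have h3 := (GBd_d1f (P := P)).inner GBd_d2f (fun i => i.d1f_smooth) (fun i => i.d2f_smooth)
  exact (h1.mono (by omega) le_rfl).sub h3 (fun i => s0)
    (fun i => Idx.ip_smooth i.d1f_smooth i.d2f_smooth)

theorem GBd_R22 : P.GBd 2 (P.K + 3) (fun i => i.R22) := by
  have s0 : ContDiff ℝ ∞ (fun x => (inner ℝ (d2 P.S.f0 x) (d2 P.S.f0 x) : ℝ)) :=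
    Idx.ip_smooth Idx.d2f0_smooth Idx.d2f0_smooth
  have h1 : P.GBd 0 (P.K + 3) (fun (_ : P.Idx) x => (inner ℝ (d2 P.S.f0 x) (d2 P.S.f0 x) : ℝ)) :=
    GBd.fixed s0 _
  have h3 := (GBd_d2f (P := P)).inner GBd_d2f (fun i => i.d2f_smooth) (fun i => i.d2f_smooth)
  exact (h1.mono (by omega) le_rfl).sub h3 (fun i => s0)
    (fun i => Idx.ip_smooth i.d2f_smooth i.d2f_smooth)

/-- form consumed by `close_R`, `close_R0` -/
lemma GBd.form {P : SPar} {g : P.Idx → X2 → V} {J : ℕ} (h : P.GBd 2 J g) {j : ℕ} (hj : j ≤ J) :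
    ∃ C, ∀ i : P.Idx, ∀ x ∈ P.S.N, ‖iteratedFDeriv ℝ j (g i) x‖ ≤ C * i.L ^ (j + 2) + C := by
  obtain ⟨C, hC, h⟩ := h j hj
  exact ⟨C, fun i x hx => (h i x hx).trans (by linarith)⟩

theorem R11_iter (j : ℕ) (hj : j ≤ P.K + 3) : ∃ C, ∀ i : P.Idx, ∀ x ∈ P.S.N,
    ‖iteratedFDeriv ℝ j i.R11 x‖ ≤ C * i.L ^ (j + 2) + C := P.GBd_R11.form hj

theorem R12_iter (j : ℕ) (hj : j ≤ P.K + 3) : ∃ C, ∀ i : P.Idx, ∀ x ∈ P.S.N,
    ‖iteratedFDeriv ℝ j i.R12 x‖ ≤ C * i.L ^ (j + 2) + C := P.GBd_R12.form hj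

theorem R22_iter (j : ℕ) (hj : j ≤ P.K + 3) : ∃ C, ∀ i : P.Idx, ∀ x ∈ P.S.N,
    ‖iteratedFDeriv ℝ j i.R22 x‖ ≤ C * i.L ^ (j + 2) + C := P.GBd_R22.form hj

/-- smoothing errors of the tensor coefficients -/
theorem close_R11 : ∃ C, 0 < C ∧ ∀ i : P.Idx, ∀ x ∈ P.S.W,
    |Smooth.P P.K (i.L ^ 2)⁻¹ i.R11 x - i.R11 x| ≤ C * i.L ^ 4 * (i.L)⁻¹ ^ P.K :=
  P.close_R0 (fun i => i.R11) (fun i => i.R11_smooth) (P.R11_iter P.K (by omega))

theorem close_R12 : ∃ C, 0 < C ∧ ∀ i : P.Idx, ∀ x ∈ P.S.W,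
    |Smooth.P P.K (i.L ^ 2)⁻¹ i.R12 x - i.R12 x| ≤ C * i.L ^ 4 * (i.L)⁻¹ ^ P.K :=
  P.close_R0 (fun i => i.R12) (fun i => i.R12_smooth) (P.R12_iter P.K (by omega))

theorem close_R22 : ∃ C, 0 < C ∧ ∀ i : P.Idx, ∀ x ∈ P.S.W,
    |Smooth.P P.K (i.L ^ 2)⁻¹ i.R22 x - i.R22 x| ≤ C * i.L ^ 4 * (i.L)⁻¹ ^ P.K :=
  P.close_R0 (fun i => i.R22) (fun i => i.R22_smooth) (P.R22_iter P.K (by omega))

end SPar

end Crest.Agent.R216.TE
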