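import Crest.Agent.R216.StageA
import Crest.Agent.R216.StageClose

/-!
# Row 216, Theorem E, module STAGE, part S4b: derivative bounds of the input errors `R11, R12, R22`.
-/

set_option linter.unusedSectionVars false

open Set Topology MeasureTheory Metric
open scoped ContDiff

namespace Crest.Agent.R216.TE

namespace SErr

/-- fixed smooth functions have bounded derivatives on compact sets -/
lemma fixed_bd {V : Type*} [NormedAddCommGroup V] [NormedSpace ℝ V] {g : X2 → V}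
    (hg : ContDiff ℝ ∞ g) {N : Set X2} (hN : IsCompact N) (n : ℕ) :
    ∃ C, 1 ≤ C ∧ ∀ j ≤ n, ∀ x ∈ N, ‖iteratedFDeriv ℝ j g x‖ ≤ C := by
  have h : ∀ j : ℕ, ∃ C, ∀ x ∈ N, ‖iteratedFDeriv ℝ j g x‖ ≤ C := fun j =>
    hN.exists_bound_of_continuousOn
      (hg.continuous_iteratedFDeriv (m := j) (by exact_mod_cast le_top)).continuousOn
  choose C hC using h
  refine ⟨1 + ∑ j ∈ Finset.range (n + 1), |C j|, ?_, fun j hj x hx => ?_⟩
  · have : 0 ≤ ∑ j ∈ Finset.range (n + 1), |C j| := Finset.sum_nonneg (fun _ _ => abs_nonneg _)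
    linarith
  · have h1 : |C j| ≤ ∑ j ∈ Finset.range (n + 1), |C j| :=
      Finset.single_le_sum (f := fun j => |C j|) (fun _ _ => abs_nonneg _)
        (Finset.mem_range.2 (by omega))
    have h2 := hC j x hx
    have h3 := le_abs_self (C j)
    linarith

/-- Leibniz bound -/
lemma bil_bd {E F G : Type*} [NormedAddCommGroup E] [NormedSpace ℝ E] [NormedAddCommGroup F]
    [NormedSpace ℝ F] [NormedAddCommGroup G] [NormedSpace ℝ G] (B : E →L[ℝ] F →L[ℝ] G)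
    (hB : ‖B‖ ≤ 1) {f : X2 → E} {g : X2 → F} (hf : ContDiff ℝ ∞ f) (hg : ContDiff ℝ ∞ g)
    {n : ℕ} {a b M : ℝ} (ha : 0 ≤ a) (hM : 0 ≤ M) {x : X2}
    (h1 : ∀ j ≤ n, ‖iteratedFDeriv ℝ j f x‖ ≤ a * M ^ j)
    (h2 : ∀ j ≤ n, ‖iteratedFDeriv ℝ j g x‖ ≤ b * M ^ j) :
    ‖iteratedFDeriv ℝ n (fun y => B (f y) (g y)) x‖ ≤ 2 ^ n * (a * b) * M ^ n := by
  refine (B.norm_iteratedFDeriv_le_of_bilinear_of_le_one hf hg x (n := n)
    (by exact_mod_cast le_top) hB).trans ?_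
  calc ∑ i ∈ Finset.range (n + 1),
        (n.choose i : ℝ) * ‖iteratedFDeriv ℝ i f x‖ * ‖iteratedFDeriv ℝ (n - i) g x‖
      ≤ ∑ i ∈ Finset.range (n + 1), (n.choose i : ℝ) * (a * b * M ^ n) := by
        refine Finset.sum_le_sum (fun i hi => ?_)
        have hin : i ≤ n := by have := Finset.mem_range.1 hi; omega
        have e1 := h1 i hin
        have e2 := h2 (n - i) (by omega)
        have hM' : M ^ n = M ^ i * M ^ (n - i) := by rw [← pow_add]; congr 1; omega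
        calc (n.choose i : ℝ) * ‖iteratedFDeriv ℝ i f x‖ * ‖iteratedFDeriv ℝ (n - i) g x‖
            = (n.choose i : ℝ) * (‖iteratedFDeriv ℝ i f x‖ * ‖iteratedFDeriv ℝ (n - i) g x‖) := by
              ring
          _ ≤ (n.choose i : ℝ) * ((a * M ^ i) * (b * M ^ (n - i))) := by
              apply mul_le_mul_of_nonneg_left _ (Nat.cast_nonneg _)
              exact mul_le_mul e1 e2 (norm_nonneg _) (by positivity)
          _ = _ := by rw [hM']; ring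
    _ = 2 ^ n * (a * b) * M ^ n := by
        rw [← Finset.sum_mul]
        have : ∑ i ∈ Finset.range (n + 1), (n.choose i : ℝ) = 2 ^ n := by
          exact_mod_cast Nat.sum_range_choose n
        rw [this]; ring

lemma innerSL_norm : ‖(innerSL ℝ : E4 →L[ℝ] E4 →L[ℝ] ℝ)‖ ≤ 1 := norm_innerSL_le ℝ

/-- bound of inner products of first derivatives -/
lemma inner_bd {f g : X2 → E4} (hf : ContDiff ℝ ∞ f) (hg : ContDiff ℝ ∞ g) {n : ℕ} {M : ℝ}
    (hM : 0 ≤ M) {x : X2} (h1 : ∀ j ≤ n, ‖iteratedFDeriv ℝ j f x‖ ≤ M * M ^ j)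
    (h2 : ∀ j ≤ n, ‖iteratedFDeriv ℝ j g x‖ ≤ M * M ^ j) :
    ‖iteratedFDeriv ℝ n (fun y => (inner ℝ (f y) (g y) : ℝ)) x‖ ≤ 2 ^ n * M ^ (n + 2) := by
  have := bil_bd (innerSL ℝ) innerSL_norm hf hg hM hM h1 h2
  refine this.trans (le_of_eq ?_)
  rw [pow_add]; ring

lemma st_all (n : ℕ) : ∃ C, 1 ≤ C ∧ ∀ j ≤ n, ∀ y : ℝ,
    ‖iteratedFDeriv ℝ j Real.smoothTransition y‖ ≤ C := by
  choose C hC0 hC using Prof.st_bdd
  refine ⟨1 + ∑ j ∈ Finset.range (n + 1), C j, ?_, fun j hj y => ?_⟩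
  · have : 0 ≤ ∑ j ∈ Finset.range (n + 1), C j := Finset.sum_nonneg (fun j _ => hC0 j)
    linarith
  · rw [norm_iteratedFDeriv_eq_norm_iteratedDeriv, Real.norm_eq_abs]
    have h1 : C j ≤ ∑ j ∈ Finset.range (n + 1), C j :=
      Finset.single_le_sum (f := fun j => C j) (fun j _ => hC0 j) (Finset.mem_range.2 (by omega))
    have := hC j y
    linarith

/-- derivatives of `st (c u - 1)` -/
lemma st_comp_bd {u : X2 → ℝ} (hu : ContDiff ℝ ∞ u) {N : Set X2} (hN : IsCompact N) (n : ℕ) :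
    ∃ C, 1 ≤ C ∧ ∀ c M : ℝ, 0 ≤ c → 1 ≤ M → c ≤ M → ∀ j ≤ n, ∀ x ∈ N,
      ‖iteratedFDeriv ℝ j (fun y => Real.smoothTransition (c * u y - 1)) x‖ ≤ C * M ^ j := by
  obtain ⟨Cu, hCu1, hCu⟩ := fixed_bd hu hN n
  obtain ⟨Cs, hCs1, hCs⟩ := st_all n
  refine ⟨(n.factorial : ℝ) * Cs * Cu ^ n, ?_, fun c M hc hM hcM j hj x hx => ?_⟩
  · have h1 : (1:ℝ) ≤ n.factorial := by exact_mod_cast Nat.factorial_pos n
    have h2 : 1 ≤ Cu ^ n := one_le_pow₀ hCu1
    have h3 : 1 ≤ (n.factorial : ℝ) * Cs := by nlinarith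
    nlinarith
  · have hf : ContDiff ℝ ∞ (fun y => c * u y - 1) := (contDiff_const.mul hu).sub contDiff_const
    have hD : ∀ i, 1 ≤ i → i ≤ j → ‖iteratedFDeriv ℝ i (fun y => c * u y - 1) x‖ ≤ (M * Cu) ^ i := by
      intro i hi hij
      have e1 : iteratedFDeriv ℝ i (fun y => c * u y - 1) x = c • iteratedFDeriv ℝ i u x := by
        have h1 : (fun y => c * u y - 1) = (fun y => (fun z => c • u z) y - (fun _ => (1:ℝ)) y) := by
          funext y; simp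
        rw [h1, fun_iteratedFDeriv_sub_apply
          ((hu.const_smul c).of_le (by exact_mod_cast le_top)).contDiffAt
          contDiff_const.contDiffAt]
        rw [iteratedFDeriv_const_smul_apply' (hu.of_le (by exact_mod_cast le_top)).contDiffAt]
        have h2 : iteratedFDeriv ℝ i (fun _ : X2 => (1:ℝ)) x = 0 := by
          have := iteratedFDeriv_const_of_ne (𝕜 := ℝ) (E := X2) (n := i) (by omega) (1:ℝ)
          rw [this]; rfl
        rw [h2, sub_zero]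
      rw [e1, norm_smul, Real.norm_of_nonneg hc]
      have h3 := hCu i (hij.trans hj) x hx
      calc c * ‖iteratedFDeriv ℝ i u x‖ ≤ M * Cu :=
            mul_le_mul hcM h3 (norm_nonneg _) (by linarith)
        _ = (M * Cu) ^ 1 := (pow_one _).symm
        _ ≤ (M * Cu) ^ i := pow_le_pow_right₀ (by nlinarith) hi
    have h4 := norm_iteratedFDeriv_comp_le (g := Real.smoothTransition)
      (f := fun y => c * u y - 1) (N := ∞) Real.smoothTransition.contDiff hf (n := j)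
      (by exact_mod_cast le_top) x (fun i hi => hCs i (hi.trans hj) _) hD
    refine h4.trans ?_
    have h5 : (j.factorial : ℝ) ≤ n.factorial := by exact_mod_cast Nat.factorial_le hj
    have h6 : Cu ^ j ≤ Cu ^ n := pow_le_pow_right₀ hCu1 hj
    calc (j.factorial : ℝ) * Cs * (M * Cu) ^ j = ((j.factorial : ℝ) * Cs * Cu ^ j) * M ^ j := by
          rw [mul_pow]; ring
      _ ≤ ((n.factorial : ℝ) * Cs * Cu ^ n) * M ^ j := by gcongr

end SErr

open SErr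

namespace SPar

lemma Idx.l_le {P : SPar} (i : P.Idx) : 2 * i.l ≤ (800 * P.k : ℕ) * i.L := by
  have h1 := i.l_eq
  have h2 : Real.log i.L ≤ i.L := (Real.log_le_sub_one_of_pos i.L_pos).trans (by linarith)
  rw [h1]
  push_cast
  have : (0:ℝ) ≤ P.k := Nat.cast_nonneg _
  nlinarith

/-- `A² (1 - κ)` -/
lemma amp_bd (P : SPar) (n : ℕ) : ∃ C, 0 ≤ C ∧ ∀ i : P.Idx, ∀ x ∈ P.S.N,
    ‖iteratedFDeriv ℝ n (fun x => P.S.A x ^ 2 * (1 - Prof.kap i.l (P.S.u x))) x‖ ≤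
      C * i.L ^ n := by
  have hA : ContDiff ℝ ∞ P.S.A := by
    have h1 : ContDiff ℝ ∞ (fun x => expNegInvGlue (P.S.u x)) :=
      expNegInvGlue.contDiff.comp P.S.h.hu
    exact h1.mul P.S.h.hβ
  obtain ⟨CA, hCA1, hCA⟩ := fixed_bd hA P.S.hN n
  obtain ⟨Cs, hCs1, hCs⟩ := st_comp_bd P.S.h.hu P.S.hN n
  set D : ℝ := ((800 * P.k : ℕ) : ℝ) with hD
  have hD1 : 1 ≤ D := by
    have := P.hk
    have h2 : 1 ≤ 800 * P.k := by omega
    rw [hD]; exact_mod_cast h2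
  refine ⟨2 ^ n * ((2 ^ n * (CA * Cs)) * (2 ^ n * (CA * Cs))) * D ^ n, by positivity,
    fun i x hx => ?_⟩
  set M : ℝ := D * i.L with hM
  have hM1 : 1 ≤ M := by have := i.L_one; nlinarith
  have hcM : 2 * i.l ≤ M := i.l_le
  have hl := i.l_pos
  have hs : ContDiff ℝ ∞ (fun y => Real.smoothTransition (2 * i.l * P.S.u y - 1)) :=
    Real.smoothTransition.contDiff.comp ((contDiff_const.mul P.S.h.hu).sub contDiff_const)
  have b1 : ∀ j ≤ n, ‖iteratedFDeriv ℝ j P.S.A x‖ ≤ CA * M ^ j := by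
    intro j hj
    refine (hCA j hj x hx).trans ?_
    exact le_mul_of_one_le_right (by linarith) (one_le_pow₀ hM1)
  have b2 : ∀ j ≤ n, ‖iteratedFDeriv ℝ j
      (fun y => Real.smoothTransition (2 * i.l * P.S.u y - 1)) x‖ ≤ Cs * M ^ j := by
    intro j hj
    exact hCs (2 * i.l) M (by linarith) hM1 hcM j hj x hx
  set p : X2 → ℝ := fun y => P.S.A y * Real.smoothTransition (2 * i.l * P.S.u y - 1) with hp
  have hpc : ContDiff ℝ ∞ p := hA.mul hs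
  have b3 : ∀ j ≤ n, ‖iteratedFDeriv ℝ j p x‖ ≤ (2 ^ n * (CA * Cs)) * M ^ j := by
    intro j hj
    have h := bil_bd (ContinuousLinearMap.mul ℝ ℝ) (by simp) hA hs (n := j) (a := CA)
      (b := Cs) (M := M) (by linarith) (by linarith) (x := x) (fun m hm => b1 m (hm.trans hj))
      (fun m hm => b2 m (hm.trans hj))
    refine (le_of_eq_of_le rfl h).trans ?_
    have : (2:ℝ) ^ j ≤ 2 ^ n := pow_le_pow_right₀ (by norm_num) hj
    gcongr
  have b4 : ‖iteratedFDeriv ℝ n (fun y => p y * p y) x‖ ≤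
      2 ^ n * ((2 ^ n * (CA * Cs)) * (2 ^ n * (CA * Cs))) * M ^ n := by
    have h := bil_bd (ContinuousLinearMap.mul ℝ ℝ) (by simp) hpc hpc (n := n)
      (a := 2 ^ n * (CA * Cs)) (b := 2 ^ n * (CA * Cs)) (M := M) (by positivity) (by linarith)
      (x := x) b3 b3
    exact le_of_eq_of_le rfl h
  have e : (fun x => P.S.A x ^ 2 * (1 - Prof.kap i.l (P.S.u x))) =
      fun y => (1 - Real.exp (-(2 * i.l))) • ((fun y => p y * p y) y) := by
    funext y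
    simp only [Prof.kap, hp, smul_eq_mul]
    ring
  rw [e, iteratedFDeriv_const_smul_apply'
    ((hpc.mul hpc).of_le (by exact_mod_cast le_top)).contDiffAt, norm_smul]
  have h0 : ‖(1 - Real.exp (-(2 * i.l)))‖ ≤ 1 := by
    rw [Real.norm_eq_abs, abs_of_nonneg (Prof.one_sub_exp_nonneg hl.le)]
    have := Real.exp_pos (-(2 * i.l))
    linarith
  calc ‖(1 - Real.exp (-(2 * i.l)))‖ * ‖iteratedFDeriv ℝ n (fun y => p y * p y) x‖
      ≤ 1 * (2 ^ n * ((2 ^ n * (CA * Cs)) * (2 ^ n * (CA * Cs))) * M ^ n) :=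
        mul_le_mul h0 b4 (norm_nonneg _) zero_le_one
    _ = _ := by rw [hM, mul_pow]; ring

/-- inner products of the fixed map -/
lemma fixed_inner_bd (P : SPar) {g h : X2 → E4} (hg : ContDiff ℝ ∞ g) (hh : ContDiff ℝ ∞ h)
    (n : ℕ) : ∃ C, 0 ≤ C ∧ ∀ x ∈ P.S.N,
    ‖iteratedFDeriv ℝ n (fun y => (inner ℝ (g y) (h y) : ℝ)) x‖ ≤ C := by
  obtain ⟨C, hC1, hC⟩ := fixed_bd (hg.inner ℝ hh) P.S.hN n
  exact ⟨C, by linarith, fun x hx => hC n le_rfl x hx⟩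

lemma Idx.d1_bd {P : SPar} (i : P.Idx) {x : X2} (hx : x ∈ P.S.N) :
    ∀ j ≤ P.K, ‖iteratedFDeriv ℝ j (d1 i.f) x‖ ≤ i.L * i.L ^ j := by
  intro j hj
  refine (SClose.norm_iteratedFDeriv_d1_le i.hf j x).trans ?_
  refine (i.bd (j + 1) (by omega) (by omega) x hx).trans (le_of_eq ?_)
  rw [pow_succ]; ring

lemma Idx.d2_bd {P : SPar} (i : P.Idx) {x : X2} (hx : x ∈ P.S.N) :
    ∀ j ≤ P.K, ‖iteratedFDeriv ℝ j (d2 i.f) x‖ ≤ i.L * i.L ^ j := by
  intro j hj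
  refine (SClose.norm_iteratedFDeriv_d2_le i.hf j x).trans ?_
  refine (i.bd (j + 1) (by omega) (by omega) x hx).trans (le_of_eq ?_)
  rw [pow_succ]; ring

/-- difference of two smooth functions -/
lemma iter_sub_le {g h : X2 → ℝ} (hg : ContDiff ℝ ∞ g) (hh : ContDiff ℝ ∞ h) (n : ℕ) (x : X2) :
    ‖iteratedFDeriv ℝ n (fun y => g y - h y) x‖ ≤
      ‖iteratedFDeriv ℝ n g x‖ + ‖iteratedFDeriv ℝ n h x‖ := by
  have e : iteratedFDeriv ℝ n (fun y => g y - h y) x =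
      iteratedFDeriv ℝ n g x - iteratedFDeriv ℝ n h x :=
    fun_iteratedFDeriv_sub_apply (hg.of_le (by exact_mod_cast le_top)).contDiffAt
      (hh.of_le (by exact_mod_cast le_top)).contDiffAt
  rw [e]
  exact norm_sub_le _ _

lemma iter_add_le {g h : X2 → ℝ} (hg : ContDiff ℝ ∞ g) (hh : ContDiff ℝ ∞ h) (n : ℕ) (x : X2) :
    ‖iteratedFDeriv ℝ n (fun y => g y + h y) x‖ ≤
      ‖iteratedFDeriv ℝ n g x‖ + ‖iteratedFDeriv ℝ n h x‖ := by
  have e : iteratedFDeriv ℝ n (fun y => g y + h y) x =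
      iteratedFDeriv ℝ n g x + iteratedFDeriv ℝ n h x :=
    fun_iteratedFDeriv_add_apply (hg.of_le (by exact_mod_cast le_top)).contDiffAt
      (hh.of_le (by exact_mod_cast le_top)).contDiffAt
  rw [e]
  exact norm_add_le _ _

lemma smooth_amp (P : SPar) (i : P.Idx) :
    ContDiff ℝ ∞ (fun x => P.S.A x ^ 2 * (1 - Prof.kap i.l (P.S.u x))) := by
  have hA : ContDiff ℝ ∞ P.S.A := by
    have h1 : ContDiff ℝ ∞ (fun x => expNegInvGlue (P.S.u x)) :=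
      expNegInvGlue.contDiff.comp P.S.h.hu
    exact h1.mul P.S.h.hβ
  exact (hA.pow 2).mul (contDiff_const.sub ((Prof.contDiff_kap _).comp P.S.h.hu))

theorem R11_bd (P : SPar) : ∃ C, ∀ i : P.Idx, ∀ x ∈ P.S.N,
    ‖iteratedFDeriv ℝ P.K (i.R11) x‖ ≤ C * i.L ^ (P.K + 2) + C := by
  have h0 : ContDiff ℝ ∞ (d1 P.S.f0) := SClose.contDiff_d1 P.S.hf0
  obtain ⟨C1, hC1, h1⟩ := P.fixed_inner_bd h0 h0 P.K
  obtain ⟨C2, hC2, h2⟩ := P.amp_bd P.K
  refine ⟨C1 + C2 + 2 ^ P.K, fun i x hx => ?_⟩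
  have hf := SClose.contDiff_d1 i.hf
  have h3 := inner_bd hf hf i.L_pos.le (i.d1_bd hx) (i.d1_bd hx)
  have s1 := h0.inner ℝ h0
  have s2 := P.smooth_amp i
  have s3 := hf.inner ℝ hf
  have e1 := iter_sub_le (s1.add s2) s3 P.K x
  have e2 := iter_add_le s1 s2 P.K x
  have e3 := h1 x hx
  have e4 := h2 i x hx
  have hL1 := i.L_one
  have p1 : i.L ^ P.K ≤ i.L ^ (P.K + 2) := pow_le_pow_right₀ hL1 (by omega)
  have p2 : (0:ℝ) ≤ i.L ^ (P.K + 2) := by have := i.L_pos; positivity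
  have p3 : (0:ℝ) ≤ 2 ^ P.K := by positivity
  have : ‖iteratedFDeriv ℝ P.K i.R11 x‖ ≤ C1 + C2 * i.L ^ P.K + 2 ^ P.K * i.L ^ (P.K + 2) :=
    e1.trans (add_le_add (e2.trans (add_le_add e3 e4)) h3)
  refine this.trans ?_
  nlinarith [mul_le_mul_of_nonneg_left p1 hC2, mul_nonneg hC1 p2]

theorem R12_bd (P : SPar) : ∃ C, ∀ i : P.Idx, ∀ x ∈ P.S.N,
    ‖iteratedFDeriv ℝ P.K (i.R12) x‖ ≤ C * i.L ^ (P.K + 2) + C := by
  have h0 : ContDiff ℝ ∞ (d1 P.S.f0) := SClose.contDiff_d1 P.S.hf0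
  have h0' : ContDiff ℝ ∞ (d2 P.S.f0) := SClose.contDiff_d2 P.S.hf0
  obtain ⟨C1, hC1, h1⟩ := P.fixed_inner_bd h0 h0' P.K
  refine ⟨C1 + 2 ^ P.K, fun i x hx => ?_⟩
  have hf := SClose.contDiff_d1 i.hf
  have hf' := SClose.contDiff_d2 i.hf
  have h3 := inner_bd hf hf' i.L_pos.le (i.d1_bd hx) (i.d2_bd hx)
  have e1 := iter_sub_le (h0.inner ℝ h0') (hf.inner ℝ hf') P.K x
  have e3 := h1 x hx
  have p2 : (0:ℝ) ≤ i.L ^ (P.K + 2) := by have := i.L_pos; positivity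
  have p3 : (0:ℝ) ≤ 2 ^ P.K := by positivity
  have : ‖iteratedFDeriv ℝ P.K i.R12 x‖ ≤ C1 + 2 ^ P.K * i.L ^ (P.K + 2) :=
    e1.trans (add_le_add e3 h3)
  refine this.trans ?_
  nlinarith [mul_nonneg hC1 p2]

theorem R22_bd (P : SPar) : ∃ C, ∀ i : P.Idx, ∀ x ∈ P.S.N,
    ‖iteratedFDeriv ℝ P.K (i.R22) x‖ ≤ C * i.L ^ (P.K + 2) + C := by
  have h0 : ContDiff ℝ ∞ (d2 P.S.f0) := SClose.contDiff_d2 P.S.hf0
  obtain ⟨C1, hC1, h1⟩ := P.fixed_inner_bd h0 h0 P.K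
  refine ⟨C1 + 2 ^ P.K, fun i x hx => ?_⟩
  have hf := SClose.contDiff_d2 i.hf
  have h3 := inner_bd hf hf i.L_pos.le (i.d2_bd hx) (i.d2_bd hx)
  have e1 := iter_sub_le (h0.inner ℝ h0) (hf.inner ℝ hf) P.K x
  have e3 := h1 x hx
  have p2 : (0:ℝ) ≤ i.L ^ (P.K + 2) := by have := i.L_pos; positivity
  have p3 : (0:ℝ) ≤ 2 ^ P.K := by positivity
  have : ‖iteratedFDeriv ℝ P.K i.R22 x‖ ≤ C1 + 2 ^ P.K * i.L ^ (P.K + 2) :=
    e1.trans (add_le_add e3 h3)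
  refine this.trans ?_
  nlinarith [mul_nonneg hC1 p2]

end SPar

end Crest.Agent.R216.TE
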