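import Crest.Agent.R216.StageA

/-!
# Row 216, Theorem E, module STAGE, piece T3: outside the domain of the engine.
-/

set_option linter.unusedSectionVars false

open Set Topology MeasureTheory Metric
open scoped ContDiff

namespace Crest.Agent.R216.TE
namespace SPar
variable {P : SPar}

lemma Idx.two_l_u_lt (i : P.Idx) {x : X2} (hx : 2 * i.l' * P.S.u x - 1 < (i.Kc)⁻¹) :
    2 * i.l * P.S.u x < 1 := by
  have h1 := i.l'_ge_l
  have h2 := i.l_ge
  have h3 : (1 : ℝ) ≤ i.Kc := by unfold Idx.Kc; have := i.one_le_l'; linarith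
  have h4 : (i.Kc)⁻¹ ≤ 1 := inv_le_one_of_one_le₀ h3
  rcases le_or_gt (P.S.u x) 0 with hu | hu
  · have : i.l * P.S.u x ≤ 0 := mul_nonpos_of_nonneg_of_nonpos i.l_pos.le hu
    nlinarith
  · have h5 : 800 * i.l * P.S.u x ≤ i.l' * P.S.u x := mul_le_mul_of_nonneg_right h1 hu.le
    have h6 : i.l' * P.S.u x < 1 := by nlinarith
    nlinarith

/-- outside the domain of the engine the missing metric is negligible -/
theorem far (P : SPar) : ∃ C, 0 < C ∧ ∀ i : P.Idx, ∀ x, 2 * i.l' * P.S.u x - 1 < (i.Kc)⁻¹ →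
    2 * i.l * P.S.u x < 1 ∧
    |P.S.A x ^ 2 * (1 - Prof.kap i.l' (P.S.u x))| ≤ C * Real.exp (-(28 * i.l')) := by
  obtain ⟨C, hC, h⟩ := P.a_le_tail
  refine ⟨C ^ 2, by positivity, fun i x hx => ?_⟩
  have h1 := i.two_l_u_lt hx
  refine ⟨h1, ?_⟩
  rcases le_or_gt (P.S.u x) 0 with hu | hu
  · have hA : P.S.A x = 0 := by
      unfold SData.A ampX
      rw [expNegInvGlue.zero_of_nonpos hu, zero_mul]
    rw [hA]
    simp only [ne_eq, OfNat.ofNat_ne_zero, not_false_eq_true, zero_pow, zero_mul, abs_zero]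
    positivity
  · have hxW : x ∈ P.S.W := subset_closure hu
    have h2 := h i x hxW hx.le
    have h3 := i.a_sq x
    rw [Prof.kap_eq_one h1.le] at h3
    rw [← h3, abs_of_nonneg (sq_nonneg _)]
    calc i.a x ^ 2 ≤ (C * Real.exp (-(14 * i.l'))) ^ 2 := pow_le_pow_left₀ (i.a_nonneg x) h2 2
      _ = C ^ 2 * Real.exp (-(28 * i.l')) := by
          rw [mul_pow, ← Real.exp_nat_mul]
          congr 2
          push_cast; ring

end SPar
end Crest.Agent.R216.TE
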