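import Crest.Agent.R216.StageClose

/-!
# Row 216, Theorem E, module STAGE: the open condition `GC` is stable.
-/

set_option linter.unusedSectionVars false

open Set Topology MeasureTheory Metric
open scoped ContDiff

namespace Crest.Agent.R216.TE

namespace SLow

/-- triples `(f₁,f₂,f₂₂)` -/
abbrev E3 := E4 × E4 × E4

lemma continuous_gram : Continuous fun p : E3 => gram p.2.1 p.2.2 := by
  unfold gram
  fun_prop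

lemma continuousOn_ppr {O : Set E3} (hO : ∀ p ∈ O, gram p.2.1 p.2.2 ≠ 0) :
    ContinuousOn (fun p : E3 => ppr p.1 p.2.1 p.2.2) O := by
  have h1 : ContinuousOn (fun p : E3 => (gram p.2.1 p.2.2)⁻¹) O :=
    continuous_gram.continuousOn.inv₀ hO
  have i1 : Continuous fun p : E3 => (inner ℝ p.1 p.2.1 : ℝ) := by fun_prop
  have i2 : Continuous fun p : E3 => (inner ℝ p.1 p.2.2 : ℝ) := by fun_prop
  have i3 : Continuous fun p : E3 => (inner ℝ p.2.2 p.2.2 : ℝ) • p.2.1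
      - (inner ℝ p.2.1 p.2.2 : ℝ) • p.2.2 := by fun_prop
  have i4 : Continuous fun p : E3 => (inner ℝ p.2.1 p.2.1 : ℝ) • p.2.2
      - (inner ℝ p.2.1 p.2.2 : ℝ) • p.2.1 := by fun_prop
  unfold ppr cpr xiB xiC
  exact continuous_fst.continuousOn.sub
    ((i1.continuousOn.smul (h1.smul i3.continuousOn)).add
      (i2.continuousOn.smul (h1.smul i4.continuousOn)))

/-- the compact set of good triples -/
def GT (c B : ℝ) : Set E3 :=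
  {p | (‖p.1‖ ≤ B ∧ ‖p.2.1‖ ≤ B ∧ ‖p.2.2‖ ≤ B ∧ c ≤ gram p.2.1 p.2.2) ∧
    c ≤ ‖ppr p.1 p.2.1 p.2.2‖ ^ 2}

lemma isCompact_GT {c : ℝ} (hc : 0 < c) (B : ℝ) : IsCompact (GT c B) := by
  set C1 : Set E3 := {p | ‖p.1‖ ≤ B ∧ ‖p.2.1‖ ≤ B ∧ ‖p.2.2‖ ≤ B ∧ c ≤ gram p.2.1 p.2.2}
    with hC1
  have e1 : IsClosed {p : E3 | ‖p.1‖ ≤ B} := isClosed_le (by fun_prop) continuous_const
  have e2 : IsClosed {p : E3 | ‖p.2.1‖ ≤ B} := isClosed_le (by fun_prop) continuous_const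
  have e3 : IsClosed {p : E3 | ‖p.2.2‖ ≤ B} := isClosed_le (by fun_prop) continuous_const
  have e4 : IsClosed {p : E3 | c ≤ gram p.2.1 p.2.2} :=
    isClosed_le continuous_const continuous_gram
  have h1 : IsClosed C1 := e1.inter (e2.inter (e3.inter e4))
  have h2 : ContinuousOn (fun p : E3 => ‖ppr p.1 p.2.1 p.2.2‖ ^ 2) C1 :=
    ((continuousOn_ppr (O := C1) fun p hp => (hc.trans_le hp.2.2.2).ne').norm).pow 2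
  have h3 : IsClosed (C1 ∩ (fun p : E3 => ‖ppr p.1 p.2.1 p.2.2‖ ^ 2) ⁻¹' Ici c) :=
    h2.preimage_isClosed_of_isClosed h1 isClosed_Ici
  have h4 : GT c B = C1 ∩ (fun p : E3 => ‖ppr p.1 p.2.1 p.2.2‖ ^ 2) ⁻¹' Ici c := rfl
  rw [h4]
  refine IsCompact.of_isClosed_subset (isCompact_closedBall (0 : E3) B) h3 ?_
  rintro p ⟨⟨h5, h6, h7, _⟩, _⟩
  simp only [mem_closedBall, dist_zero_right, Prod.norm_def]
  exact max_le h5 (max_le h6 h7)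

/-- **The open condition is stable**, quantitatively. -/
theorem exists_delta {c : ℝ} (hc : 0 < c) {c' : ℝ} (hc' : 0 < c') (hcc : c' < c) (B : ℝ) :
    ∃ δ : ℝ, 0 < δ ∧ ∀ A B₁ C A' B' C' : E4, ‖A‖ ≤ B → ‖B₁‖ ≤ B → ‖C‖ ≤ B →
      c ≤ gram B₁ C → c ≤ ‖ppr A B₁ C‖ ^ 2 →
      ‖A' - A‖ < δ → ‖B' - B₁‖ < δ → ‖C' - C‖ < δ →
      c' ≤ gram B' C' ∧ c' ≤ ‖ppr A' B' C'‖ ^ 2 := by
  set O1 : Set E3 := {p | c' < gram p.2.1 p.2.2} with hO1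
  have h1 : IsOpen O1 := isOpen_lt continuous_const continuous_gram
  have h2 : ContinuousOn (fun p : E3 => ‖ppr p.1 p.2.1 p.2.2‖ ^ 2) O1 :=
    ((continuousOn_ppr (O := O1) fun p hp => (hc'.trans hp).ne').norm).pow 2
  have h3 : IsOpen (O1 ∩ (fun p : E3 => ‖ppr p.1 p.2.1 p.2.2‖ ^ 2) ⁻¹' Ioi c') :=
    h2.isOpen_inter_preimage h1 isOpen_Ioi
  have h4 : GT c B ⊆ O1 ∩ (fun p : E3 => ‖ppr p.1 p.2.1 p.2.2‖ ^ 2) ⁻¹' Ioi c' := by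
    rintro p ⟨⟨_, _, _, h5⟩, h6⟩
    exact ⟨hcc.trans_le h5, hcc.trans_le h6⟩
  obtain ⟨δ, hδ, h5⟩ := (isCompact_GT hc B).exists_thickening_subset_open h3 h4
  refine ⟨δ, hδ, fun A B₁ C A' B' C' hA hB hC hg hp h6 h7 h8 => ?_⟩
  have h9 : ((A', B', C') : E3) ∈ thickening δ (GT c B) := by
    rw [mem_thickening_iff]
    refine ⟨(A, B₁, C), ⟨⟨hA, hB, hC, hg⟩, hp⟩, ?_⟩
    simp only [dist_eq_norm]
    exact max_lt h6 (max_lt h7 h8)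
  have h10 := h5 h9
  exact ⟨le_of_lt h10.1, le_of_lt h10.2⟩

end SLow

namespace SPar.Idx
variable {P : SPar} (i : P.Idx)

/-- `L² (L⁻¹)^K ≤ T⁻¹` when `K ≥ 3`. -/
lemma small_le (hK : 3 ≤ P.K) : i.L ^ 2 * (i.L)⁻¹ ^ P.K ≤ P.T⁻¹ := by
  have h1 := i.L_one
  have h2 := i.L_pos
  have hT := P.hT
  have h3 : (i.L)⁻¹ ^ P.K ≤ (i.L)⁻¹ ^ 3 :=
    pow_le_pow_of_le_one (by positivity) (inv_le_one_of_one_le₀ h1) hK
  calc i.L ^ 2 * (i.L)⁻¹ ^ P.K ≤ i.L ^ 2 * (i.L)⁻¹ ^ 3 :=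
        mul_le_mul_of_nonneg_left h3 (by positivity)
    _ = (i.L)⁻¹ := by field_simp
    _ ≤ P.T⁻¹ := inv_anti₀ (by linarith) i.hL

/-- **lower bounds for the smoothed map** -/
theorem low_ft {c' δ : ℝ}
    (h : ∀ A B₁ C A' B' C' : E4, ‖A‖ ≤ P.B0 → ‖B₁‖ ≤ P.B0 → ‖C‖ ≤ P.B0 →
      P.c0 ≤ gram B₁ C → P.c0 ≤ ‖ppr A B₁ C‖ ^ 2 →
      ‖A' - A‖ < δ → ‖B' - B₁‖ < δ → ‖C' - C‖ < δ →
      c' ≤ gram B' C' ∧ c' ≤ ‖ppr A' B' C'‖ ^ 2)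
    (hK : 3 ≤ P.K) (hT : P.T⁻¹ < δ) {x : X2} (hx : x ∈ P.S.W) :
    c' ≤ gram (d2 i.ft x) (d2 (d2 i.ft) x) ∧
    c' ≤ ‖ppr (d1 i.ft x) (d2 i.ft x) (d2 (d2 i.ft) x)‖ ^ 2 := by
  have hxN : x ∈ P.S.N := interior_subset (P.S.sub hx)
  obtain ⟨h1, h2, _, h4⟩ := i.G.1 x hxN
  obtain ⟨h5, h6⟩ := i.G.2 x hx
  obtain ⟨h7, h8, _, h10⟩ := i.close_all hx
  have h11 := i.small_le hK
  exact h _ _ _ _ _ _ h1 h2 h4 h5 h6 (by linarith) (by linarith) (by linarith)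

/-- upper bounds for the smoothed map -/
theorem up_ft (hK : 3 ≤ P.K) {x : X2} (hx : x ∈ P.S.W) :
    ‖d1 i.ft x‖ ≤ P.B0 + 1 ∧ ‖d2 i.ft x‖ ≤ P.B0 + 1 ∧
    ‖d1 (d2 i.ft) x‖ ≤ P.B0 + 1 ∧ ‖d2 (d2 i.ft) x‖ ≤ P.B0 + 1 := by
  have hxN : x ∈ P.S.N := interior_subset (P.S.sub hx)
  obtain ⟨h1, h2, h3, h4⟩ := i.G.1 x hxN
  obtain ⟨h7, h8, h9, h10⟩ := i.close_all hx
  have h11 := i.small_le hK
  have hT : P.T⁻¹ ≤ 1 := inv_le_one_of_one_le₀ (by linarith [P.hT])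
  have key : ∀ a b : E4, ‖a - b‖ ≤ i.L ^ 2 * (i.L)⁻¹ ^ P.K → ‖b‖ ≤ P.B0 → ‖a‖ ≤ P.B0 + 1 := by
    intro a b hab hb
    have := norm_le_norm_add_norm_sub' a b
    linarith
  exact ⟨key _ _ h7 h1, key _ _ h8 h2, key _ _ h9 h3, key _ _ h10 h4⟩

end SPar.Idx

/-- packaged: there is a threshold depending only on `c0`, `B0`. -/
theorem exists_T_low {c0 B0 : ℝ} (hc0 : 0 < c0) :
    ∃ T0 : ℝ, 2 ≤ T0 ∧ ∀ P : SPar, P.c0 = c0 → P.B0 = B0 → 3 ≤ P.K → T0 ≤ P.T →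
      ∀ i : P.Idx, ∀ x ∈ P.S.W,
        c0 / 2 ≤ gram (d2 i.ft x) (d2 (d2 i.ft) x) ∧
        c0 / 2 ≤ ‖ppr (d1 i.ft x) (d2 i.ft x) (d2 (d2 i.ft) x)‖ ^ 2 := by
  obtain ⟨δ, hδ, h⟩ := SLow.exists_delta hc0 (half_pos hc0) (half_lt_self hc0) B0
  refine ⟨max 2 (δ⁻¹ + 1), le_max_left _ _, fun P h1 h2 hK hT i x hx => ?_⟩
  subst h1 h2
  refine i.low_ft h hK ?_ hx
  have h3 : δ⁻¹ + 1 ≤ P.T := (le_max_right _ _).trans hT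
  have h4 : 0 < δ⁻¹ := inv_pos.2 hδ
  rw [inv_lt_comm₀ (by linarith) hδ]
  linarith

/-- the form used by STAGE -/
theorem SPar.low (S : SData) {c0 B0 : ℝ} (hc : 0 < c0) (_hB : 0 < B0) : ∃ T0 : ℝ, ∀ P : SPar,
    P.S = S → P.c0 = c0 → P.B0 = B0 → 3 ≤ P.K → T0 ≤ P.T → ∀ i : P.Idx, ∀ x ∈ P.S.W,
      c0 / 2 ≤ gram (d2 i.ft x) (d2 (d2 i.ft) x) ∧
      Real.sqrt (c0 / 2) ≤ ‖ppr (d1 i.ft x) (d2 i.ft x) (d2 (d2 i.ft) x)‖ := by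
  obtain ⟨T0, _, h⟩ := exists_T_low (B0 := B0) hc
  refine ⟨T0, fun P _ h1 h2 hK hT i x hx => ?_⟩
  obtain ⟨h3, h4⟩ := h P h1 h2 hK hT i x hx
  exact ⟨h3, Real.sqrt_le_iff.2 ⟨norm_nonneg _, h4⟩⟩

end Crest.Agent.R216.TE
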