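import Crest.Agent.R216.StageG
import Crest.Agent.R216.StageLow

/-!
# Row 216, Theorem E, module STAGE: existence of the fixed parameters `SPar` with the
largeness facts.
-/

set_option linter.unusedSectionVars false

open Set Topology MeasureTheory Metric
open scoped ContDiff

namespace Crest.Agent.R216.TE

/-- The parameters exist for every large threshold `T`. -/
theorem exists_SPar (S : SData) {c0 B0 : ℝ} (hc : 0 < c0) (hB : 0 < B0) {k : ℕ} (hk : 1 ≤ k)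
    {K : ℕ} (_hK : 3 ≤ K) :
    ∃ T0 : ℝ, 2 ≤ T0 ∧ ∀ T : ℝ, T0 ≤ T →
      ∃ P : SPar, P.S = S ∧ P.c0 = c0 ∧ P.B0 = B0 ∧ P.k = k ∧ P.K = K ∧ P.T = T := by
  obtain ⟨r, hr, hsub⟩ := S.exists_r
  refine ⟨max 2 (K * r⁻¹), le_max_left _ _, fun T hT => ?_⟩
  have hT2 : 2 ≤ T := (le_max_left _ _).trans hT
  have hTr : K * r⁻¹ ≤ T := (le_max_right _ _).trans hT
  have hT0 : 0 < T := by linarith
  refine ⟨⟨S, c0, B0, hc, hB, k, hk, K, T, hT2, fun x hx => ?_⟩, rfl, rfl, rfl, rfl, rfl, rfl⟩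
  refine (closedBall_subset_closedBall ?_).trans (hsub x hx)
  have h1 : (K : ℝ) ≤ T * r := by
    rw [← div_eq_mul_inv, div_le_iff₀ hr] at hTr
    exact hTr
  have h2 : T * r ≤ T ^ 2 * r := by
    have : T ≤ T ^ 2 := by nlinarith
    exact mul_le_mul_of_nonneg_right this hr.le
  rw [← div_eq_mul_inv, div_le_iff₀ (by positivity)]
  linarith

namespace SPar

/-- enlarge the threshold -/
def raise (P : SPar) (T : ℝ) (hT : P.T ≤ T) : SPar where
  S := P.S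
  c0 := P.c0
  B0 := P.B0
  c0pos := P.c0pos
  B0pos := P.B0pos
  k := P.k
  hk := P.hk
  K := P.K
  T := T
  hT := P.hT.trans hT
  hr := fun x hx => by
    refine (closedBall_subset_closedBall ?_).trans (P.hr x hx)
    have h1 := P.hT
    have : (T ^ 2)⁻¹ ≤ (P.T ^ 2)⁻¹ := by
      apply inv_anti₀ (by positivity)
      exact pow_le_pow_left₀ (by linarith) hT 2
    exact mul_le_mul_of_nonneg_left this (Nat.cast_nonneg _)

section raise
variable (P : SPar) {T : ℝ} (hT : P.T ≤ T)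

@[simp] lemma raise_S : (P.raise T hT).S = P.S := rfl
@[simp] lemma raise_c0 : (P.raise T hT).c0 = P.c0 := rfl
@[simp] lemma raise_B0 : (P.raise T hT).B0 = P.B0 := rfl
@[simp] lemma raise_k : (P.raise T hT).k = P.k := rfl
@[simp] lemma raise_K : (P.raise T hT).K = P.K := rfl
@[simp] lemma raise_T : (P.raise T hT).T = T := rfl

/-- an index of the raised parameters is an index of the old ones -/
def castIdx (i : (P.raise T hT).Idx) : P.Idx where
  L := i.L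
  hL := hT.trans i.hL
  k' := i.k'
  hk' := i.hk'
  f := i.f
  hf := i.hf
  G := i.G
  st := i.st
  bd := i.bd

variable (i : (P.raise T hT).Idx)

@[simp] lemma castIdx_L : (P.castIdx hT i).L = i.L := rfl
@[simp] lemma castIdx_k' : (P.castIdx hT i).k' = i.k' := rfl
@[simp] lemma castIdx_f : (P.castIdx hT i).f = i.f := rfl
@[simp] lemma castIdx_l : (P.castIdx hT i).l = i.l := rfl
@[simp] lemma castIdx_l' : (P.castIdx hT i).l' = i.l' := rfl
@[simp] lemma castIdx_Kc : (P.castIdx hT i).Kc = i.Kc := rfl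
@[simp] lemma castIdx_D : (P.castIdx hT i).D = i.D := rfl
@[simp] lemma castIdx_a : (P.castIdx hT i).a = i.a := rfl
@[simp] lemma castIdx_ft : (P.castIdx hT i).ft = i.ft := rfl
@[simp] lemma castIdx_R11 : (P.castIdx hT i).R11 = i.R11 := rfl
@[simp] lemma castIdx_R12 : (P.castIdx hT i).R12 = i.R12 := rfl
@[simp] lemma castIdx_R22 : (P.castIdx hT i).R22 = i.R22 := rfl

end raise

end SPar

/-- Parameters with all the largeness facts and an arbitrarily large threshold. -/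
theorem exists_SPar_ge (S : SData) {c0 B0 : ℝ} (hc : 0 < c0) (hB : 0 < B0) {k : ℕ} (hk : 1 ≤ k)
    {K : ℕ} (hK : 3 ≤ K) (Tm : ℝ) :
    ∃ P : SPar, P.S = S ∧ P.c0 = c0 ∧ P.B0 = B0 ∧ P.k = k ∧ P.K = K ∧ Tm ≤ P.T ∧ P.Large1 ∧
      (∀ i : P.Idx, ∀ x ∈ P.S.W, c0 / 2 ≤ gram (d2 i.ft x) (d2 (d2 i.ft) x) ∧
        Real.sqrt (c0 / 2) ≤ ‖ppr (d1 i.ft x) (d2 i.ft x) (d2 (d2 i.ft) x)‖) := by
  obtain ⟨T1, hT1, h1⟩ := exists_SPar S hc hB hk hK
  obtain ⟨P, hS, hc0, hB0, hPk, hPK, hPT⟩ := h1 T1 le_rfl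
  obtain ⟨T2, h2⟩ := P.large1_of
  obtain ⟨T3, h3⟩ := SPar.low S hc hB
  have hT : P.T ≤ max P.T (max T2 (max T3 Tm)) := le_max_left _ _
  refine ⟨P.raise _ hT, hS, hc0, hB0, hPk, hPK, ?_, ?_, ?_⟩
  · exact (((le_max_right _ _).trans (le_max_right _ _)).trans (le_max_right _ _))
  · intro i x hx z hz hu
    exact h2 (P.castIdx hT i) (((le_max_left _ _).trans (le_max_right _ _)).trans i.hL)
      x hx z hz hu
  · refine h3 (P.raise _ hT) hS hc0 hB0 ?_
      (((le_max_left _ _).trans (le_max_right _ _)).trans (le_max_right _ _))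
    show 3 ≤ P.K
    rw [hPK]; exact hK

/-- Parameters with all the largeness facts. -/
theorem exists_SPar' (S : SData) {c0 B0 : ℝ} (hc : 0 < c0) (hB : 0 < B0) {k : ℕ} (hk : 1 ≤ k)
    {K : ℕ} (hK : 3 ≤ K) :
    ∃ P : SPar, P.S = S ∧ P.c0 = c0 ∧ P.B0 = B0 ∧ P.k = k ∧ P.K = K ∧ P.Large1 ∧
      (∀ i : P.Idx, ∀ x ∈ P.S.W, c0 / 2 ≤ gram (d2 i.ft x) (d2 (d2 i.ft) x) ∧
        Real.sqrt (c0 / 2) ≤ ‖ppr (d1 i.ft x) (d2 i.ft x) (d2 (d2 i.ft) x)‖) := by
  obtain ⟨P, h1, h2, h3, h4, h5, _, h6, h7⟩ := exists_SPar_ge S hc hB hk hK 0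
  exact ⟨P, h1, h2, h3, h4, h5, h6, h7⟩

end Crest.Agent.R216.TE
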