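import Crest.Agent.R216.StageA

/-!
# Row 216, Theorem E, module STAGE: the cut-off.
-/

set_option linter.unusedSectionVars false

open Set Topology MeasureTheory Metric
open scoped ContDiff

namespace Crest.Agent.R216.TE
namespace SPar

/-- the cut-off -/
noncomputable def th (P : SPar) (i : P.Idx) : X2 → ℝ := cutoff P.S.u i.l' i.Kc

lemma th_smooth (P : SPar) (i : P.Idx) : ContDiff ℝ ∞ (P.th i) :=
  contDiff_cutoff _ _ P.S.h.hu

lemma th_supp (P : SPar) (i : P.Idx) : tsupport (P.th i) ⊆ i.D := by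
  have hK := Idx.Kc_pos i
  have hcl : IsClosed {x : X2 | 3 ≤ 4 * i.Kc * (2 * i.l' * P.S.u x - 1)} := by
    have := P.S.h.hu.continuous
    exact isClosed_le continuous_const (by fun_prop)
  have h1 : tsupport (P.th i) ⊆ {x : X2 | 3 ≤ 4 * i.Kc * (2 * i.l' * P.S.u x - 1)} := by
    refine closure_minimal (fun x hx => ?_) hcl
    by_contra hc
    apply hx
    have : 4 * i.Kc * (2 * i.l' * P.S.u x - 1) - 3 ≤ 0 := by
      have := not_le.1 (show ¬ 3 ≤ 4 * i.Kc * (2 * i.l' * P.S.u x - 1) from hc)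
      linarith
    exact Real.smoothTransition.zero_of_nonpos this
  refine h1.trans (fun x hx => ?_)
  have h2 : 3 ≤ 4 * i.Kc * (2 * i.l' * P.S.u x - 1) := hx
  show (2 * i.Kc)⁻¹ < 2 * i.l' * P.S.u x - 1
  rw [inv_lt_iff_one_lt_mul₀ (by linarith)]
  linarith

lemma th_nonneg (P : SPar) (i : P.Idx) (x : X2) : 0 ≤ P.th i x :=
  Real.smoothTransition.nonneg _

lemma th_le (P : SPar) (i : P.Idx) (x : X2) : P.th i x ≤ 1 :=
  Real.smoothTransition.le_one _

lemma th_one (P : SPar) (i : P.Idx) {x : X2} (h : (i.Kc)⁻¹ ≤ 2 * i.l' * P.S.u x - 1) :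
    P.th i x = 1 := by
  have hK := Idx.Kc_pos i
  refine Real.smoothTransition.one_of_one_le ?_
  rw [inv_le_iff_one_le_mul₀ hK] at h
  linarith

open Fam in
lemma th_B (P : SPar) : P.efam.toFam.B (fun _ _ => 1) (fun i : P.Idx => lift (P.th i)) := by
  obtain ⟨C0, hC0, hcost⟩ := (P.profHyp).cost
  have := B.comp_affine (𝓕 := P.fam) P.S.hW (fun i => Idx.D_sub_W i) P.S.h.hu
    (c := fun i => 8 * Idx.Kc i * Idx.l' i)
    (b := fun i => - 4 * Idx.Kc i - 3) (m := fun _ => 1) (fun _ => one_pos)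
    ⟨8 * C0, by positivity, fun i => by
      have h1 := (hcost i).2
      have h2 := Idx.l'_pos i
      have h3 := Idx.Kc_pos i
      have h4 : 1 ≤ Idx.Kc i := by
        have := Idx.one_le_l' i
        unfold Idx.Kc; linarith
      rw [abs_of_nonneg (by positivity), mul_one]
      have h5 : Idx.Kc i * Idx.l' i ≤ (2 * Idx.Kc i) ^ 2 * (1 + Idx.l' i) := by
        have e1 : Idx.Kc i ≤ (2 * Idx.Kc i) ^ 2 := by nlinarith
        have e2 : Idx.l' i ≤ 1 + Idx.l' i := by linarith
        exact mul_le_mul e1 e2 h2.le (by positivity)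
      nlinarith⟩
    (w := fun _ _ => 1) (g := fun _ => Real.smoothTransition)
    (fun _ => Real.smoothTransition.contDiff) (fun _ _ _ => zero_le_one) ?_
  · refine this.congr (fun i z _ => ?_)
    simp only [lift, th, cutoff]
    congr 1; ring
  · intro n
    obtain ⟨C, hC, hb⟩ := Prof.st_bdd n
    exact ⟨C + 1, by positivity, fun i x _ => by
      rw [one_pow, mul_one, mul_one]; exact (hb _).trans (by linarith)⟩

end SPar
end Crest.Agent.R216.TE
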