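import Crest.Agent.R216.StageG
import Crest.Agent.R216.StageTh
import Crest.Agent.R216.StageE
import Crest.Agent.R216.StageEb
import Crest.Agent.R216.StageFar
import Crest.Agent.R216.StageBudget
import Crest.Agent.R216.StageT0
import Crest.Agent.R216.Cut
import Crest.Agent.R216.MicroHyp
import Crest.Agent.R216.Engine

/-!
# Row 216, Theorem E, module STAGE: assembly.
-/

set_option linter.unusedSectionVars false
set_option linter.unusedVariables false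

open Set Topology MeasureTheory Metric
open scoped ContDiff

namespace Crest.Agent.R216.TE
namespace SPar

/-- engine data of the stage -/
noncomputable def dat (P : SPar) : EData P.efam :=
  microData P.efam (fun i : P.Idx => i.ft)
    (fun i : P.Idx => Smooth.P P.K (i.L ^ 2)⁻¹ i.R11)
    (fun i : P.Idx => Smooth.P P.K (i.L ^ 2)⁻¹ i.R12)
    (fun i : P.Idx => Smooth.P P.K (i.L ^ 2)⁻¹ i.R22)

/-- quantitative independence of the smoothed maps -/
def Low (P : SPar) : Prop := ∀ i : P.Idx, ∀ x ∈ P.S.W,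
  P.c0 / 2 ≤ gram (d2 i.ft x) (d2 (d2 i.ft) x) ∧
  Real.sqrt (P.c0 / 2) ≤ ‖ppr (d1 i.ft x) (d2 i.ft x) (d2 (d2 i.ft) x)‖

theorem hyp (P : SPar) (hL1 : P.Large1) (hlow : P.Low) : P.dat.Hyp :=
  microData_hyp P.efam _ _ _ _ (fun i => Idx.ft_sm i) P.B_d1 P.B_d2 P.B_d12 P.B_d22
    ⟨P.c0/2, by have := P.c0pos; positivity, fun i x hx => (hlow i x (Idx.D_sub_W i hx)).1⟩
    ⟨Real.sqrt (P.c0/2), Real.sqrt_pos.2 (by have := P.c0pos; positivity),
      fun i x hx => (hlow i x (Idx.D_sub_W i hx)).2⟩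
    (P.G_class hL1 _ (fun i => i.R11_smooth.continuous) (fun i x => i.R11_le x)
      (fun i x h => i.R11_zero h))
    (P.G_class hL1 _ (fun i => i.R12_smooth.continuous) (fun i x => i.R12_le x)
      (fun i x h => i.R12_zero h))
    (P.G_class hL1 _ (fun i => i.R22_smooth.continuous) (fun i x => i.R22_le x)
      (fun i x h => i.R22_zero h))
    P.star' P.bdd2'

theorem cutHyp (P : SPar) (hL1 : P.Large1) (hlow : P.Low) {F : P.efam.I → Q → E4}
    (hF : P.dat.Good F) : P.dat.CutHyp F (fun i => P.th i) where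
  hyp := P.hyp hL1 hlow
  good := hF
  fsm := fun i => Idx.ft_sm i
  θsm := fun i => P.th_smooth i
  θsupp := fun i => P.th_supp i
  θ_nonneg := fun i x => P.th_nonneg i x
  θ_le := fun i x => P.th_le i x
  θB := P.th_B

/-- the correction -/
noncomputable def cv (P : SPar) (F : P.efam.I → Q → E4) (i : P.Idx) : X2 → E4 :=
  fun x => P.dat.cutU F (fun i => P.th i) i (x, x.1 / P.efam.eps i + 0)

lemma inner_alg (A At V B Bt W : E4) : (inner ℝ (A + V) (B + W) : ℝ) =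
    inner ℝ A B + (inner ℝ (At + V) (Bt + W) - inner ℝ At Bt) + inner ℝ V (B - Bt)
      + inner ℝ (A - At) W := by
  simp only [inner_add_left, inner_add_right, inner_sub_left, inner_sub_right]
  ring

lemma inner_alg_le {A At V B Bt W : E4} {s M R e : ℝ} (hV : ‖V‖ ≤ M) (hW : ‖W‖ ≤ M)
    (hA : ‖A - At‖ ≤ s) (hB : ‖B - Bt‖ ≤ s) (hM : 0 ≤ M) (hs : 0 ≤ s)
    (h : |(inner ℝ (At + V) (Bt + W) : ℝ) - (inner ℝ At Bt + R)| ≤ e) :
    |(inner ℝ (A + V) (B + W) : ℝ) - (inner ℝ A B + R)| ≤ e + 2 * M * s := by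
  have h1 : |(inner ℝ V (B - Bt) : ℝ)| ≤ M * s :=
    (abs_real_inner_le_norm _ _).trans (mul_le_mul hV hB (norm_nonneg _) hM)
  have h2 : |(inner ℝ (A - At) W : ℝ)| ≤ s * M :=
    (abs_real_inner_le_norm _ _).trans (mul_le_mul hA hW (norm_nonneg _) hs)
  have e1 : (inner ℝ (A + V) (B + W) : ℝ) - (inner ℝ A B + R) =
      ((inner ℝ (At + V) (Bt + W) : ℝ) - (inner ℝ At Bt + R)) + inner ℝ V (B - Bt)
        + inner ℝ (A - At) W := by
    rw [inner_alg A At V B Bt W]; ring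
  rw [e1]
  calc _ ≤ |((inner ℝ (At + V) (Bt + W) : ℝ) - (inner ℝ At Bt + R))| + |(inner ℝ V (B - Bt) : ℝ)|
        + |(inner ℝ (A - At) W : ℝ)| := (abs_add_le _ _).trans (add_le_add_left (abs_add_le _ _) _)
    _ ≤ e + M * s + s * M := add_le_add (add_le_add h h1) h2
    _ = _ := by ring

section main
variable {P : SPar} {F : P.efam.I → Q → E4}

lemma cv_smooth (h : P.dat.CutHyp F (fun i => P.th i)) (i : P.Idx) : ContDiff ℝ ∞ (P.cv F i) :=
  h.corr_smooth i 0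

lemma cutMap_eq (F : P.efam.I → Q → E4) (i : P.Idx) :
    P.dat.cutMap F (fun i => P.th i) i 0 = fun x => i.ft x + P.cv F i x := rfl

lemma d1_add' {f g : X2 → E4} (hf : ContDiff ℝ ∞ f) (hg : ContDiff ℝ ∞ g) (x : X2) :
    d1 (fun y => f y + g y) x = d1 f x + d1 g x := by
  unfold d1
  rw [fderiv_fun_add (hf.differentiable (by simp) x) (hg.differentiable (by simp) x)]
  rfl

lemma d2_add' {f g : X2 → E4} (hf : ContDiff ℝ ∞ f) (hg : ContDiff ℝ ∞ g) (x : X2) :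
    d2 (fun y => f y + g y) x = d2 f x + d2 g x := by
  unfold d2
  rw [fderiv_fun_add (hf.differentiable (by simp) x) (hg.differentiable (by simp) x)]
  rfl

/-- the correction vanishes near points off the support of the cut-off -/
lemma cv_zero (h : P.dat.CutHyp F (fun i => P.th i)) (i : P.Idx) {x : X2} (hx : x ∉ i.D) :
    P.cv F i =ᶠ[𝓝 x] fun _ => 0 := by
  have h1 : x ∉ tsupport (P.th i) := fun hc => hx (P.th_supp i hc)
  have : ∀ᶠ y in 𝓝 x, y ∉ tsupport (P.th i) := (isClosed_tsupport _).isOpen_compl.mem_nhds h1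
  filter_upwards [this] with y hy
  exact h.zero_off i 0 hy

lemma cv_zero' (h : P.dat.CutHyp F (fun i => P.th i)) (i : P.Idx) {x : X2} (hx : x ∉ i.D) :
    P.cv F i x = 0 := (cv_zero h i hx).self_of_nhds

/-- first derivatives of the correction -/
lemma cv_d (h : P.dat.CutHyp F (fun i => P.th i)) : ∃ C : ℝ, 0 < C ∧ ∀ (i : P.Idx) (x : X2),
    x ∈ i.D → ‖d1 (P.cv F i) x‖ ≤ C * i.a x ∧ ‖d2 (P.cv F i) x‖ ≤ C * i.a x := by
  obtain ⟨C, hC, hb⟩ := h.corr_crude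
  refine ⟨C, hC, fun i x hx => ?_⟩
  have := hb i 0 x hx
  rw [cutMap_eq, d1_add' (Idx.ft_sm i) (cv_smooth h i), d2_add' (Idx.ft_sm i) (cv_smooth h i)] at this
  have e1 : d1 (P.dat.f i) x = d1 i.ft x := rfl
  have e2 : d2 (P.dat.f i) x = d2 i.ft x := rfl
  rw [e1, e2, add_sub_cancel_left, add_sub_cancel_left] at this
  exact this

lemma eps_eq (i : P.Idx) : P.efam.eps i = ((i.L ^ 20)⁻¹) ^ 16 := rfl

lemma Lam_eq (i : P.Idx) : P.efam.Lam i = i.L ^ 2 := rfl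

lemma eps_le (i : P.Idx) : ((i.L ^ 20)⁻¹) ^ 16 ≤ 1 :=
  pow_le_one₀ (inv_nonneg.2 (pow_nonneg (Idx.L_pos i).le _))
    (inv_le_one_of_one_le₀ (one_le_pow₀ (Idx.L_one i)))

/-- bounds of all derivatives of the correction -/
theorem cv_iter (h : P.dat.CutHyp F (fun i => P.th i)) (j : ℕ) : ∃ C : ℝ, 0 < C ∧
    ∀ (i : P.Idx) (x : X2), ‖iteratedFDeriv ℝ j (P.cv F i) x‖ ≤
      C * i.L ^ (400 * j) / i.L ^ (400 * P.k) := by
  obtain ⟨C, hC, hb⟩ := h.corr_iter (fun _ => 0) j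
  obtain ⟨C', hC', ha⟩ := P.a_le_exp
  refine ⟨C * C', by positivity, fun i x => ?_⟩
  have hLp := Idx.L_pos i
  have hL1 := Idx.L_one i
  by_cases hx : x ∈ i.D
  · have h1 := hb i x hx
    refine h1.trans ?_
    rw [eps_eq, Lam_eq]
    have e1 : i.L ^ 2 * (((i.L ^ 20)⁻¹) ^ 16)⁻¹ = i.L ^ 322 := by
      rw [inv_pow, inv_inv, ← pow_mul, ← pow_add]
    have e2 := eps_le i
    have e3 : i.a x ≤ C' * (i.L ^ (400 * P.k))⁻¹ := by
      have := exp_l i 1
      rw [Nat.cast_one, one_mul, one_mul] at this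
      rw [← this]
      exact ha i x (Idx.D_sub_W i hx)
    have h0 : 0 ≤ i.a x := Idx.a_nonneg i x
    have e4 : i.a x * ((i.L ^ 20)⁻¹) ^ 16 ≤ C' * (i.L ^ (400 * P.k))⁻¹ := by
      calc i.a x * ((i.L ^ 20)⁻¹) ^ 16 ≤ i.a x * 1 := mul_le_mul_of_nonneg_left e2 h0
        _ = i.a x := mul_one _
        _ ≤ _ := e3
    have e5 : (i.L ^ 322) ^ j ≤ i.L ^ (400 * j) := by
      rw [← pow_mul]
      exact pow_le_pow_right₀ hL1 (by omega)
    rw [e1]
    show C * ((i.L ^ 322) ^ j * (i.a x * ((i.L ^ 20)⁻¹) ^ 16)) ≤ _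
    calc C * ((i.L ^ 322) ^ j * (i.a x * ((i.L ^ 20)⁻¹) ^ 16))
        ≤ C * (i.L ^ (400 * j) * (C' * (i.L ^ (400 * P.k))⁻¹)) := by
          refine mul_le_mul_of_nonneg_left ?_ hC.le
          refine mul_le_mul e5 e4 ?_ (by positivity)
          exact mul_nonneg h0 (by positivity)
      _ = _ := by rw [div_eq_mul_inv]; ring
  · have e := (cv_zero h i hx).iteratedFDeriv ℝ j |>.self_of_nhds
    rw [e, iteratedFDeriv_fun_zero]
    simp only [Pi.zero_apply, norm_zero]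
    positivity

/-- the new target -/
noncomputable def T11 (P : SPar) (i : P.Idx) (x : X2) : ℝ :=
  inner ℝ (d1 P.S.f0 x) (d1 P.S.f0 x) + P.S.A x ^ 2 * (1 - Prof.kap i.l' (P.S.u x))

lemma tri {X Y R R' T e1 e2 : ℝ} (h1 : |X - (Y + R')| ≤ e1) (h2 : |R' - R| ≤ e2)
    (hT : T = Y + R) : |X - T| ≤ e1 + e2 := by
  have : X - T = (X - (Y + R')) + (R' - R) := by rw [hT]; ring
  rw [this]
  exact (abs_add_le _ _).trans (add_le_add h1 h2)

/-- the error of the stage -/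
noncomputable def er (P : SPar) (i : P.Idx) (C : ℝ) : ℝ :=
  C * (i.L ^ 20)⁻¹ ^ (15 + 192000 * (P.k + 1)) + C * Real.exp (-(14 * i.l')) +
      C * (i.L ^ 4 * (i.L)⁻¹ ^ P.K)

lemma er_ge {P : SPar} (i : P.Idx) {C a b c : ℝ} (ha : a ≤ C) (hb : b ≤ C) (hc : c ≤ C) :
    a * (i.L ^ 20)⁻¹ ^ (15 + 192000 * (P.k + 1)) + b * Real.exp (-(14 * i.l')) +
      c * (i.L ^ 4 * (i.L)⁻¹ ^ P.K) ≤ P.er i C := by
  have hLp := Idx.L_pos i
  have h1 : 0 ≤ (i.L ^ 20)⁻¹ ^ (15 + 192000 * (P.k + 1)) :=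
    pow_nonneg (inv_nonneg.2 (pow_nonneg hLp.le _)) _
  have h2 : 0 ≤ i.L ^ 4 * (i.L)⁻¹ ^ P.K :=
    mul_nonneg (pow_nonneg hLp.le _) (pow_nonneg (inv_nonneg.2 hLp.le) _)
  unfold er
  have e1 := mul_le_mul_of_nonneg_right ha h1
  have e2 := mul_le_mul_of_nonneg_right hb (Real.exp_pos (-(14 * i.l'))).le
  have e3 := mul_le_mul_of_nonneg_right hc h2
  linarith

theorem met (h : P.dat.CutHyp F (fun i => P.th i))
    (hE : P.dat.Err0 (192000 * (P.k + 1)) F) : ∃ C : ℝ, ∀ (i : P.Idx) (x : X2),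
    |(inner ℝ (d1 i.f x + d1 (P.cv F i) x) (d1 i.f x + d1 (P.cv F i) x) : ℝ) - P.T11 i x|
      ≤ P.er i C ∧
    |(inner ℝ (d1 i.f x + d1 (P.cv F i) x) (d2 i.f x + d2 (P.cv F i) x) : ℝ)
      - inner ℝ (d1 P.S.f0 x) (d2 P.S.f0 x)| ≤ P.er i C ∧
    |(inner ℝ (d2 i.f x + d2 (P.cv F i) x) (d2 i.f x + d2 (P.cv F i) x) : ℝ)
      - inner ℝ (d2 P.S.f0 x) (d2 P.S.f0 x)| ≤ P.er i C := by
  obtain ⟨C1, hC1, hone⟩ := h.metric_one hE
  obtain ⟨C2, hC2, hcr⟩ := h.metric_crude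
  obtain ⟨C3, hC3, hd⟩ := cv_d h
  obtain ⟨C4, hC4, hR11⟩ := P.close_R0 (fun i => i.R11) (fun i => i.R11_smooth) P.R11_bd
  obtain ⟨C5, hC5, hR12⟩ := P.close_R0 (fun i => i.R12) (fun i => i.R12_smooth) P.R12_bd
  obtain ⟨C6, hC6, hR22⟩ := P.close_R0 (fun i => i.R22) (fun i => i.R22_smooth) P.R22_bd
  obtain ⟨C7, hC7, hfar⟩ := P.far
  obtain ⟨C8, hC8, htail⟩ := P.a_le_tail
  obtain ⟨C9, hC9, hexp⟩ := P.a_le_exp
  set C : ℝ := C1 + C2 * C8 + C7 + C4 + C5 + C6 + 2 * (C3 * C9) with hC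
  have hp1 : 0 < C2 * C8 := mul_pos hC2 hC8
  have hp2 : 0 < C3 * C9 := mul_pos hC3 hC9
  refine ⟨C, fun i x => ?_⟩
  have hLp := Idx.L_pos i
  have hL1 := Idx.L_one i
  have hS0 : 0 ≤ (i.L)⁻¹ ^ P.K := pow_nonneg (inv_nonneg.2 hLp.le) _
  have hs0 : 0 ≤ i.L ^ 2 * (i.L)⁻¹ ^ P.K := mul_nonneg (pow_nonneg hLp.le _) hS0
  have hs1 : i.L ^ 2 * (i.L)⁻¹ ^ P.K ≤ i.L ^ 4 * (i.L)⁻¹ ^ P.K :=
    mul_le_mul_of_nonneg_right (pow_le_pow_right₀ hL1 (by norm_num)) hS0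
  have h28 : Real.exp (-(28 * i.l')) ≤ Real.exp (-(14 * i.l')) :=
    Real.exp_le_exp.2 (by have := Idx.l'_pos i; linarith)
  by_cases hx : x ∈ i.D
  · have hxW := Idx.D_sub_W i hx
    have hcl := Idx.close_all i hxW
    have hM : ∀ {y : E4}, ‖y‖ ≤ C3 * i.a x → ‖y‖ ≤ C3 * C9 := fun {y} hy => hy.trans
      (mul_le_mul_of_nonneg_left ((hexp i x hxW).trans (mul_le_of_le_one_right hC9.le
        (Real.exp_le_one_iff.2 (by have := Idx.l_pos i; linarith)))) hC3.le)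
    have hV1 := hM (hd i x hx).1
    have hV2 := hM (hd i x hx).2
    have hA1 : ‖d1 i.f x - d1 i.ft x‖ ≤ i.L ^ 2 * (i.L)⁻¹ ^ P.K := by
      rw [norm_sub_rev]; exact hcl.1
    have hA2 : ‖d2 i.f x - d2 i.ft x‖ ≤ i.L ^ 2 * (i.L)⁻¹ ^ P.K := by
      rw [norm_sub_rev]; exact hcl.2.1
    rcases le_or_gt (i.Kc)⁻¹ (2 * i.l' * P.S.u x - 1) with hu | hu
    · -- the cut-off is `1`
      have h1 := hone i 0 x hx (P.th_one i hu)
      rw [cutMap_eq, d1_add' (Idx.ft_sm i) (cv_smooth h i),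
        d2_add' (Idx.ft_sm i) (cv_smooth h i)] at h1
      obtain ⟨m11, m12, m22⟩ := h1
      have eη : P.efam.η i = (i.L ^ 20)⁻¹ := rfl
      rw [eη] at m11 m12 m22
      have m11' : |(inner ℝ (d1 i.ft x + d1 (P.cv F i) x) (d1 i.ft x + d1 (P.cv F i) x) : ℝ)
          - (inner ℝ (d1 i.ft x) (d1 i.ft x) + (i.a x ^ 2 + Smooth.P P.K (i.L ^ 2)⁻¹ i.R11 x))|
          ≤ C1 * (i.L ^ 20)⁻¹ ^ (15 + 192000 * (P.k + 1)) := by
        rw [← add_assoc]; exact m11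
      have r11 := tri (inner_alg_le hV1 hV1 hA1 hA1 hp2.le hs0 m11')
        (R := i.a x ^ 2 + i.R11 x) (e2 := C4 * i.L ^ 4 * (i.L)⁻¹ ^ P.K)
        (by rw [add_sub_add_left_eq_sub]; exact hR11 i x hxW)
        (T := P.T11 i x) (by
          rw [Idx.a_sq]; unfold T11 Idx.R11; ring)
      have r12 := tri (inner_alg_le hV1 hV2 hA1 hA2 hp2.le hs0 m12) (hR12 i x hxW)
        (T := inner ℝ (d1 P.S.f0 x) (d2 P.S.f0 x)) (by unfold Idx.R12; ring)
      have r22 := tri (inner_alg_le hV2 hV2 hA2 hA2 hp2.le hs0 m22) (hR22 i x hxW)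
        (T := inner ℝ (d2 P.S.f0 x) (d2 P.S.f0 x)) (by unfold Idx.R22; ring)
      have key : ∀ c : ℝ, 0 < c → c ≤ C4 + C5 + C6 →
          C1 * (i.L ^ 20)⁻¹ ^ (15 + 192000 * (P.k + 1)) + 2 * (C3 * C9) *
            (i.L ^ 2 * (i.L)⁻¹ ^ P.K) + c * i.L ^ 4 * (i.L)⁻¹ ^ P.K ≤ P.er i C := by
        intro c hc0 hc
        refine le_trans ?_ (er_ge i (C := C) (a := C1) (b := 0) (c := 2 * (C3 * C9) + c)
          (by rw [hC]; linarith) (by rw [hC]; linarith) (by rw [hC]; linarith))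
        have := mul_le_mul_of_nonneg_left hs1 (show 0 ≤ 2 * (C3 * C9) by linarith)
        rw [zero_mul, add_zero, add_mul]
        linarith
      exact ⟨r11.trans (key C4 hC4 (by linarith)), r12.trans (key C5 hC5 (by linarith)),
        r22.trans (key C6 hC6 (by linarith))⟩
    · -- the amplitude is tiny
      obtain ⟨hlt, hA⟩ := hfar i x hu
      have hnear := i.eq_near hlt
      have e1 : d1 i.f x = d1 P.S.f0 x := by unfold d1; rw [hnear.fderiv_eq]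
      have e2 : d2 i.f x = d2 P.S.f0 x := by unfold d2; rw [hnear.fderiv_eq]
      have hta := htail i x hxW hu.le
      have h1 := hcr i 0 x hx
      rw [cutMap_eq, d1_add' (Idx.ft_sm i) (cv_smooth h i),
        d2_add' (Idx.ft_sm i) (cv_smooth h i)] at h1
      obtain ⟨m11, m12, m22⟩ := h1
      have hb : C2 * i.a x ≤ C2 * C8 * Real.exp (-(14 * i.l')) := by
        rw [mul_assoc]; exact mul_le_mul_of_nonneg_left hta hC2.le
      have conv : ∀ {p q : ℝ}, |p - q| ≤ C2 * i.a x →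
          |p - (q + 0)| ≤ C2 * C8 * Real.exp (-(14 * i.l')) := fun {p q} hpq => by
        rw [add_zero]; exact hpq.trans hb
      have r11 := tri (inner_alg_le hV1 hV1 hA1 hA1 hp2.le hs0 (conv m11))
        (R := P.S.A x ^ 2 * (1 - Prof.kap i.l' (P.S.u x))) (e2 := C7 * Real.exp (-(28 * i.l')))
        (by rw [zero_sub, abs_neg]; exact hA) (T := P.T11 i x) (by rw [e1]; rfl)
      have r12 := tri (inner_alg_le hV1 hV2 hA1 hA2 hp2.le hs0 (conv m12))
        (R := 0) (e2 := 0) (by simp) (T := inner ℝ (d1 P.S.f0 x) (d2 P.S.f0 x))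
        (by rw [e1, e2, add_zero])
      have r22 := tri (inner_alg_le hV2 hV2 hA2 hA2 hp2.le hs0 (conv m22))
        (R := 0) (e2 := 0) (by simp) (T := inner ℝ (d2 P.S.f0 x) (d2 P.S.f0 x))
        (by rw [e2, add_zero])
      have h28' : C7 * Real.exp (-(28 * i.l')) ≤ C7 * Real.exp (-(14 * i.l')) :=
        mul_le_mul_of_nonneg_left h28 hC7.le
      have key : ∀ c : ℝ, c ≤ C7 * Real.exp (-(14 * i.l')) →
          C2 * C8 * Real.exp (-(14 * i.l')) + 2 * (C3 * C9) *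
            (i.L ^ 2 * (i.L)⁻¹ ^ P.K) + c ≤ P.er i C := by
        intro c hc
        refine le_trans ?_ (er_ge i (C := C) (a := 0) (b := C2 * C8 + C7) (c := 2 * (C3 * C9))
          (by rw [hC]; linarith) (by rw [hC]; linarith) (by rw [hC]; linarith))
        have := mul_le_mul_of_nonneg_left hs1 (show 0 ≤ 2 * (C3 * C9) by linarith)
        rw [zero_mul, zero_add, add_mul]
        linarith
      have h70 : (0:ℝ) ≤ C7 * Real.exp (-(14 * i.l')) := by positivity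
      exact ⟨r11.trans (key _ h28'), r12.trans (key 0 h70), r22.trans (key 0 h70)⟩
  · -- off the domain
    have hu : 2 * i.l' * P.S.u x - 1 < (i.Kc)⁻¹ := by
      have h1 : 2 * i.l' * P.S.u x - 1 ≤ (2 * i.Kc)⁻¹ := not_lt.1 hx
      have h2 := Idx.Kc_pos i
      refine h1.trans_lt ?_
      apply inv_strictAnti₀ h2; linarith
    obtain ⟨hlt, hA⟩ := hfar i x hu
    have hnear := i.eq_near hlt
    have e1 : d1 i.f x = d1 P.S.f0 x := by unfold d1; rw [hnear.fderiv_eq]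
    have e2 : d2 i.f x = d2 P.S.f0 x := by unfold d2; rw [hnear.fderiv_eq]
    have hz := cv_zero h i hx
    have z1 : d1 (P.cv F i) x = 0 := by unfold d1; rw [hz.fderiv_eq]; simp
    have z2 : d2 (P.cv F i) x = 0 := by unfold d2; rw [hz.fderiv_eq]; simp
    rw [z1, z2, add_zero, add_zero, e1, e2, sub_self, sub_self, abs_zero]
    have hC0 : 0 ≤ C := by rw [hC]; positivity
    have h0 : 0 ≤ P.er i C := by
      have := er_ge i (C := C) hC0 hC0 hC0
      simpa using this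
    refine ⟨?_, h0, h0⟩
    have : (inner ℝ (d1 P.S.f0 x) (d1 P.S.f0 x) : ℝ) - P.T11 i x =
      -(P.S.A x ^ 2 * (1 - Prof.kap i.l' (P.S.u x))) := by unfold T11; ring
    rw [this, abs_neg]
    refine hA.trans ?_
    refine le_trans ?_ (er_ge i (C := C) (a := 0) (b := C7) (c := 0)
          hC0 (by rw [hC]; linarith) hC0)
    rw [zero_mul, zero_mul, zero_add, add_zero]
    exact mul_le_mul_of_nonneg_left h28 hC7.le

end main

/-- one stage -/
theorem stage (P : SPar) (hL1 : P.Large1) (hlow : P.Low) (hK : P.K = 3840000 * (P.k + 1) + 6) :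
    ∃ T : ℝ, ∃ C : ℕ → ℝ, ∀ L : ℝ, T ≤ L → ∀ f : X2 → E4, ContDiff ℝ ∞ f →
      GC P.c0 P.B0 P.S.N P.S.W f → StC 400 12 P.S.f0 P.S.u P.S.A P.k L f →
      (∀ j, 1 ≤ j → j ≤ P.K + 4 → ∀ x ∈ P.S.N, ‖iteratedFDeriv ℝ j f x‖ ≤ L ^ j) →
      ∀ k', (k' = P.k ∨ k' = P.k + 1) → ∃ v : X2 → E4, ContDiff ℝ ∞ v ∧
        (∀ x, x ∉ {x | 0 < P.S.u x} → v x = 0) ∧
        (∀ j x, ‖iteratedFDeriv ℝ j v x‖ ≤ C j * L ^ (400 * j) / L ^ (400 * P.k)) ∧
        StC 400 12 P.S.f0 P.S.u P.S.A k' (L ^ (2 * 400)) (f + v) := by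
  obtain ⟨F, hG, hE⟩ := EData.engine (P.hyp hL1 hlow) (192000 * (P.k + 1))
  have h := P.cutHyp hL1 hlow hG
  choose C hC hCb using fun j => cv_iter h j
  obtain ⟨C0, hm⟩ := met h hE
  obtain ⟨T1, hb⟩ := P.budget C0
  refine ⟨max P.T T1, C, fun L hL f hf hG st bd k' hk' => ?_⟩
  obtain ⟨i, hiL, hif, hik⟩ : ∃ i : P.Idx, i.L = L ∧ i.f = f ∧ i.k' = k' :=
    ⟨⟨L, (le_max_left _ _).trans hL, k', hk', f, hf, hG, st, bd⟩, rfl, rfl, rfl⟩
  subst hiL hif hik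
  have hbud : P.er i C0 ≤ Real.exp (-(12 * i.l')) := by
    unfold er; rw [hK]; exact hb i ((le_max_right _ _).trans hL)
  have hlam : lam 400 i.k' (i.L ^ (2 * 400)) = i.l' := rfl
  have hlam0 : lam 400 P.k i.L = i.l := rfl
  have e1 : ∀ x, d1 (i.f + P.cv F i) x = d1 i.f x + d1 (P.cv F i) x := fun x =>
    d1_add' i.hf (cv_smooth h i) x
  have e2 : ∀ x, d2 (i.f + P.cv F i) x = d2 i.f x + d2 (P.cv F i) x := fun x =>
    d2_add' i.hf (cv_smooth h i) x
  refine ⟨P.cv F i, cv_smooth h i, fun x hx => cv_zero' h i (fun hD => hx (Idx.u_pos_of_D i hD)),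
    fun j x => hCb j i x, ?_, ?_, ?_, ?_⟩
  · intro x hx
    rw [hlam] at hx
    have hv : P.cv F i x = 0 := cv_zero' h i (fun hD => by
      have := Idx.one_lt_of_D i hD; linarith)
    have hf0 : i.f x = P.S.f0 x := by
      apply i.st.eq0
      show 2 * i.l * P.S.u x ≤ 1
      have h1 := Idx.l'_ge_l i
      have h2 := Idx.l_pos i
      rcases le_or_gt (P.S.u x) 0 with hu | hu
      · have : i.l * P.S.u x ≤ 0 := mul_nonpos_of_nonneg_of_nonpos h2.le hu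
        linarith
      · have : i.l * P.S.u x ≤ i.l' * P.S.u x := mul_le_mul_of_nonneg_right (by linarith) hu.le
        linarith
    rw [Pi.add_apply, hv, add_zero, hf0]
  · intro x
    rw [hlam, e1]
    exact ((hm i x).1.trans hbud)
  · intro x
    rw [hlam, e1, e2]
    exact ((hm i x).2.1.trans hbud)
  · intro x
    rw [hlam, e2]
    exact ((hm i x).2.2.trans hbud)

end SPar

/-- **STAGE** -/
theorem stageThm : StageThm 400 12 3 (fun k => 3840000 * (k + 1) + 10) := by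
  intro f₀ u β hf₀ hA N hN hsub c B hc k hk
  obtain ⟨P, hS, hc0, hB0, hPk, hPK, hL1, hlow⟩ := exists_SPar'
    (S := (⟨f₀, u, β, N, hf₀, hA, hN, hsub⟩ : SData)) hc (B0 := max B 1)
    (lt_of_lt_of_le one_pos (le_max_right _ _)) (k := k) (by omega)
    (K := 3840000 * (k + 1) + 6) (by omega)
  obtain ⟨T, C, hst⟩ := P.stage hL1 (by unfold SPar.Low; rw [hc0]; exact hlow)
    (by rw [hPK, hPk])
  rw [hS, hc0, hB0, hPk, hPK] at hst
  refine ⟨T, C, fun L hL f hf hG hstate hbd k' hk' => ?_⟩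
  refine hst L hL f hf ⟨fun x hx => ?_, hG.2⟩ hstate (fun j h1 h2 => hbd j h1 (by omega)) k' hk'
  obtain ⟨b1, b2, b3, b4⟩ := hG.1 x hx
  exact ⟨b1.trans (le_max_left _ _), b2.trans (le_max_left _ _), b3.trans (le_max_left _ _),
    b4.trans (le_max_left _ _)⟩

end Crest.Agent.R216.TE
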