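import Crest.Agent.R216.Conv

/-!
# Row 216, Theorem E, module STAGE, part S2: planar calculus and Leibniz bounds. (helper150)

* `SLin.d1_add`, `d1_smul`, ... : `d1`, `d2` of sums and products;
* `SLin.norm_iter_inner_d11`, `_d12`, `_d22` : derivatives of the induced metric.
-/

set_option linter.unusedSectionVars false

open Set Topology MeasureTheory Metric
open scoped ContDiff

namespace Crest.Agent.R216.TE

namespace SLin

variable {V : Type*} [NormedAddCommGroup V] [NormedSpace ℝ V]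

lemma d1_add {f g : X2 → V} {x : X2} (hf : DifferentiableAt ℝ f x) (hg : DifferentiableAt ℝ g x) :
    d1 (fun y => f y + g y) x = d1 f x + d1 g x := by
  unfold d1; rw [fderiv_fun_add hf hg]; rfl

lemma d2_add {f g : X2 → V} {x : X2} (hf : DifferentiableAt ℝ f x) (hg : DifferentiableAt ℝ g x) :
    d2 (fun y => f y + g y) x = d2 f x + d2 g x := by
  unfold d2; rw [fderiv_fun_add hf hg]; rfl

lemma d1_sub {f g : X2 → V} {x : X2} (hf : DifferentiableAt ℝ f x) (hg : DifferentiableAt ℝ g x) :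
    d1 (fun y => f y - g y) x = d1 f x - d1 g x := by
  unfold d1; rw [fderiv_fun_sub hf hg]; rfl

lemma d2_sub {f g : X2 → V} {x : X2} (hf : DifferentiableAt ℝ f x) (hg : DifferentiableAt ℝ g x) :
    d2 (fun y => f y - g y) x = d2 f x - d2 g x := by
  unfold d2; rw [fderiv_fun_sub hf hg]; rfl

lemma d1_smul {θ : X2 → ℝ} {w : X2 → V} {x : X2} (hθ : DifferentiableAt ℝ θ x)
    (hw : DifferentiableAt ℝ w x) :
    d1 (fun y => θ y • w y) x = d1 θ x • w x + θ x • d1 w x := by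
  unfold d1; rw [fderiv_fun_smul hθ hw]; simp [add_comm]

lemma d2_smul {θ : X2 → ℝ} {w : X2 → V} {x : X2} (hθ : DifferentiableAt ℝ θ x)
    (hw : DifferentiableAt ℝ w x) :
    d2 (fun y => θ y • w y) x = d2 θ x • w x + θ x • d2 w x := by
  unfold d2; rw [fderiv_fun_smul hθ hw]; simp [add_comm]

lemma norm_e1 : ‖((1, 0) : X2)‖ ≤ 1 := by simp [Prod.norm_def]
lemma norm_e2 : ‖((0, 1) : X2)‖ ≤ 1 := by simp [Prod.norm_def]

/-- Leibniz bound for `⟨∂_v f, ∂_w g⟩`. -/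
theorem norm_iter_inner_fderiv (j : ℕ) {f g : X2 → E4} {L : ℝ} {x : X2} {v w : X2}
    (hv : ‖v‖ ≤ 1) (hw : ‖w‖ ≤ 1)
    (hf : ContDiffAt ℝ ∞ f x) (hg : ContDiffAt ℝ ∞ g x)
    (hL : 0 ≤ L)
    (h1 : ∀ i : ℕ, 1 ≤ i → i ≤ j+1 → ‖iteratedFDeriv ℝ i f x‖ ≤ L^i)
    (h2 : ∀ i : ℕ, 1 ≤ i → i ≤ j+1 → ‖iteratedFDeriv ℝ i g x‖ ≤ L^i) :
    ‖iteratedFDeriv ℝ j (fun y => (inner ℝ (fderiv ℝ f y v) (fderiv ℝ g y w) : ℝ)) x‖
      ≤ 2 ^ j * L^(j+2) := by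
  have e1 : ContDiffAt ℝ ∞ (fun y => fderiv ℝ f y v) x :=
    (hf.fderiv_right (m := ∞) (by simp)).clm_apply contDiffAt_const
  have e2 : ContDiffAt ℝ ∞ (fun y => fderiv ℝ g y w) x :=
    (hg.fderiv_right (m := ∞) (by simp)).clm_apply contDiffAt_const
  have hle : ((j : ℕ) : WithTop ℕ∞) ≤ ∞ := by exact_mod_cast le_top
  obtain ⟨u, hu, hu1, hu2⟩ : ∃ u ∈ 𝓝 x, ContDiffOn ℝ j (fun y => fderiv ℝ f y v) u ∧
      ContDiffOn ℝ j (fun y => fderiv ℝ g y w) u := by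
    obtain ⟨u, hu, hu1⟩ := e1.contDiffOn (m := j) hle (by simp)
    obtain ⟨u', hu', hu2⟩ := e2.contDiffOn (m := j) hle (by simp)
    refine ⟨u ∩ u', Filter.inter_mem (by simpa using hu) (by simpa using hu'),
      hu1.mono inter_subset_left, hu2.mono inter_subset_right⟩
  obtain ⟨s, hs1, hs2, hs3⟩ := _root_.mem_nhds_iff.1 hu
  have key := ContinuousLinearMap.norm_iteratedFDerivWithin_le_of_bilinear_of_le_one
    (innerSL ℝ : E4 →L[ℝ] E4 →L[ℝ] ℝ) (hu1.mono hs1) (hu2.mono hs1) hs2.uniqueDiffOn hs3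
    (n := j) le_rfl (norm_innerSL_le ℝ)
  rw [iteratedFDerivWithin_of_isOpen j hs2 hs3] at key
  refine key.trans ?_
  calc ∑ i ∈ Finset.range (j + 1), (j.choose i : ℝ) *
        ‖iteratedFDerivWithin ℝ i (fun y => fderiv ℝ f y v) s x‖ *
        ‖iteratedFDerivWithin ℝ (j - i) (fun y => fderiv ℝ g y w) s x‖
      ≤ ∑ i ∈ Finset.range (j + 1), (j.choose i : ℝ) * L^(j+2) := by
        refine Finset.sum_le_sum fun i hi => ?_
        have hi' : i ≤ j := by simpa [Nat.lt_succ_iff] using hi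
        rw [iteratedFDerivWithin_of_isOpen i hs2 hs3, iteratedFDerivWithin_of_isOpen (j-i) hs2 hs3,
          mul_assoc]
        refine mul_le_mul_of_nonneg_left ?_ (Nat.cast_nonneg _)
        have a1 := norm_iter_fderiv_apply hf i v
        have a2 := norm_iter_fderiv_apply hg (j - i) w
        have b1 : ‖iteratedFDeriv ℝ i (fun y => fderiv ℝ f y v) x‖ ≤ L^(i+1) :=
          a1.trans ((mul_le_mul hv (h1 (i+1) (by omega) (by omega)) (norm_nonneg _)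
            zero_le_one).trans_eq (one_mul _))
        have b2 : ‖iteratedFDeriv ℝ (j-i) (fun y => fderiv ℝ g y w) x‖ ≤ L^(j-i+1) :=
          a2.trans ((mul_le_mul hw (h2 (j-i+1) (by omega) (by omega)) (norm_nonneg _)
            zero_le_one).trans_eq (one_mul _))
        refine (mul_le_mul b1 b2 (norm_nonneg _) (by positivity)).trans_eq ?_
        rw [← pow_add]; congr 1; omega
    _ = 2 ^ j * L^(j+2) := by
        rw [← Finset.sum_mul]
        congr 1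
        have := Nat.sum_range_choose j
        exact_mod_cast this

theorem norm_iter_inner_d11 (j : ℕ) {f : X2 → E4} {L : ℝ} {x : X2} (hf : ContDiffAt ℝ ∞ f x)
    (hL : 0 ≤ L) (h : ∀ i : ℕ, 1 ≤ i → i ≤ j+1 → ‖iteratedFDeriv ℝ i f x‖ ≤ L^i) :
    ‖iteratedFDeriv ℝ j (fun y => (inner ℝ (d1 f y) (d1 f y) : ℝ)) x‖ ≤ 2 ^ j * L^(j+2) :=
  norm_iter_inner_fderiv j norm_e1 norm_e1 hf hf hL h h

theorem norm_iter_inner_d12 (j : ℕ) {f : X2 → E4} {L : ℝ} {x : X2} (hf : ContDiffAt ℝ ∞ f x)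
    (hL : 0 ≤ L) (h : ∀ i : ℕ, 1 ≤ i → i ≤ j+1 → ‖iteratedFDeriv ℝ i f x‖ ≤ L^i) :
    ‖iteratedFDeriv ℝ j (fun y => (inner ℝ (d1 f y) (d2 f y) : ℝ)) x‖ ≤ 2 ^ j * L^(j+2) :=
  norm_iter_inner_fderiv j norm_e1 norm_e2 hf hf hL h h

theorem norm_iter_inner_d22 (j : ℕ) {f : X2 → E4} {L : ℝ} {x : X2} (hf : ContDiffAt ℝ ∞ f x)
    (hL : 0 ≤ L) (h : ∀ i : ℕ, 1 ≤ i → i ≤ j+1 → ‖iteratedFDeriv ℝ i f x‖ ≤ L^i) :
    ‖iteratedFDeriv ℝ j (fun y => (inner ℝ (d2 f y) (d2 f y) : ℝ)) x‖ ≤ 2 ^ j * L^(j+2) :=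
  norm_iter_inner_fderiv j norm_e2 norm_e2 hf hf hL h h

/-- form requested by STAGE (all three at once). -/
theorem norm_iter_inner_d (j : ℕ) : ∃ C, 0 < C ∧ ∀ (f : X2 → E4) (L : ℝ) (x : X2), 1 ≤ L →
    ContDiff ℝ ∞ f → (∀ i : ℕ, 1 ≤ i → i ≤ j+1 → ‖iteratedFDeriv ℝ i f x‖ ≤ L^i) →
    ‖iteratedFDeriv ℝ j (fun y => (inner ℝ (d1 f y) (d1 f y) : ℝ)) x‖ ≤ C * L^(j+2) ∧
    ‖iteratedFDeriv ℝ j (fun y => (inner ℝ (d1 f y) (d2 f y) : ℝ)) x‖ ≤ C * L^(j+2) ∧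
    ‖iteratedFDeriv ℝ j (fun y => (inner ℝ (d2 f y) (d2 f y) : ℝ)) x‖ ≤ C * L^(j+2) :=
  ⟨2 ^ j, by positivity, fun _ _ _ hL hf h =>
    ⟨norm_iter_inner_d11 j hf.contDiffAt (by linarith) h,
      norm_iter_inner_d12 j hf.contDiffAt (by linarith) h,
      norm_iter_inner_d22 j hf.contDiffAt (by linarith) h⟩⟩

end SLin

end Crest.Agent.R216.TE
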